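import Vale.Agent.P006.CAlg

/-! C4: the property `SI`.
Plans.  `SI.cv`: `cv ω h (g v) = ∑_{g₁ ∈ pdiv g} ∑_{o ∈ pdiv v} ω (g₁ o) h ((g/g₁)(v/o))` for `g v ∈ Sq` (`sum_pdiv_mul`), `sum_cv`-type rearrangement `v = o w`, coprimality of `w` with `g₁ o`
goes into `k (g₁ o)^3`, window `(u₁/N(g₁ o), u₂/N(g₁ o)]`; total `tau g · X^ε · X^{-η} u₂^{3/4} ∑ 1/N o` (`sum_inv_nm_le`, `ev_tau`, `ev_log`). -/

namespace Vale.Agent.P006

open Vale.Agent.P026 Filter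
open scoped ComplexConjugate Real

theorem not_cube_mul {k m : O} (hm : m ≠ 0) (h : ¬Cube k) : ¬Cube (k * m ^ 3) := by
  rintro ⟨c, hc⟩
  obtain ⟨d, rfl⟩ : m ∣ c :=
    (IsIntegrallyClosed.pow_dvd_pow_iff three_ne_zero).1 (hc ▸ dvd_mul_left _ _)
  refine h ⟨d, mul_right_cancel₀ (pow_ne_zero 3 hm) ?_⟩
  rw [hc]
  ring

theorem csi_nm_le {g : O} (hg : g ≠ 0) (v : O) : (nm v : ℝ) ≤ nm (g * v) := by
  rw [nm_mul, Nat.cast_mul]
  exact le_mul_of_one_le_left (Nat.cast_nonneg _) (one_le_nm hg)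

theorem csi_win_zero {u₁ u₂ : ℝ} {n : O} (h : u₂ < nm n) : win u₁ u₂ n = 0 :=
  ind_of_not fun h' => absurd h'.2 (not_le.2 h)

theorem csi_ind_congr {p q : Prop} (h : p ↔ q) : ind p = ind q := by rw [propext h]

/-- the range of summation may be enlarged -/
theorem csi_ext {g : O} (hg : g ≠ 0) {u₁ u₂ Z : ℝ} (hZ : u₂ ≤ Z) (F G G' : O → ℂ) :
    ∑ v ∈ qball Z, F v * win u₁ u₂ (g * v) * G v * G' v =
      ∑ v ∈ qball u₂, F v * win u₁ u₂ (g * v) * G v * G' v := by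
  refine (Finset.sum_subset (qball_mono hZ) fun v hv hv' => ?_).symm
  have h1 : u₂ < nm v := not_le.1 fun h => hv' (mem_qball.2 ⟨(mem_qball.1 hv).1, h⟩)
  rw [csi_win_zero (h1.trans_le (csi_nm_le hg v)), mul_zero, zero_mul, zero_mul]

theorem SI.mono {X A A' γ γ' η η' : ℝ} {h : O → ℂ} (hX : 1 ≤ X) (H : SI X A γ η h) (hA : A' ≤ A)
    (hγ : γ' ≤ γ) (hη : η' ≤ η) : SI X A' γ' η' h := by
  intro g k t u₁ u₂ hg hg' hk hk' hc ht h0 h1
  refine (H g k t u₁ u₂ hg (hg'.trans (Real.rpow_le_rpow_of_exponent_le hX hγ)) hk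
    (hk'.trans (Real.rpow_le_rpow_of_exponent_le hX hA)) hc ht h0 h1).trans ?_
  exact mul_le_mul_of_nonneg_right (Real.rpow_le_rpow_of_exponent_le hX (neg_le_neg hη))
    (by positivity)

theorem SI.congr {X A γ η : ℝ} {h h' : O → ℂ} (H : SI X A γ η h) (e : EqX X h h') :
    SI X A γ η h' := by
  intro g k t u₁ u₂ hg hg' hk hk' hc ht h0 h1
  refine le_of_eq_of_le (congrArg norm (Finset.sum_congr rfl fun v _ => ?_))
    (H g k t u₁ u₂ hg hg' hk hk' hc ht h0 h1)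
  by_cases hs : Sq (g * v)
  · by_cases hw : (nm (g * v) : ℝ) ≤ u₂
    · rw [e _ hs (hw.trans h1)]
    · rw [csi_win_zero (not_le.1 hw), mul_zero, mul_zero]
  · simp only [ind_of_not hs, zero_mul]

theorem SI.rw' {X A γ η : ℝ} {h : O → ℂ} (H : SI X A γ η h) (a b : ℝ) :
    SI X A γ η (rw' h a b) := by
  intro g k t u₁ u₂ hg hg' hk hk' hc ht h0 h1
  have hle : max 0 (min b u₂) ≤ u₂ := max_le h0 (min_le_right _ _)
  have h2 := H g k t (max a u₁) (max 0 (min b u₂)) hg hg' hk hk' hc ht (le_max_left _ _)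
    (hle.trans h1)
  rw [← csi_ext hg.ne_zero hle] at h2
  refine le_of_eq_of_le (congrArg norm (Finset.sum_congr rfl fun v hv => ?_)) (h2.trans ?_)
  · have h3 : (1 : ℝ) ≤ nm (g * v) := one_le_nm (mul_ne_zero hg.ne_zero (mem_qball.1 hv).1.ne_zero)
    have h4 : win a b (g * v) * win u₁ u₂ (g * v) =
        win (max a u₁) (max 0 (min b u₂)) (g * v) := by
      rw [win, win, win, ← ind_and]
      refine csi_ind_congr ?_
      rw [max_lt_iff, le_max_iff, le_min_iff]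
      constructor
      · rintro ⟨⟨a1, a2⟩, a3, a4⟩
        exact ⟨⟨a1, a3⟩, Or.inr ⟨a2, a4⟩⟩
      · rintro ⟨⟨a1, a3⟩, a | ⟨a2, a4⟩⟩
        · linarith
        · exact ⟨⟨a1, a2⟩, a3, a4⟩
    rw [P006.rw', ← h4]
    ring
  · exact mul_le_mul_of_nonneg_left
      (Real.rpow_le_rpow (le_max_left _ _) hle (by norm_num)) (Real.rpow_nonneg (h0.trans h1) _)

theorem SI.add {η ε : ℝ} (hε : 0 < ε) : ∀ᶠ X : ℝ in atTop, ∀ (A γ : ℝ) (h h' : O → ℂ),
    SI X A γ η h → SI X A γ η h' → SI X A γ (η - ε) fun n => h n + h' n := by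
  filter_upwards [ev_const 2 hε, eventually_gt_atTop (0 : ℝ)] with X h2 hX A γ h h' H H'
  intro g k t u₁ u₂ hg hg' hk hk' hc ht h0 h1
  have a1 := H g k t u₁ u₂ hg hg' hk hk' hc ht h0 h1
  have a2 := H' g k t u₁ u₂ hg hg' hk hk' hc ht h0 h1
  simp only [mul_add, add_mul, Finset.sum_add_distrib] at a1 a2 ⊢
  refine (norm_add_le _ _).trans ((add_le_add a1 a2).trans ?_)
  rw [neg_sub, sub_eq_add_neg, Real.rpow_add hX, mul_assoc, ← two_mul]
  exact mul_le_mul_of_nonneg_right h2 (by positivity)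

/-- splitting the convolution along `g * v` -/
theorem csi_split {g v : O} (hg : Sq g) (hv : Sq v) (ω h : O → ℂ) :
    ind (Sq (g * v)) * cv ω h (g * v) = ∑ g₁ ∈ pdiv g,
      cv (fun o => ω (g₁ * o)) (fun w => h (g / g₁ * w)) v * ind (Sq (g * v)) := by
  by_cases hs : Sq (g * v)
  · rw [cv, ind_of hs, one_mul, one_mul, sum_pdiv_mul hg.1 hv.1 hs.coprime]
    refine Finset.sum_congr rfl fun g₁ h₁ => ?_
    rw [cv, ind_of hv, one_mul, mul_one]
    refine Finset.sum_congr rfl fun o ho => ?_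
    obtain ⟨a1, -, a2⟩ := hg.div h₁
    obtain ⟨b1, -, b2⟩ := hv.div ho
    have e : g * v = g₁ * o * (g / g₁ * (v / o)) := by
      conv_lhs => rw [← a2, ← b2]
      ring
    rw [e, mul_div_cancel_left₀ _ (mul_ne_zero a1.ne_zero b1.ne_zero)]
  · simp only [ind_of_not hs, zero_mul, mul_zero, Finset.sum_const_zero]

theorem csi_term {g₁ g₂ o w : O} (k : O) (hg₁ : Sq g₁) (hg₂ : Sq g₂) (ho : Sq o) (hw : Sq w)
    (u₁ u₂ : ℝ) (z : ℂ) (a b : ℂ) :
    ind (Sq (o * w) ∧ (nm (o * w) : ℝ) ≤ u₂) * (a * b * (ind (Sq (g₁ * g₂ * (o * w))) *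
        win u₁ u₂ (g₁ * g₂ * (o * w)) * cub k (o * w) * np (o * w) z)) =
      ind (Sq (g₁ * g₂ * o)) * a * cub k o * np o z * (ind (Sq (g₂ * w)) * b *
        win (u₁ / nm (g₁ * o)) (u₂ / nm (g₁ * o)) (g₂ * w) * cub (k * (g₁ * o) ^ 3) w * np w z) := by
  have h0 : (0 : ℝ) < nm (g₁ * o) := by
    exact_mod_cast nm_pos (mul_ne_zero hg₁.ne_zero ho.ne_zero)
  have e0 : g₁ * g₂ * (o * w) = g₁ * o * (g₂ * w) := by ring
  have e1 : win (u₁ / nm (g₁ * o)) (u₂ / nm (g₁ * o)) (g₂ * w) = win u₁ u₂ (g₁ * g₂ * (o * w)) := by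
    refine csi_ind_congr ?_
    rw [div_lt_iff₀' h0, le_div_iff₀' h0, e0, nm_mul (g₁ * o), Nat.cast_mul (nm (g₁ * o))]
  rw [e1, cub_mul_left, cub_pow_left, cub_mul_right ho.ne_zero hw.ne_zero,
    np_mul ho.ne_zero hw.ne_zero]
  by_cases hs : Sq (g₁ * g₂ * (o * w))
  · have s1 : Sq (o * w) := hs.of_dvd (ho.1.mul hw.1) (dvd_mul_left _ _)
    have s2 : Sq (g₁ * g₂ * o) := hs.of_dvd ((hg₁.1.mul hg₂.1).mul ho.1) ⟨w, by ring⟩
    have s3 : Sq (g₂ * w) := hs.of_dvd (hg₂.1.mul hw.1) ⟨g₁ * o, by ring⟩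
    have s4 : IsCoprime (g₁ * o) w := (e0 ▸ hs).coprime.of_mul_right_right
    rw [ind_of hs, ind_of s2, ind_of s3, cub_cube s4]
    by_cases hn : (nm (o * w) : ℝ) ≤ u₂
    · rw [ind_of ⟨s1, hn⟩]
      ring
    · rw [csi_win_zero ((not_le.1 hn).trans_le
        (csi_nm_le (mul_ne_zero hg₁.ne_zero hg₂.ne_zero) _))]
      ring
  · rw [ind_of_not hs]
    by_cases s2 : Sq (g₁ * g₂ * o)
    · by_cases s3 : Sq (g₂ * w)
      · have s4 : ¬IsCoprime (g₁ * o) w := by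
          intro hc
          refine hs ?_
          have c1 : IsCoprime g₂ w := s3.coprime
          have c2 : IsCoprime (g₁ * g₂ * o) w := by
            rw [mul_right_comm]
            exact hc.mul_left c1
          rw [← mul_assoc]
          exact s2.mul hw c2
        rw [cub_eq_zero hw.1.not_lam_dvd s4]
        ring
      · rw [ind_of_not s3]
        ring
    · rw [ind_of_not s2]
      ring

/-- the bound for the inner sum -/
theorem csi_inner {X A γ η M : ℝ} {h : O → ℂ} (hX : 1 ≤ X) (H : SI X (A + 3) γ η h)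
    {g₁ g₂ o k : O} {t u₁ u₂ : ℝ} (hg₁ : Sq g₁) (hg₂ : Sq g₂) (ho : Sq o)
    (hg : (nm g₂ : ℝ) ≤ X ^ γ) (hk : k ≠ 0) (hk' : (nm k : ℝ) ≤ X ^ A) (hc : ¬Cube k)
    (ht : |t| ≤ X) (h0 : 0 ≤ u₂) (h1 : u₂ ≤ X) {a : ℂ} (ha : ‖a‖ ≤ M) :
    ‖ind (Sq (g₁ * g₂ * o)) * a * cub k o * np o (-1 / 4 + Complex.I * t) *
      ∑ w ∈ qball u₂, ind (Sq (g₂ * w)) * h (g₂ * w) *
        win (u₁ / nm (g₁ * o)) (u₂ / nm (g₁ * o)) (g₂ * w) * cub (k * (g₁ * o) ^ 3) w *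
          np w (-1 / 4 + Complex.I * t)‖ ≤
      M * (X ^ (-η) * u₂ ^ (3 / 4 : ℝ)) * (nm o : ℝ)⁻¹ := by
  have hX0 : 0 < X := by linarith
  have hM : 0 ≤ M := (norm_nonneg _).trans ha
  have hn0 : g₁ * o ≠ 0 := mul_ne_zero hg₁.ne_zero ho.ne_zero
  have hN : (1 : ℝ) ≤ nm (g₁ * o) := one_le_nm hn0
  have hO : (1 : ℝ) ≤ nm o := ho.one_le
  by_cases hu : (nm (g₁ * o) : ℝ) ≤ u₂
  · have hle : u₂ / nm (g₁ * o) ≤ u₂ := div_le_self h0 hN
    have hk2 : (nm (k * (g₁ * o) ^ 3) : ℝ) ≤ X ^ (A + 3) := by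
      rw [nm_mul, nm_pow, Nat.cast_mul, Nat.cast_pow, Real.rpow_add hX0,
        show X ^ (3 : ℝ) = X ^ 3 by exact_mod_cast Real.rpow_natCast X 3]
      exact mul_le_mul hk' (pow_le_pow_left₀ (by linarith) (hu.trans h1) 3) (by positivity)
        (by positivity)
    have a1 := H g₂ (k * (g₁ * o) ^ 3) t (u₁ / nm (g₁ * o)) (u₂ / nm (g₁ * o)) hg₂ hg
      (mul_ne_zero hk (pow_ne_zero _ hn0)) hk2 (not_cube_mul hn0 hc) ht (by positivity)
      (hle.trans h1)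
    rw [← csi_ext hg₂.ne_zero hle] at a1
    have a2 : ‖ind (Sq (g₁ * g₂ * o)) * a * cub k o * np o (-1 / 4 + Complex.I * t)‖ ≤
        M * (nm o : ℝ) ^ (-1 / 4 : ℝ) := by
      have e : (-1 / 4 + Complex.I * t : ℂ).re = -1 / 4 := by simp
      rw [norm_mul, norm_mul, norm_mul, norm_np ho.ne_zero, e]
      refine mul_le_mul_of_nonneg_right ?_ (by positivity)
      refine (mul_le_of_le_one_right (by positivity) (norm_cub_le _ _)).trans ?_
      exact (mul_le_of_le_one_left (norm_nonneg _) (norm_ind_le _)).trans ha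
    have a3 : (u₂ / nm (g₁ * o)) ^ (3 / 4 : ℝ) ≤ u₂ ^ (3 / 4 : ℝ) * (nm o : ℝ) ^ (-3 / 4 : ℝ) := by
      refine (Real.rpow_le_rpow (by positivity) (div_le_div_of_nonneg_left h0 (by linarith)
        (csi_nm_le hg₁.ne_zero o)) (by norm_num)).trans (le_of_eq ?_)
      rw [Real.div_rpow h0 (by linarith), neg_div, Real.rpow_neg (by linarith), div_eq_mul_inv]
    have a4 : (nm o : ℝ) ^ (-1 / 4 : ℝ) * (nm o : ℝ) ^ (-3 / 4 : ℝ) = (nm o : ℝ)⁻¹ := by
      rw [← Real.rpow_add (by linarith), ← Real.rpow_neg_one]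
      norm_num
    rw [norm_mul]
    refine (mul_le_mul a2 (a1.trans (mul_le_mul_of_nonneg_left a3 (by positivity)))
      (norm_nonneg _) (by positivity)).trans (le_of_eq ?_)
    rw [← a4]
    ring
  · rw [Finset.sum_eq_zero, mul_zero, norm_zero]
    · positivity
    intro w hw
    have a1 : u₂ / nm (g₁ * o) < 1 := (div_lt_one (by linarith)).2 (not_le.1 hu)
    rw [csi_win_zero (a1.trans_le (one_le_nm (mul_ne_zero hg₂.ne_zero
      (mem_qball.1 hw).1.ne_zero))), mul_zero, zero_mul, zero_mul]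

theorem SI.cv {η ε : ℝ} (hε : 0 < ε) : ∀ᶠ X : ℝ in atTop, ∀ (A γ : ℝ) (ω h : O → ℂ), γ ≤ 1 →
    Bd (X ^ ε) ω → SI X (A + 3) γ η h → SI X A γ (η - 2 * ε) (cv ω h) := by
  obtain ⟨C, hC, hinv⟩ := sum_inv_nm_le
  filter_upwards [ev_tau 1 (half_pos hε), ev_log (2 * C) 1 (half_pos hε),
    Real.tendsto_log_atTop.eventually_ge_atTop 1, eventually_ge_atTop (1 : ℝ)] with X hτ hl hl1 hX
    A γ ω h hγ hω H
  intro g k t u₁ u₂ hg hg' hk hk' hc ht h0 h1
  have hX0 : 0 < X := by linarith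
  have e1 : ∑ v ∈ qball u₂, ind (Sq (g * v)) * P006.cv ω h (g * v) * win u₁ u₂ (g * v) * cub k v *
      np v (-1 / 4 + Complex.I * t) = ∑ g₁ ∈ pdiv g, ∑ v ∈ qball u₂,
        P006.cv (fun o => ω (g₁ * o)) (fun w => h (g / g₁ * w)) v *
          (ind (Sq (g * v)) * win u₁ u₂ (g * v) * cub k v * np v (-1 / 4 + Complex.I * t)) := by
    rw [Finset.sum_comm]
    refine Finset.sum_congr rfl fun v hv => ?_
    rw [csi_split hg (mem_qball.1 hv).1, Finset.sum_mul, Finset.sum_mul, Finset.sum_mul]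
    exact Finset.sum_congr rfl fun g₁ _ => by ring
  have hsum : ∑ o ∈ qball u₂, (nm o : ℝ)⁻¹ ≤ X ^ (ε / 2) := by
    refine (Finset.sum_le_sum_of_subset_of_nonneg ((qball_mono h1).trans (qball_subset X))
      fun _ _ _ => by positivity).trans ((hinv X hX).trans (le_trans ?_ hl))
    nlinarith
  have e2 : ∀ g₁ ∈ pdiv g, ‖∑ v ∈ qball u₂,
      P006.cv (fun o => ω (g₁ * o)) (fun w => h (g / g₁ * w)) v *
        (ind (Sq (g * v)) * win u₁ u₂ (g * v) * cub k v * np v (-1 / 4 + Complex.I * t))‖ ≤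
      X ^ ε * (X ^ (-η) * u₂ ^ (3 / 4 : ℝ)) * X ^ (ε / 2) := by
    intro g₁ h₁
    obtain ⟨a1, a2, a3⟩ := hg.div h₁
    generalize g / g₁ = g₂ at a2 a3
    subst a3
    have a4 : (nm g₂ : ℝ) ≤ X ^ γ := (csi_nm_le a1.ne_zero g₂).trans hg'
    rw [sum_cv]
    refine (norm_sum_le _ _).trans ((Finset.sum_le_sum fun o ho => ?_).trans
      ((le_of_eq (Finset.mul_sum _ _ _).symm).trans
        (mul_le_mul_of_nonneg_left hsum (by positivity))))
    rw [Finset.sum_congr rfl fun w hw => csi_term k a1 a2 (mem_qball.1 ho).1 (mem_qball.1 hw).1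
      u₁ u₂ _ _ _, ← Finset.mul_sum]
    exact csi_inner hX H a1 a2 (mem_qball.1 ho).1 a4 hk hk' hc ht h0 h1 (hω _)
  rw [e1]
  refine (norm_sum_le _ _).trans ((Finset.sum_le_card_nsmul _ _ _ e2).trans ?_)
  have a5 : ((pdiv g).card : ℝ) ≤ X ^ (ε / 2) :=
    hτ g hg.ne_zero (hg'.trans (Real.rpow_le_rpow_of_exponent_le hX hγ))
  rw [nsmul_eq_mul]
  refine (mul_le_mul_of_nonneg_right a5 (by positivity)).trans (le_of_eq ?_)
  have e3 : X ^ (-(η - 2 * ε)) = X ^ (ε / 2) * (X ^ ε * X ^ (-η) * X ^ (ε / 2)) := by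
    rw [← Real.rpow_add hX0, ← Real.rpow_add hX0, ← Real.rpow_add hX0]
    congr 1
    ring
  rw [e3]
  ring

theorem SI.sw {η : ℝ} (hη : 0 < η) : ∀ᶠ X : ℝ in atTop, ∀ (B : ℝ) (β : O → ℂ), 0 < B →
    16 * B ≤ X → Supp 16 B β → SI X 10 η η β → SW X B (η / 2) β := by
  filter_upwards [ev_const (16 ^ (3 / 4 : ℝ)) (half_pos hη), eventually_ge_atTop (1 : ℝ)] with X h16
    hX B β hB hBX hS H
  intro g k t hg hg' hk hk' hc ht
  have hX0 : 0 < X := by linarith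
  have a1 := H g k t B (16 * B) hg (hg'.trans (Real.rpow_le_rpow_of_exponent_le hX (by linarith)))
    hk (by exact_mod_cast hk') hc ht (by positivity) hBX
  refine le_of_eq_of_le (congrArg norm (Finset.sum_congr rfl fun v _ => ?_)) (a1.trans ?_)
  · by_cases hb : β (g * v) = 0
    · rw [hb]
      ring
    · obtain ⟨b1, b2⟩ := hS _ hb
      rw [ind_of b1, win, ind_of b2, one_mul, mul_one]
  · have e : X ^ (-(η / 2)) = X ^ (-η) * X ^ (η / 2) := by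
      rw [← Real.rpow_add hX0]
      congr 1
      ring
    rw [Real.mul_rpow (by norm_num) hB.le, e, mul_assoc]
    gcongr

end Vale.Agent.P006
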