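import Vale.Agent.P006.CBox
import Vale.Agent.P006.CSI

/-! C7: the sums `ρ * λ * 1`.
Plan for `g1`: `Q = cv ρ (la s)`, `cv ρ (cv la ro) = cv Q ro`, `rw_split` at `X^0.34`.  Lower part: `RIStmt`.  Upper part: boxes `R` of `Q' = rw' Q (X^0.34) X`
(`cv_comm`, `S1_box`), non-zero only if `X^0.34/2 ≤ R ≤ Y z`.  If `R ≥ X^{1/2+c}`: box `ro` (non-zero only if `X/(8R) ≤ B ≤ X/R`), `TIIaStmt` (`δ = 0.001`) with `β = rw' ro B (2B)`,
`SIBase 0.3`.  If `R ≤ X^{1/2-c}`: `TIIaStmt` with `β` the box of `Q'`; `rw_cv_congr` restricts `la s` to norms `> X^0.005`, `SIBase 0.005` (`q = 1`), `SI.cv`.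
Otherwise `RIIStmt` with `β₀ = dl 1` (`cv_dl_one`).
Plan for `g1L`: `lg_cv` twice: `cv ρ (cv la (lg ro)) = lg · cv ρ (cv la ro) - cv (lg ρ) (cv la ro) - cv ρ (cv (lg la) ro)`; `S1_lg`, `Bd` of `lg ρ`, `S1_lg_left` with
`f = hf 1 y X`, `Z = zz X`, `g = cv ρ ro`. -/

namespace Vale.Agent.P006

open Vale.Agent.P026 Filter
open scoped ComplexConjugate Real

theorem CG1_pow {a b : ℝ} (C : ℝ) (h : a < b) : ∀ᶠ X : ℝ in atTop, C * X ^ a ≤ X ^ b := by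
  filter_upwards [ev_const C (sub_pos.2 h), eventually_gt_atTop (0 : ℝ)] with X h1 hX
  have e : X ^ b = X ^ (b - a) * X ^ a := by
    rw [← Real.rpow_add hX]
    ring_nf
  rw [e]
  exact mul_le_mul_of_nonneg_right h1 (Real.rpow_nonneg hX.le _)

theorem CG1_one (j : ℕ) (a b : ℝ) :
    (fun n => hf j a b n * ind (IsCoprime n 1)) = hf j a b := by
  funext n
  rw [ind_of isCoprime_one_right, mul_one]

theorem CG1_nm1 : nm (1 : O) = 1 := psd_nm_one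

theorem CG1_restrict {X y s : ℝ} {ρ : O → ℂ} (hX : 1 ≤ X) (hρ : Le (YY X) ρ) :
    rw' (cv ρ (la X y s)) (X ^ (0.34 : ℝ)) X =
      rw' (cv ρ (rw' (hf 1 y X) (max s (X ^ (0.005 : ℝ))) (zz X))) (X ^ (0.34 : ℝ)) X := by
  refine rw_cv_congr fun u v hu hv h1 h2 _ => ?_
  have hX0 : 0 < X := by linarith
  have h3 : X ^ (0.005 : ℝ) < nm v := by
    by_contra hc
    have hc' := not_lt.1 hc
    have h4 : (nm u : ℝ) * nm v ≤ YY X * X ^ (0.005 : ℝ) :=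
      mul_le_mul (hρ u h1) hc' (Nat.cast_nonneg _) (Real.rpow_nonneg hX0.le _)
    rw [YY, ← Real.rpow_add hX0] at h4
    have h5 : X ^ (1 / 3 + 0.0005 + 0.005 : ℝ) ≤ X ^ (0.34 : ℝ) :=
      Real.rpow_le_rpow_of_exponent_le hX (by norm_num)
    linarith
  simp only [la, rw', win, max_lt_iff, h3, and_true]

theorem CG1_SW (hb : SIBase) : ∃ η₁ : ℝ, 0 < η₁ ∧ ∀ᶠ X : ℝ in atTop,
    (∀ y B : ℝ, X ^ (0.005 : ℝ) ≤ B → 16 * B ≤ X → SW X B η₁ (rw' (ro X y) B (2 * B))) ∧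
    ∀ (y s R : ℝ) (ρ : O → ℂ), Bd (X ^ η₁) ρ → Le (YY X) ρ → 0 < R → 16 * R ≤ X →
      SW X R η₁ (rw' (rw' (cv ρ (la X y s)) (X ^ (0.34 : ℝ)) X) R (2 * R)) := by
  obtain ⟨η, hη, H⟩ := hb 0.005 (by norm_num)
  have hm : 0 < min η 1 := lt_min hη one_pos
  have hm1 : min η 1 ≤ η := min_le_left _ _
  have hm2 : min η 1 ≤ 1 := min_le_right _ _
  generalize min η 1 = m at hm hm1 hm2
  refine ⟨m / 4, by positivity, ?_⟩
  have e : m / 4 = m / 2 / 2 := by ring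
  filter_upwards [H, SI.sw (η := m / 2) (by positivity),
    SI.cv (η := m) (ε := m / 4) (by positivity), eventually_ge_atTop (1 : ℝ)] with X H1 H2 H3 hX
  have hX0 : 0 < X := by linarith
  have h1 : ((nm (1 : O) : ℕ) : ℝ) ≤ X := by
    rw [CG1_nm1, Nat.cast_one]
    exact hX
  refine ⟨fun y B hB hB' => ?_, fun y s R ρ hρ hρ' hR hR' => ?_⟩
  · have hB0 : 0 < B := lt_of_lt_of_le (Real.rpow_pos_of_pos hX0 _) hB
    have h2 := (H1 B (2 * B) hB).1 0 y X 1 one_ne_zero h1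
    rw [CG1_one] at h2
    rw [e]
    exact H2 B _ hB0 hB' (supp_rw (fun n hn => hf_sq hn) hB0.le (by norm_num))
      (h2.mono hX (by norm_num) (by linarith) (by linarith))
  · have h2 := (H1 (max s (X ^ (0.005 : ℝ))) (zz X) (le_max_right _ _)).1 1 y X 1 one_ne_zero h1
    rw [CG1_one] at h2
    have h3 := H3 10 m ρ _ hm2 hρ (h2.mono hX (by norm_num) hm1 hm1)
    rw [e]
    refine H2 R _ hR hR' (supp_rw (fun n hn => (cv_ne_zero (rw_ne_zero hn).1).1) hR.le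
      (by norm_num)) ?_
    rw [CG1_restrict hX hρ']
    exact ((h3.mono hX le_rfl (by linarith) (by linarith)).rw' _ _).rw' _ _

/-- the size of the support of `ρ * λ` -/
theorem CG1_supp {X y s : ℝ} {ρ : O → ℂ} (hX : 1 ≤ X) (hρ : Le (YY X) ρ) :
    Le (X ^ (2 / 3 - 0.0015 : ℝ)) (cv ρ (la X y s)) := by
  intro n hn
  have hX0 : 0 < X := by linarith
  obtain ⟨-, a, b, -, -, rfl, ha, hb⟩ := cv_ne_zero hn
  have h1 : (nm a : ℝ) * nm b ≤ YY X * zz X :=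
    mul_le_mul (hρ a ha) (rw_ne_zero hb).2.2 (Nat.cast_nonneg _) (Real.rpow_nonneg hX0.le _)
  rw [YY, zz, ← Real.rpow_add hX0] at h1
  rw [nm_mul, Nat.cast_mul]
  refine h1.trans (le_of_eq ?_)
  norm_num

/-- long boxes: the rough variable is in the Type II range -/
theorem CG1_long {X c R x₁ x₂ E : ℝ} {α β : O → ℂ} (hX : 1 ≤ X) (hx₁ : X / 2 ≤ x₁) (hx₂ : x₂ ≤ X)
    (hE : 0 ≤ E) (hα : Supp 2 R α) (hR : X ^ (1 / 2 + c) ≤ R)
    (hR' : R ≤ X ^ (2 / 3 - 0.0015 : ℝ))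
    (h8 : 8 * X ^ (1 - 0.0005 : ℝ) ≤ X)
    (h : ∀ B : ℝ, X ^ (1 / 3 + 0.001 : ℝ) ≤ B → B ≤ X ^ (1 / 2 - c) →
      ‖S1 x₁ x₂ (cv α (rw' β B (2 * B)))‖ ≤ E) : ‖S1 x₁ x₂ (cv α β)‖ ≤ nb X * E := by
  have hX0 : 0 < X := by linarith
  have hR0 : 0 < R := lt_of_lt_of_le (Real.rpow_pos_of_pos hX0 _) hR
  refine S1_box hX hx₂ α β fun B hB _ => ?_
  have hB0 : 0 < B := by linarith
  by_cases h1 : X ^ (1 / 3 + 0.001 : ℝ) ≤ B
  · by_cases h2 : B ≤ X ^ (1 / 2 - c)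
    · exact h B h1 h2
    · rw [S1_cv_eq_zero, norm_zero]
      · exact hE
      intro a b _ _ ha hb _ h4
      have h5 : X ^ (1 / 2 + c) * X ^ (1 / 2 - c) < nm a * nm b :=
        mul_lt_mul'' (hR.trans_lt (hα a ha).2.1) ((not_le.1 h2).trans (rw_ne_zero hb).2.1)
          (Real.rpow_nonneg hX0.le _) (Real.rpow_nonneg hX0.le _)
      rw [← Real.rpow_add hX0, show 1 / 2 + c + (1 / 2 - c) = 1 by ring, Real.rpow_one] at h5
      linarith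
  · rw [S1_cv_eq_zero, norm_zero]
    · exact hE
    intro a b _ _ ha hb h3 _
    have h4 : (nm a : ℝ) * nm b ≤ 2 * R * (2 * B) :=
      mul_le_mul (hα a ha).2.2 (rw_ne_zero hb).2.2 (Nat.cast_nonneg _) (by positivity)
    have h5 : R * B ≤ X ^ (2 / 3 - 0.0015 : ℝ) * X ^ (1 / 3 + 0.001 : ℝ) :=
      mul_le_mul hR' (not_le.1 h1).le hB0.le (Real.rpow_nonneg hX0.le _)
    rw [← Real.rpow_add hX0, show (2 / 3 - 0.0015 + (1 / 3 + 0.001) : ℝ) = 1 - 0.0005 by norm_num]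
      at h5
    nlinarith

/-- the part above `X^0.34` -/
theorem CG1_upper {X x₁ x₂ E : ℝ} {Q β : O → ℂ} (hX : 1 ≤ X) (hx₂ : x₂ ≤ X) (hE : 0 ≤ E)
    (hQ : Le (X ^ (2 / 3 - 0.0015 : ℝ)) Q)
    (h2 : 2 * X ^ (1 / 3 + 0.001 : ℝ) ≤ X ^ (0.34 : ℝ))
    (h : ∀ R : ℝ, X ^ (1 / 3 + 0.001 : ℝ) ≤ R → R ≤ X ^ (2 / 3 - 0.0015 : ℝ) →
      ‖S1 x₁ x₂ (cv β (rw' (rw' Q (X ^ (0.34 : ℝ)) X) R (2 * R)))‖ ≤ E) :
    ‖S1 x₁ x₂ (cv β (rw' Q (X ^ (0.34 : ℝ)) X))‖ ≤ nb X * E := by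
  refine S1_box hX hx₂ β _ fun R _ _ => ?_
  by_cases h3 : X ^ (1 / 3 + 0.001 : ℝ) ≤ R
  · by_cases h4 : R ≤ X ^ (2 / 3 - 0.0015 : ℝ)
    · exact h R h3 h4
    · rw [S1_cv_eq_zero, norm_zero]
      · exact hE
      intro a b _ _ _ hb _ _
      have h5 := rw_ne_zero hb
      have h6 := hQ b (rw_ne_zero h5.1).1
      linarith [h5.2.1, not_le.1 h4]
  · rw [S1_cv_eq_zero, norm_zero]
    · exact hE
    intro a b _ _ _ hb _ _
    have h5 := rw_ne_zero hb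
    have h6 := (rw_ne_zero h5.1).2.1
    linarith [h5.2.2, not_le.1 h3]

theorem CG1_split {X x₁ x₂ : ℝ} (hx₂ : x₂ ≤ X) (W : ℝ) (ρ l β : O → ℂ) :
    S1 x₁ x₂ (cv ρ (cv l β)) = S1 x₁ x₂ (cv (rw' (cv ρ l) 0 W) β) +
      S1 x₁ x₂ (cv β (rw' (cv ρ l) W X)) := by
  rw [← cv_assoc, cv_comm _ β, (EqX.cv EqX.rfl (rw_split (X := X) (W := W) (cv ρ l))).S1 hx₂,
    cv_add, S1_add, cv_comm β]

/-- one box of the upper part -/
theorem CG1_box (h2 : RIIStmt) (ha : TIIaStmt) (hb : SIBase) :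
    ∃ μ : ℝ, 0 < μ ∧ ∀ η₀ : ℝ, 0 < η₀ → η₀ ≤ μ → ∀ᶠ X : ℝ in atTop,
      ∀ (s x₁ x₂ R : ℝ) (ρ : O → ℂ), X / 2 ≤ x₁ → x₂ ≤ X → Bd (X ^ μ) ρ → Le (YY X) ρ →
        Bd (X ^ μ) (rw' (cv ρ (la X (X ^ η₀) s)) (X ^ (0.34 : ℝ)) X) →
        X ^ (1 / 3 + 0.001 : ℝ) ≤ R → R ≤ X ^ (2 / 3 - 0.0015 : ℝ) →
        ‖S1 x₁ x₂ (cv (ro X (X ^ η₀))
          (rw' (rw' (cv ρ (la X (X ^ η₀) s)) (X ^ (0.34 : ℝ)) X) R (2 * R)))‖ ≤
          nb X * X ^ (5 / 6 - μ) := by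
  obtain ⟨c, η₂, hc, hη₂, H2⟩ := h2
  obtain ⟨η₁, hη₁, H1⟩ := CG1_SW hb
  obtain ⟨η₃, hη₃, H3⟩ := ha 0.001 c η₁ (by norm_num) hc hη₁
  have hm : 0 < min η₁ (min η₂ η₃) := lt_min hη₁ (lt_min hη₂ hη₃)
  have hm1 : min η₁ (min η₂ η₃) ≤ η₁ := min_le_left _ _
  have hm2 : min η₁ (min η₂ η₃) ≤ η₂ := (min_le_right _ _).trans (min_le_left _ _)
  have hm3 : min η₁ (min η₂ η₃) ≤ η₃ := (min_le_right _ _).trans (min_le_right _ _)
  generalize min η₁ (min η₂ η₃) = μ at hm hm1 hm2 hm3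
  refine ⟨μ, hm, fun η₀ h0 h0' => ?_⟩
  filter_upwards [H2 η₀ h0 (h0'.trans hm2), H1, H3, eventually_ge_atTop (1 : ℝ),
    CG1_pow (a := 1 - 0.0005) (b := 1) 8 (by norm_num),
    CG1_pow (a := 1 / 2 - c) (b := 1) 16 (by linarith)] with X K2 K1 K3 hX h8 h16
  intro s x₁ x₂ R ρ hx₁ hx₂ hρ hρ' hQ hR hR'
  rw [Real.rpow_one] at h8 h16
  have hX0 : 0 < X := by linarith
  have hR0 : 0 < R := lt_of_lt_of_le (Real.rpow_pos_of_pos hX0 _) hR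
  have up : ∀ {a b : ℝ}, a ≤ b → X ^ a ≤ X ^ b := fun h => Real.rpow_le_rpow_of_exponent_le hX h
  have one : ∀ {a : ℝ}, 0 < a → 1 ≤ X ^ a := fun h => Real.one_le_rpow hX h.le
  have hnb : (1 : ℝ) ≤ nb X := by
    rw [nb]
    exact_mod_cast Nat.le_add_left 1 _
  have hE : 0 ≤ X ^ (5 / 6 - μ) := Real.rpow_nonneg hX0.le _
  have hle : X ^ (5 / 6 - μ) ≤ nb X * X ^ (5 / 6 - μ) := le_mul_of_one_le_left hE hnb
  have hsq : ∀ n, rw' (cv ρ (la X (X ^ η₀) s)) (X ^ (0.34 : ℝ)) X n ≠ 0 → Sq n :=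
    fun n hn => (cv_ne_zero (rw_ne_zero hn).1).1
  have hro : Bd 1 (ro X (X ^ η₀)) := bd_hf _ _ _
  by_cases hA : X ^ (1 / 2 + c) ≤ R
  · rw [cv_comm]
    refine CG1_long hX hx₁ hx₂ hE (supp_rw hsq hR0.le le_rfl) hA hR' h8 fun B hB hB' => ?_
    have hB0 : 0 < B := lt_of_lt_of_le (Real.rpow_pos_of_pos hX0 _) hB
    refine (K3 B x₁ x₂ _ _ hB hB' hx₁ hx₂ (supp_rw (fun n hn => hf_sq hn) hB0.le (by norm_num))
      ((hQ.rw' _ _).mono (up hm3)) ((hro.rw' _ _).mono (one hη₃))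
      (K1.1 _ B ((up (by norm_num)).trans hB) (by linarith))).trans (up (by linarith))
  by_cases hB : R ≤ X ^ (1 / 2 - c)
  · refine le_trans ((K3 R x₁ x₂ _ _ hR hB hx₁ hx₂ (supp_rw hsq hR0.le (by norm_num))
      (hro.mono (one hη₃)) ((hQ.rw' _ _).mono (up hm3))
      (K1.2 _ s R ρ (hρ.mono (up hm1)) hρ' hR0 (by linarith))).trans (up (by linarith))) hle
  · rw [cv_comm, ← (EqX.cv EqX.rfl (cv_dl_one (ro X (X ^ η₀)) (X := X))).S1 hx₂]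
    refine le_trans ((K2 R x₁ x₂ _ _ (not_le.1 hB).le (not_le.1 hA).le hx₁ hx₂
      (supp_rw hsq hR0.le le_rfl) ((hQ.rw' _ _).mono (up hm2)) ((bd_dl 1).mono (one hη₂))
      fun n hn => ?_).trans (up (by linarith))) hle
    have hn1 : n = 1 := by
      by_contra hc'
      exact hn (ind_of_not hc')
    rw [hn1, CG1_nm1, Nat.cast_one]
    exact one (by norm_num)

theorem g1 (h1 : RIStmt) (h2 : RIIStmt) (ha : TIIaStmt) (hb : SIBase) : G1Stmt := by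
  obtain ⟨η₁, hη₁, H1⟩ := h1
  obtain ⟨η₂, hη₂, H2⟩ := CG1_box h2 ha hb
  have hm : 0 < min η₁ η₂ := lt_min hη₁ hη₂
  have hm1 : min η₁ η₂ ≤ η₁ := min_le_left _ _
  have hm2 : min η₁ η₂ ≤ η₂ := min_le_right _ _
  generalize min η₁ η₂ = μ at hm hm1 hm2
  refine ⟨μ / 2, by positivity, fun η₀ h0 h0' => ?_⟩
  filter_upwards [H1 η₀ h0 (by linarith), H2 η₀ h0 (by linarith), eventually_ge_atTop (1 : ℝ),
    ev_bd_cv (ε := μ / 2) (by positivity), nb_le, ev_log 5 2 (ε := μ / 2) (by positivity),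
    Real.tendsto_log_atTop.eventually_ge_atTop 1,
    CG1_pow (a := 1 / 3 + 0.001) (b := 0.34) 2 (by norm_num)] with X K1 K2 hX K3 hnb hl hl1 h34
  intro s x₁ x₂ ρ hx₁ hx₂ hρ hρ'
  have hX0 : 0 < X := by linarith
  have up : ∀ {a b : ℝ}, a ≤ b → X ^ a ≤ X ^ b := fun h => Real.rpow_le_rpow_of_exponent_le hX h
  have hW : X ^ (0.34 : ℝ) ≤ X := by
    have := up (a := 0.34) (b := 1) (by norm_num)
    rwa [Real.rpow_one] at this
  have hla : Bd 1 (la X (X ^ η₀) s) := (bd_hf _ _ _).rw' _ _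
  have hQ : ∀ a b : ℝ, b ≤ X → Bd (X ^ μ) (rw' (cv ρ (la X (X ^ η₀) s)) a b) := fun a b hb' => by
    have := K3 _ _ a b _ _ hb' hρ hla
    rwa [mul_one, ← Real.rpow_add hX0, add_halves] at this
  have hE : 0 ≤ X ^ (5 / 6 - μ) := Real.rpow_nonneg hX0.le _
  have hn0 : (0 : ℝ) ≤ nb X := Nat.cast_nonneg _
  have e1 := (K1 x₁ x₂ _ hx₁ hx₂ ((hQ 0 _ hW).mono (up hm1))
    fun n hn => (rw_ne_zero hn).2.2).trans (up (by linarith : 5 / 6 - η₁ ≤ 5 / 6 - μ))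
  have e2 := CG1_upper (β := ro X (X ^ η₀)) hX hx₂ (mul_nonneg hn0 hE)
    (CG1_supp (y := X ^ η₀) (s := s) hX hρ') h34 fun R hR hR' =>
      (K2 s x₁ x₂ R ρ hx₁ hx₂ (hρ.mono (up (by linarith))) hρ' ((hQ _ X le_rfl).mono (up hm2))
        hR hR').trans (mul_le_mul_of_nonneg_left (up (by linarith)) hn0)
  rw [CG1_split hx₂ (X ^ (0.34 : ℝ))]
  refine (norm_add_le _ _).trans ((add_le_add e1 e2).trans ?_)
  have e3 : X ^ (5 / 6 - μ / 2) = X ^ (μ / 2) * X ^ (5 / 6 - μ) := by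
    rw [← Real.rpow_add hX0]
    ring_nf
  have e4 : 1 + (nb X : ℝ) * nb X ≤ X ^ (μ / 2) := by nlinarith
  rw [e3]
  nlinarith

theorem CG1_lg (ρ l r : O → ℂ) : cv ρ (cv l fun n => lg n * r n) = fun n =>
    lg n * cv ρ (cv l r) n - cv (fun m => lg m * ρ m) (cv l r) n -
      cv (fun m => lg m * l m) (cv ρ r) n := by
  have e1 : (cv l fun n => lg n * r n) =
      fun n => lg n * cv l r n - cv (fun m => lg m * l m) r n := by
    funext n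
    rw [lg_cv]
    ring
  have e2 : cv ρ (cv (fun m => lg m * l m) r) = cv (fun m => lg m * l m) (cv ρ r) := by
    rw [← cv_assoc, cv_comm ρ, cv_assoc]
  rw [e1, cv_sub, e2]
  funext n
  rw [lg_cv ρ]
  ring

theorem CG1_bd_lg {X M : ℝ} {ρ : O → ℂ} (hX : 1 ≤ X) (hρ : Bd M ρ) (hρ' : Le X ρ) :
    Bd (Real.log X * M) fun n => lg n * ρ n := by
  intro n
  have hM : 0 ≤ M := (norm_nonneg _).trans (hρ 0)
  have hl := Real.log_nonneg hX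
  by_cases h : ρ n = 0
  · simp only [h, mul_zero, norm_zero]
    positivity
  rw [norm_mul]
  refine mul_le_mul ?_ (hρ n) (norm_nonneg _) hl
  rw [lg, Complex.norm_real, Real.norm_of_nonneg (Real.log_natCast_nonneg _)]
  rcases Nat.eq_zero_or_pos (nm n) with h0 | h0
  · rw [h0, Nat.cast_zero, Real.log_zero]
    exact hl
  · exact Real.log_le_log (by exact_mod_cast h0) (hρ' n h)

theorem g1L (h : G1Stmt) : G1LStmt := by
  obtain ⟨μ, hm, H⟩ := h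
  refine ⟨μ / 2, by positivity, fun η₀ h0 h0' => ?_⟩
  filter_upwards [H η₀ h0 (by linarith), eventually_ge_atTop (2 : ℝ),
    ev_log 5 1 (ε := μ / 2) (by positivity), Real.tendsto_log_atTop.eventually_ge_atTop 1]
    with X K hX2 hl hl1
  intro ρ hρ hρ'
  have hX : (1 : ℝ) ≤ X := by linarith
  have hX0 : 0 < X := by linarith
  have up : ∀ {a b : ℝ}, a ≤ b → X ^ a ≤ X ^ b := fun h => Real.rpow_le_rpow_of_exponent_le hX h
  have le1 : ∀ {a : ℝ}, a ≤ 1 → X ^ a ≤ X := fun h => by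
    have := up h
    rwa [Real.rpow_one] at this
  have hE : 0 ≤ X ^ (5 / 6 - μ) := Real.rpow_nonneg hX0.le _
  have hP : 0 ≤ X ^ (μ / 2) := Real.rpow_nonneg hX0.le _
  rw [pow_one] at hl
  have hρ1 : Bd (X ^ μ) ρ := hρ.mono (up (by linarith))
  have hρ2 : Bd (X ^ μ) fun n => lg n * ρ n := by
    refine (CG1_bd_lg hX hρ fun n hn => (hρ' n hn).trans (le1 (by norm_num))).mono ?_
    have e : X ^ μ = X ^ (μ / 2) * X ^ (μ / 2) := by rw [← Real.rpow_add hX0, add_halves]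
    rw [e]
    exact mul_le_mul_of_nonneg_right (by linarith) hP
  have hz : 1 ≤ zz X := Real.one_le_rpow hX (by norm_num)
  have hz' : Real.log (zz X) ≤ Real.log X := Real.log_le_log (by linarith) (le1 (by norm_num))
  have e1 := S1_lg hX2 _ fun x hx => K 0 x X ρ hx le_rfl hρ1 hρ'
  have e2 := K 0 (X / 2) X _ le_rfl le_rfl hρ2 fun n hn => hρ' n (right_ne_zero_of_mul hn)
  have e3 := S1_lg_left (x₁ := X / 2) (E := X ^ (5 / 6 - μ)) hz (le_refl X) (hf 1 (X ^ η₀) X)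
    (cv ρ (ro X (X ^ η₀))) fun s => by
      rw [← cv_assoc, cv_comm _ ρ, cv_assoc]
      exact K s (X / 2) X ρ le_rfl le_rfl hρ1 hρ'
  rw [CG1_lg, S1_sub, S1_sub]
  refine (norm_sub_le _ _).trans ((add_le_add ((norm_sub_le _ _).trans (add_le_add e1 e2)) e3).trans ?_)
  have e4 : X ^ (5 / 6 - μ / 2) = X ^ (μ / 2) * X ^ (5 / 6 - μ) := by
    rw [← Real.rpow_add hX0]
    ring_nf
  rw [e4]
  nlinarith

end Vale.Agent.P006
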