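import Vale.Agent.P006.CBox
import Vale.Agent.P006.CSI

/-! C8: the sums `ρ * γ`.
Plan for `g2` (`gb = rw' ga Y X`; `c ≤ c_{RII}`, `c ≤ c_b/2`): if `R ≥ X^{1/2+c}`: box `gb`, non-zero only if `Y/2 ≤ B ≤ X/R`; `TIIaStmt` with `δ = 0.0004`, `SIgaStmt`, `SI.rw'`, `SI.sw`,
`ev_bd_ga`, `ga_ne_zero`.  If `R ≤ X^{1/2-c}`: `TIIaStmt` with `β = ρ`, `α = gb` (`cv_comm`).  Otherwise `S1_cv_congr` replaces `gb` by `cv (la 0) ro` (`N b > X/(4R) > Y`, `ga_of_ne`);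
`la 0 = rw' (la 0) 0 W + rw' (la 0) W X`, `W = X^0.004`; first part `RIIStmt`; second part `S1_box2`, non-zero only if `W/2 ≤ B₁ ≤ z`, `X/(16R) ≤ B₁B₂ ≤ X/R`; `TIIbStmt` (`η₀ = 0.002`),
`SW` from `SIBase 0.1` for the box of `ro` and `SI.cv`.
Plan for `g12`: `rw_split ρ` at `Y`; lower part: `S1_cv_congr` (`N b > X/(2Y) > Y`) and `G1Stmt` with `s = 0`; upper part: boxes (non-zero only if `R ≥ Y/2`), `G2Stmt`, `SI.rw'`. -/

namespace Vale.Agent.P006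

open Vale.Agent.P026 Filter
open scoped ComplexConjugate Real

theorem cg2_ev (C : ℝ) {a b : ℝ} (hab : a < b) : ∀ᶠ X : ℝ in atTop, C * X ^ a ≤ X ^ b := by
  filter_upwards [ev_const C (sub_pos.2 hab), eventually_gt_atTop (0 : ℝ)] with X h hX
  refine (mul_le_mul_of_nonneg_right h (by positivity)).trans (le_of_eq ?_)
  rw [← Real.rpow_add hX, sub_add_cancel]

theorem cg2_ev1 (C : ℝ) {a : ℝ} (ha : a < 1) : ∀ᶠ X : ℝ in atTop, C * X ^ a ≤ X := by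
  simpa only [Real.rpow_one] using cg2_ev C ha

theorem cg2_le {X a b : ℝ} (hX : 1 ≤ X) (h : a ≤ b) : X ^ (5 / 6 - b) ≤ X ^ (5 / 6 - a) :=
  Real.rpow_le_rpow_of_exponent_le hX (by linarith)

theorem cg2_bd {X a b : ℝ} {f : O → ℂ} (hX : 1 ≤ X) (h : a ≤ b) (hf : Bd (X ^ a) f) :
    Bd (X ^ b) f :=
  hf.mono (Real.rpow_le_rpow_of_exponent_le hX h)

theorem cg2_absorb {m : ℝ} (hm : 0 < m) : ∀ᶠ X : ℝ in atTop,
    (1 + (nb X : ℝ) ^ 2) * X ^ (5 / 6 - m) ≤ X ^ (5 / 6 - m / 2) := by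
  filter_upwards [nb_le, ev_log 5 2 (half_pos hm), Real.tendsto_log_atTop.eventually_ge_atTop 1,
    eventually_gt_atTop (0 : ℝ)] with X h1 h2 h3 hX
  have h4 : (nb X : ℝ) ^ 2 ≤ (2 * Real.log X) ^ 2 := pow_le_pow_left₀ (Nat.cast_nonneg _) h1 2
  have h5 : 1 + (nb X : ℝ) ^ 2 ≤ X ^ (m / 2) := by nlinarith
  refine (mul_le_mul_of_nonneg_right h5 (by positivity)).trans (le_of_eq ?_)
  rw [← Real.rpow_add hX]
  congr 1
  ring

theorem cg2_nb (X : ℝ) : (nb X : ℝ) ≤ (nb X : ℝ) ^ 2 := by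
  exact_mod_cast Nat.le_self_pow two_ne_zero (nb X)

theorem cg2_supp {c c' B : ℝ} {f : O → ℂ} (h : Supp c B f) (hB : 0 ≤ B) (hc : c ≤ c') :
    Supp c' B f := fun b hb =>
  ⟨(h b hb).1, (h b hb).2.1, (h b hb).2.2.trans (mul_le_mul_of_nonneg_right hc hB)⟩

theorem cg2_YY : ∀ᶠ X : ℝ in atTop, 2 * X ^ (1 / 3 + 0.0004 : ℝ) ≤ YY X :=
  cg2_ev 2 (by norm_num)

theorem cg2_congr {X y R : ℝ} {ρ : O → ℂ} (hX : 1 ≤ X) (hρ : Le R ρ) (hR : 2 * (R * YY X) ≤ X) :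
    S1 (X / 2) X (cv ρ (rw' (ga X y) (YY X) X)) =
      S1 (X / 2) X (cv ρ (cv (la X y 0) (ro X y))) := by
  refine S1_cv_congr fun a b ha hb h0 h1 h2 => ?_
  have hY : 1 ≤ YY X := Real.one_le_rpow hX (by norm_num)
  have h3 := hρ a h0
  have h4 := ha.one_le
  have h5 := hb.one_le
  have h6 : YY X < nm b := by
    by_contra h7
    have h8 : (nm a : ℝ) * nm b ≤ R * YY X :=
      mul_le_mul h3 (not_lt.1 h7) (by linarith) (by linarith)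
    linarith
  have h7 : b ≠ 1 := by
    rintro rfl
    rw [nm_one, Nat.cast_one] at h6
    linarith
  rw [rw_of h6 (by nlinarith), ga_of_ne h7]

theorem cg2_large (ha : TIIaStmt) (hg : SIgaStmt) {c : ℝ} (hc : 0 < c) : ∃ η : ℝ, 0 < η ∧
    ∀ᶠ X : ℝ in atTop, ∀ (y R : ℝ) (ρ : O → ℂ), X ^ (1 / 2 + c) ≤ R → Supp 2 R ρ →
      Bd (X ^ η) ρ → ‖S1 (X / 2) X (cv ρ (rw' (ga X y) (YY X) X))‖ ≤ X ^ (5 / 6 - η) := by
  obtain ⟨η₁, hη₁, h₁⟩ := hg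
  obtain ⟨η, hη, h₂⟩ := ha 0.0004 c (η₁ / 2) (by norm_num) hc (half_pos hη₁)
  refine ⟨η / 2, half_pos hη, ?_⟩
  filter_upwards [h₁, h₂, SI.sw hη₁, ev_bd_ga hη, cg2_absorb hη, cg2_YY,
    cg2_ev1 16 (show (1 / 2 : ℝ) - c < 1 by linarith), eventually_ge_atTop (1 : ℝ)]
    with X a1 a2 a3 a4 a5 a6 a7 hX y R ρ hR hS hB
  have hX0 : 0 < X := by linarith
  have hE : 0 ≤ X ^ (5 / 6 - η) := by positivity
  refine (S1_box (E := X ^ (5 / 6 - η)) hX le_rfl _ _ fun B hB1 _ => ?_).trans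
    (le_trans (mul_le_mul_of_nonneg_right (by linarith [cg2_nb X]) hE) a5)
  by_cases hh : X ^ (1 / 3 + 0.0004 : ℝ) ≤ B ∧ B ≤ X ^ (1 / 2 - c)
  · have b1 : Supp 16 B (rw' (rw' (ga X y) (YY X) X) B (2 * B)) :=
      supp_rw (fun n hn => (ga_ne_zero hX (rw_ne_zero hn).1).1) (by linarith) (by norm_num)
    exact a2 B _ _ _ _ hh.1 hh.2 le_rfl le_rfl b1 (cg2_bd hX (by linarith) hB)
      ((a4 y _ _ le_rfl).rw' _ _) (a3 B _ (by linarith) (by linarith [hh.2]) b1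
        ((((a1 y).mono hX (by norm_num) le_rfl le_rfl).rw' _ _).rw' _ _))
  · rw [S1_cv_eq_zero fun a b _ _ h1 h2 _ h3 => hh ?_, norm_zero]
    · exact hE
    obtain ⟨b1, b2, b3⟩ := rw_ne_zero h2
    have b4 := (rw_ne_zero b1).2.1
    have b5 := (hS a h1).2.1
    have b6 : 0 < X ^ (1 / 2 + c) := by positivity
    refine ⟨by linarith, le_of_mul_le_mul_left ?_ b6⟩
    rw [← Real.rpow_add hX0, show 1 / 2 + c + (1 / 2 - c) = 1 by ring, Real.rpow_one]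
    exact (mul_le_mul (hR.trans b5.le) b2.le (by linarith) (Nat.cast_nonneg _)).trans h3

theorem cg2_small (ha : TIIaStmt) {c η₁ : ℝ} (hc : 0 < c) (hη₁ : 0 < η₁) : ∃ η : ℝ, 0 < η ∧
    ∀ᶠ X : ℝ in atTop, ∀ (y R : ℝ) (ρ : O → ℂ), YY X / 2 ≤ R → R ≤ X ^ (1 / 2 - c) →
      Supp 2 R ρ → Bd (X ^ η) ρ → SI X 10 η₁ η₁ ρ →
        ‖S1 (X / 2) X (cv ρ (rw' (ga X y) (YY X) X))‖ ≤ X ^ (5 / 6 - η) := by
  obtain ⟨η, hη, h₂⟩ := ha 0.0004 c (η₁ / 2) (by norm_num) hc (half_pos hη₁)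
  refine ⟨η, hη, ?_⟩
  filter_upwards [h₂, SI.sw hη₁, ev_bd_ga hη, cg2_YY,
    cg2_ev1 16 (show (1 / 2 : ℝ) - c < 1 by linarith), eventually_ge_atTop (1 : ℝ)]
    with X a2 a3 a4 a6 a7 hX y R ρ hR hR' hS hB hI
  have h1 : 0 < X ^ (1 / 3 + 0.0004 : ℝ) := by positivity
  have b1 : Supp 16 R ρ := cg2_supp hS (by linarith) (by norm_num)
  rw [cv_comm]
  exact a2 R _ _ _ _ (by linarith) hR' le_rfl le_rfl b1 (a4 y _ _ le_rfl) hB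
    (a3 R _ (by linarith) (by linarith) b1 hI)

/-- the Siegel-Walfisz property for a product with a box of rough numbers -/
theorem cg2_sw (hb : SIBase) : ∃ η : ℝ, 0 < η ∧ ∀ᶠ X : ℝ in atTop, ∀ (y B₁ B₂ : ℝ) (β : O → ℂ),
    0 < B₁ → X ^ (0.1 : ℝ) ≤ B₂ → 16 * (B₁ * B₂) ≤ X → Supp 4 B₁ β → Bd 1 β →
      SW X (B₁ * B₂) η (cv β (rw' (ro X y) B₂ (2 * B₂))) := by
  obtain ⟨η, hη, h⟩ := hb 0.1 (by norm_num)
  have hm : 0 < min η 1 := by positivity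
  refine ⟨min η 1 / 2 / 2, by positivity, ?_⟩
  filter_upwards [h, SI.cv (η := min η 1) (show 0 < min η 1 / 4 by positivity),
    SI.sw (half_pos hm), eventually_ge_atTop (1 : ℝ)] with X a1 a2 a3 hX y B₁ B₂ β h1 h2 h3 h4 h5
  have h6 : 0 < B₂ := lt_of_lt_of_le (by positivity) h2
  have h7 := (a1 B₂ (2 * B₂) h2).1 0 y X 1 one_ne_zero (by rw [nm_one, Nat.cast_one]; exact hX)
  simp only [ind_of isCoprime_one_right, mul_one] at h7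
  have h8 := a2 10 (min η 1) β (rw' (ro X y) B₂ (2 * B₂)) (min_le_right _ _)
    (h5.mono (Real.one_le_rpow hX (by positivity)))
    (h7.mono hX (by norm_num) (min_le_left _ _) (min_le_left _ _))
  refine a3 _ _ (by positivity) h3 ?_ (h8.mono hX le_rfl (by linarith) (by linarith))
  have h9 := h4.cv h1.le h6.le (supp_rw (f := ro X y) (fun n hn => hf_sq hn) h6.le
    (show (2 : ℝ) ≤ 4 by norm_num))
  rwa [show (4 : ℝ) * 4 = 16 by norm_num] at h9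

theorem cg2_box (hb' : TIIbStmt) (hb : SIBase) : ∃ c η : ℝ, 0 < c ∧ c ≤ 0.01 ∧ 0 < η ∧
    ∀ᶠ X : ℝ in atTop, ∀ (y R B₁ B₂ : ℝ) (ρ : O → ℂ), X ^ (1 / 2 - c) ≤ R →
      R ≤ X ^ (1 / 2 + c) → Supp 2 R ρ → Bd (X ^ η) ρ → 1 / 2 ≤ B₁ → 1 / 2 ≤ B₂ →
        ‖S1 (X / 2) X (cv ρ (cv (rw' (rw' (la X y 0) (X ^ (0.004 : ℝ)) X) B₁ (2 * B₁))
          (rw' (ro X y) B₂ (2 * B₂))))‖ ≤ X ^ (5 / 6 - η) := by
  obtain ⟨η₁, hη₁, h₁⟩ := cg2_sw hb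
  obtain ⟨c, η, hc, hη, h₂⟩ := hb' 0.002 η₁ (by norm_num) hη₁
  refine ⟨min c 0.01, η, by positivity, min_le_right _ _, hη, ?_⟩
  have m1 := min_le_left c 0.01
  have m2 := min_le_right c 0.01
  generalize min c 0.01 = d at m1 m2
  filter_upwards [h₁, h₂, cg2_ev 2 (show (0.002 : ℝ) < 0.004 by norm_num),
    cg2_ev1 16 (show (0.51 : ℝ) < 1 by norm_num), cg2_ev1 16 (show (0.96 : ℝ) < 1 by norm_num),
    eventually_ge_atTop (1 : ℝ)] with X a1 a2 a3 a4 a5 hX y R B₁ B₂ ρ hR hR' hS hB hB1 hB2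
  have hX0 : 0 < X := by linarith
  have e1 : ∀ {a b : ℝ}, a ≤ b → X ^ a ≤ X ^ b := fun h => Real.rpow_le_rpow_of_exponent_le hX h
  have hL : Bd 1 (rw' (rw' (la X y 0) (X ^ (0.004 : ℝ)) X) B₁ (2 * B₁)) :=
    (((bd_hf 1 y X).rw' _ _).rw' _ _).rw' _ _
  have h1 : (1 : ℝ) ≤ X ^ η := Real.one_le_rpow hX hη.le
  by_cases hh : X ^ (0.002 : ℝ) ≤ B₁ ∧ X ^ (0.1 : ℝ) ≤ B₂ ∧ X ^ (0.45 : ℝ) ≤ B₁ * B₂ ∧
      B₁ * B₂ ≤ X ^ (1 / 2 + d)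
  · obtain ⟨c1, c2, c3, c4⟩ := hh
    have b1 : Supp 4 B₁ (rw' (rw' (la X y 0) (X ^ (0.004 : ℝ)) X) B₁ (2 * B₁)) :=
      supp_rw (fun n hn => hf_sq (rw_ne_zero (rw_ne_zero hn).1).1) (by linarith) (by norm_num)
    have b2 : X ^ (1 / 2 + d) ≤ X ^ (0.51 : ℝ) := e1 (by linarith)
    exact a2 B₁ B₂ _ _ _ _ _ c1 ((e1 (by norm_num)).trans c2) ((e1 (by norm_num)).trans c3)
      (c4.trans (e1 (by linarith))) le_rfl le_rfl b1
      (supp_rw (fun n hn => hf_sq hn) (by linarith) (by norm_num)) hB (hL.mono h1)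
      (((bd_hf 0 y X).rw' _ _).mono h1) (a1 y B₁ B₂ _ (by linarith) c2 (by linarith) b1 hL)
  · rw [S1_cv_eq_zero fun a b _ _ h2 h3 h4 h5 => hh ?_, norm_zero]
    · positivity
    obtain ⟨-, u, v, -, -, rfl, hu, hv⟩ := cv_ne_zero h3
    obtain ⟨b1, b2, b3⟩ := rw_ne_zero hu
    obtain ⟨b4, b5, -⟩ := rw_ne_zero b1
    have b6 : (nm u : ℝ) ≤ X ^ (0.35 : ℝ) := (rw_ne_zero b4).2.2.trans (e1 (by norm_num))
    obtain ⟨-, b7, b8⟩ := rw_ne_zero hv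
    obtain ⟨-, b9, b10⟩ := hS a h2
    rw [nm_mul, Nat.cast_mul] at h4 h5
    have p1 : 0 < X ^ (1 / 2 - d) := by positivity
    have p2 : 0 < X ^ (0.51 : ℝ) := by positivity
    have p3 : 0 < X ^ (0.35 : ℝ) := by positivity
    have p4 : 0 ≤ B₁ * B₂ := by positivity
    have c3 : X ^ (0.45 : ℝ) ≤ B₁ * B₂ := by
      refine le_of_mul_le_mul_left ?_ p2
      rw [← Real.rpow_add hX0, show (0.51 : ℝ) + 0.45 = 0.96 by norm_num]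
      have d1 : (nm u : ℝ) * nm v ≤ 2 * B₁ * (2 * B₂) :=
        mul_le_mul b3 b8 (Nat.cast_nonneg _) (by linarith)
      have d2 : (nm a : ℝ) ≤ 2 * X ^ (0.51 : ℝ) := by
        linarith [e1 (show 1 / 2 + d ≤ 0.51 by linarith)]
      have d3 := mul_le_mul d2 d1 (by positivity) (by positivity)
      linarith
    refine ⟨by linarith, le_of_mul_le_mul_left ?_ p3, c3, le_of_mul_le_mul_left ?_ p1⟩
    · rw [← Real.rpow_add hX0, show (0.35 : ℝ) + 0.1 = 0.45 by norm_num]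
      exact c3.trans (mul_le_mul_of_nonneg_right (by linarith) (by linarith))
    · rw [← Real.rpow_add hX0, show 1 / 2 - d + (1 / 2 + d) = 1 by ring, Real.rpow_one]
      exact (mul_le_mul (hR.trans b9.le) (mul_le_mul b2.le b7.le (by linarith)
        (Nat.cast_nonneg _)) p4 (Nat.cast_nonneg _)).trans h5

theorem cg2_split {X W : ℝ} (ρ f g : O → ℂ) : S1 (X / 2) X (cv ρ (cv f g)) =
    S1 (X / 2) X (cv ρ (cv (rw' f 0 W) g)) + S1 (X / 2) X (cv ρ (cv (rw' f W X) g)) := by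
  rw [(EqX.rfl.cv ((rw_split (W := W) f).cv EqX.rfl)).S1 le_rfl, cv_comm _ g, cv_add, cv_add,
    S1_add, cv_comm g, cv_comm g]

theorem cg2_mid (h2 : RIIStmt) (hb' : TIIbStmt) (hb : SIBase) : ∃ c η : ℝ, 0 < c ∧ 0 < η ∧
    ∀ η₀ : ℝ, 0 < η₀ → η₀ ≤ η → ∀ᶠ X : ℝ in atTop, ∀ (R : ℝ) (ρ : O → ℂ), X ^ (1 / 2 - c) ≤ R →
      R ≤ X ^ (1 / 2 + c) → Supp 2 R ρ → Bd (X ^ η) ρ →
        ‖S1 (X / 2) X (cv ρ (rw' (ga X (X ^ η₀)) (YY X) X))‖ ≤ X ^ (5 / 6 - η) := by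
  obtain ⟨c₁, η₁, hc₁, hη₁, h₁⟩ := h2
  obtain ⟨c₂, η₂, hc₂, hc₂', hη₂, h₂⟩ := cg2_box hb' hb
  have hm : 0 < min η₁ η₂ := by positivity
  have m1 := min_le_left η₁ η₂
  have m2 := min_le_right η₁ η₂
  have m3 := min_le_left c₁ c₂
  have m4 := min_le_right c₁ c₂
  refine ⟨min c₁ c₂, min η₁ η₂ / 2, by positivity, by positivity, fun η₀ h0 h1 => ?_⟩
  filter_upwards [h₁ η₀ h0 (by linarith), h₂, cg2_absorb hm,
    cg2_ev1 4 (show (0.51 : ℝ) + (1 / 3 + 0.0005) < 1 by norm_num), eventually_ge_atTop (1 : ℝ)]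
    with X a1 a2 a3 a4 hX R ρ hR hR' hS hB
  have hX0 : 0 < X := by linarith
  have e1 : ∀ {a b : ℝ}, a ≤ b → X ^ a ≤ X ^ b := fun h => Real.rpow_le_rpow_of_exponent_le hX h
  have b1 : 2 * (2 * R * YY X) ≤ X := by
    have d1 : R * YY X ≤ X ^ (0.51 : ℝ) * YY X :=
      mul_le_mul_of_nonneg_right (hR'.trans (e1 (by linarith))) (Real.rpow_nonneg hX0.le _)
    rw [Real.rpow_add hX0] at a4
    change 4 * (X ^ (0.51 : ℝ) * YY X) ≤ X at a4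
    linarith
  rw [cg2_congr hX (fun n hn => (hS n hn).2.2) b1, cg2_split (W := X ^ (0.004 : ℝ))]
  have b2 := a1 R (X / 2) X ρ (rw' (la X (X ^ η₀) 0) 0 (X ^ (0.004 : ℝ)))
    ((e1 (by linarith)).trans hR) (hR'.trans (e1 (by linarith))) le_rfl le_rfl hS
    (cg2_bd hX (by linarith) hB)
    ((((bd_hf 1 _ X).rw' _ _).rw' _ _).mono (Real.one_le_rpow hX hη₁.le))
    fun n hn => (rw_ne_zero hn).2.2
  have b3 := S1_box2 (E := X ^ (5 / 6 - min η₁ η₂)) hX (le_refl X) ρ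
    (rw' (la X (X ^ η₀) 0) (X ^ (0.004 : ℝ)) X) (ro X (X ^ η₀)) fun B B' c1 _ c2 _ =>
    (a2 (X ^ η₀) R B B' ρ ((e1 (by linarith)).trans hR) (hR'.trans (e1 (by linarith))) hS
      (cg2_bd hX (by linarith) hB) c1 c2).trans (cg2_le hX m2)
  refine (norm_add_le _ _).trans (le_trans ?_ a3)
  linarith [cg2_le hX m1]

theorem g2 (h2 : RIIStmt) (ha : TIIaStmt) (hb' : TIIbStmt) (hb : SIBase) (hg : SIgaStmt) :
    G2Stmt := by
  intro η₁ hη₁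
  obtain ⟨c, η₃, hc, hη₃, h₃⟩ := cg2_mid h2 hb' hb
  obtain ⟨η₄, hη₄, h₄⟩ := cg2_large ha hg hc
  obtain ⟨η₅, hη₅, h₅⟩ := cg2_small ha hc hη₁
  refine ⟨min η₃ (min η₄ η₅), by positivity, fun η₀ h0 h1 => ?_⟩
  have m3 := min_le_left η₃ (min η₄ η₅)
  have m4 := (min_le_right η₃ (min η₄ η₅)).trans (min_le_left _ _)
  have m5 := (min_le_right η₃ (min η₄ η₅)).trans (min_le_right _ _)
  filter_upwards [h₃ η₀ h0 (h1.trans m3), h₄, h₅, eventually_ge_atTop (1 : ℝ)]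
    with X a3 a4 a5 hX R ρ hR hS hB hI
  by_cases c1 : X ^ (1 / 2 + c) ≤ R
  · exact (a4 _ R ρ c1 hS (cg2_bd hX m4 hB)).trans (cg2_le hX m4)
  by_cases c2 : R ≤ X ^ (1 / 2 - c)
  · exact (a5 _ R ρ hR c2 hS (cg2_bd hX m5 hB) hI).trans (cg2_le hX m5)
  · exact (a3 R ρ (not_le.1 c2).le (not_le.1 c1).le hS (cg2_bd hX m3 hB)).trans (cg2_le hX m3)

theorem g12 (h1 : G1Stmt) (h2 : G2Stmt) : G12Stmt := by
  intro η₁ hη₁
  obtain ⟨η₂, hη₂, h₂⟩ := h1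
  obtain ⟨η₃, hη₃, h₃⟩ := h2 η₁ hη₁
  have hm : 0 < min η₂ η₃ := by positivity
  have m1 := min_le_left η₂ η₃
  have m2 := min_le_right η₂ η₃
  refine ⟨min η₂ η₃ / 2, by positivity, fun η₀ h0 h1 => ?_⟩
  filter_upwards [h₂ η₀ h0 (by linarith), h₃ η₀ h0 (by linarith), cg2_absorb hm,
    cg2_ev1 2 (show (1 / 3 + 0.0005 : ℝ) + (1 / 3 + 0.0005) < 1 by norm_num),
    eventually_ge_atTop (1 : ℝ)] with X a1 a2 a3 a4 hX ρ hS hB hI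
  have hX0 : 0 < X := by linarith
  have hE : 0 ≤ X ^ (5 / 6 - min η₂ η₃) := by positivity
  rw [Real.rpow_add hX0] at a4
  have b1 : Le (YY X) (rw' ρ 0 (YY X)) := fun n hn => (rw_ne_zero hn).2.2
  rw [((rw_split (W := YY X) ρ).cv EqX.rfl).S1 le_rfl, cv_comm, cv_add, S1_add,
    cv_comm _ (rw' ρ 0 (YY X)), cg2_congr hX b1 a4]
  have b2 := a1 0 (X / 2) X (rw' ρ 0 (YY X)) le_rfl le_rfl
    ((cg2_bd hX (by linarith) hB).rw' _ _) b1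
  have b3 := S1_box (E := X ^ (5 / 6 - min η₂ η₃)) (x₁ := X / 2) hX (le_refl X)
    (rw' (ga X (X ^ η₀)) (YY X) X) (rw' ρ (YY X) X) fun B c1 _ => by
      by_cases hh : YY X / 2 ≤ B
      · rw [cv_comm]
        exact (a2 B _ hh (supp_rw (fun n hn => hS n (rw_ne_zero hn).1) (by linarith) le_rfl)
          (((cg2_bd hX (by linarith) hB).rw' _ _).rw' _ _) (hI.rw' _ _)).trans (cg2_le hX m2)
      · rw [S1_cv_eq_zero fun a b _ _ _ h3 _ _ => hh ?_, norm_zero]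
        · exact hE
        obtain ⟨d1, -, d2⟩ := rw_ne_zero h3
        linarith [(rw_ne_zero d1).2.1]
  refine (norm_add_le _ _).trans (le_trans ?_ a3)
  linarith [cg2_le hX m1, mul_le_mul_of_nonneg_right (cg2_nb X) hE]

end Vale.Agent.P006
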