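import Vale.Agent.P006.CBox
import Vale.Agent.P006.CSI

/-! C10: the narrow range.  Box all three variables, `T2NStmt` with the largest box as `β`, `geom_min`. -/

namespace Vale.Agent.P006

open Vale.Agent.P026 Filter
open scoped ComplexConjugate Real

theorem Nar_cv_sq (f g : O → ℂ) (Z : ℝ) {τ : ℝ} (hτ : 0 ≤ τ) (h : ∀ n, cv f g n ≠ 0 → tau n ≤ τ) :
    ∑ n ∈ qball Z, ‖cv f g n‖ ^ 2 ≤
      τ * ((∑ n ∈ qball Z, ‖f n‖ ^ 2) * ∑ n ∈ qball Z, ‖g n‖ ^ 2) := by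
  have h1 : ∀ n ∈ qball Z, ‖cv f g n‖ ^ 2 ≤ τ * ∑ d ∈ pdiv n, ‖f d‖ ^ 2 * ‖g (n / d)‖ ^ 2 := by
    intro n hn
    by_cases h0 : cv f g n = 0
    · rw [h0, norm_zero, zero_pow two_ne_zero]; positivity
    have h2 : ‖cv f g n‖ ≤ ∑ d ∈ pdiv n, ‖f d‖ * ‖g (n / d)‖ := by
      unfold cv
      rw [ind_of (mem_qball.1 hn).1, one_mul]
      exact (norm_sum_le _ _).trans (le_of_eq (Finset.sum_congr rfl fun d _ => norm_mul _ _))
    refine (pow_le_pow_left₀ (norm_nonneg _) h2 2).trans (sq_sum_le_card_mul_sum_sq.trans ?_)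
    simp only [mul_pow]
    exact mul_le_mul_of_nonneg_right (h n h0) (by positivity)
  refine (Finset.sum_le_sum h1).trans ?_
  rw [← Finset.mul_sum]
  refine mul_le_mul_of_nonneg_left ?_ hτ
  have h3 := sum_cv Z (fun a => ((‖f a‖ ^ 2 : ℝ) : ℂ)) (fun b => ((‖g b‖ ^ 2 : ℝ) : ℂ)) fun _ => 1
  have h4 : ∑ n ∈ qball Z, cv (fun a => ((‖f a‖ ^ 2 : ℝ) : ℂ)) (fun b => ((‖g b‖ ^ 2 : ℝ) : ℂ)) n * 1 =
      ((∑ n ∈ qball Z, ∑ d ∈ pdiv n, ‖f d‖ ^ 2 * ‖g (n / d)‖ ^ 2 : ℝ) : ℂ) := by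
    rw [Complex.ofReal_sum]
    refine Finset.sum_congr rfl fun n hn => ?_
    unfold cv
    rw [ind_of (mem_qball.1 hn).1, one_mul, mul_one, Complex.ofReal_sum]
    exact Finset.sum_congr rfl fun d _ => (Complex.ofReal_mul _ _).symm
  rw [h4] at h3
  refine le_trans (le_abs_self _) ?_
  rw [← Real.norm_eq_abs, ← Complex.norm_real, h3, Finset.sum_mul_sum]
  refine (norm_sum_le _ _).trans (Finset.sum_le_sum fun a _ => ?_)
  refine (norm_sum_le _ _).trans (Finset.sum_le_sum fun b _ => ?_)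
  rw [norm_mul, mul_one, ← Complex.ofReal_mul, Complex.norm_real, Real.norm_of_nonneg (by positivity)]
  exact mul_le_of_le_one_left (by positivity) (norm_ind_le _)

/-- the weight of a box -/
noncomputable def nmw (X M : ℝ) : ℝ := min (M ^ 3 / X) (X / M ^ 3) ^ (1 / 90 : ℝ)

theorem Nar_min {X M M' B : ℝ} (hX : 0 < X) (hM : 0 < M) (hM' : 0 < M') (h1 : M ≤ B) (h2 : M' ≤ B)
    {N : ℝ} (hN : 0 < N) (h3 : N ≤ B) (h4 : X / 16 ≤ M * M' * N) :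
    1 / (4096 * (B ^ 3 / X) ^ 2) ≤ min (M ^ 3 / X) (X / M ^ 3) := by
  have hB : 0 < B := hM.trans_le h1
  have h5 : X / 16 ≤ M * B * B := h4.trans (by gcongr)
  have h6 : X / 16 ≤ B ^ 3 := h5.trans (by rw [pow_three']; gcongr)
  refine le_min ?_ ?_
  · have h7 : (X / 16) ^ 3 ≤ (M * B * B) ^ 3 := pow_le_pow_left₀ (by positivity) h5 3
    rw [div_le_div_iff₀ (by positivity) hX, div_pow, ← mul_div_assoc, ← mul_div_assoc,
      le_div_iff₀ (by positivity)]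
    nlinarith
  · have h7 : M ^ 3 ≤ B ^ 3 := pow_le_pow_left₀ hM.le h1 3
    refine le_trans ?_ (div_le_div_of_nonneg_left hX.le (by positivity) h7)
    rw [div_le_div_iff₀ (by positivity) (by positivity), div_pow, ← mul_div_assoc, ← mul_div_assoc,
      le_div_iff₀ (by positivity)]
    have h8 : 0 < B ^ 3 * X := by positivity
    nlinarith

theorem Nar_num {X M M' B : ℝ} (hX : 0 < X) (hM : 0 < M) (hM' : 0 < M') (h1 : M ≤ B) (h2 : M' ≤ B)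
    (h4 : X / 16 ≤ M * M' * B) : √(X / B) * (1 + (B ^ 3 / X) ^ (1 / 10 : ℝ)) ≤
      6 * X ^ (1 / 3 : ℝ) * (nmw X M * nmw X M' * nmw X B) := by
  have hB : 0 < B := hM.trans_le h1
  have hk : 0 < B ^ 3 / X := by positivity
  obtain ⟨s, hs0, hs⟩ : ∃ s : ℝ, 0 < s ∧ s ^ 30 = B ^ 3 / X :=
    ⟨(B ^ 3 / X) ^ ((30 : ℕ) : ℝ)⁻¹, by positivity, Real.rpow_inv_natCast_pow hk.le (by norm_num)⟩
  obtain ⟨x, hx0, hx, hx'⟩ : ∃ x : ℝ, 0 < x ∧ x ^ 3 = X ∧ X ^ (1 / 3 : ℝ) = x :=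
    ⟨_, by positivity, by rw [← Real.rpow_natCast, ← Real.rpow_mul hX.le]; norm_num, rfl⟩
  have e1 : s ^ 10 = B / x := by
    refine (pow_left_inj₀ (by positivity) (by positivity) three_ne_zero).1 ?_
    rw [← pow_mul, hs, div_pow, hx]
  have e2 : √(X / B) = x / s ^ 5 := by
    rw [Real.sqrt_eq_iff_mul_self_eq (by positivity) (by positivity), div_mul_div_comm, ← pow_add, e1,
      ← hx]
    field_simp
  have e3 : (B ^ 3 / X) ^ (1 / 10 : ℝ) = s ^ 3 := by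
    rw [← hs, ← Real.rpow_natCast, ← Real.rpow_mul hs0.le, ← Real.rpow_natCast]; norm_num
  have e4 : 1 / 2 ≤ s ^ 3 := by
    refine le_of_pow_le_pow_left₀ (n := 10) (by norm_num) (by positivity) ?_
    rw [← pow_mul, hs, le_div_iff₀ hX]
    have h5 : X / 16 ≤ B ^ 3 := h4.trans (by rw [pow_three']; gcongr)
    linarith
  obtain ⟨q, hq⟩ : ∃ q, q = 1 / (4096 * (B ^ 3 / X) ^ 2) := ⟨_, rfl⟩
  have hq0 : 0 < q := by rw [hq]; positivity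
  have a1 : q ^ (1 / 90 : ℝ) ≤ nmw X M :=
    Real.rpow_le_rpow hq0.le (hq ▸ Nar_min hX hM hM' h1 h2 hB le_rfl h4) (by norm_num)
  have a2 : q ^ (1 / 90 : ℝ) ≤ nmw X M' :=
    Real.rpow_le_rpow hq0.le (hq ▸ Nar_min hX hM' hM h2 h1 hB le_rfl (by linarith)) (by norm_num)
  have a3 : q ^ (1 / 90 : ℝ) ≤ nmw X B :=
    Real.rpow_le_rpow hq0.le (hq ▸ Nar_min hX hB hM le_rfl h1 hM' h2 (by linarith)) (by norm_num)
  have a0 : 0 < q ^ (1 / 90 : ℝ) := by positivity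
  have a4 : 1 / (2 * s ^ 2) ≤ q ^ (1 / 90 : ℝ) * q ^ (1 / 90 : ℝ) * q ^ (1 / 90 : ℝ) := by
    refine le_of_pow_le_pow_left₀ (n := 30) (by norm_num) (by positivity) ?_
    rw [← pow_three', ← pow_mul, ← Real.rpow_natCast (q ^ _), ← Real.rpow_mul hq0.le]
    norm_num
    rw [hq, ← hs, mul_pow, inv_pow, ← pow_mul, ← pow_mul, one_div (4096 * _), mul_inv, mul_comm]
    exact mul_le_mul_of_nonneg_right (by norm_num) (by positivity)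
  have a5 : 1 / (2 * s ^ 2) ≤ nmw X M * nmw X M' * nmw X B :=
    a4.trans (mul_le_mul (mul_le_mul a1 a2 a0.le (a0.le.trans a1)) a3 a0.le
      (mul_nonneg (a0.le.trans a1) (a0.le.trans a2)))
  rw [e2, e3, hx']
  refine le_trans ?_ (mul_le_mul_of_nonneg_left a5 (by positivity))
  rw [div_mul_eq_mul_div, mul_one_div, div_le_div_iff₀ (by positivity) (by positivity)]
  have a6 : 0 < x * s ^ 2 := by positivity
  nlinarith

/-- a good box -/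
def NG (X y η C M b w : ℝ) (f : O → ℂ) : Prop :=
  Supp 2 M f ∧ Bd b f ∧ 1 ≤ b ∧ 0 ≤ w ∧ (∀ n, f n ≠ 0 → ro X y n ≠ 0) ∧ SI X 10 η η f ∧
    ∀ Z, ∑ n ∈ qball Z, ‖f n‖ ^ 2 ≤ C * M * w

/-- the conclusion of `T2NStmt` -/
def T2Nat (X η τ C : ℝ) : Prop :=
  ∀ (B x₁ x₂ : ℝ) (α β : O → ℂ), X ^ (1 / 3 : ℝ) / 100 ≤ B → B ≤ X ^ (0.34 : ℝ) → X / 2 ≤ x₁ →
    x₂ ≤ X → Supp 16 B β → Bd (Real.log X ^ 2) α → Bd (Real.log X ^ 2) β →
    (∀ b, β b ≠ 0 → tau b ≤ τ) → (∀ y₁ y₂ : ℝ, SW X B η fun b => β b * win y₁ y₂ b) →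
      ‖S1 x₁ x₂ (cv α β)‖ ≤ C * Real.log (Real.log X) * √(∑ a ∈ qball (X / B), ‖α a‖ ^ 2) *
        √(∑ b ∈ qball (16 * B), ‖β b‖ ^ 2) * √(X / B) * (1 + (B ^ 3 / X) ^ (1 / 10 : ℝ)) +
        X ^ (5 / 6 : ℝ) / Real.log X ^ 10

theorem Nar_core {η C C₂ : ℝ} (hη : 0 < η) (hC : 1 ≤ C) (hC₂ : 0 < C₂) : ∀ᶠ X : ℝ in atTop,
    T2Nat X (η / 2) C C₂ → ∀ y : ℝ, (∀ n, ro X y n ≠ 0 → (nm n : ℝ) ≤ X → tau n ≤ C) →
    ∀ (M₁ M₂ B b₁ b₂ b₃ w₁ w₂ w₃ : ℝ) (f₁ f₂ f₃ : O → ℂ), NG X y η C M₁ b₁ w₁ f₁ →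
      NG X y η C M₂ b₂ w₂ f₂ → NG X y η C B b₃ w₃ f₃ → b₁ * b₂ * b₃ ≤ C ^ 2 * Real.log X →
      w₁ * w₂ * w₃ = 1 / Real.log X → 0 < M₁ → 0 < M₂ → M₁ ≤ B → M₂ ≤ B → B ≤ X ^ (0.34 : ℝ) →
      X / 16 ≤ M₁ * M₂ * B → M₁ * M₂ * B ≤ X →
      ‖S1 (X / 2) X (cv f₁ (cv f₂ f₃))‖ ≤ 6 * C₂ * C ^ 2 * (Real.log (Real.log X) / √(Real.log X)) *
        X ^ (5 / 6 : ℝ) * (nmw X M₁ * nmw X M₂ * nmw X B) + X ^ (5 / 6 : ℝ) / Real.log X ^ 10 := by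
  filter_upwards [SI.sw hη, ev_const 16 (show (0 : ℝ) < 0.3 by norm_num),
    Real.tendsto_log_atTop.eventually_ge_atTop (C ^ 3), eventually_ge_atTop (1 : ℝ)]
    with X hsw h16 hl hX H y hτ M₁ M₂ B b₁ b₂ b₃ w₁ w₂ w₃ f₁ f₂ f₃ g1 g2 g3 hb hw p1 p2 l1 l2 l3 l4 l5
  obtain ⟨s1, d1, o1, w1, r1, -, n1⟩ := g1
  obtain ⟨s2, d2, o2, w2, r2, -, n2⟩ := g2
  obtain ⟨s3, d3, o3, w3, r3, i3, n3⟩ := g3
  have hX0 : 0 < X := by linarith
  have hB : 0 < B := p1.trans_le l1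
  have hC3 : 1 ≤ C ^ 3 := one_le_pow₀ hC
  have hl0 : 0 < Real.log X := by linarith
  have hBB : 16 * (X ^ (0.34 : ℝ) * X ^ (0.34 : ℝ)) ≤ X := by
    refine le_trans (mul_le_mul_of_nonneg_right h16 (by positivity)) ?_
    rw [← Real.rpow_add hX0, ← Real.rpow_add hX0]
    refine le_trans (Real.rpow_le_rpow_of_exponent_le hX (show _ ≤ (1 : ℝ) by norm_num)) ?_
    rw [Real.rpow_one]
  have h1 : 1 ≤ X ^ (0.34 : ℝ) := Real.one_le_rpow hX (by norm_num)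
  have hB16 : 16 * B ≤ X := by nlinarith
  have s3' : ∀ y₁ y₂, Supp 16 B (rw' f₃ y₁ y₂) := fun y₁ y₂ b hb' =>
    have h := s3 b (rw_ne_zero hb').1
    ⟨h.1, h.2.1, by linarith [h.2.2]⟩
  have t12 : ∀ n, cv f₁ f₂ n ≠ 0 → tau n ≤ C := by
    intro n hn
    have h2 := (Supp.cv p1.le p2.le s1 s2 n hn).2.2
    obtain ⟨hq, a, b, ha, hb', rfl, fa, fb⟩ := cv_ne_zero hn
    refine hτ _ ?_ (h2.trans ?_)
    · unfold ro
      rw [hf_mul _ _ _ ha hb' hq.coprime]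
      exact mul_ne_zero (r1 a fa) (r2 b fb)
    · have := mul_le_mul (l1.trans l3) (l2.trans l3) p2.le (by positivity)
      nlinarith
  have hlog : C * (C ^ 2 * Real.log X) ≤ Real.log X ^ 2 := by nlinarith
  have hb12 : 1 ≤ b₁ * b₂ := one_le_mul_of_one_le_of_one_le o1 o2
  have hb3 : b₃ ≤ Real.log X ^ 2 := by
    have k1 : 1 * b₃ ≤ b₁ * b₂ * b₃ := mul_le_mul_of_nonneg_right hb12 (by linarith)
    have k2 : 1 * (C ^ 2 * Real.log X) ≤ C * (C ^ 2 * Real.log X) :=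
      mul_le_mul_of_nonneg_right hC (by positivity)
    linarith
  have key := H B (X / 2) X (cv f₁ f₂) f₃ ?_ l3 le_rfl le_rfl
    (fun b hb' => ⟨(s3 b hb').1, (s3 b hb').2.1, by linarith [(s3 b hb').2.2]⟩) ?_
    (d3.mono hb3) (fun b hb' => hτ b (r3 b hb') (by linarith [(s3 b hb').2.2]))
    fun y₁ y₂ => hsw B _ hB hB16 (s3' y₁ y₂) (i3.rw' y₁ y₂)
  · rw [cv_assoc] at key
    refine key.trans (add_le_add_left ?_ _)
    have k1 : √(∑ a ∈ qball (X / B), ‖cv f₁ f₂ a‖ ^ 2) * √(∑ b ∈ qball (16 * B), ‖f₃ b‖ ^ 2) ≤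
        C ^ 2 * (√X / √(Real.log X)) := by
      rw [← Real.sqrt_mul (by positivity), ← Real.sqrt_div hX0.le]
      refine Real.sqrt_le_iff.2 ⟨by positivity, ?_⟩
      rw [mul_pow, Real.sq_sqrt (by positivity)]
      have k2 := (Nar_cv_sq f₁ f₂ (X / B) (by linarith) t12).trans (mul_le_mul_of_nonneg_left
        (mul_le_mul (n1 _) (n2 _) (by positivity) (by positivity)) (by linarith))
      refine (mul_le_mul k2 (n3 _) (by positivity) (by positivity)).trans ?_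
      calc C * (C * M₁ * w₁ * (C * M₂ * w₂)) * (C * B * w₃)
          = (C ^ 2) ^ 2 * (M₁ * M₂ * B * (w₁ * w₂ * w₃)) := by ring
        _ ≤ _ := by
          rw [hw, mul_one_div]; gcongr
    have k3 := Nar_num hX0 p1 p2 l1 l2 l4
    have k4 : 0 ≤ C₂ * Real.log (Real.log X) := mul_nonneg hC₂.le (Real.log_nonneg (by linarith))
    have k5 : X ^ (5 / 6 : ℝ) = √X * X ^ (1 / 3 : ℝ) := by
      rw [Real.sqrt_eq_rpow, ← Real.rpow_add hX0]; norm_num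
    have k6 := mul_le_mul_of_nonneg_left (mul_le_mul k1 k3 (by positivity) (by positivity)) k4
    rw [k5]
    refine le_trans (le_of_eq (by ring)) (k6.trans (le_of_eq (by ring)))
  · refine le_of_pow_le_pow_left₀ three_ne_zero hB.le ?_
    have h5 : X / 16 ≤ B ^ 3 := l4.trans (by rw [pow_three']; gcongr)
    rw [div_pow, ← Real.rpow_natCast, ← Real.rpow_mul hX0.le]
    norm_num
    linarith
  · intro n
    by_cases hn : cv f₁ f₂ n = 0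
    · rw [hn, norm_zero]; positivity
    refine (norm_cv_le d1 d2 n).trans (le_trans ?_ hlog)
    exact mul_le_mul (t12 n hn) (by nlinarith) (by linarith) (by linarith)

theorem Nar_nrm (f : O → ℂ) (Y M Z : ℝ) : ∑ n ∈ qball Z, ‖rw' (rw' f 0 Y) M (2 * M) n‖ ^ 2 ≤
    ∑ n ∈ qball Z, ‖rw' f M (2 * M) n‖ ^ 2 := by
  refine Finset.sum_le_sum fun n _ => pow_le_pow_left₀ (norm_nonneg _) ?_ 2
  unfold rw'
  rw [mul_right_comm, norm_mul]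
  exact mul_le_of_le_one_right (norm_nonneg _) (norm_win_le _ _ _)

theorem Nar_ga {X y η C M : ℝ} (hX : 1 ≤ X) (hC : 1 ≤ C) (hM : 0 ≤ M) (hY : YY X ≤ X)
    (hτ : ∀ n, ro X y n ≠ 0 → (nm n : ℝ) ≤ X → tau n ≤ C) (hs : SI X 10 η η (ga X y))
    (hn : ∀ Z, ∑ n ∈ qball Z, ‖rw' (ga X y) M (2 * M) n‖ ^ 2 ≤ C * M / Real.log X) :
    NG X y η C M C (1 / Real.log X) (rw' (rw' (ga X y) 0 (YY X)) M (2 * M)) := by
  have hl := Real.log_nonneg hX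
  refine ⟨supp_rw (fun n h => (ga_ne_zero hX (rw_ne_zero h).1).1) hM le_rfl, ?_, hC, by positivity,
    fun n h => (ga_ne_zero hX (rw_ne_zero (rw_ne_zero h).1).1).2.2, (hs.rw' _ _).rw' _ _,
    fun Z => (Nar_nrm _ _ _ _).trans ((hn Z).trans (le_of_eq (by ring)))⟩
  refine Bd.rw' (fun n => ?_) _ _
  by_cases h : rw' (ga X y) 0 (YY X) n = 0
  · rw [h, norm_zero]; linarith
  obtain ⟨h1, h2, h3⟩ := rw_ne_zero h
  obtain ⟨-, h4, h5⟩ := ga_ne_zero hX h1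
  have h6 : n ≠ 1 := by
    rintro rfl
    rw [nm_one, Nat.cast_one] at h4
    exact absurd (Real.one_le_rpow hX (by norm_num)) (not_le.2 h4)
  rw [rw_of h2 h3, ga_of_ne h6]
  refine (norm_cv_le ((bd_hf 1 y X).rw' 0 (zz X)) (bd_hf 0 y X) n).trans ?_
  rw [mul_one, mul_one]
  exact hτ n h5 (h3.trans hY)

theorem Nar_L {X y η C M : ℝ} (hX : 1 ≤ Real.log X) (hX' : 1 ≤ X) (hM : 0 ≤ M)
    (hs : ∀ v₁ v₂, M ≤ v₁ → SI X 10 η η (rw' Lam v₁ v₂))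
    (hn : ∀ Z, ∑ n ∈ qball Z, ‖rw' (Lr X y) M (2 * M) n‖ ^ 2 ≤ C * M * Real.log X) :
    NG X y η C M (Real.log X) (Real.log X) (rw' (rw' (Lr X y) 0 (YY X)) M (2 * M)) := by
  refine ⟨supp_rw (fun n h => (Lam_sq (rw_ne_zero (rw_ne_zero h).1).1).sq) hM le_rfl,
    ((bd_Lr hX').rw' _ _).rw' _ _, hX, by linarith, fun n h => ?_, ?_,
    fun Z => (Nar_nrm _ _ _ _).trans (hn Z)⟩
  · obtain ⟨h1, h2, h3⟩ := rw_ne_zero (rw_ne_zero (rw_ne_zero h).1).1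
    have h4 := Lam_sq h1
    unfold ro hf
    rw [ind_of h4.sq, pow_zero, ind_of]
    · norm_num
    intro p hp hd
    have h5 : nm p = nm n := le_antisymm (nm_le_of_dvd h4.1.ne_zero hd)
      (nm_le_of_dvd hp.ne_zero (hp.associated_of_dvd h4.1 hd).symm.dvd)
    rw [h5]
    exact ⟨h2, h3⟩
  · unfold Lr
    rw [rw_rw, rw_rw]
    exact hs _ _ ((le_max_right _ _).trans (le_max_right _ _))

theorem Nar_box3 (X : ℝ) (f₁ f₂ f₃ : O → ℂ) : S1 (X / 2) X (cv f₁ (cv f₂ f₃)) =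
    ∑ i ∈ Finset.range (nb X), ∑ j ∈ Finset.range (nb X), ∑ k ∈ Finset.range (nb X),
      S1 (X / 2) X (cv (rw' f₁ (2 ^ i / 2) (2 * (2 ^ i / 2))) (cv (rw' f₂ (2 ^ j / 2) (2 * (2 ^ j / 2)))
        (rw' f₃ (2 ^ k / 2) (2 * (2 ^ k / 2))))) := by
  rw [cv_comm, S1_box_eq le_rfl]
  refine Finset.sum_congr rfl fun i _ => ?_
  rw [cv_assoc, cv_comm, S1_box_eq le_rfl]
  refine Finset.sum_congr rfl fun j _ => ?_
  rw [cv_assoc, cv_comm, S1_box_eq le_rfl]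
  refine Finset.sum_congr rfl fun k _ => ?_
  rw [cv_assoc]

theorem Nar_range {X Y M₁ M₂ M₃ : ℝ} {f₁ f₂ f₃ : O → ℂ} (p1 : 0 < M₁) (p2 : 0 < M₂) (p3 : 0 < M₃)
    (h : S1 (X / 2) X (cv (rw' (rw' f₁ 0 Y) M₁ (2 * M₁)) (cv (rw' (rw' f₂ 0 Y) M₂ (2 * M₂))
      (rw' (rw' f₃ 0 Y) M₃ (2 * M₃)))) ≠ 0) :
    M₁ ≤ Y ∧ M₂ ≤ Y ∧ M₃ ≤ Y ∧ X / 16 ≤ M₁ * M₂ * M₃ ∧ M₁ * M₂ * M₃ ≤ X := by
  by_contra hc
  refine h (S1_cv_eq_zero fun a b _ _ fa fb h1 h2 => hc ?_)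
  obtain ⟨-, u, v, -, -, rfl, fu, fv⟩ := cv_ne_zero fb
  obtain ⟨a1, a2, a3⟩ := rw_ne_zero fa
  obtain ⟨u1, u2, u3⟩ := rw_ne_zero fu
  obtain ⟨v1, v2, v3⟩ := rw_ne_zero fv
  rw [nm_mul, Nat.cast_mul] at h1 h2
  have k1 : (nm a : ℝ) * (nm u * nm v) ≤ 2 * M₁ * (2 * M₂ * (2 * M₃)) := by gcongr
  have k2 : M₁ * (M₂ * M₃) ≤ (nm a : ℝ) * (nm u * nm v) := by gcongr
  exact ⟨a2.le.trans (rw_ne_zero a1).2.2, u2.le.trans (rw_ne_zero u1).2.2,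
    v2.le.trans (rw_ne_zero v1).2.2, by linarith, by linarith⟩

theorem Nar_term (ht : T2NStmt) (hn : NormStmt) (hb : SIBase) (hg : SIgaStmt) {η₀ : ℝ}
    (h0 : 0 < η₀) : ∃ K : ℝ, 0 < K ∧ ∀ᶠ X : ℝ in atTop, ∀ M₁ M₂ M₃ : ℝ, 0 < M₁ → 0 < M₂ → 0 < M₃ →
      ‖S1 (X / 2) X (cv (rw' (rw' (ga X (X ^ η₀)) 0 (YY X)) M₁ (2 * M₁))
        (cv (rw' (rw' (ga X (X ^ η₀)) 0 (YY X)) M₂ (2 * M₂))
          (rw' (rw' (Lr X (X ^ η₀)) 0 (YY X)) M₃ (2 * M₃))))‖ ≤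
      K * (Real.log (Real.log X) / √(Real.log X)) * X ^ (5 / 6 : ℝ) *
        (nmw X M₁ * nmw X M₂ * nmw X M₃) + X ^ (5 / 6 : ℝ) / Real.log X ^ 10 := by
  obtain ⟨C, hC, Hn⟩ := hn η₀ h0
  obtain ⟨ηb, hηb, Hb⟩ := hb 0.3 (by norm_num)
  obtain ⟨ηg, hηg, Hg⟩ := hg
  obtain ⟨η, e0, e1, e2⟩ : ∃ η : ℝ, 0 < η ∧ η ≤ ηb ∧ η ≤ ηg :=
    ⟨min ηb ηg, by positivity, min_le_left _ _, min_le_right _ _⟩
  obtain ⟨C₂, hC₂, Ht⟩ := ht (η / 2) C (by positivity)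
  refine ⟨6 * C₂ * C ^ 2, by positivity, ?_⟩
  filter_upwards [Hn, Hb, Hg, Ht, Nar_core e0 hC hC₂, ev_const 16 (show (0 : ℝ) < 0.02 by norm_num),
    Real.tendsto_log_atTop.eventually_ge_atTop 1, eventually_ge_atTop (1 : ℝ)]
    with X Hn Hb Hg Ht Hc h16 hl hX M₁ M₂ M₃ p1 p2 p3
  have hX0 : 0 < X := by linarith
  have hl0 : 0 < Real.log X := by linarith
  have hll := Real.log_nonneg hl
  have hw : ∀ M, 0 < M → 0 ≤ nmw X M := fun M hM => by unfold nmw; positivity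
  by_cases hz : S1 (X / 2) X (cv (rw' (rw' (ga X (X ^ η₀)) 0 (YY X)) M₁ (2 * M₁))
      (cv (rw' (rw' (ga X (X ^ η₀)) 0 (YY X)) M₂ (2 * M₂))
        (rw' (rw' (Lr X (X ^ η₀)) 0 (YY X)) M₃ (2 * M₃)))) = 0
  · have := hw _ p1; have := hw _ p2; have := hw _ p3
    rw [hz, norm_zero]; positivity
  obtain ⟨y1, y2, y3, l1, l2⟩ := Nar_range p1 p2 p3 hz
  have hY : YY X ≤ X ^ (0.34 : ℝ) := Real.rpow_le_rpow_of_exponent_le hX (by norm_num)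
  have h1 : 1 ≤ X ^ (0.34 : ℝ) := Real.one_le_rpow hX (by norm_num)
  have hYY : 16 * (X ^ (0.3 : ℝ) * X ^ (0.34 : ℝ) * X ^ (0.34 : ℝ)) ≤ X := by
    refine le_trans (mul_le_mul_of_nonneg_right h16 (by positivity)) (le_of_eq ?_)
    rw [← Real.rpow_add hX0, ← Real.rpow_add hX0, ← Real.rpow_add hX0]; norm_num
  have h3 : 1 ≤ X ^ (0.3 : ℝ) := Real.one_le_rpow hX (by norm_num)
  have h2Y : 2 * X ^ (0.34 : ℝ) ≤ X := by
    have := mul_le_mul_of_nonneg_right (one_le_mul_of_one_le_of_one_le h3 h1) (zero_le_one.trans h1)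
    linarith
  have low : ∀ a b c : ℝ, 0 < a → 0 < b → 0 < c → b ≤ YY X → c ≤ YY X → X / 16 ≤ a * b * c →
      X ^ (0.3 : ℝ) ≤ a := by
    intro a b c ha hb hc hb' hc' h
    have k : a * b * c ≤ a * X ^ (0.34 : ℝ) * X ^ (0.34 : ℝ) := by
      have := hb'.trans hY; have := hc'.trans hY; gcongr
    exact le_of_mul_le_mul_right (le_of_mul_le_mul_right (a := X ^ (0.34 : ℝ))
      (by linarith) (by positivity)) (show 0 < X ^ (0.34 : ℝ) by positivity)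
  have hSg := (Hg (X ^ η₀)).mono hX (show (10 : ℝ) ≤ 16 by norm_num) e2 e2
  have m1 := low _ _ _ p1 p2 p3 y2 y3 l1
  have m2 := low _ _ _ p2 p1 p3 y1 y3 (by linarith)
  have m3 := low _ _ _ p3 p1 p2 y1 y2 (by linarith)
  have g1 := Nar_ga hX hC p1.le (by linarith) Hn.1 hSg fun Z => (Hn.2 M₁ Z m1 (by linarith)).1
  have g2 := Nar_ga hX hC p2.le (by linarith) Hn.1 hSg fun Z => (Hn.2 M₂ Z m2 (by linarith)).1
  have g3 := Nar_L hl hX p3.le (fun v₁ v₂ hv => (Hb v₁ v₂ (m3.trans hv)).2.mono hX (by norm_num) e1 e1)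
    fun Z => (Hn.2 M₃ Z m3 (by linarith)).2
  have Hc' := Hc Ht _ Hn.1
  by_cases c1 : M₁ ≤ M₃ ∧ M₂ ≤ M₃
  · exact Hc' _ _ _ _ _ _ _ _ _ _ _ _ g1 g2 g3 (le_of_eq (by ring)) (by field_simp) p1 p2 c1.1 c1.2
      (y3.trans hY) l1 l2
  by_cases c2 : M₁ ≤ M₂
  · have c3 : M₃ ≤ M₂ := by
      by_contra h; exact c1 ⟨by linarith, by linarith⟩
    rw [cv_comm (rw' _ M₂ _), mul_right_comm (nmw X M₁)]
    exact Hc' _ _ _ _ _ _ _ _ _ _ _ _ g1 g3 g2 (le_of_eq (by ring)) (by field_simp) p1 p3 c2 c3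
      (y2.trans hY) (by linarith) (by linarith)
  · have c3 : M₃ ≤ M₁ := by
      by_contra h; exact c1 ⟨by linarith, by linarith⟩
    rw [cv_comm, cv_assoc, mul_rotate (nmw X M₁)]
    exact Hc' _ _ _ _ _ _ _ _ _ _ _ _ g2 g3 g1 (le_of_eq (by ring)) (by field_simp) p2 p3 (by linarith) c3
      (y1.trans hY) (by linarith) (by linarith)

theorem Nar_small (K : ℝ) {ε : ℝ} (hε : 0 < ε) : ∀ᶠ X : ℝ in atTop,
    K * (Real.log (Real.log X) / √(Real.log X)) + (2 * Real.log X) ^ 3 / Real.log X ^ 10 ≤ ε := by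
  have h1 : ∀ᶠ u : ℝ in atTop, K * (Real.log u / √u) + (2 * u) ^ 3 / u ^ 10 ≤ ε := by
    filter_upwards [ev_log (2 * K / ε) 1 (show (0 : ℝ) < 1 / 2 by norm_num),
      eventually_ge_atTop (1 : ℝ), eventually_ge_atTop (16 / ε)] with u h1 h2 h3
    have hu : 0 < u := by linarith
    rw [pow_one, ← Real.sqrt_eq_rpow, div_mul_eq_mul_div, div_le_iff₀ hε] at h1
    rw [div_le_iff₀ hε] at h3
    have k1 : K * (Real.log u / √u) ≤ ε / 2 := by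
      rw [← mul_div_assoc, div_le_iff₀ (by positivity)]; linarith
    have k2 : (2 * u) ^ 3 / u ^ 10 ≤ ε / 2 := by
      rw [div_le_iff₀ (by positivity)]
      have k3 : u ^ 4 ≤ u ^ 10 := pow_le_pow_right₀ h2 (by norm_num)
      have k4 := mul_le_mul_of_nonneg_right h3 (show 0 ≤ u ^ 3 by positivity)
      nlinarith
    linarith
  exact Real.tendsto_log_atTop.eventually h1

theorem nar (ht : T2NStmt) (hn : NormStmt) (hb : SIBase) (hg : SIgaStmt) : NarStmt := by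
  intro η₀ ε h0 _ hε
  obtain ⟨K, hK, H⟩ := Nar_term ht hn hb hg h0
  obtain ⟨G, hG, HG⟩ := geom_min (show (0 : ℝ) < 1 / 90 by norm_num)
  filter_upwards [H, Nar_small (K * G ^ 3) hε, nb_le, Real.tendsto_log_atTop.eventually_ge_atTop 1,
    eventually_ge_atTop (1 : ℝ)] with X H hs hnb hl hX
  have hX0 : 0 < X := by linarith
  have hll := Real.log_nonneg hl
  obtain ⟨W, hW⟩ : ∃ W, W = ∑ i ∈ Finset.range (nb X), nmw X (2 ^ i / 2) := ⟨_, rfl⟩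
  have hW0 : 0 ≤ W := hW ▸ Finset.sum_nonneg fun i _ => by unfold nmw; positivity
  have hWG : W ≤ G := hW ▸ HG X _ hX0
  obtain ⟨A, hA⟩ : ∃ A, A = K * (Real.log (Real.log X) / √(Real.log X)) * X ^ (5 / 6 : ℝ) := ⟨_, rfl⟩
  obtain ⟨E, hE⟩ : ∃ E, E = X ^ (5 / 6 : ℝ) / Real.log X ^ 10 := ⟨_, rfl⟩
  have hA0 : 0 ≤ A := by rw [hA]; positivity
  have hE0 : 0 ≤ E := by rw [hE]; positivity
  rw [← hA, ← hE] at H
  rw [Nar_box3]
  refine le_trans (norm_sum_le_of_le _ fun i _ => norm_sum_le_of_le _ fun j _ =>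
    norm_sum_le_of_le _ fun k _ => H _ _ _ (by positivity) (by positivity) (by positivity)) ?_
  have e : ∑ i ∈ Finset.range (nb X), ∑ j ∈ Finset.range (nb X), ∑ k ∈ Finset.range (nb X),
      (A * (nmw X (2 ^ i / 2) * nmw X (2 ^ j / 2) * nmw X (2 ^ k / 2)) + E) =
      A * W ^ 3 + (nb X : ℝ) ^ 3 * E := by
    simp only [Finset.sum_add_distrib, ← Finset.mul_sum, ← Finset.sum_mul, ← hW, Finset.sum_const,
      Finset.card_range, nsmul_eq_mul]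
    ring
  rw [e]
  have k1 : A * W ^ 3 ≤ A * G ^ 3 := by gcongr
  have k2 : (nb X : ℝ) ^ 3 * E ≤ (2 * Real.log X) ^ 3 * E := by gcongr
  have k3 := mul_le_mul_of_nonneg_right hs (show 0 ≤ X ^ (5 / 6 : ℝ) by positivity)
  refine le_trans (add_le_add k1 k2) (le_trans (le_of_eq ?_) k3)
  rw [hA, hE]; ring

end Vale.Agent.P006
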