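import Vale.Agent.P006.CAlg

/-! C3: splitting a smooth number at a prime.
Plan for `split`: fix `n ∈ Sq`.  Both sides are sums over `r ∣ n` (with `n = r u`, `u` smooth).  For `N n > W ≥ N r` there is a unique prime `q ∣ u` such that, with
`u₁ = ∏ {p ∣ u : q ≺ p}`, `u₂ = ∏ {p ∣ u : p ≺ q}`, one has `N(r u₁) ≤ W < N(r u₁) N q`, and `μ u = -μ u₁ μ u₂`.  A clean way: `one_split` (telescoping; induction on `u` removing the
`plt`-smallest prime, or `Finset.induction_on_max` on the set of primes): for `u ∈ Sq` and `a ≤ W`,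
`ind (W < a N u) = ∑_{q ∣ u prime} ind (a N(u₁ q u) ≤ W < a N(u₁ q u) N q)`; and `cv (hup q · F) (cv (dl q) (hdn q)) u = -sm u · ind (q ∣ u) · F (u₁ q u)` by uniqueness of the factorisation.
`hup_eq`: `q' = ∏ {p : PP p, N p = N q, ¬ plt q p}` divides `(nm q : O)` (`mul_star_self`, `Finset.prod_primes_dvd`); a prime divisor of `n ∈ Sq` is associated to a primary prime. -/

namespace Vale.Agent.P006

open Vale.Agent.P026 Filter
open scoped ComplexConjugate Real

theorem plt_irrefl (p : O) : ¬plt p p := by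
  unfold plt
  omega
theorem plt_trans {p q r : O} (h1 : plt p q) (h2 : plt q r) : plt p r := by
  unfold plt at *
  omega
theorem plt_total {p q : O} (h : p ≠ q) : plt p q ∨ plt q p := by
  have h1 : p.re ≠ q.re ∨ p.im ≠ q.im := by
    by_contra h1
    push Not at h1
    exact h (by ext; exacts [h1.1, h1.2])
  unfold plt
  omega
theorem bd_hup (y : ℝ) (q : O) : Bd 1 (hup y q) := fun n => by
  unfold hup
  rw [norm_mul]
  exact mul_le_one₀ (bd_hf _ _ _ n) (norm_nonneg _) (norm_ind_le _)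
theorem bd_hdn (y : ℝ) (q : O) : Bd 1 (hdn y q) := fun n => by
  unfold hdn
  rw [norm_mul]
  exact mul_le_one₀ (bd_hf _ _ _ n) (norm_nonneg _) (norm_ind_le _)

theorem csplit_ind_ne {p : Prop} (h : ind p ≠ 0) : p := by
  by_contra h'
  exact h (ind_of_not h')

theorem csplit_ind_congr {p q : Prop} (h : p ↔ q) : ind p = ind q := by
  rw [propext h]

theorem csplit_eq_of_dvd {p q : O} (hp : PP p) (hq : PP q) (h : p ∣ q) : p = q :=
  hp.2.eq_of_associated hq.2 (hp.1.associated_of_dvd hq.1 h)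

theorem csplit_coprime {p n : O} (hp : Prime p) (h : ¬p ∣ n) : IsCoprime p n :=
  (Irreducible.coprime_iff_not_dvd hp.irreducible).2 h

/-- a prime divisor of a primary element is associated to a primary prime -/
theorem csplit_assoc_pp {p n : O} (hn : Prim n) (hp : Prime p) (h : p ∣ n) :
    ∃ c, PP c ∧ c ∣ n ∧ nm c = nm p := by
  obtain ⟨u, c, hu, hc, rfl⟩ := exists_prim (n := p) fun h' => hn.not_lam_dvd (h'.trans h)
  have ha : Associated (u * c) c := associated_unit_mul_left _ _ hu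
  exact ⟨c, ⟨ha.prime hp, hc⟩, ha.symm.dvd.trans h, (nm_of_associated ha).symm⟩

/-- the primary primes dividing `u` -/
noncomputable def csPr (u : O) : Finset O := open Classical in (pdiv u).filter Prime

theorem csplit_mem {u p : O} (hu : u ≠ 0) : p ∈ csPr u ↔ PP p ∧ p ∣ u := by
  classical
  rw [csPr, Finset.mem_filter, mem_pdiv hu, PP]
  tauto

theorem csplit_prod {u : O} (hu : Sq u) : ∏ p ∈ csPr u, p = u := by
  classical
  refine Sq.induction (P := fun u => ∏ p ∈ csPr u, p = u) ?_ ?_ hu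
  · have : csPr 1 = ∅ := by
      refine Finset.eq_empty_of_forall_notMem fun p hp => ?_
      obtain ⟨h1, h2⟩ := (csplit_mem one_ne_zero).1 hp
      exact h1.1.not_isUnit (isUnit_of_dvd_one h2)
    rw [this, Finset.prod_empty]
  · intro p n hp hn hpn ih
    have : csPr (p * n) = insert p (csPr n) := by
      ext x
      rw [Finset.mem_insert, csplit_mem (mul_ne_zero hp.1.ne_zero hn.ne_zero), csplit_mem hn.ne_zero]
      constructor
      · rintro ⟨h1, h2⟩
        rcases h1.1.dvd_or_dvd h2 with h | h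
        · exact Or.inl (csplit_eq_of_dvd h1 hp h)
        · exact Or.inr ⟨h1, h⟩
      · rintro (rfl | ⟨h1, h2⟩)
        · exact ⟨hp, dvd_mul_right _ _⟩
        · exact ⟨h1, h2.mul_left _⟩
    rw [this, Finset.prod_insert fun h => hpn ((csplit_mem hn.ne_zero).1 h).2, ih]

theorem csplit_dvd_prod {S : Finset O} (hS : ∀ p ∈ S, PP p) {q : O} (hq : PP q) :
    q ∣ ∏ p ∈ S, p ↔ q ∈ S := by
  rw [hq.1.dvd_finsetProd_iff]
  exact ⟨fun ⟨p, hp, h⟩ => csplit_eq_of_dvd hq (hS p hp) h ▸ hp, fun h => ⟨q, h, dvd_rfl⟩⟩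

theorem csplit_prim_prod {S : Finset O} (hS : ∀ p ∈ S, PP p) : Prim (∏ p ∈ S, p) :=
  Finset.prod_induction _ Prim (fun _ _ => Prim.mul) prim_one fun p hp => (hS p hp).2

/-- the part of `u` above `q` -/
noncomputable def csUp (q u : O) : O := open Classical in ∏ p ∈ (csPr u).filter (plt q), p
/-- the part of `u` below `q` -/
noncomputable def csDn (q u : O) : O := open Classical in ∏ p ∈ (csPr u).filter (plt · q), p

theorem csplit_three {u q : O} (hu : Sq u) (hq : PP q) (h : q ∣ u) :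
    csUp q u * (q * csDn q u) = u := by
  classical
  have hq' : q ∈ csPr u := (csplit_mem hu.ne_zero).2 ⟨hq, h⟩
  have h1 : (csPr u).filter (fun p => ¬plt q p) = insert q ((csPr u).filter (plt · q)) := by
    ext x
    simp only [Finset.mem_filter, Finset.mem_insert]
    constructor
    · rintro ⟨h1, h2⟩
      by_cases hx : x = q
      · exact Or.inl hx
      · exact Or.inr ⟨h1, (plt_total hx).resolve_right h2⟩
    · rintro (rfl | ⟨h1, h2⟩)
      · exact ⟨hq', plt_irrefl _⟩
      · exact ⟨h1, fun h3 => plt_irrefl _ (plt_trans h2 h3)⟩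
  have h2 := Finset.prod_filter_mul_prod_filter_not (csPr u) (plt q) fun p => p
  rw [h1, Finset.prod_insert (by simp [plt_irrefl]), csplit_prod hu] at h2
  exact h2

theorem csplit_unique {u q a b : O} (hq : PP q) (ha : Sq a) (hu : u ≠ 0) (h : a * (q * b) = u)
    (h1 : ∀ p, PP p → p ∣ a → plt q p) (h2 : ∀ p, PP p → p ∣ b → plt p q) : a = csUp q u := by
  classical
  rw [← csplit_prod ha, csUp]
  congr 1
  ext p
  rw [Finset.mem_filter, csplit_mem ha.ne_zero, csplit_mem hu]
  constructor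
  · rintro ⟨h3, h4⟩
    exact ⟨⟨h3, h ▸ h4.mul_right _⟩, h1 p h3 h4⟩
  · rintro ⟨⟨h3, h4⟩, h5⟩
    refine ⟨h3, ?_⟩
    rw [← h] at h4
    rcases h3.1.dvd_or_dvd h4 with h6 | h6
    · exact h6
    rcases h3.1.dvd_or_dvd h6 with h7 | h7
    · rw [csplit_eq_of_dvd h3 hq h7] at h5
      exact absurd h5 (plt_irrefl _)
    · exact absurd (plt_trans h5 (h2 p h3 h7)) (plt_irrefl _)

theorem csplit_dl {q e : O} (hq : Prim q) (he : Sq e) (G : O → ℂ) :
    cv (dl q) G e = ind (q ∣ e) * G (e / q) := by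
  unfold cv dl
  rw [ind_of he, one_mul]
  by_cases h : q ∣ e
  · rw [Finset.sum_eq_single q, ind_of (rfl : q = q), ind_of h]
    · intro d _ hd
      rw [ind_of_not hd, zero_mul]
    · intro h'
      exact absurd ((mem_pdiv he.ne_zero).2 ⟨hq, h⟩) h'
  · rw [ind_of_not h, zero_mul]
    refine Finset.sum_eq_zero fun d hd => ?_
    rw [ind_of_not, zero_mul]
    rintro rfl
    exact h ((mem_pdiv he.ne_zero).1 hd).2

theorem csplit_sm_prime {y : ℝ} {q : O} (hq : q ∈ prb y) : sm y q = -1 := by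
  obtain ⟨h1, h2⟩ := mem_prb.1 hq
  unfold sm hf
  rw [ind_of h1.sq, mu_prime h1.1, ind_of]
  · ring
  · intro p hp h
    rw [nm_of_associated (hp.associated_of_dvd h1.1 h)]
    exact ⟨lt_of_lt_of_le one_pos h1.sq.one_le, h2⟩

theorem csplit_one {y : ℝ} {u q : O} (hu : Sq u) (hq : q ∈ prb y) (F : O → ℂ) :
    cv (fun m => hup y q m * F m) (cv (dl q) (hdn y q)) u =
      -(sm y u * (ind (q ∣ u) * F (csUp q u))) := by
  classical
  have hq' := (mem_prb.1 hq).1
  have key : ∀ d ∈ pdiv u, hup y q d * F d * cv (dl q) (hdn y q) (u / d) ≠ 0 →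
      q ∣ u ∧ d = csUp q u := by
    intro d hd h
    obtain ⟨h1, h2, h3⟩ := hu.div hd
    rw [csplit_dl hq'.2 h2] at h
    have h4 := csplit_ind_ne (right_ne_zero_of_mul (left_ne_zero_of_mul (left_ne_zero_of_mul h)))
    have h5 := right_ne_zero_of_mul h
    have h6 := csplit_ind_ne (left_ne_zero_of_mul h5)
    have h7 := csplit_ind_ne (right_ne_zero_of_mul (right_ne_zero_of_mul h5))
    refine ⟨h3 ▸ h6.mul_left _, csplit_unique hq' h1 hu.ne_zero ?_ h4 h7⟩
    rw [EuclideanDomain.mul_div_cancel' hq'.1.ne_zero h6, h3]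
  rw [cv, ind_of hu, one_mul]
  by_cases h : q ∣ u
  · have h3 := csplit_three hu hq' h
    have hS : ∀ p ∈ csPr u, PP p := fun p hp => ((csplit_mem hu.ne_zero).1 hp).1
    have hU : ∀ p ∈ (csPr u).filter (plt q), PP p := fun p hp => hS p (Finset.mem_filter.1 hp).1
    have hD : ∀ p ∈ (csPr u).filter (plt · q), PP p := fun p hp => hS p (Finset.mem_filter.1 hp).1
    have hpU : Prim (csUp q u) := by unfold csUp; convert csplit_prim_prod hU
    have hu' : Sq (csUp q u * (q * csDn q u)) := h3.symm ▸ hu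
    obtain ⟨h4, h5⟩ := hu'.right hpU
    obtain ⟨-, h6⟩ := h5.right hq'.2
    have h7 : u / csUp q u = q * csDn q u := by
      conv_lhs => rw [← h3]
      rw [h3]
      exact (EuclideanDomain.eq_div_of_mul_eq_right h4.ne_zero h3).symm
    rw [Finset.sum_eq_single (csUp q u), h7, csplit_dl hq'.2 h5, ind_of (dvd_mul_right _ _),
      mul_div_cancel_left₀ _ hq'.1.ne_zero, ind_of h]
    · have h8 : sm y u = sm y (csUp q u) * (sm y q * sm y (csDn q u)) := by
        conv_lhs => rw [← h3]
        unfold sm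
        rw [hf_mul _ _ _ h4 h5 hu'.coprime, hf_mul _ _ _ hq'.sq h6 h5.coprime]
      unfold hup hdn
      rw [h8, csplit_sm_prime hq, ind_of, ind_of]
      · ring
      · intro p hp h9
        have : p ∈ (csPr u).filter (plt · q) := by
          rw [← csplit_dvd_prod hD hp]
          unfold csDn at h9
          convert h9
        exact (Finset.mem_filter.1 this).2
      · intro p hp h9
        have : p ∈ (csPr u).filter (plt q) := by
          rw [← csplit_dvd_prod hU hp]
          unfold csUp at h9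
          convert h9
        exact (Finset.mem_filter.1 this).2
    · intro d hd hne
      by_contra h9
      exact hne (key d hd h9).2
    · intro h9
      exact absurd ((mem_pdiv hu.ne_zero).2 ⟨hpU, Dvd.intro _ h3⟩) h9
  · rw [ind_of_not h, zero_mul, mul_zero, neg_zero]
    refine Finset.sum_eq_zero fun d hd => ?_
    by_contra h9
    exact h (key d hd h9).1

/-- a key for `plt` -/
def csKey (p : O) : ℕ ×ₗ ℤ ×ₗ ℤ := toLex (nm p, toLex (p.re, p.im))

theorem csplit_key {p q : O} : plt p q ↔ csKey p < csKey q := by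
  simp only [csKey, Prod.Lex.toLex_lt_toLex, plt]

open Classical in
theorem csplit_tele (W : ℝ) (S : Finset O) (hS : ∀ p ∈ S, p ≠ 0) : ∀ a : ℝ, 0 ≤ a → a ≤ W →
    ∑ q ∈ S, ind (W / nm q < a * nm (∏ p ∈ S.filter (plt q), p) ∧
      a * nm (∏ p ∈ S.filter (plt q), p) ≤ W) = ind (W < a * nm (∏ p ∈ S, p)) := by
  induction S using Finset.induction_on_max_value csKey with
  | empty =>
    intro a _ ha
    rw [Finset.sum_empty, Finset.prod_empty, ind_of_not]
    simpa using ha
  | insert p S hp hmax ih =>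
    intro a ha0 ha
    have hp0 : (1 : ℝ) ≤ nm p := one_le_nm (hS p (Finset.mem_insert_self _ _))
    have hS' : ∀ x ∈ S, x ≠ 0 := fun x hx => hS x (Finset.mem_insert_of_mem hx)
    have hlt : ∀ x ∈ S, plt x p := fun x hx => by
      have hne : x ≠ p := fun e => hp (e ▸ hx)
      refine (plt_total hne).resolve_right fun h => ?_
      exact absurd (hmax x hx) (not_le.2 (csplit_key.1 h))
    have h1 : (insert p S).filter (plt p) = ∅ := by
      refine Finset.filter_eq_empty_iff.2 fun x hx h => ?_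
      rcases Finset.mem_insert.1 hx with rfl | hx
      · exact plt_irrefl _ h
      · exact plt_irrefl _ (plt_trans h (hlt x hx))
    have h2 : ∀ q ∈ S, a * (nm (∏ x ∈ (insert p S).filter (plt q), x) : ℝ) =
        a * nm p * nm (∏ x ∈ S.filter (plt q), x) := by
      intro q hq
      rw [Finset.filter_insert, if_pos (hlt q hq),
        Finset.prod_insert fun h => hp (Finset.mem_filter.1 h).1, nm_mul, Nat.cast_mul, mul_assoc]
    have h3 : ∀ T : Finset O, T ⊆ S → (1 : ℝ) ≤ nm (∏ x ∈ T, x) := fun T hT =>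
      one_le_nm (Finset.prod_ne_zero_iff.2 fun x hx => hS' x (hT hx))
    rw [Finset.sum_insert hp, h1, Finset.prod_empty, Finset.prod_insert hp, nm_mul, Nat.cast_mul,
      ← mul_assoc, Finset.sum_congr rfl fun q hq => by rw [h2 q hq], nm_one, Nat.cast_one, mul_one]
    by_cases h : a * nm p ≤ W
    · rw [ih hS' _ (by positivity) h, ind_of_not, zero_add]
      rintro ⟨h4, -⟩
      rw [div_lt_iff₀ (by linarith)] at h4
      linarith
    · push Not at h
      have h4 : ∀ T : Finset O, T ⊆ S → W < a * nm p * nm (∏ x ∈ T, x) := fun T hT =>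
        h.trans_le (le_mul_of_one_le_right (by positivity) (h3 T hT))
      rw [ind_of (h4 S le_rfl), ind_of ⟨(div_lt_iff₀ (by linarith)).2 h, ha⟩,
        Finset.sum_eq_zero, add_zero]
      intro q _
      exact ind_of_not fun h5 => absurd h5.2 (not_le.2 (h4 _ (Finset.filter_subset _ _)))

theorem csplit_assoc {n : O} (hn : Sq n) (f g F G : O → ℂ) :
    cv (fun m => cv f g m * F m) G n =
      ∑ r ∈ pdiv n, f r * cv (fun m => g m * F (r * m)) G (n / r) := by
  rw [kcv_pair hn le_rfl fun r e => f r * cv (fun m => g m * F (r * m)) G e, kcv_eq hn le_rfl]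
  trans ∑ a ∈ qball (nm n), ∑ b ∈ qball (nm n), ∑ c ∈ qball (nm n),
    ind (a * b * c = n) * (f a * g b * F (a * b) * G c)
  · rw [Finset.sum_comm]
    have h1 : ∀ c ∈ qball (nm n : ℝ), ∑ d ∈ qball (nm n : ℝ), ind (d * c = n) * (cv f g d * F d * G c) =
        ∑ a ∈ qball (nm n), ∑ b ∈ qball (nm n),
          ind (a * b * c = n) * (f a * g b * F (a * b) * G c) := by
      intro c _
      have h2 : ∀ d ∈ qball (nm n : ℝ), ind (d * c = n) * (cv f g d * F d * G c) =
          ∑ a ∈ qball (nm n), ∑ b ∈ qball (nm n),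
            ind (d * c = n) * (ind (a * b = d) * (f a * g b * F (a * b) * G c)) := by
        intro d hd
        rw [kcv_eq (mem_qball.1 hd).1 (mem_qball.1 hd).2]
        simp only [Finset.sum_mul, Finset.mul_sum]
        refine Finset.sum_congr rfl fun a _ => Finset.sum_congr rfl fun b _ => ?_
        by_cases h : a * b = d
        · rw [h]; ring
        · rw [ind_of_not h]; ring
      rw [Finset.sum_congr rfl h2, Finset.sum_comm]
      refine Finset.sum_congr rfl fun a ha => ?_
      rw [Finset.sum_comm]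
      refine Finset.sum_congr rfl fun b hb => ?_
      exact kcv_collapse hn le_rfl ((mem_qball.1 ha).1.1.mul (mem_qball.1 hb).1.1) _
    rw [Finset.sum_congr rfl h1, Finset.sum_comm]
    exact Finset.sum_congr rfl fun a _ => Finset.sum_comm
  · refine Finset.sum_congr rfl fun a _ => ?_
    have h2 : ∀ e ∈ qball (nm n : ℝ), ind (a * e = n) * (f a * cv (fun m => g m * F (a * m)) G e) =
        ∑ b ∈ qball (nm n), ∑ c ∈ qball (nm n),
          ind (e * a = n) * (ind (b * c = e) * (f a * g b * F (a * b) * G c)) := by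
      intro e he
      rw [kcv_eq (mem_qball.1 he).1 (mem_qball.1 he).2, mul_comm e a]
      simp only [Finset.mul_sum]
      refine Finset.sum_congr rfl fun b _ => Finset.sum_congr rfl fun c _ => ?_
      ring
    rw [Finset.sum_congr rfl h2, Finset.sum_comm (s := qball (nm n : ℝ)) (t := qball (nm n : ℝ))
      (f := fun e b => ∑ c ∈ qball (nm n : ℝ),
        ind (e * a = n) * (ind (b * c = e) * (f a * g b * F (a * b) * G c)))]
    refine Finset.sum_congr rfl fun b hb => ?_
    rw [Finset.sum_comm]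
    refine Finset.sum_congr rfl fun c hc => ?_
    rw [kcv_collapse hn le_rfl ((mem_qball.1 hb).1.1.mul (mem_qball.1 hc).1.1),
      show b * c * a = a * b * c by ring]

theorem csplit_point (y W : ℝ) {r u : O} (hu : Sq u) (hr : (nm r : ℝ) ≤ W) :
    ∑ q ∈ prb y, cv (fun m => hup y q m * win (W / nm q) W (r * m)) (cv (dl q) (hdn y q)) u =
      -(sm y u * ind (W < nm r * nm u)) := by
  classical
  rw [Finset.sum_congr rfl fun q hq => csplit_one hu hq _, Finset.sum_neg_distrib,
    ← Finset.mul_sum]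
  by_cases h : sm y u = 0
  · rw [h, zero_mul, zero_mul]
  have h1 := csplit_ind_ne (right_ne_zero_of_mul h)
  have hsub : csPr u ⊆ prb y := fun p hp => by
    obtain ⟨h2, h3⟩ := (csplit_mem hu.ne_zero).1 hp
    exact mem_prb.2 ⟨h2, (h1 p h2.1 h3).2⟩
  have h2 := csplit_tele W (csPr u) (fun p hp => ((csplit_mem hu.ne_zero).1 hp).1.1.ne_zero)
    (nm r) (Nat.cast_nonneg _) hr
  rw [csplit_prod hu] at h2
  rw [← h2, ← Finset.sum_subset hsub]
  · congr 2
    refine Finset.sum_congr rfl fun q hq => ?_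
    rw [ind_of ((csplit_mem hu.ne_zero).1 hq).2, one_mul, win, nm_mul, Nat.cast_mul]
    rfl
  · intro q hq hq'
    rw [ind_of_not, zero_mul]
    exact fun h3 => hq' ((csplit_mem hu.ne_zero).2 ⟨(mem_prb.1 hq).1, h3⟩)

theorem split (y W : ℝ) {ρ : O → ℂ} (hρ : Le W ρ) (n : O) :
    cv ρ (sm y) n = rw' (cv ρ (sm y)) 0 W n - ∑ q ∈ prb y,
      cv (rw' (cv ρ (hup y q)) (W / nm q) W) (cv (dl q) (hdn y q)) n := by
  by_cases hn : Sq n
  swap
  · simp only [rw', cv_eq_zero hn, zero_mul, Finset.sum_const_zero, sub_zero]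
  have h1 : ∀ q ∈ prb y, cv (rw' (cv ρ (hup y q)) (W / nm q) W) (cv (dl q) (hdn y q)) n =
      ∑ r ∈ pdiv n, ρ r * cv (fun m => hup y q m * win (W / nm q) W (r * m))
        (cv (dl q) (hdn y q)) (n / r) := fun q _ => csplit_assoc hn _ _ _ _
  have h2 : ∀ r ∈ pdiv n, ∑ q ∈ prb y, ρ r * cv (fun m => hup y q m * win (W / nm q) W (r * m))
      (cv (dl q) (hdn y q)) (n / r) = -(ρ r * sm y (n / r) * ind (W < nm n)) := by
    intro r hr
    obtain ⟨-, h4, h5⟩ := hn.div hr
    rw [← Finset.mul_sum]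
    by_cases h : ρ r = 0
    · rw [h]; ring
    rw [csplit_point y W h4 (hρ r h), ← Nat.cast_mul, ← nm_mul, h5]
    ring
  rw [Finset.sum_congr rfl h1, Finset.sum_comm, Finset.sum_congr rfl h2, Finset.sum_neg_distrib,
    ← Finset.sum_mul, rw', cv, ind_of hn, one_mul, win]
  have h3 := hn.one_le
  by_cases h : W < nm n
  · rw [ind_of h, ind_of_not fun h4 => absurd h4.2 (not_le.2 h)]
    ring
  · rw [ind_of_not h, ind_of ⟨by linarith, not_lt.1 h⟩]
    ring

theorem hup_eq (y : ℝ) {q : O} (hq : PP q) : ∃ q' : O, q' ≠ 0 ∧ nm q' ≤ nm q ^ 2 ∧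
    hup y q = fun n => hf 1 (nm q - 1 / 2) y n * ind (IsCoprime n q') := by
  classical
  set S := (prb (nm q)).filter fun p => nm p = nm q ∧ ¬plt q p with hS
  have hS1 : ∀ p ∈ S, PP p := fun p hp => (mem_prb.1 (Finset.mem_filter.1 hp).1).1
  have hq0 : (nm q : O) ≠ 0 := by
    rw [← mul_star_self]
    exact mul_ne_zero hq.1.ne_zero (star_ne_zero.2 hq.1.ne_zero)
  refine ⟨∏ p ∈ S, p, (csplit_prim_prod hS1).ne_zero, ?_, ?_⟩
  · rw [← nm_natCast]
    refine nm_le_of_dvd hq0 (Finset.prod_dvd_of_coprime ?_ fun p hp => ?_)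
    · intro a ha b hb hab
      exact csplit_coprime (hS1 a ha).1 fun h => hab (csplit_eq_of_dvd (hS1 a ha) (hS1 b hb) h)
    · rw [← (Finset.mem_filter.1 hp).2.1, ← mul_star_self]
      exact dvd_mul_right _ _
  funext n
  unfold hup sm hf
  by_cases hn : Sq n
  swap
  · rw [ind_of_not hn]
    ring
  rw [mul_assoc, mul_assoc (ind (Sq n) * mu n ^ 1), ← ind_and, ← ind_and]
  congr 1
  refine csplit_ind_congr ⟨fun ⟨h1, h2⟩ => ⟨fun p hp h => ⟨?_, (h1 p hp h).2⟩, ?_⟩,
    fun ⟨h1, h2⟩ => ⟨fun p hp h => ⟨?_, (h1 p hp h).2⟩, fun p hp h => ?_⟩⟩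
  · obtain ⟨c, hc, hcn, hce⟩ := csplit_assoc_pp hn.1 hp h
    have h3 : nm q ≤ nm p := by
      have := h2 c hc hcn
      unfold plt at this
      omega
    have h4 : (nm q : ℝ) ≤ nm p := by exact_mod_cast h3
    linarith
  · refine IsCoprime.prod_right fun p hp => (csplit_coprime (hS1 p hp).1 fun h => ?_).symm
    exact (Finset.mem_filter.1 hp).2.2 (h2 p (hS1 p hp) h)
  · exact lt_of_lt_of_le one_pos (one_le_nm hp.ne_zero)
  · by_contra h3
    have h4 := (h1 p hp.1 h).1
    have h5 : nm q ≤ nm p := by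
      by_contra h5
      have h6 : nm p + 1 ≤ nm q := by omega
      have h7 : (nm p : ℝ) + 1 ≤ nm q := by exact_mod_cast h6
      linarith
    have h6 : nm p = nm q := by
      unfold plt at h3
      omega
    have h7 : p ∈ S := Finset.mem_filter.2 ⟨mem_prb.2 ⟨hp, by rw [h6]⟩, h6, h3⟩
    exact hp.1.not_isUnit (h2.isUnit_of_dvd' h (Finset.dvd_prod_of_mem _ h7))

end Vale.Agent.P006
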