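import Vale.Agent.P006.CBox
import Vale.Agent.P006.CSplit

/-! C9: rough numbers are sparse.
Plan: Chebyshev `∑_{p ∈ prb u} log N p ≤ C u` (all `u ≥ 0`) from `PNTStmt`; dyadically `∑_{p ∈ prb X} log N p / N p ≤ C log X`, so `∑_{y < N p ≤ X} 1/N p ≤ C/η₀`.
`∑_{m ∈ qball X} ro m / N m ≤ ∏_{y < N p ≤ X} (1 + 1/N p) ≤ e^{C/η₀}` (`Finset.prod_one_add`/`Finset.prod_add_one`, `m ↦` its set of primary primes is injective on `Sq`).
`log M · #{rough m ∈ (M, 2M]} ≤ ∑ lg m · ro m = ∑ cv Lr ro m ≤ ∑_{m'} ro m' θ(2M/N m')` (`cv_Lr_ro`, `sum_cv`).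
`tau n = 2^ω`, `y^ω ≤ N n` (`Sq.induction`: `tau n ≤ (N n)^{log 2/log y}`, `card_pdiv_prime_mul`); `‖ga n‖ ≤ tau n` for `n ≠ 1`. -/

namespace Vale.Agent.P006

open Vale.Agent.P026 Filter
open scoped ComplexConjugate Real

theorem cheb (h : PNTStmt) : ∃ C : ℝ, 0 < C ∧ ∀ u : ℝ, 0 ≤ u →
    ∑ p ∈ prb u, Real.log (nm p) ≤ C * u := by
  obtain ⟨θ, C, hθ, hC, h⟩ := h
  refine ⟨1 + C, by positivity, fun u hu => ?_⟩
  by_cases h1 : 1 ≤ u
  · have h2 := (abs_le.1 (h u h1)).2
    have h3 : u ^ (1 - θ) ≤ u := by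
      simpa using Real.rpow_le_rpow_of_exponent_le h1 (show 1 - θ ≤ 1 by linarith)
    nlinarith
  · rw [Finset.sum_eq_zero]
    · positivity
    · intro p hp
      exact absurd ((mem_prb.1 hp).1.sq.one_le.trans (mem_prb.1 hp).2) h1

theorem cnorm_sum {s t : Finset O} {f g : O → ℝ} (hg : ∀ n ∈ t, 0 ≤ g n)
    (h : ∀ n ∈ s, f n ≠ 0 → n ∈ t ∧ f n ≤ g n) : ∑ n ∈ s, f n ≤ ∑ n ∈ t, g n := by
  classical
  rw [← Finset.sum_filter_ne_zero]
  refine le_trans (Finset.sum_le_sum fun n hn => ?_)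
    (Finset.sum_le_sum_of_subset_of_nonneg (fun n hn => ?_) fun n hn _ => hg n hn)
  · exact (h n (Finset.mem_filter.1 hn).1 (Finset.mem_filter.1 hn).2).2
  · exact (h n (Finset.mem_filter.1 hn).1 (Finset.mem_filter.1 hn).2).1

theorem cnorm_ro {X y : ℝ} {n : O} (h : ro X y n ≠ 0) :
    Sq n ∧ (∀ p, Prime p → p ∣ n → y < nm p ∧ (nm p : ℝ) ≤ X) ∧ ro X y n = 1 := by
  have h1 : Sq n := hf_sq h
  have h2 := csplit_ind_ne (right_ne_zero_of_mul h)
  refine ⟨h1, h2, ?_⟩
  unfold ro hf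
  rw [ind_of h1, ind_of h2, pow_zero, one_mul, one_mul]

theorem cnorm_log_nonneg (n : O) : 0 ≤ Real.log (nm n) := Real.log_natCast_nonneg _

theorem cnorm_tau {y c : ℝ} (hy : 0 ≤ y) (hc : 0 ≤ c) (h2 : 2 ≤ y ^ c) {n : O} (hn : Sq n) :
    (∀ p, Prime p → p ∣ n → y < nm p) → tau n ≤ (nm n : ℝ) ^ c := by
  refine Sq.induction (P := fun n => (∀ p, Prime p → p ∣ n → y < nm p) → tau n ≤ (nm n : ℝ) ^ c)
    ?_ ?_ hn
  · intro _
    simp [tau, psd_pdiv_one]
  · intro p n hp hn hpn ih h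
    have h3 := ih fun q hq hqn => h q hq (hqn.mul_left _)
    have h4 : y ^ c ≤ (nm p : ℝ) ^ c := Real.rpow_le_rpow hy (h p hp.1 (dvd_mul_right _ _)).le hc
    unfold tau at h3 ⊢
    rw [card_pdiv_prime_mul hp.1 hp.2 hn.ne_zero hpn, nm_mul, Nat.cast_mul, Nat.cast_mul,
      Real.mul_rpow (Nat.cast_nonneg _) (Nat.cast_nonneg _), Nat.cast_ofNat]
    exact mul_le_mul (h2.trans h4) h3 (Nat.cast_nonneg _) (by positivity)

theorem cnorm_mertens {C X : ℝ} (hC : 0 < C)
    (h : ∀ u : ℝ, 0 ≤ u → ∑ p ∈ prb u, Real.log (nm p) ≤ C * u) (hX : 1 ≤ X)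
    (hl : 1 ≤ Real.log X) : ∑ p ∈ prb X, Real.log (nm p) / nm p ≤ 6 * C * Real.log X := by
  classical
  have hm : ∀ p ∈ prb X, Nat.log 2 (nm p) ∈ Finset.range (Nat.log 2 ⌊X⌋₊ + 1) := fun p hp =>
    log_mem_range (mem_ball.2 (mem_prb.1 hp).2)
  rw [← Finset.sum_fiberwise_of_maps_to hm]
  have h1 : ∀ j ∈ Finset.range (Nat.log 2 ⌊X⌋₊ + 1),
      ∑ p ∈ prb X with Nat.log 2 (nm p) = j, Real.log (nm p) / nm p ≤ 2 * C := by
    intro j _
    have h2 : (0 : ℝ) < 2 ^ j := by positivity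
    calc _ ≤ ∑ p ∈ prb (2 ^ (j + 1)), Real.log (nm p) / 2 ^ j := by
          refine cnorm_sum (fun n _ => div_nonneg (cnorm_log_nonneg n) h2.le) fun p hp _ => ?_
          obtain ⟨h3, rfl⟩ := Finset.mem_filter.1 hp
          have h4 := (mem_prb.1 h3).1
          have h5 : nm p ≠ 0 := (nm_pos h4.1.ne_zero).ne'
          refine ⟨mem_prb.2 ⟨h4, ?_⟩, div_le_div_of_nonneg_left (cnorm_log_nonneg p) h2 ?_⟩
          · exact_mod_cast (Nat.lt_pow_succ_log_self one_lt_two (nm p)).le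
          · exact_mod_cast Nat.pow_log_le_self 2 h5
      _ ≤ 2 * C := by
          rw [← Finset.sum_div, div_le_iff₀ h2]
          refine (h _ (by positivity)).trans (le_of_eq ?_)
          ring
  refine (Finset.sum_le_card_nsmul _ _ _ h1).trans ?_
  have h2 := Real.log_le_log (by positivity) (pow_log_floor_le hX)
  rw [Real.log_pow] at h2
  have h3 := Real.log_two_gt_d9
  have h4 : (0 : ℝ) ≤ Nat.log 2 ⌊X⌋₊ := Nat.cast_nonneg _
  rw [Finset.card_range, nsmul_eq_mul, Nat.cast_add, Nat.cast_one]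
  have h5 : (Nat.log 2 ⌊X⌋₊ : ℝ) + 1 ≤ 3 * Real.log X := by nlinarith
  nlinarith

theorem cnorm_nm_prod (S : Finset O) : (nm (∏ p ∈ S, p) : ℝ)⁻¹ = ∏ p ∈ S, (nm p : ℝ)⁻¹ := by
  classical
  induction S using Finset.induction_on with
  | empty => simp
  | insert p S hp ih =>
    rw [Finset.prod_insert hp, Finset.prod_insert hp, nm_mul, Nat.cast_mul, mul_inv, ih]

theorem cnorm_euler (X y Z : ℝ) : ∑ b ∈ qball Z, ‖ro X y b‖ * (nm b : ℝ)⁻¹ ≤
    Real.exp (∑ p ∈ prb X with y < nm p, (nm p : ℝ)⁻¹) := by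
  classical
  set P := (prb X).filter fun p => y < nm p
  set s := (qball Z).filter fun b => ro X y b ≠ 0
  calc _ ≤ ∑ b ∈ s, ∏ p ∈ csPr b, (nm p : ℝ)⁻¹ := by
        refine cnorm_sum (fun n _ => Finset.prod_nonneg fun p _ => by positivity) fun b hb h => ?_
        have h1 : ro X y b ≠ 0 := norm_ne_zero_iff.1 (left_ne_zero_of_mul h)
        refine ⟨Finset.mem_filter.2 ⟨hb, h1⟩, le_of_eq ?_⟩
        rw [(cnorm_ro h1).2.2, norm_one, one_mul, ← cnorm_nm_prod, csplit_prod (cnorm_ro h1).1]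
    _ = ∑ t ∈ s.image csPr, ∏ p ∈ t, (nm p : ℝ)⁻¹ := by
        rw [Finset.sum_image]
        intro a ha b hb hab
        rw [← csplit_prod (cnorm_ro (Finset.mem_filter.1 ha).2).1, hab,
          csplit_prod (cnorm_ro (Finset.mem_filter.1 hb).2).1]
    _ ≤ ∑ t ∈ P.powerset, ∏ p ∈ t, (nm p : ℝ)⁻¹ := by
        refine Finset.sum_le_sum_of_subset_of_nonneg (fun t ht => ?_)
          fun t _ _ => Finset.prod_nonneg fun p _ => by positivity
        obtain ⟨b, hb, rfl⟩ := Finset.mem_image.1 ht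
        obtain ⟨h1, h2, -⟩ := cnorm_ro (Finset.mem_filter.1 hb).2
        refine Finset.mem_powerset.2 fun p hp => ?_
        obtain ⟨h3, h4⟩ := (csplit_mem h1.ne_zero).1 hp
        exact Finset.mem_filter.2 ⟨mem_prb.2 ⟨h3, (h2 p h3.1 h4).2⟩, (h2 p h3.1 h4).1⟩
    _ = ∏ p ∈ P, (1 + (nm p : ℝ)⁻¹) := (Finset.prod_one_add _).symm
    _ ≤ _ := by
        rw [Real.exp_sum]
        refine Finset.prod_le_prod (fun p _ => by positivity) fun p _ => ?_
        linarith [Real.add_one_le_exp (nm p : ℝ)⁻¹]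

theorem cnorm_norm_Lr {X y : ℝ} {a : O} (h : Lr X y a ≠ 0) :
    PP a ∧ ‖Lr X y a‖ = Real.log (nm a) := by
  obtain ⟨h1, h2, h3⟩ := rw_ne_zero h
  have h4 := Lam_sq h1
  refine ⟨h4, ?_⟩
  unfold Lr
  rw [rw_of h2 h3, Lam, ind_of h4, one_mul, Complex.norm_real, Real.norm_eq_abs,
    abs_of_nonneg (cnorm_log_nonneg a)]

theorem cnorm_logsum {C : ℝ} (h : ∀ u : ℝ, 0 ≤ u → ∑ p ∈ prb u, Real.log (nm p) ≤ C * u)
    (X y : ℝ) {Z : ℝ} (hZ : 0 ≤ Z) : ∑ n ∈ qball Z, Real.log (nm n) * ‖ro X y n‖ ≤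
      C * Z * ∑ b ∈ qball Z, ‖ro X y b‖ * (nm b : ℝ)⁻¹ := by
  have h1 : ∀ n ∈ qball Z, cv (Lr X y) (ro X y) n * 1 =
      ((Real.log (nm n) * ‖ro X y n‖ : ℝ) : ℂ) := by
    intro n _
    rw [mul_one, cv_Lr_ro, lg]
    by_cases h2 : ro X y n = 0
    · rw [h2]; simp
    · rw [(cnorm_ro h2).2.2]; simp
  have h2 := sum_cv Z (Lr X y) (ro X y) fun _ => 1
  rw [Finset.sum_congr rfl h1, ← Complex.ofReal_sum, Finset.sum_comm] at h2
  have h3 := congrArg norm h2
  rw [Complex.norm_real, Real.norm_eq_abs] at h3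
  refine (le_abs_self _).trans (h3.trans_le ((norm_sum_le _ _).trans ?_))
  rw [Finset.mul_sum]
  refine Finset.sum_le_sum fun b hb => (norm_sum_le _ _).trans ?_
  have hb1 := (mem_qball.1 hb).1.one_le
  calc _ ≤ ∑ a ∈ prb (Z / nm b), Real.log (nm a) * ‖ro X y b‖ := by
        refine cnorm_sum (fun n _ => mul_nonneg (cnorm_log_nonneg n) (norm_nonneg _))
          fun a _ h4 => ?_
        have h5 := norm_ne_zero_iff.1 h4
        have h6 := csplit_ind_ne (left_ne_zero_of_mul h5)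
        obtain ⟨h7, h8⟩ := cnorm_norm_Lr
          (left_ne_zero_of_mul (left_ne_zero_of_mul (right_ne_zero_of_mul h5)))
        refine ⟨mem_prb.2 ⟨h7, ?_⟩, le_of_eq ?_⟩
        · rw [le_div_iff₀ (by linarith), ← Nat.cast_mul, ← nm_mul]
          exact h6.2
        · rw [ind_of h6, one_mul, mul_one, norm_mul, h8]
    _ ≤ _ := by
        rw [← Finset.sum_mul]
        refine (mul_le_mul_of_nonneg_right (h _ (by positivity)) (norm_nonneg _)).trans
          (le_of_eq ?_)
        ring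

theorem normS (h : PNTStmt) : NormStmt := by
  classical
  obtain ⟨C, hC, h⟩ := cheb h
  intro η hη
  set T := Real.exp (Real.log 2 / η) with hT
  set E := Real.exp (6 * C / η) with hE
  have hT0 : 0 < T := Real.exp_pos _
  have hE0 : 0 < E := Real.exp_pos _
  refine ⟨1 + T + 7 * C * E * T ^ 2 + 2 * C, by
    have : 0 ≤ T + 7 * C * E * T ^ 2 + 2 * C := by positivity
    linarith, ?_⟩
  filter_upwards [eventually_gt_atTop 1, Real.tendsto_log_atTop.eventually_ge_atTop 1] with X hX hl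
  have hX0 : 0 < X := by linarith
  have hy : Real.log (X ^ η) = η * Real.log X := Real.log_rpow hX0 _
  have htau : ∀ n, ro X (X ^ η) n ≠ 0 → (nm n : ℝ) ≤ X → tau n ≤ T := by
    intro n hn hnX
    obtain ⟨h1, h2, -⟩ := cnorm_ro hn
    have hc : 0 ≤ Real.log 2 / (η * Real.log X) := by
      have := Real.log_two_gt_d9
      positivity
    refine (cnorm_tau (y := X ^ η) (by positivity) hc (le_of_eq ?_) h1
      fun p hp hpn => (h2 p hp hpn).1).trans ((Real.rpow_le_rpow (Nat.cast_nonneg _) hnX hc).trans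
        (le_of_eq ?_))
    · rw [Real.rpow_def_of_pos (by positivity), hy, mul_div_cancel₀ _ (by positivity),
        Real.exp_log two_pos]
    · rw [Real.rpow_def_of_pos hX0, hT]
      congr 1
      field_simp
  have heul : ∀ Z : ℝ, ∑ b ∈ qball Z, ‖ro X (X ^ η) b‖ * (nm b : ℝ)⁻¹ ≤ E := by
    intro Z
    refine (cnorm_euler _ _ _).trans (Real.exp_le_exp.2 ?_)
    have h1 := cnorm_mertens hC h hX.le hl
    have h2 : 0 < η * Real.log X := by positivity
    calc _ ≤ ∑ p ∈ prb X, Real.log (nm p) / nm p / (η * Real.log X) := by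
          refine cnorm_sum (fun n _ => div_nonneg (div_nonneg (cnorm_log_nonneg n)
            (Nat.cast_nonneg _)) h2.le) fun p hp _ => ?_
          obtain ⟨h3, h4⟩ := Finset.mem_filter.1 hp
          refine ⟨h3, ?_⟩
          have h5 := Real.log_le_log (by positivity) h4.le
          rw [hy] at h5
          rw [le_div_iff₀ h2, div_eq_inv_mul]
          exact mul_le_mul_of_nonneg_left h5 (by positivity)
      _ ≤ 6 * C * Real.log X / (η * Real.log X) := by
          rw [← Finset.sum_div]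
          exact div_le_div_of_nonneg_right h1 h2.le
      _ = _ := by field_simp
  refine ⟨fun n hn hnX => (htau n hn hnX).trans ?_, fun M Z hM hMX => ?_⟩
  · have : 0 ≤ 1 + 7 * C * E * T ^ 2 + 2 * C := by positivity
    linarith
  have hM1 : 1 ≤ M := (Real.one_le_rpow hX.le (by norm_num)).trans hM
  have hlM : 0.3 * Real.log X ≤ Real.log M := by
    rw [← Real.log_rpow hX0]
    exact Real.log_le_log (by positivity) hM
  have hlM0 : 0 < Real.log M := by linarith
  constructor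
  · calc _ ≤ ∑ n ∈ qball (2 * M), T ^ 2 / Real.log M * (Real.log (nm n) * ‖ro X (X ^ η) n‖) := by
          refine cnorm_sum (fun n _ => mul_nonneg (by positivity)
            (mul_nonneg (cnorm_log_nonneg n) (norm_nonneg _))) fun n hn h1 => ?_
          obtain ⟨h2, h3, h4⟩ := rw_ne_zero (norm_ne_zero_iff.1 (ne_zero_pow two_ne_zero h1))
          obtain ⟨h5, -, h6⟩ := ga_ne_zero hX.le h2
          refine ⟨mem_qball.2 ⟨h5, h4⟩, ?_⟩
          have h7 : n ≠ 1 := by
            rintro rfl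
            rw [nm_one, Nat.cast_one] at h3
            linarith
          have h8 : ‖ga X (X ^ η) n‖ ≤ T := by
            rw [ga_of_ne h7]
            refine (norm_cv_le ((bd_hf _ _ _).rw' _ _) (bd_hf _ _ _) n).trans ?_
            rw [mul_one, mul_one]
            exact htau n h6 (h4.trans hMX)
          rw [rw_of h3 h4, (cnorm_ro h6).2.2, norm_one, mul_one, div_mul_eq_mul_div,
            le_div_iff₀ hlM0]
          exact mul_le_mul (pow_le_pow_left₀ (norm_nonneg _) h8 2)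
            (Real.log_le_log (by linarith) h3.le) hlM0.le (by positivity)
      _ ≤ T ^ 2 / (0.3 * Real.log X) * (C * (2 * M) * E) := by
          rw [← Finset.mul_sum]
          refine mul_le_mul (div_le_div_of_nonneg_left (by positivity) (by positivity) hlM)
            ((cnorm_logsum h _ _ (by positivity)).trans
              (mul_le_mul_of_nonneg_left (heul _) (by positivity)))
            (Finset.sum_nonneg fun n _ => mul_nonneg (cnorm_log_nonneg n) (norm_nonneg _))
            (by positivity)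
      _ = 20 / 3 * C * E * T ^ 2 * M / Real.log X := by
          field_simp
          norm_num
      _ ≤ _ := by
          refine div_le_div_of_nonneg_right (mul_le_mul_of_nonneg_right ?_ (by positivity))
            (by positivity)
          have : 0 ≤ C * E * T ^ 2 := by positivity
          linarith
  · calc _ ≤ ∑ n ∈ prb (2 * M), Real.log X * Real.log (nm n) := by
          refine cnorm_sum (fun n _ => mul_nonneg (by positivity) (cnorm_log_nonneg n))
            fun n hn h1 => ?_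
          obtain ⟨h2, h3, h4⟩ := rw_ne_zero (norm_ne_zero_iff.1 (ne_zero_pow two_ne_zero h1))
          obtain ⟨h5, h6⟩ := cnorm_norm_Lr h2
          refine ⟨mem_prb.2 ⟨h5, h4⟩, ?_⟩
          rw [rw_of h3 h4, h6, sq]
          exact mul_le_mul_of_nonneg_right (Real.log_le_log (by linarith) (h4.trans hMX))
            (cnorm_log_nonneg n)
      _ ≤ Real.log X * (C * (2 * M)) := by
          rw [← Finset.mul_sum]
          exact mul_le_mul_of_nonneg_left (h _ (by positivity)) (by positivity)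
      _ = 2 * C * M * Real.log X := by ring
      _ ≤ _ := by
          refine mul_le_mul_of_nonneg_right (mul_le_mul_of_nonneg_right ?_ (by positivity))
            (by positivity)
          have : 0 ≤ 1 + T + 7 * C * E * T ^ 2 := by positivity
          linarith

end Vale.Agent.P006
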