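import Vale.Agent.P006.CBox
import Vale.Agent.P006.CSplit
import Vale.Agent.P006.CSI

/-! C6: Type II near `X^{1/2}` with a rough variable.
Plan: `W = X^0.008`; `cv β₀ ro ≡ cv (cv β₀ sm) 1`, `split y W`.
First part: `S1_box2` with `g = rw' (cv β₀ sm) 0 W`, `g' = 1` (`rw' 1 B (2B) = win B (2B)`); boxes vanish (`S1_cv_eq_zero`, `cv_ne_zero`) unless `B₁ ≤ W` and
`X/(16 R) ≤ B₁ B₂ ≤ X/R`; `TIIcStmt`; `SW` from `SIBase 0.4` for `hf 0 0 X` (`q = 1`, `cv_congr`), `SI.cv`, `SI.sw`.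
Second part, fixed `q`: `α' = rw' (cv α (dl q)) 0 X`, `g = rw' (cv β₀ (hup y q)) (W/N q) W`, `g' = rw' (cv (hdn y q) 1) 0 X`; `S1_box2`; non-zero boxes have
`W/(2 N q) ≤ B₁ ≤ W`, `X/(16 R N q) ≤ B₁ B₂ ≤ X/R`; `TIIbStmt` with `η₀ = 0.002`; `SW` from `hup_eq`, `SIBase 0.003` (`N u > W/(N q X^0.004)`), `SI.cv` twice, `cv_comm`.
`c = min c_b c_c 0.01`, `η ≤ η_{II}/4`, `η ≤ 0.001`. -/

namespace Vale.Agent.P006

open Vale.Agent.P026 Filter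
open scoped ComplexConjugate Real

theorem crii_van {x₁ x₂ : ℝ} {α β₁ β₂ : O → ℂ} (h : S1 x₁ x₂ (cv α (cv β₁ β₂)) ≠ 0) :
    ∃ a u v : O, α a ≠ 0 ∧ β₁ u ≠ 0 ∧ β₂ v ≠ 0 ∧ x₁ < nm a * (nm u * nm v) ∧
      (nm a * (nm u * nm v) : ℝ) ≤ x₂ := by
  by_contra hn
  refine h (S1_cv_eq_zero fun a b _ _ ha hb h1 h2 => hn ?_)
  obtain ⟨-, u, v, -, -, rfl, hu, hv⟩ := cv_ne_zero hb
  rw [nm_mul, Nat.cast_mul] at h1 h2
  exact ⟨a, u, v, ha, hu, hv, h1, h2⟩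

theorem crii_range {X R Q B B' c A u v x₁ x₂ : ℝ} (hX : 1 ≤ X) (h16 : 16 ≤ X ^ (0.004 : ℝ))
    (hc : c ≤ 0.01) (hR1 : X ^ (1 / 2 - c) ≤ R) (hR2 : R ≤ X ^ (1 / 2 + c)) (hQ1 : 1 ≤ Q)
    (hQ2 : Q ≤ X ^ (0.001 : ℝ)) (hB : 0 < B) (hB' : 0 < B') (hA1 : R * Q ≤ A) (hA2 : A ≤ 2 * R * Q)
    (hu1 : B ≤ u) (hu2 : u ≤ 2 * B) (hv1 : B' ≤ v) (hv2 : v ≤ 2 * B') (hx₁ : X / 2 ≤ x₁)
    (hx₂ : x₂ ≤ X) (h1 : x₁ < A * (u * v)) (h2 : A * (u * v) ≤ x₂) (hW : u ≤ X ^ (0.008 : ℝ)) :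
    X ^ (0.45 : ℝ) ≤ B * B' ∧ B * B' ≤ X ^ (1 / 2 + c) ∧ 16 * (B * B') ≤ X ∧
      X ^ (0.003 : ℝ) ≤ B' := by
  have hX0 : 0 < X := by linarith
  have hp : ∀ a b : ℝ, a ≤ b → X ^ a ≤ X ^ b := fun a b h => Real.rpow_le_rpow_of_exponent_le hX h
  have hR0 : 0 < R := lt_of_lt_of_le (by positivity) hR1
  have hu0 : 0 < u := hB.trans_le hu1
  have hv0 : 0 < v := hB'.trans_le hv1
  have hA0 : 0 < A := lt_of_lt_of_le (by positivity) hA1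
  have a1 : X ^ (0.45 : ℝ) ≤ B * B' := by
    have e : X = X ^ (0.515 : ℝ) * X ^ (0.485 : ℝ) := by
      rw [← Real.rpow_add hX0]; norm_num
    have e2 : X ^ (0.515 : ℝ) = X ^ (0.004 : ℝ) * X ^ (0.51 : ℝ) * X ^ (0.001 : ℝ) := by
      rw [← Real.rpow_add hX0, ← Real.rpow_add hX0]; norm_num
    have b1 : R ≤ X ^ (0.51 : ℝ) := hR2.trans (hp _ _ (by linarith))
    have b2 : X ^ (0.515 : ℝ) * X ^ (0.485 : ℝ) ≤ X ^ (0.515 : ℝ) * (B * B') := by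
      rw [← e, e2]
      calc X ≤ 2 * (A * (u * v)) := by linarith
        _ ≤ 2 * (2 * R * Q * (2 * B * (2 * B'))) := by gcongr
        _ = 16 * R * Q * (B * B') := by ring
        _ ≤ _ := by gcongr
    exact (hp _ _ (by norm_num)).trans (le_of_mul_le_mul_left b2 (by positivity))
  have a2 : B * B' ≤ X ^ (1 / 2 + c) := by
    have e : X = X ^ (1 / 2 - c) * X ^ (1 / 2 + c) := by
      rw [← Real.rpow_add hX0]; norm_num
    have b2 : X ^ (1 / 2 - c) * (B * B') ≤ X ^ (1 / 2 - c) * X ^ (1 / 2 + c) := by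
      rw [← e]
      calc X ^ (1 / 2 - c) * (B * B') ≤ A * (u * v) := by
            gcongr
            exact hR1.trans ((le_mul_of_one_le_right hR0.le hQ1).trans hA1)
        _ ≤ X := h2.trans hx₂
    exact le_of_mul_le_mul_left b2 (by positivity)
  refine ⟨a1, a2, ?_, ?_⟩
  · calc 16 * (B * B') ≤ X ^ (0.004 : ℝ) * X ^ (1 / 2 + c) := by gcongr
      _ = X ^ (0.004 + (1 / 2 + c)) := (Real.rpow_add hX0 _ _).symm
      _ ≤ X ^ (1 : ℝ) := hp _ _ (by linarith)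
      _ = X := Real.rpow_one X
  · have b2 : X ^ (0.008 : ℝ) * X ^ (0.003 : ℝ) ≤ X ^ (0.008 : ℝ) * B' := by
      calc X ^ (0.008 : ℝ) * X ^ (0.003 : ℝ) = X ^ (0.008 + 0.003 : ℝ) :=
            (Real.rpow_add hX0 _ _).symm
        _ ≤ B * B' := (hp _ _ (by norm_num)).trans a1
        _ ≤ _ := by gcongr; exact hu1.trans hW
    exact le_of_mul_le_mul_left b2 (by positivity)

theorem crii_win (B : ℝ) {n : O} (hn : Sq n) : win B (2 * B) n =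
    rw' (fun n => hf 0 0 (2 * B) n * ind (IsCoprime n 1)) B (2 * B) n := by
  by_cases h : B < nm n ∧ (nm n : ℝ) ≤ 2 * B
  · rw [rw_of h.1 h.2, win, ind_of h, ind_of isCoprime_one_right, hf, ind_of hn, pow_zero, ind_of]
    · ring
    · intro p hp hd
      exact ⟨by exact_mod_cast nm_pos hp.ne_zero,
        le_trans (by exact_mod_cast nm_le_of_dvd hn.ne_zero hd) h.2⟩
  · rw [rw', win, ind_of_not h, mul_zero]

theorem crii_sq {f g : O → ℂ} {a b : ℝ} (n : O) (h : rw' (cv f g) a b n ≠ 0) : Sq n :=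
  (cv_ne_zero (rw_ne_zero h).1).1

theorem crii_eqx (X : ℝ) (f : O → ℂ) : EqX X f (rw' f 0 X) := fun _ hn h =>
  (rw_of (one_pos.trans_le hn.one_le) h).symm

theorem crii_one (hc : TIIcStmt) (hb : SIBase) : ∃ c η : ℝ, 0 < c ∧ 0 < η ∧ ∀ᶠ X : ℝ in atTop,
    ∀ (R x₁ x₂ B B' : ℝ) (α g : O → ℂ), X ^ (1 / 2 - c) ≤ R → R ≤ X ^ (1 / 2 + c) → X / 2 ≤ x₁ →
      x₂ ≤ X → Supp 2 R α → Bd (X ^ η) α → Bd (X ^ η) g → (∀ n, g n ≠ 0 → Sq n) →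
      Le (X ^ (0.008 : ℝ)) g → 1 / 2 ≤ B → 1 / 2 ≤ B' →
        ‖S1 x₁ x₂ (cv α (cv (rw' g B (2 * B)) (rw' (fun _ => 1) B' (2 * B'))))‖ ≤
          X ^ (5 / 6 - η) := by
  obtain ⟨η₂, h₂, H₂⟩ := hb 0.003 (by norm_num)
  set κ := min η₂ 1 with hκ
  have k0 : 0 < κ := lt_min h₂ one_pos
  have k1 : κ ≤ η₂ := min_le_left _ _
  have k2 : κ ≤ 1 := min_le_right _ _
  obtain ⟨c, η, c0, h0, H⟩ := hc (κ / 2 / 2) (by positivity)
  refine ⟨min c 0.01, min η (κ / 4), lt_min c0 (by norm_num), lt_min h0 (by positivity), ?_⟩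
  filter_upwards [H₂, H, ev_const 16 (show (0 : ℝ) < 0.004 by norm_num), eventually_ge_atTop 1,
    SI.cv (η := κ) (show 0 < κ / 4 by positivity), SI.sw (show 0 < κ / 2 by positivity)]
    with X H₂ H h16 hX hcv hsw R x₁ x₂ B B' α g hR1 hR2 hx₁ hx₂ hs hα hg hq hW hB hB'
  have hp : ∀ a b : ℝ, a ≤ b → X ^ a ≤ X ^ b := fun a b h => Real.rpow_le_rpow_of_exponent_le hX h
  have e : rw' (fun _ => (1 : ℂ)) B' (2 * B') = win B' (2 * B') := funext fun n => one_mul _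
  by_cases hz : S1 x₁ x₂ (cv α (cv (rw' g B (2 * B)) (rw' (fun _ => 1) B' (2 * B')))) = 0
  · rw [hz, norm_zero]; positivity
  obtain ⟨a, u, v, ha, hu, hv, h1, h2⟩ := crii_van hz
  obtain ⟨u0, u1, u2⟩ := rw_ne_zero hu
  obtain ⟨-, v1, v2⟩ := rw_ne_zero hv
  obtain ⟨-, a1, a2⟩ := hs a ha
  obtain ⟨r1, r2, r3, r4⟩ := crii_range (Q := 1) hX h16 (min_le_right _ _) hR1 hR2 le_rfl
    (Real.one_le_rpow hX (by norm_num)) (by linarith) (by linarith) (by linarith) (by linarith)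
    u1.le u2 v1.le v2 hx₁ hx₂ h1 h2 (hW u u0)
  have s1 : Supp 4 B (rw' g B (2 * B)) := supp_rw hq (by linarith) (by norm_num)
  rw [e]
  refine (H B B' x₁ x₂ α _ (by linarith) (u1.le.trans ((hW u u0).trans (hp _ _ (by norm_num)))) r1
    (r2.trans (hp _ _ (by linarith [min_le_left c 0.01]))) hx₁ hx₂ s1
    (hα.mono (hp _ _ (min_le_left _ _))) ((hg.mono (hp _ _ (min_le_left _ _))).rw' _ _) ?_).trans
    (hp _ _ (by linarith [min_le_left η (κ / 4)]))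
  rw [cv_congr (fun _ _ => rfl) fun n hn => crii_win B' hn]
  have s2 : Supp 4 B' (rw' (fun n => hf 0 0 (2 * B') n * ind (IsCoprime n 1)) B' (2 * B')) :=
    supp_rw (fun n hn => hf_sq (left_ne_zero_of_mul hn)) (by linarith) (by norm_num)
  have s3 := s1.cv (by linarith) (by linarith) s2
  norm_num only at s3
  refine hsw _ _ (by positivity) r3 s3 ?_
  have t1 := ((H₂ B' (2 * B') r4).1 0 0 (2 * B') 1 one_ne_zero (by simpa using hX)).mono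
    (A' := 10 + 3) (γ' := κ / 2) hX (by norm_num) (by linarith) k1
  have t2 := hcv 10 (κ / 2) _ _ (by linarith)
    ((hg.mono (hp _ _ (min_le_right _ _))).rw' B (2 * B)) t1
  rwa [show κ - 2 * (κ / 4) = κ / 2 by ring] at t2

theorem crii_hup {X y : ℝ} {q : O} {β₀ : O → ℂ} (hX : 1 ≤ X) (hq : PP q)
    (hq2 : (nm q : ℝ) ≤ X ^ (0.001 : ℝ)) (hle : Le (X ^ (0.004 : ℝ)) β₀) :
    rw' (cv β₀ (hup y q)) (X ^ (0.008 : ℝ) / nm q) (X ^ (0.008 : ℝ)) =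
      rw' (cv β₀ (rw' (hup y q) (X ^ (0.003 : ℝ)) X)) (X ^ (0.008 : ℝ) / nm q)
        (X ^ (0.008 : ℝ)) := by
  have hX0 : 0 < X := by linarith
  have q1 := hq.sq.one_le
  refine rw_cv_congr fun u v hu hv h0 h1 h2 => (rw_of ?_ ?_).symm
  · have e : X ^ (0.008 : ℝ) = X ^ (0.004 : ℝ) * X ^ (0.001 : ℝ) * X ^ (0.003 : ℝ) := by
      rw [← Real.rpow_add hX0, ← Real.rpow_add hX0]; norm_num
    rw [div_lt_iff₀ (by linarith), e] at h1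
    have h3 : (nm u : ℝ) * nm v * nm q ≤ X ^ (0.004 : ℝ) * X ^ (0.001 : ℝ) * nm v := by
      calc (nm u : ℝ) * nm v * nm q ≤ X ^ (0.004 : ℝ) * nm v * X ^ (0.001 : ℝ) := by
            gcongr; exact hle u h0
        _ = _ := by ring
    exact lt_of_mul_lt_mul_left (h1.trans_le h3) (by positivity)
  · calc (nm v : ℝ) ≤ nm u * nm v := le_mul_of_one_le_left (Nat.cast_nonneg _) hu.one_le
      _ ≤ X ^ (1 : ℝ) := h2.trans (Real.rpow_le_rpow_of_exponent_le hX (by norm_num))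
      _ = X := Real.rpow_one X

theorem crii_two (hc : TIIbStmt) (hb : SIBase) : ∃ c η : ℝ, 0 < c ∧ 0 < η ∧ ∀ᶠ X : ℝ in atTop,
    ∀ (R x₁ x₂ y B B' : ℝ) (α β₀ : O → ℂ) (q : O), X ^ (1 / 2 - c) ≤ R → R ≤ X ^ (1 / 2 + c) →
      X / 2 ≤ x₁ → x₂ ≤ X → Supp 2 R α → Bd (X ^ η) α → Bd (X ^ η) β₀ →
      Le (X ^ (0.004 : ℝ)) β₀ → PP q → (nm q : ℝ) ≤ X ^ (0.001 : ℝ) → 1 / 2 ≤ B → 1 / 2 ≤ B' →
        ‖S1 x₁ x₂ (cv (rw' (cv α (dl q)) 0 X)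
          (cv (rw' (rw' (cv β₀ (hup y q)) (X ^ (0.008 : ℝ) / nm q) (X ^ (0.008 : ℝ))) B (2 * B))
            (rw' (rw' (cv (hdn y q) fun _ => 1) 0 X) B' (2 * B'))))‖ ≤ X ^ (5 / 6 - η) := by
  obtain ⟨η₂, h₂, H₂⟩ := hb 0.003 (by norm_num)
  set κ := min η₂ 1 with hκ
  have k0 : 0 < κ := lt_min h₂ one_pos
  have k1 : κ ≤ η₂ := min_le_left _ _
  have k2 : κ ≤ 1 := min_le_right _ _
  obtain ⟨c, η, c0, h0, H⟩ := hc 0.002 (κ / 2 / 2) (by norm_num) (by positivity)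
  set ε := min η (κ / 8) / 2 with hε
  have ε0 : 0 < ε := half_pos (lt_min h0 (by positivity))
  have ε1 : ε + ε ≤ η := by rw [hε, add_halves]; exact min_le_left _ _
  have ε2 : ε + ε ≤ κ / 8 := by rw [hε, add_halves]; exact min_le_right _ _
  refine ⟨min c 0.01, ε, lt_min c0 (by norm_num), ε0, ?_⟩
  filter_upwards [H₂, H, ev_const 16 (show (0 : ℝ) < 0.004 by norm_num), eventually_ge_atTop 1,
    SI.cv (η := κ) (show 0 < κ / 8 by positivity),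
    SI.cv (η := κ - 2 * (κ / 8)) (show 0 < κ / 8 by positivity),
    SI.sw (show 0 < κ / 2 by positivity), ev_bd_cv ε0]
    with X H₂ H h16 hX hcv hcv' hsw hbd R x₁ x₂ y B B' α β₀ q hR1 hR2 hx₁ hx₂ hs hα hβ hle hq hq2
      hB hB'
  have hX0 : 0 < X := by linarith
  have hp : ∀ a b : ℝ, a ≤ b → X ^ a ≤ X ^ b := fun a b h => Real.rpow_le_rpow_of_exponent_le hX h
  have hp1 : ∀ a : ℝ, a ≤ 1 → X ^ a ≤ X := fun a h => (hp _ _ h).trans (Real.rpow_one X).le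
  have q1 := hq.sq.one_le
  have bd : ∀ (f g : O → ℂ) (a b : ℝ), b ≤ X → Bd (X ^ ε) f → Bd 1 g →
      Bd (X ^ (ε + ε)) (rw' (cv f g) a b) := fun f g a b h hf hg => by
    have := hbd _ _ a b f g h hf hg
    rwa [mul_one, ← Real.rpow_add hX0] at this
  have b1 := bd α _ 0 X le_rfl hα (bd_dl q)
  have b2 := (bd β₀ _ (X ^ (0.008 : ℝ) / nm q) (X ^ (0.008 : ℝ)) (hp1 _ (by norm_num)) hβ
    (bd_hup y q)).rw' B (2 * B)
  have b3 := (bd (hdn y q) (fun _ => 1) 0 X le_rfl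
    ((bd_hdn y q).mono (Real.one_le_rpow hX ε0.le)) fun _ => norm_one.le).rw' B' (2 * B')
  have s1 : Supp 4 B (rw' (rw' (cv β₀ (hup y q)) (X ^ (0.008 : ℝ) / nm q) (X ^ (0.008 : ℝ))) B
      (2 * B)) := supp_rw crii_sq (by linarith) (by norm_num)
  have s2 : Supp 4 B' (rw' (rw' (cv (hdn y q) fun _ => 1) 0 X) B' (2 * B')) :=
    supp_rw crii_sq (by linarith) (by norm_num)
  have t0 : SI X (10 + 3) (κ / 2) (κ - 2 * (κ / 8))
      (rw' (rw' (cv β₀ (hup y q)) (X ^ (0.008 : ℝ) / nm q) (X ^ (0.008 : ℝ))) B (2 * B)) := by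
    rw [crii_hup hX hq hq2 hle]
    obtain ⟨q', q0, q2, e⟩ := hup_eq y hq
    have q3 : (nm q' : ℝ) ≤ X := by
      calc (nm q' : ℝ) ≤ (nm q : ℝ) ^ 2 := by exact_mod_cast q2
        _ ≤ (X ^ (0.001 : ℝ)) ^ 2 := by gcongr
        _ = X ^ (0.001 + 0.001 : ℝ) := by rw [Real.rpow_add hX0, sq]
        _ ≤ X := hp1 _ (by norm_num)
    have t1 := ((H₂ _ X le_rfl).1 1 (nm q - 1 / 2) y q' q0 q3).mono
      (A' := 10 + 3 + 3) (γ' := κ / 2) hX (by norm_num) (by linarith) k1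
    rw [← e] at t1
    exact ((hcv _ _ _ _ (by linarith) (hβ.mono (hp _ _ (by linarith))) t1).rw' _ _).rw' _ _
  generalize hβ₁ : rw' (rw' (cv β₀ (hup y q)) (X ^ (0.008 : ℝ) / nm q) (X ^ (0.008 : ℝ))) B
    (2 * B) = β₁ at b2 s1 t0 ⊢
  generalize hβ₂ : rw' (rw' (cv (hdn y q) fun _ => 1) 0 X) B' (2 * B') = β₂ at b3 s2 ⊢
  by_cases hz : S1 x₁ x₂ (cv (rw' (cv α (dl q)) 0 X) (cv β₁ β₂)) = 0
  · rw [hz, norm_zero]; positivity
  obtain ⟨a', u, v, ha, hu, hv, h1, h2⟩ := crii_van hz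
  rw [← hβ₁] at hu
  rw [← hβ₂] at hv
  obtain ⟨u0, u1, u2⟩ := rw_ne_zero hu
  obtain ⟨-, u3, u4⟩ := rw_ne_zero u0
  obtain ⟨-, v1, v2⟩ := rw_ne_zero hv
  obtain ⟨-, a, q', -, -, rfl, a0, hq'⟩ := cv_ne_zero (rw_ne_zero ha).1
  obtain rfl : q' = q := by
    by_contra hn
    exact hq' (ind_of_not hn)
  obtain ⟨-, a1, a2⟩ := hs a a0
  rw [nm_mul, Nat.cast_mul] at h1 h2
  obtain ⟨r1, r2, r3, r4⟩ := crii_range hX h16 (min_le_right _ _) hR1 hR2 q1 hq2 (by linarith)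
    (by linarith) (by gcongr) (by gcongr) u1.le u2 v1.le v2 hx₁ hx₂ h1 h2 u4
  have r5 : X ^ (0.002 : ℝ) ≤ B := by
    have e : X ^ (0.007 : ℝ) = X ^ (0.004 : ℝ) * X ^ (0.002 : ℝ) * X ^ (0.001 : ℝ) := by
      rw [← Real.rpow_add hX0, ← Real.rpow_add hX0]; norm_num
    rw [div_lt_iff₀ (by linarith)] at u3
    have w : 2 * X ^ (0.002 : ℝ) * X ^ (0.001 : ℝ) ≤ 2 * B * X ^ (0.001 : ℝ) := by
      calc 2 * X ^ (0.002 : ℝ) * X ^ (0.001 : ℝ) ≤ X ^ (0.007 : ℝ) := by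
            rw [e]; gcongr; linarith
        _ ≤ (nm u : ℝ) * nm q' := (hp _ _ (by norm_num)).trans u3.le
        _ ≤ _ := by gcongr
    have := le_of_mul_le_mul_right w (by positivity)
    linarith
  refine (H B B' x₁ x₂ _ β₁ β₂ r5 ((hp _ _ (by norm_num)).trans r4)
    ((hp _ _ (by norm_num)).trans r1) (r2.trans (hp _ _ (by linarith [min_le_left c 0.01]))) hx₁ hx₂
    s1 s2 (b1.mono (hp _ _ ε1)) (b2.mono (hp _ _ ε1)) (b3.mono (hp _ _ ε1)) ?_).trans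
    (hp _ _ (by linarith))
  have s3 := s1.cv (by linarith) (by linarith) s2
  norm_num only at s3
  refine hsw _ _ (by positivity) r3 s3 ?_
  have t2 := hcv' 10 (κ / 2) β₂ β₁ (by linarith) (b3.mono (hp _ _ ε2)) t0
  rwa [show κ - 2 * (κ / 8) - 2 * (κ / 8) = κ / 2 by ring, cv_comm] at t2

theorem crii_dec {X x₁ x₂ y W : ℝ} (hx : x₂ ≤ X) (α : O → ℂ) {β₀ : O → ℂ} (hle : Le W β₀) :
    S1 x₁ x₂ (cv α (cv β₀ (ro X y))) =
      S1 x₁ x₂ (cv α (cv (rw' (cv β₀ (sm y)) 0 W) fun _ => 1)) -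
        ∑ q ∈ prb y, S1 x₁ x₂ (cv (rw' (cv α (dl q)) 0 X)
          (cv (rw' (cv β₀ (hup y q)) (W / nm q) W) (rw' (cv (hdn y q) fun _ => 1) 0 X))) := by
  rw [(EqX.rfl.cv (EqX.rfl.cv (ro_eq X y))).S1 hx, ← cv_assoc β₀, cv_comm (cv β₀ (sm y)),
    cv_comm (rw' (cv β₀ (sm y)) 0 W)]
  nth_rewrite 1 [funext (split y W hle)]
  rw [cv_sub, cv_sum, cv_sub, cv_sum, S1_sub, S1_sum]
  refine congrArg₂ (· - ·) rfl (Finset.sum_congr rfl fun q _ => ?_)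
  rw [← ((crii_eqx X (cv α (dl q))).cv
    (EqX.rfl.cv (crii_eqx X (cv (hdn y q) fun _ => 1)))).S1 hx]
  generalize rw' (cv β₀ (hup y q)) (W / nm q) W = G
  rw [cv_comm (fun _ => 1), cv_assoc α, cv_assoc G, cv_assoc (dl q), ← cv_assoc G (dl q),
    cv_comm G (dl q), cv_assoc (dl q)]

theorem rii (hb' : TIIbStmt) (hc : TIIcStmt) (hb : SIBase) : RIIStmt := by
  obtain ⟨c₁, η₁, c1, h1, H1⟩ := crii_one hc hb
  obtain ⟨c₂, η₂, c2, h2, H2⟩ := crii_two hb' hb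
  obtain ⟨C, hC, hcard⟩ := card_ball_le
  set η := min (min η₁ η₂ / 4) 0.001 with hη
  have m1 := min_le_left η₁ η₂
  have m2 := min_le_right η₁ η₂
  have e0 : 0 < η := lt_min (div_pos (lt_min h1 h2) four_pos) (by norm_num)
  have e1 : η ≤ min η₁ η₂ / 4 := min_le_left _ _
  have e2 : η ≤ 0.001 := min_le_right _ _
  refine ⟨min c₁ c₂, η, lt_min c1 c2, e0, fun η₀ h0 h0' => ?_⟩
  filter_upwards [H1, H2, nb_le, ev_log ((1 + 2 * C) * 4) 2 e0, eventually_ge_atTop 1, ev_bd_cv e0]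
    with X H1 H2 hnb hlog hX hbd R x₁ x₂ α β₀ hR1 hR2 hx₁ hx₂ hs hα hβ hle
  have hX0 : 0 < X := by linarith
  have hp : ∀ a b : ℝ, a ≤ b → X ^ a ≤ X ^ b := fun a b h => Real.rpow_le_rpow_of_exponent_le hX h
  have n1 := min_le_left c₁ c₂
  have n2 := min_le_right c₁ c₂
  have y1 : 1 ≤ X ^ η₀ := Real.one_le_rpow hX h0.le
  have hW : X ^ (0.008 : ℝ) ≤ X := (hp _ _ (by norm_num)).trans (Real.rpow_one X).le
  set E := X ^ (5 / 6 - 4 * η) with hE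
  have E0 : 0 ≤ E := by positivity
  rw [crii_dec hx₂ α fun n hn => (hle n hn).trans (hp _ 0.008 (by norm_num))]
  have p1 : ‖S1 x₁ x₂ (cv α (cv (rw' (cv β₀ (sm (X ^ η₀))) 0 (X ^ (0.008 : ℝ))) fun _ => 1))‖ ≤
      nb X ^ 2 * E := by
    refine S1_box2 hX hx₂ _ _ _ fun B B' hB _ hB' _ => ?_
    have b := hbd _ _ 0 _ β₀ (sm (X ^ η₀)) hW hβ (bd_hf 1 0 _)
    rw [mul_one, ← Real.rpow_add hX0] at b
    exact (H1 R x₁ x₂ B B' α _ ((hp _ _ (by linarith)).trans hR1) (hR2.trans (hp _ _ (by linarith)))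
      hx₁ hx₂ hs (hα.mono (hp _ _ (by linarith))) (b.mono (hp _ _ (by linarith))) crii_sq
      (fun n hn => (rw_ne_zero hn).2.2) hB hB').trans (hp _ _ (by linarith))
  have p2 : ∀ q ∈ prb (X ^ η₀), ‖S1 x₁ x₂ (cv (rw' (cv α (dl q)) 0 X)
      (cv (rw' (cv β₀ (hup (X ^ η₀) q)) (X ^ (0.008 : ℝ) / nm q) (X ^ (0.008 : ℝ)))
        (rw' (cv (hdn (X ^ η₀) q) fun _ => 1) 0 X)))‖ ≤ nb X ^ 2 * E := by
    intro q hq
    refine S1_box2 hX hx₂ _ _ _ fun B B' hB _ hB' _ => ?_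
    exact (H2 R x₁ x₂ _ B B' α β₀ q ((hp _ _ (by linarith)).trans hR1)
      (hR2.trans (hp _ _ (by linarith))) hx₁ hx₂ hs (hα.mono (hp _ _ (by linarith)))
      (hβ.mono (hp _ _ (by linarith))) hle (mem_prb.1 hq).1
      ((mem_prb.1 hq).2.trans (hp _ _ (by linarith))) hB hB').trans (hp _ _ (by linarith))
  have p3 : ((prb (X ^ η₀)).card : ℝ) ≤ 2 * C * X ^ η₀ := by
    have a1 : (prb (X ^ η₀)).card ≤ (ball (X ^ η₀)).card :=
      Finset.card_le_card fun q hq => mem_ball.2 (mem_prb.1 hq).2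
    have a2 := hcard (X ^ η₀) (by positivity)
    have a3 : C * (1 + X ^ η₀) ≤ C * (X ^ η₀ + X ^ η₀) := by gcongr
    have a4 : ((prb (X ^ η₀)).card : ℝ) ≤ (ball (X ^ η₀)).card := by exact_mod_cast a1
    linarith
  refine (norm_sub_le _ _).trans ((add_le_add p1 ((norm_sum_le _ _).trans
    (Finset.sum_le_card_nsmul _ _ _ p2))).trans ?_)
  rw [nsmul_eq_mul]
  calc (nb X : ℝ) ^ 2 * E + (prb (X ^ η₀)).card * (nb X ^ 2 * E)
      = (1 + (prb (X ^ η₀)).card) * nb X ^ 2 * E := by ring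
    _ ≤ (X ^ η₀ + 2 * C * X ^ η₀) * (2 * Real.log X) ^ 2 * E := by gcongr
    _ = (1 + 2 * C) * 4 * Real.log X ^ 2 * X ^ η₀ * E := by ring
    _ ≤ X ^ η * X ^ η * E := by gcongr
    _ = X ^ (η + η + (5 / 6 - 4 * η)) := by rw [Real.rpow_add hX0, Real.rpow_add hX0]
    _ ≤ _ := hp _ _ (by linarith)

end Vale.Agent.P006
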