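import Vale.Agent.P006.CSI

/-! C4b: base cases of `SI`.
Plans.  `siBase`: `HSStmt` with `Q = X^30`, `ε = θ η₀/200`, `η = min (η₀/2) (θ η₀/4)`.  If the two windows do not meet the sum is empty; otherwise replace them by
`(max v₁ u₁, min v₂ u₂]` with upper end `U ∈ [X^η₀, u₂]`.  For `v ∈ Sq`: `hf (g v) = hf g * hf v * ind (IsCoprime v g)` (`hf_mul`; zero if not coprime),
`ind (IsCoprime v q) = cub (q^3) v` (`cub_cube`, `cub_eq_zero`), so `k` becomes `k (g q)^3` (still a non-cube: lemma `not_cube_mul`), window `(u₁/N g, U/N g]`,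
`(U/N g)^{3/4-θ} ≤ u₂^{3/4} X^{-θ η₀/2}` (if `U / N g < 1` the sum is empty).  For `Lam`: `g v` prime and `N g ≤ X^η < v₁` force `g = 1`.
`siGa`: `ga ≡ rw' ga (zz X) X` (`ga_ne_zero`), `ga_of_ne`, `rw_split (la X y 0)` at `X^0.1`; `rw_cv_congr` (a factor `≤ X^0.1` forces the rough cofactor `> X^0.2`);
`SIBase 0.1` with `q = 1`, `SI.cv`, `SI.rw'`, `SI.add`, `SI.congr`, `SI.mono`. -/

namespace Vale.Agent.P006

open Vale.Agent.P026 Filter
open scoped ComplexConjugate Real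

theorem CSI2_cub {v : O} (hv : Sq v) (m : O) : cub (m ^ 3) v = ind (IsCoprime m v) := by
  rw [cub_pow_left]
  by_cases h : IsCoprime m v
  · rw [cub_cube h, ind_of h]
  · rw [cub_eq_zero hv.1.not_lam_dvd h, ind_of_not h, zero_pow three_ne_zero]

theorem CSI2_win {g : O} (hg : Sq g) (v : O) (v₁ v₂ u₁ u₂ : ℝ) :
    win v₁ v₂ (g * v) * win u₁ u₂ (g * v) = win (max v₁ u₁ / nm g) (min v₂ u₂ / nm g) v := by
  have h0 : (0 : ℝ) < nm g := by linarith [hg.one_le]
  rw [win, win, win, ← ind_and, div_lt_iff₀' h0, le_div_iff₀' h0, max_lt_iff, le_min_iff, nm_mul,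
    Nat.cast_mul, and_and_and_comm]

theorem CSI2_core {θ η η₀ X v₁ v₂ u₁ u₂ : ℝ} {g : O} {c : ℂ} {F G : O → ℂ} (hθ : 0 < θ)
    (hη₀ : 0 < η₀) (hX : 1 ≤ X) (a2 : η ≤ η₀ / 2) (a3 : η ≤ θ * η₀ / 4) (hv : X ^ η₀ ≤ v₁) (hg : Sq g)
    (hgX : (nm g : ℝ) ≤ X ^ η) (hu : 0 ≤ u₂) (hc : ‖c‖ ≤ 1)
    (H : ∀ w₁ w₂, 1 ≤ w₂ → w₂ ≤ u₂ → ‖∑ v ∈ qball w₂, F v * win w₁ w₂ v‖ ≤
      (X ^ (30 : ℝ)) ^ (θ * η₀ / 200) * w₂ ^ (3 / 4 - θ))
    (e : ∀ v, Sq v → G v = c * (F v * (win v₁ v₂ (g * v) * win u₁ u₂ (g * v)))) :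
    ‖∑ v ∈ qball u₂, G v‖ ≤ X ^ (-η) * u₂ ^ (3 / 4 : ℝ) := by
  have X0 : 0 < X := by linarith
  have h1 := hg.one_le
  have h0 : (0 : ℝ) < nm g := by linarith
  rw [Finset.sum_congr rfl fun v hv => by rw [e v (mem_qball.1 hv).1, CSI2_win hg],
    ← Finset.mul_sum, norm_mul]
  refine (mul_le_of_le_one_left (norm_nonneg _) hc).trans ?_
  generalize hw₁ : max v₁ u₁ / (nm g : ℝ) = w₁
  generalize hw₂ : min v₂ u₂ / (nm g : ℝ) = w₂
  rcases le_or_gt w₂ w₁ with h | h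
  · rw [Finset.sum_eq_zero fun v _ => by
      rw [win, ind_of_not fun h' => h'.1.not_ge (h'.2.trans h), mul_zero], norm_zero]
    positivity
  have h2 : X ^ (η₀ / 2) ≤ w₂ := by
    refine le_trans ?_ h.le
    rw [← hw₁, le_div_iff₀ h0]
    calc X ^ (η₀ / 2) * (nm g : ℝ) ≤ X ^ (η₀ / 2) * X ^ (η₀ / 2) := mul_le_mul_of_nonneg_left
          (hgX.trans (Real.rpow_le_rpow_of_exponent_le hX a2)) (by positivity)
      _ = X ^ η₀ := by rw [← Real.rpow_add X0, add_halves]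
      _ ≤ _ := hv.trans (le_max_left _ _)
  have h3 : 1 ≤ w₂ := (Real.one_le_rpow hX (by positivity)).trans h2
  have h4 : w₂ ≤ u₂ := by
    rw [← hw₂, div_le_iff₀ h0]
    exact (min_le_right _ _).trans (le_mul_of_one_le_right hu h1)
  rw [← Finset.sum_subset (qball_mono h4) fun v h5 h6 => by
    rw [win, ind_of_not fun h' => h6 (mem_qball.2 ⟨(mem_qball.1 h5).1, h'.2⟩), mul_zero]]
  refine (H w₁ w₂ h3 h4).trans ?_
  have h5 : w₂ ^ (-θ) ≤ X ^ (η₀ / 2 * -θ) := by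
    rw [Real.rpow_mul X0.le]
    exact Real.rpow_le_rpow_of_nonpos (by positivity) h2 (by linarith)
  rw [sub_eq_neg_add, Real.rpow_add (by linarith), ← mul_assoc, ← Real.rpow_mul X0.le]
  refine mul_le_mul ((mul_le_mul_of_nonneg_left h5 (by positivity)).trans ?_)
    (Real.rpow_le_rpow (by linarith) h4 (by norm_num)) (by positivity) (by positivity)
  rw [← Real.rpow_add X0]
  exact Real.rpow_le_rpow_of_exponent_le hX (by nlinarith [mul_pos hθ hη₀])

theorem siBase (hs : HSStmt) : SIBase := by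
  intro η₀ h₀
  obtain ⟨θ, hθ, hs⟩ := hs
  have hη : 0 < min (min 1 (η₀ / 2)) (θ * η₀ / 4) := by positivity
  have a1 : min (min 1 (η₀ / 2)) (θ * η₀ / 4) ≤ 1 := (min_le_left _ _).trans (min_le_left _ _)
  have a2 : min (min 1 (η₀ / 2)) (θ * η₀ / 4) ≤ η₀ / 2 := (min_le_left _ _).trans (min_le_right _ _)
  have a3 : min (min 1 (η₀ / 2)) (θ * η₀ / 4) ≤ θ * η₀ / 4 := min_le_right _ _
  refine ⟨_, hη, ?_⟩
  generalize min (min 1 (η₀ / 2)) (θ * η₀ / 4) = η at hη a1 a2 a3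
  filter_upwards [(tendsto_rpow_atTop (show (0 : ℝ) < 30 by norm_num)).eventually
    (hs (θ * η₀ / 200) (by positivity)), eventually_ge_atTop 1] with X H hX v₁ v₂ hv
  have b1 : X ≤ X ^ (30 : ℝ) := Real.self_le_rpow_of_one_le hX (by norm_num)
  have b2 : X ^ η ≤ X := Real.rpow_le_self_of_one_le hX a1
  refine ⟨fun j Y₁ Y₂ q hq hqX g k t u₁ u₂ hg hgX hk hkX hc ht hu huX => ?_,
    fun g k t u₁ u₂ hg hgX hk hkX hc ht hu huX => ?_⟩
  · have hm : g * q ≠ 0 := mul_ne_zero hg.ne_zero hq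
    have b3 : (nm (k * (g * q) ^ 3) : ℝ) ≤ X ^ (30 : ℝ) := by
      rw [nm_mul, nm_pow, nm_mul]
      push_cast
      calc (nm k : ℝ) * (nm g * nm q) ^ 3 ≤ X ^ (22 : ℝ) * (X * X) ^ 3 := by
            gcongr
            exact hgX.trans b2
        _ = X ^ (28 : ℝ) := by
            rw [show (28 : ℝ) = 22 + (6 : ℕ) by norm_num, Real.rpow_add (by linarith),
              Real.rpow_natCast]
            ring
        _ ≤ _ := Real.rpow_le_rpow_of_exponent_le hX (by norm_num)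
    refine CSI2_core (v₂ := v₂) (u₁ := u₁) (c := hf j Y₁ Y₂ g * ind (IsCoprime g q))
      (F := fun v => hf j Y₁ Y₂ v * cub (k * (g * q) ^ 3) v * np v (-1 / 4 + Complex.I * t))
      hθ h₀ hX a2 a3 hv hg hgX hu (by
        rw [norm_mul]
        exact mul_le_one₀ (bd_hf _ _ _ _) (norm_nonneg _) (norm_ind_le _))
      (fun w₁ w₂ h1 h2 => ?_) fun v hv' => ?_
    · have := (H w₁ w₂ t _ h1 ((h2.trans huX).trans b1) (ht.trans b1)
        (mul_ne_zero hk (pow_ne_zero 3 hm)) b3 (not_cube_mul hm hc)).1 j Y₁ Y₂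
      refine le_of_eq_of_le (congrArg _ (Finset.sum_congr rfl fun n _ => ?_)) this
      ring
    · rw [rw', cub_mul_left, CSI2_cub hv', IsCoprime.mul_left_iff, IsCoprime.mul_left_iff, ind_and,
        ind_and, isCoprime_comm (x := q)]
      by_cases h : IsCoprime g v
      · rw [ind_of (hg.mul hv' h), hf_mul _ _ _ hg hv' h, ind_of h]
        ring
      · rw [ind_of_not (p := Sq _) fun h' => h h'.coprime, ind_of_not h]
        ring
  · refine CSI2_core (v₂ := v₂) (u₁ := u₁) (c := ind (g = 1))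
      (F := fun v => Lam v * cub k v * np v (-1 / 4 + Complex.I * t))
      hθ h₀ hX a2 a3 hv hg hgX hu (norm_ind_le _) (fun w₁ w₂ h1 h2 => ?_) fun v hv' => ?_
    · have := (H w₁ w₂ t k h1 ((h2.trans huX).trans b1) (ht.trans b1) hk
        (hkX.trans (Real.rpow_le_rpow_of_exponent_le hX (by norm_num))) hc).2
      refine le_of_eq_of_le (congrArg _ (Finset.sum_congr rfl fun n _ => ?_)) this
      ring
    · rw [rw']
      by_cases h : g = 1
      · subst h
        rw [one_mul, ind_of hv', ind_of rfl]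
        ring
      rw [ind_of_not h]
      by_cases h2 : Lam (g * v) = 0
      · rw [h2]
        ring
      rcases (Lam_sq h2).1.irreducible.isUnit_or_isUnit rfl with h3 | h3
      · exact absurd (hg.1.eq_one_of_isUnit h3) h
      · rw [hv'.1.eq_one_of_isUnit h3, mul_one, win, ind_of_not (p := _ < _ ∧ _) fun h4 =>
          h4.1.not_ge ((hgX.trans (Real.rpow_le_rpow_of_exponent_le hX (by linarith))).trans hv)]
        ring

/-- `ga = cv (μ on (0, X^0.1]) (ro on (X^0.2, X]) + cv (ro) (μ on (X^0.1, z])` on its support -/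
theorem siGa (hb : SIBase) : SIgaStmt := by
  obtain ⟨η₁, h₁, H⟩ := hb 0.1 (by norm_num)
  have hη : 0 < min η₁ 1 := by positivity
  have a1 := min_le_left η₁ 1
  have a2 := min_le_right η₁ 1
  generalize min η₁ 1 = η at hη a1 a2
  have hε : 0 < η / 6 := by positivity
  refine ⟨η / 2, by positivity, ?_⟩
  filter_upwards [H, SI.cv (η := η) hε, SI.add (η := η - 2 * (η / 6)) hε, eventually_ge_atTop 1]
    with X H1 H2 H3 hX y
  have X0 : 0 < X := by linarith
  have b1 : 1 ≤ X ^ (η / 6) := Real.one_le_rpow hX hε.le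
  have b2 : ∀ j v₁ v₂, X ^ (0.1 : ℝ) ≤ v₁ → SI X (19 + 3) η η (rw' (hf j y X) v₁ v₂) :=
    fun j v₁ v₂ h => by
      have := (H1 v₁ v₂ h).1 j y X 1 one_ne_zero (by simpa using hX)
      simp only [ind_of isCoprime_one_right, mul_one] at this
      exact this.mono hX (by norm_num) a1 a1
  have c1 := (H2 19 η (rw' (la X y 0) 0 (X ^ (0.1 : ℝ))) _ a2
    ((((bd_hf 1 y X).rw' _ _).rw' _ _).mono b1) (b2 0 _ X le_rfl)).rw' (zz X) X
  have c2 := (H2 19 η (ro X y) _ a2 ((bd_hf 0 y X).mono b1)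
    (b2 1 _ (min (zz X) X) (le_max_right 0 _))).rw' (zz X) X
  rw [← rw_rw] at c2
  rw [← rw_cv_congr (g := ro X y) fun u v _ hv h1 h2 h3 => ?_] at c1
  · refine ((H3 19 η _ _ c1 c2).congr fun n hn hnX => ?_).mono hX (by norm_num) (by linarith)
      (by linarith)
    rcases le_or_gt (nm n : ℝ) (zz X) with h | h
    · have : ga X y n = 0 := by
        by_contra h'
        exact (ga_ne_zero hX h').2.1.not_ge h
      rw [this, rw', rw', win, ind_of_not fun h' => h'.1.not_ge h, mul_zero, mul_zero, add_zero]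
    · have h1 : n ≠ 1 := by
        rintro rfl
        rw [nm_one, Nat.cast_one] at h
        exact h.not_ge (Real.one_le_rpow hX (by norm_num))
      rw [rw_of h hnX, rw_of h hnX, ga_of_ne h1, cv_comm (la X y 0),
        (EqX.rfl.cv (rw_split (W := X ^ (0.1 : ℝ)) (la X y 0))) n hn hnX, cv_add, cv_comm]
      rfl
  · have h4 := rw_ne_zero h1
    have h5 : (1 : ℝ) ≤ nm u := one_le_nm (by
      rintro rfl
      simp at h4)
    refine (rw_of (lt_of_not_ge fun h => h2.not_ge ?_)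
      ((le_mul_of_one_le_left (Nat.cast_nonneg _) h5).trans h3)).symm
    refine (mul_le_mul h4.2.2 h (Nat.cast_nonneg _) (by positivity)).trans ?_
    rw [← Real.rpow_add X0]
    exact Real.rpow_le_rpow_of_exponent_le hX (by norm_num)

end Vale.Agent.P006
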