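import Vale.Agent.P006.CRI
import Vale.Agent.P006.CRII
import Vale.Agent.P006.CG1
import Vale.Agent.P006.CG2
import Vale.Agent.P006.CNorm
import Vale.Agent.P006.CNar
import Vale.Agent.P006.CSI2

/-! C: assembly of the combinatorial part. -/

namespace Vale.Agent.P006

open Vale.Agent.P026 Filter
open scoped ComplexConjugate Real

theorem C_split (x₁ X W : ℝ) (f h : O → ℂ) : S1 x₁ X (cv f h) =
    S1 x₁ X (cv f (rw' h 0 W)) + S1 x₁ X (cv f (rw' h W X)) := by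
  rw [(EqX.rfl.cv (rw_split (X := X) (W := W) h)).S1 le_rfl, cv_add, S1_add]

theorem C_win (X : ℝ) (f : O → ℂ) : EqX X f (rw' f 0 X) := fun n hn hX =>
  (rw_of (by linarith [hn.one_le]) hX).symm

theorem C_id (X y : ℝ) {A gs gb Ls Lb : O → ℂ}
    (hA : A = cv (la X y 0) fun n => lg n * ro X y n)
    (h1 : gs = rw' (ga X y) 0 (YY X)) (h2 : gb = rw' (ga X y) (YY X) X)
    (h3 : Ls = rw' (Lr X y) 0 (YY X)) (h4 : Lb = rw' (Lr X y) (YY X) X) :
    S1 (X / 2) X (Lr X y) = S1 (X / 2) X (cv (dl 1) A) - S1 (X / 2) X (cv (Lr X y) gb) -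
      S1 (X / 2) X (cv gs A) + S1 (X / 2) X (cv (rw' (cv (Lr X y) gs) 0 X) gb) +
      S1 (X / 2) X (cv (rw' (cv gs gs) 0 X) Lb) + S1 (X / 2) X (cv gs (cv gs Ls)) := by
  obtain ⟨L, hL⟩ : ∃ L, L = Lr X y := ⟨_, rfl⟩
  obtain ⟨g, hg⟩ : ∃ g, g = ga X y := ⟨_, rfl⟩
  have hv : L = fun n => A n - cv g L n := by
    funext n; rw [hA, hL, hg]; exact vaughan X y n
  rw [← hL] at h3 h4 ⊢
  rw [← hg] at h1 h2
  have e1 : S1 (X / 2) X L = S1 (X / 2) X A - S1 (X / 2) X (cv g L) := by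
    rw [← S1_sub, ← hv]
  have e2 : S1 (X / 2) X (cv (dl 1) A) = S1 (X / 2) X A := (cv_dl_one A (X := X)).S1 le_rfl
  have e3 := C_split (X / 2) X (YY X) L g
  rw [← h1, ← h2, cv_comm L g] at e3
  have e4 : S1 (X / 2) X (cv L gs) = S1 (X / 2) X (cv gs A) - S1 (X / 2) X (cv gs (cv g L)) := by
    rw [← S1_sub, ← cv_sub, ← hv, cv_comm]
  have e5 := C_split (X / 2) X (YY X) (cv L gs) g
  rw [← h1, ← h2, cv_comm L gs, cv_assoc gs L g, cv_comm L g, cv_assoc gs L gs, cv_comm L gs,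
    ← cv_assoc gs gs L, cv_comm gs L] at e5
  have e6 := C_split (X / 2) X (YY X) (cv gs gs) L
  rw [← h3, ← h4, cv_assoc gs gs Ls] at e6
  have e7 : S1 (X / 2) X (cv (cv L gs) gb) = S1 (X / 2) X (cv (rw' (cv L gs) 0 X) gb) :=
    ((C_win X _).cv EqX.rfl).S1 le_rfl
  have e8 : S1 (X / 2) X (cv (cv gs gs) Lb) = S1 (X / 2) X (cv (rw' (cv gs gs) 0 X) Lb) :=
    ((C_win X _).cv EqX.rfl).S1 le_rfl
  rw [e1, e2, e3, e4, e5, e6, e7, e8]
  ring

theorem C_SIL {X η η₁ y : ℝ} (hX : 1 ≤ X) (h1 : η₁ ≤ η)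
    (H : ∀ v₁ v₂ : ℝ, X ^ (0.3 : ℝ) ≤ v₁ → SI X 22 η η (rw' Lam v₁ v₂)) :
    SI X 10 η₁ η₁ (rw' (Lr X y) (YY X) X) := by
  unfold Lr
  rw [rw_rw]
  refine (H _ _ (le_trans ?_ (le_max_right _ _))).mono hX (by norm_num) h1 h1
  exact Real.rpow_le_rpow_of_exponent_le hX (by norm_num)

theorem C_last (ha : TIIaStmt) {η₁ : ℝ} (h1 : 0 < η₁) : ∃ η : ℝ, 0 < η ∧ ∀ᶠ X : ℝ in atTop,
    ∀ y : ℝ, SI X 10 η₁ η₁ (rw' (Lr X y) (YY X) X) →
      ‖S1 (X / 2) X (cv (rw' (cv (rw' (ga X y) 0 (YY X)) (rw' (ga X y) 0 (YY X))) 0 X)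
        (rw' (Lr X y) (YY X) X))‖ ≤ X ^ (5 / 6 - η) := by
  obtain ⟨η, hη, H⟩ := ha 0.0004 0.1 (η₁ / 2) (by norm_num) (by norm_num) (by positivity)
  refine ⟨η / 2, by positivity, ?_⟩
  filter_upwards [H, SI.sw h1, ev_bd_cv (show 0 < η / 3 by positivity),
    ev_bd_ga (show 0 < η / 3 by positivity), ev_log 1 1 hη, ev_log 2 1 (show 0 < η / 2 by positivity),
    nb_le, ev_const 2 (show (0 : ℝ) < 0.0001 by norm_num),
    ev_const 16 (show (0 : ℝ) < 0.6 by norm_num), eventually_ge_atTop (1 : ℝ)]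
    with X H hsw hcv hga hl hl2 hnb h2 h16 hX y hSI
  have hX0 : 0 < X := by linarith
  have hYX : YY X ≤ X := by
    refine le_trans (Real.rpow_le_rpow_of_exponent_le hX (show _ ≤ (1 : ℝ) by norm_num)) ?_
    rw [Real.rpow_one]
  refine le_trans (S1_box (E := X ^ (5 / 6 - η)) hX le_rfl _ _ fun B hB1 hB2 => ?_) ?_
  · by_cases hc : YY X / 2 ≤ B ∧ B ≤ X ^ (1 / 2 - 0.1 : ℝ)
    · have hs : Supp 16 B (rw' (rw' (Lr X y) (YY X) X) B (2 * B)) :=
        supp_rw (fun n hn => (Lam_sq (rw_ne_zero (rw_ne_zero hn).1).1).sq) (by linarith)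
          (by norm_num)
      refine H B _ _ _ _ ?_ hc.2 le_rfl le_rfl hs ?_ ?_ (hsw B _ (by linarith) ?_ hs (hSI.rw' _ _))
      · refine le_trans ?_ hc.1
        rw [le_div_iff₀ (by norm_num : (0 : ℝ) < 2)]
        refine le_trans (mul_le_mul_of_nonneg_left h2 (by positivity)) (le_of_eq ?_)
        rw [← Real.rpow_add hX0, YY]; norm_num
      · refine (hcv _ _ _ _ _ _ le_rfl (hga y 0 _ hYX) (hga y 0 _ hYX)).mono (le_of_eq ?_)
        rw [← Real.rpow_add hX0, ← Real.rpow_add hX0]; ring_nf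
      · refine (((bd_Lr hX).rw' _ _).rw' _ _).mono ?_
        simpa using hl
      · refine le_trans (mul_le_mul h16 hc.2 (by linarith) (by positivity)) (le_of_eq ?_)
        rw [← Real.rpow_add hX0]; norm_num
    · rw [S1_cv_eq_zero, norm_zero]
      · positivity
      intro a b _ _ fa fb _ hab
      obtain ⟨fb1, hb1, hb2⟩ := rw_ne_zero fb
      obtain ⟨-, hb3, -⟩ := rw_ne_zero fb1
      obtain ⟨-, u, v, -, -, rfl, fu, fv⟩ := cv_ne_zero (rw_ne_zero fa).1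
      have hu := (ga_ne_zero hX (rw_ne_zero fu).1).2.1
      have hv := (ga_ne_zero hX (rw_ne_zero fv).1).2.1
      refine hc ⟨by linarith, ?_⟩
      by_contra hB
      push Not at hB
      have hz : 0 < zz X := Real.rpow_pos_of_pos hX0 _
      have h3 : zz X * zz X * X ^ (1 / 2 - 0.1 : ℝ) < nm u * nm v * nm b :=
        mul_lt_mul'' (mul_lt_mul'' hu hv hz.le hz.le) (hB.trans hb1) (by positivity) (by positivity)
      have h4 : X ≤ zz X * zz X * X ^ (1 / 2 - 0.1 : ℝ) := by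
        rw [zz, ← Real.rpow_add hX0, ← Real.rpow_add hX0]
        refine le_trans (le_of_eq (Real.rpow_one X).symm) ?_
        exact Real.rpow_le_rpow_of_exponent_le hX (by norm_num)
      rw [nm_mul, Nat.cast_mul] at hab
      linarith
  · rw [pow_one] at hl2
    refine le_trans (mul_le_mul_of_nonneg_right (hnb.trans hl2) (by positivity)) (le_of_eq ?_)
    rw [← Real.rpow_add hX0]; ring_nf

theorem C_SIcv {ηg η₁ : ℝ} (hg : 0 < ηg) (h1 : η₁ ≤ ηg / 2) (h2 : η₁ ≤ 1) : ∀ᶠ X : ℝ in atTop,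
    ∀ y : ℝ, SI X 16 ηg ηg (ga X y) →
      SI X 10 η₁ η₁ (rw' (rw' (cv (Lr X y) (rw' (ga X y) 0 (YY X))) 0 X) (YY X) X) := by
  filter_upwards [SI.cv (η := ηg) (show 0 < ηg / 4 by positivity),
    ev_log 1 1 (show 0 < ηg / 4 by positivity), eventually_ge_atTop (1 : ℝ)] with X hcv hl hX y H
  refine (((hcv 10 η₁ _ _ h2 ((bd_Lr hX).mono (by simpa using hl))
    ((H.rw' _ _).mono hX (by norm_num) (by linarith) le_rfl)).mono hX le_rfl le_rfl
      (by linarith)).rw' _ _).rw' _ _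

theorem C_five (hI : TIStmt) (ha : TIIaStmt) (hb' : TIIbStmt) (hc : TIIcStmt) (hb : SIBase) :
    ∃ η : ℝ, 0 < η ∧ η ≤ 0.1 ∧ ∀ᶠ X : ℝ in atTop, ‖S1 (X / 2) X (Lr X (X ^ η))‖ ≤
      5 * X ^ (5 / 6 - η) + ‖S1 (X / 2) X (cv (rw' (ga X (X ^ η)) 0 (YY X))
        (cv (rw' (ga X (X ^ η)) 0 (YY X)) (rw' (Lr X (X ^ η)) 0 (YY X))))‖ := by
  have hg := siGa hb
  have h2 := rii hb' hc hb
  have G1 := g1 (ri hI ha hb) h2 ha hb
  obtain ⟨ηb, hηb, Hb⟩ := hb 0.3 (by norm_num)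
  obtain ⟨ηg, hηg, Hg⟩ := id hg
  obtain ⟨η₁, h10, h11, h12, h13⟩ : ∃ η₁ : ℝ, 0 < η₁ ∧ η₁ ≤ ηb ∧ η₁ ≤ ηg / 2 ∧ η₁ ≤ 1 :=
    ⟨min ηb (min (ηg / 2) 1), by positivity, min_le_left _ _,
      (min_le_right _ _).trans (min_le_left _ _), (min_le_right _ _).trans (min_le_right _ _)⟩
  obtain ⟨η₂, h20, H2⟩ := g12 G1 (g2 h2 ha hb' hb hg) η₁ h10
  obtain ⟨η₃, h30, H3⟩ := g1L G1
  obtain ⟨η₄, h40, H4⟩ := C_last ha h10
  obtain ⟨η, e0, e1, e2, e3, e4⟩ : ∃ η : ℝ, 0 < η ∧ η ≤ 0.1 ∧ η ≤ η₂ ∧ η ≤ η₃ ∧ η ≤ η₄ :=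
    ⟨min (min 0.1 η₂) (min η₃ η₄), by positivity, (min_le_left _ _).trans (min_le_left _ _),
      (min_le_left _ _).trans (min_le_right _ _), (min_le_right _ _).trans (min_le_left _ _),
      (min_le_right _ _).trans (min_le_right _ _)⟩
  refine ⟨η, e0, e1, ?_⟩
  filter_upwards [Hb, Hg, H2 η e0 e2, H3 η e0 e3, H4, C_SIcv hηg h12 h13,
    ev_bd_cv (show 0 < η₂ / 3 by positivity), ev_bd_ga (show 0 < η₂ / 3 by positivity),
    ev_bd_ga h30, ev_log 1 1 (show 0 < η₂ / 3 by positivity), eventually_ge_atTop (1 : ℝ)]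
    with X Hb Hg H2 H3 H4 Hcv hcv hga hga' hl hX
  have hX0 : 0 < X := by linarith
  have hYX : YY X ≤ X := by
    refine le_trans (Real.rpow_le_rpow_of_exponent_le hX (show _ ≤ (1 : ℝ) by norm_num)) ?_
    rw [Real.rpow_one]
  have hSL := C_SIL (y := X ^ η) hX h11 fun v₁ v₂ hv => (Hb v₁ v₂ hv).2
  have hL : Bd (X ^ (η₂ / 3)) (Lr X (X ^ η)) := (bd_Lr hX).mono (by simpa using hl)
  have hm : ∀ a, η ≤ a → X ^ (5 / 6 - a) ≤ X ^ (5 / 6 - η) := fun a h =>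
    Real.rpow_le_rpow_of_exponent_le hX (by linarith)
  have b1 := (H3 (dl 1) ((bd_dl 1).mono (Real.one_le_rpow hX h30.le)) (fun n hn => by
    have : n = 1 := by
      by_contra h; exact hn (ind_of_not h)
    rw [this, nm_one, Nat.cast_one]
    exact Real.one_le_rpow hX (by norm_num))).trans (hm _ e3)
  have b2 := (H2 (Lr X (X ^ η)) (fun n hn => (Lam_sq (rw_ne_zero hn).1).sq)
    (hL.mono (Real.rpow_le_rpow_of_exponent_le hX (by linarith))) hSL).trans (hm _ e2)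
  have b3 := (H3 _ (hga' (X ^ η) 0 _ hYX) fun n hn => (rw_ne_zero hn).2.2).trans (hm _ e3)
  have b4 := (H2 _ (fun n hn => (cv_ne_zero (rw_ne_zero hn).1).1)
    ((hcv _ _ 0 X _ _ le_rfl hL (hga (X ^ η) 0 _ hYX)).mono (le_of_eq (by
      rw [← Real.rpow_add hX0, ← Real.rpow_add hX0]; ring_nf))) (Hcv _ (Hg _))).trans (hm _ e2)
  have b5 := (H4 _ hSL).trans (hm _ e4)
  rw [C_id X (X ^ η) rfl rfl rfl rfl rfl]
  refine le_trans (norm_add_le _ _) (add_le_add_left ?_ _)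
  refine le_trans (norm_add_le _ _) ?_
  refine le_trans (add_le_add_left (norm_add_le _ _) _) ?_
  refine le_trans (add_le_add_left (add_le_add_left (norm_sub_le _ _) _) _) ?_
  refine le_trans (add_le_add_left (add_le_add_left (add_le_add_left (norm_sub_le _ _) _) _) _) ?_
  linarith

theorem mainS (hI : TIStmt) (ha : TIIaStmt) (hb' : TIIbStmt) (hc : TIIcStmt) (ht : T2NStmt)
    (hs : HSStmt) (hp : PNTStmt) : MainStmt := by
  intro ε hε
  have hb := siBase hs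
  obtain ⟨η, h0, h1, H⟩ := C_five hI ha hb' hc hb
  filter_upwards [H, nar ht (normS hp) hb (siGa hb) η (ε / 2) h0 h1 (by positivity),
    ev_const (10 / ε) h0, ev_const 2 (show (0 : ℝ) < 0.9 by norm_num), eventually_ge_atTop (1 : ℝ)]
    with X H HN h2 h3 hX
  have hX0 : 0 < X := by linarith
  have e : S1 (X / 2) X Lam = S1 (X / 2) X (Lr X (X ^ η)) := by
    refine S1_congr fun n _ h4 h5 => (rw_of (lt_of_le_of_lt ?_ h4) h5).symm
    rw [le_div_iff₀ (by norm_num : (0 : ℝ) < 2)]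
    refine le_trans (mul_le_mul_of_nonneg_left h3 (by positivity)) ?_
    rw [← Real.rpow_add hX0]
    refine le_trans (Real.rpow_le_rpow_of_exponent_le hX (show _ ≤ (1 : ℝ) by linarith)) ?_
    rw [Real.rpow_one]
  have h4 : 5 * X ^ (5 / 6 - η) ≤ ε / 2 * X ^ (5 / 6 : ℝ) := by
    have h5 : X ^ (5 / 6 : ℝ) = X ^ η * X ^ (5 / 6 - η) := by
      rw [← Real.rpow_add hX0]; ring_nf
    rw [div_le_iff₀ hε] at h2
    rw [h5, ← mul_assoc]
    exact mul_le_mul_of_nonneg_right (by linarith) (by positivity)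
  rw [e]
  linarith

end Vale.Agent.P006
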