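import Vale.Agent.P006.CDefs

/-! C1: algebra of `cv`, `rw'`, `EqX`; the Vaughan type identity.
Plans: `ro_eq`: for `n ∈ Sq` write `n = a b` (smooth times rough part) or induct with `Sq.induction`; alternatively `sm y d = mu d * ind (d ∣ a)` and `sum_mu_pdiv`.
`cv_Lr_ro`: `Sq.induction` / `lg_cv`; a rough squarefree `n` has `∑_{p ∣ n} log N p = log N n`.  `ga_small`: for rough `n` with `N n ≤ z` every divisor is rough and `≤ z`, `sum_mu_pdiv`.
`vaughan`: `cv la (lg ro) = cv la (cv Lr ro) = cv Lr (ga + dl 1)` by `cv_assoc`, `cv_comm`, `cv_delta`. -/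

namespace Vale.Agent.P006

open Vale.Agent.P026 Filter
open scoped ComplexConjugate Real

theorem calg_ind_ne {p : Prop} (h : ind p ≠ 0) : p := by
  by_contra h0
  exact h (ind_of_not h0)

theorem calg_ind_congr {p q : Prop} (h : p ↔ q) : ind p = ind q := by rw [propext h]

theorem calg_cv_congr {f f' g g' : O → ℂ} {n : O}
    (h : ∀ a b, Sq a → Sq b → a * b = n → f a * g b = f' a * g' b) : cv f g n = cv f' g' n := by
  by_cases hn : Sq n
  · unfold cv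
    refine congrArg _ (Finset.sum_congr rfl fun d hd => ?_)
    obtain ⟨h1, h2, h3⟩ := hn.div hd
    exact h _ _ h1 h2 h3
  · rw [cv_eq_zero hn, cv_eq_zero hn]

theorem calg_nm_mul (a b : O) : (nm (a * b) : ℝ) = nm a * nm b := by rw [nm_mul, Nat.cast_mul]

theorem EqX.rfl {X : ℝ} {f : O → ℂ} : EqX X f f := fun _ _ _ => Eq.refl _
theorem EqX.symm {X : ℝ} {f g : O → ℂ} (h : EqX X f g) : EqX X g f := fun n a b => (h n a b).symm
theorem EqX.trans {X : ℝ} {f g h : O → ℂ} (h1 : EqX X f g) (h2 : EqX X g h) : EqX X f h :=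
  fun n a b => (h1 n a b).trans (h2 n a b)
theorem EqX.cv {X : ℝ} {f f' g g' : O → ℂ} (hf : EqX X f f') (hg : EqX X g g') :
    EqX X (cv f g) (cv f' g') := by
  intro n _ hX
  refine calg_cv_congr fun a b ha hb hab => ?_
  rw [← hab, calg_nm_mul] at hX
  have h1 := ha.one_le
  have h2 := hb.one_le
  rw [hf a ha (by nlinarith), hg b hb (by nlinarith)]
theorem EqX.rw' {X : ℝ} {f f' : O → ℂ} (hf : EqX X f f') (a b : ℝ) :
    EqX X (rw' f a b) (rw' f' a b) := fun n h1 h2 => congrArg (· * win a b n) (hf n h1 h2)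
theorem EqX.S1 {X x₁ x₂ : ℝ} {f g : O → ℂ} (h : EqX X f g) (hx : x₂ ≤ X) :
    S1 x₁ x₂ f = S1 x₁ x₂ g := S1_congr fun n h1 _ h2 => h n h1 (h2.trans hx)
/-- only pairs with product in the window matter -/
theorem S1_cv_congr {x₁ x₂ : ℝ} {f g g' : O → ℂ}
    (h : ∀ a b, Sq a → Sq b → f a ≠ 0 → x₁ < nm a * nm b → (nm a * nm b : ℝ) ≤ x₂ → g b = g' b) :
    S1 x₁ x₂ (cv f g) = S1 x₁ x₂ (cv f g') := by
  refine S1_congr fun n _ h1 h2 => calg_cv_congr fun a b ha hb hab => ?_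
  rw [← hab, calg_nm_mul] at h1 h2
  by_cases h0 : f a = 0
  · rw [h0, zero_mul, zero_mul]
  · rw [h a b ha hb h0 h1 h2]
theorem rw_cv_congr {a b : ℝ} {f g g' : O → ℂ}
    (h : ∀ u v, Sq u → Sq v → f u ≠ 0 → a < nm u * nm v → (nm u * nm v : ℝ) ≤ b → g v = g' v) :
    rw' (cv f g) a b = rw' (cv f g') a b := by
  funext n
  unfold rw' win
  by_cases hw : a < nm n ∧ (nm n : ℝ) ≤ b
  · refine congrArg (· * _) (calg_cv_congr fun u v hu hv huv => ?_)
    rw [← huv, calg_nm_mul] at hw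
    by_cases h0 : f u = 0
    · rw [h0, zero_mul, zero_mul]
    · rw [h u v hu hv h0 hw.1 hw.2]
  · rw [ind_of_not hw, mul_zero, mul_zero]
theorem S1_cv_eq_zero {x₁ x₂ : ℝ} {f g : O → ℂ}
    (h : ∀ a b, Sq a → Sq b → f a ≠ 0 → g b ≠ 0 → x₁ < nm a * nm b → (nm a * nm b : ℝ) ≤ x₂ → False) :
    S1 x₁ x₂ (cv f g) = 0 := by
  rw [S1_congr (c' := fun _ => 0) fun n _ h1 h2 => ?_]
  · simp [S1]
  · by_contra h0
    obtain ⟨-, a, b, ha, hb, rfl, h3, h4⟩ := cv_ne_zero h0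
    rw [calg_nm_mul] at h1 h2
    exact h a b ha hb h3 h4 h1 h2
theorem rw_rw (f : O → ℂ) (a b a' b' : ℝ) : rw' (rw' f a b) a' b' = rw' f (max a a') (min b b') := by
  funext n
  unfold rw' win
  rw [mul_assoc, ← ind_and]
  refine congrArg _ (calg_ind_congr ?_)
  rw [max_lt_iff, le_min_iff]
  tauto
theorem rw_ne_zero {f : O → ℂ} {a b : ℝ} {n : O} (h : rw' f a b n ≠ 0) :
    f n ≠ 0 ∧ a < nm n ∧ (nm n : ℝ) ≤ b := ⟨left_ne_zero_of_mul h, calg_ind_ne (right_ne_zero_of_mul h)⟩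
theorem rw_of {f : O → ℂ} {a b : ℝ} {n : O} (h1 : a < nm n) (h2 : (nm n : ℝ) ≤ b) :
    rw' f a b n = f n := by
  rw [rw', win, ind_of ⟨h1, h2⟩, mul_one]
theorem rw_split {X W : ℝ} (f : O → ℂ) : EqX X f fun n => rw' f 0 W n + rw' f W X n := by
  intro n hn hX
  have h0 : (0 : ℝ) < nm n := lt_of_lt_of_le one_pos hn.one_le
  beta_reduce
  by_cases h : (nm n : ℝ) ≤ W
  · rw [rw_of h0 h, rw', win, ind_of_not fun h1 => h1.1.not_ge h, mul_zero, add_zero]
  · rw [rw_of (not_le.1 h) hX, rw', win, ind_of_not fun h1 => h h1.2, mul_zero, zero_add]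
theorem Bd.rw' {M : ℝ} {f : O → ℂ} (h : Bd M f) (a b : ℝ) : Bd M (rw' f a b) := fun n => by
  rw [P006.rw', norm_mul]
  exact (mul_le_of_le_one_right (norm_nonneg _) (norm_win_le _ _ _)).trans (h n)
theorem Bd.mono {M M' : ℝ} {f : O → ℂ} (h : Bd M f) (h' : M ≤ M') : Bd M' f := fun n => (h n).trans h'
theorem supp_rw {f : O → ℂ} (h : ∀ n, f n ≠ 0 → Sq n) {B c : ℝ} (hB : 0 ≤ B) (hc : 2 ≤ c) :
    Supp c B (rw' f B (2 * B)) := fun n hn => by
  obtain ⟨h1, h2, h3⟩ := rw_ne_zero hn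
  exact ⟨h n h1, h2, h3.trans (mul_le_mul_of_nonneg_right hc hB)⟩
theorem bd_hf (j : ℕ) (Y₁ Y₂ : ℝ) : Bd 1 (hf j Y₁ Y₂) := fun n => by
  rw [hf, norm_mul, norm_mul, norm_pow]
  exact mul_le_one₀ (mul_le_one₀ (norm_ind_le _) (by positivity)
    (pow_le_one₀ (norm_nonneg _) (norm_mu_le n))) (norm_nonneg _) (norm_ind_le _)
theorem hf_sq {j : ℕ} {Y₁ Y₂ : ℝ} {n : O} (h : hf j Y₁ Y₂ n ≠ 0) : Sq n := calg_ind_ne (left_ne_zero_of_mul (left_ne_zero_of_mul h))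
theorem hf_mul (j : ℕ) (Y₁ Y₂ : ℝ) {a b : O} (ha : Sq a) (hb : Sq b) (h : IsCoprime a b) :
    hf j Y₁ Y₂ (a * b) = hf j Y₁ Y₂ a * hf j Y₁ Y₂ b := by
  have e : (∀ p, Prime p → p ∣ a * b → Y₁ < nm p ∧ (nm p : ℝ) ≤ Y₂) ↔
      (∀ p, Prime p → p ∣ a → Y₁ < nm p ∧ (nm p : ℝ) ≤ Y₂) ∧
        ∀ p, Prime p → p ∣ b → Y₁ < nm p ∧ (nm p : ℝ) ≤ Y₂ :=
    ⟨fun H => ⟨fun p hp hd => H p hp (hd.mul_right _), fun p hp hd => H p hp (hd.mul_left _)⟩,
      fun H p hp hd => (hp.dvd_or_dvd hd).elim (H.1 p hp) (H.2 p hp)⟩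
  unfold hf
  rw [calg_ind_congr e, ind_and, ind_of ha, ind_of hb, ind_of (ha.mul hb h), mu_mul h]
  ring
theorem bd_dl (q : O) : Bd 1 (dl q) := fun _ => norm_ind_le _
theorem cv_dl_one (f : O → ℂ) {X : ℝ} : EqX X (cv (dl 1) f) f := fun n hn _ => by
  rw [cv_comm]
  exact (cv_delta f n).trans (by rw [ind_of hn, one_mul])
theorem Lam_sq {n : O} (h : Lam n ≠ 0) : PP n := calg_ind_ne (left_ne_zero_of_mul h)
theorem bd_Lr {X y : ℝ} (hX : 1 ≤ X) : Bd (Real.log X) (Lr X y) := fun n => by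
  by_cases h0 : Lr X y n = 0
  · rw [h0, norm_zero]
    exact Real.log_nonneg hX
  · obtain ⟨h1, h2, h3⟩ := rw_ne_zero h0
    have h4 := (Lam_sq h1).sq.one_le
    rw [Lr, rw_of h2 h3, Lam, ind_of (Lam_sq h1), one_mul, Complex.norm_real,
      Real.norm_of_nonneg (Real.log_nonneg h4)]
    exact Real.log_le_log (by linarith) h3
/-- windowed convolutions are bounded by `X^ε M M'` -/
theorem ev_bd_cv {ε : ℝ} (hε : 0 < ε) : ∀ᶠ X : ℝ in atTop, ∀ (M M' a b : ℝ) (f g : O → ℂ),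
    b ≤ X → Bd M f → Bd M' g → Bd (X ^ ε * (M * M')) (rw' (cv f g) a b) := by
  filter_upwards [ev_tau 1 hε, eventually_ge_atTop 0] with X hX hX0 M M' a b f g hb hf hg n
  have hM : 0 ≤ M * M' := mul_nonneg ((norm_nonneg _).trans (hf 0)) ((norm_nonneg _).trans (hg 0))
  by_cases h0 : rw' (cv f g) a b n = 0
  · rw [h0, norm_zero]
    positivity
  · obtain ⟨h1, h2, h3⟩ := rw_ne_zero h0
    rw [rw_of h2 h3]
    refine (norm_cv_le hf hg n).trans (mul_le_mul_of_nonneg_right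
      (hX n (cv_ne_zero h1).1.ne_zero ?_) hM)
    rw [Real.rpow_one]
    exact h3.trans hb
theorem calg_hf_one (j : ℕ) (Y₁ Y₂ : ℝ) : hf j Y₁ Y₂ 1 = 1 := by
  rw [hf, ind_of sq_one, mu_one, one_pow,
    ind_of fun p hp hd => absurd (isUnit_of_dvd_one hd) hp.not_isUnit]
  ring

theorem calg_cv_one (f g : O → ℂ) : cv f g 1 = f 1 * g 1 := by
  rw [cv, ind_of sq_one, psd_pdiv_one, Finset.sum_singleton, one_mul,
    EuclideanDomain.div_one]

theorem calg_zz {X : ℝ} (hX : 1 ≤ X) : 1 ≤ zz X := Real.one_le_rpow hX (by norm_num)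

theorem calg_ga_one {X : ℝ} (hX : 1 ≤ X) (y : ℝ) : ga X y 1 = 0 := by
  rw [ga, calg_cv_one, la, rw_of (by simp) (by simpa using calg_zz hX), ro, calg_hf_one,
    calg_hf_one, dl, ind_of rfl]
  ring

theorem calg_ga_of_ne {X y : ℝ} {n : O} (h : n ≠ 1) : ga X y n = cv (la X y 0) (ro X y) n := by
  rw [ga, dl, ind_of_not h, sub_zero]

theorem ev_bd_ga {ε : ℝ} (hε : 0 < ε) : ∀ᶠ X : ℝ in atTop, ∀ (y a b : ℝ), b ≤ X →
    Bd (X ^ ε) (rw' (ga X y) a b) := by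
  filter_upwards [ev_bd_cv hε, eventually_ge_atTop 1] with X hX hX1 y a b hb n
  by_cases h : n = 1
  · rw [h, rw', calg_ga_one hX1, zero_mul, norm_zero]
    positivity
  · have := hX 1 1 a b (la X y 0) (ro X y) hb ((bd_hf _ _ _).rw' _ _) (bd_hf _ _ _) n
    rw [mul_one, mul_one] at this
    rwa [rw', calg_ga_of_ne h]
theorem calg_lg_mul {a b : O} (ha : Sq a) (hb : Sq b) : lg (a * b) = lg a + lg b := by
  have h1 := ha.one_le
  have h2 := hb.one_le
  rw [lg, lg, lg, calg_nm_mul, Real.log_mul (by linarith) (by linarith), Complex.ofReal_add]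

theorem lg_cv (f g : O → ℂ) (n : O) :
    lg n * cv f g n = cv (fun m => lg m * f m) g n + cv f (fun m => lg m * g m) n := by
  by_cases hn : Sq n
  · unfold cv
    rw [← mul_add, ← Finset.sum_add_distrib, mul_left_comm, Finset.mul_sum]
    refine congrArg _ (Finset.sum_congr rfl fun d hd => ?_)
    obtain ⟨h1, h2, h3⟩ := hn.div hd
    have h4 := calg_lg_mul h1 h2
    rw [h3] at h4
    rw [h4]
    ring
  · rw [cv_eq_zero hn, cv_eq_zero hn, cv_eq_zero hn, mul_zero, add_zero]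
theorem calg_step {p n : O} (hp : PP p) (hn : Sq n) (h : ¬p ∣ n) (f g : O → ℂ) :
    cv f g (p * n) = cv f (fun m => g (p * m)) n + cv (fun m => f (p * m)) g n := by
  have hc : IsCoprime p n := (Irreducible.coprime_iff_not_dvd hp.1.irreducible).2 h
  have h1 : (1 : O) ≠ p := fun e => hp.1.not_isUnit (e ▸ isUnit_one)
  unfold cv
  rw [ind_of hn, ind_of (hp.sq.mul hn hc), sum_pdiv_mul hp.2 hn.1 hc, psd_pdiv_prime hp.1 hp.2,
    Finset.sum_pair h1, one_mul, one_mul, one_mul]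
  congr 1
  · refine Finset.sum_congr rfl fun d hd => ?_
    rw [one_mul, EuclideanDomain.mul_div_assoc _ ((mem_pdiv hn.ne_zero).1 hd).2]
  · refine Finset.sum_congr rfl fun d hd => ?_
    rw [EuclideanDomain.mul_div_mul_cancel hp.1.ne_zero ((mem_pdiv hn.ne_zero).1 hd).2]

theorem calg_hf_prime (j : ℕ) (Y₁ Y₂ : ℝ) {p : O} (hp : PP p) :
    hf j Y₁ Y₂ p = (-1) ^ j * ind (Y₁ < nm p ∧ (nm p : ℝ) ≤ Y₂) := by
  rw [hf, ind_of hp.sq, mu_prime hp.1, one_mul]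
  refine congrArg _ (calg_ind_congr ⟨fun H => H p hp.1 dvd_rfl, fun H q hq hd => ?_⟩)
  rwa [nm_of_associated (hq.associated_of_dvd hp.1 hd)]

theorem calg_hf_step (j : ℕ) (Y₁ Y₂ : ℝ) {p n a : O} (hp : PP p) (h : ¬p ∣ n) (ha : Sq a)
    (hd : a ∣ n) : hf j Y₁ Y₂ (p * a) = hf j Y₁ Y₂ p * hf j Y₁ Y₂ a :=
  hf_mul j Y₁ Y₂ hp.sq ha
    ((Irreducible.coprime_iff_not_dvd hp.1.irreducible).2 fun h1 => h (h1.trans hd))

theorem ro_eq (X y : ℝ) : EqX X (ro X y) (cv (sm y) fun _ => 1) := by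
  intro n hn
  refine Sq.induction (P := fun n => (nm n : ℝ) ≤ X → ro X y n = cv (sm y) (fun _ => 1) n)
    (fun _ => ?_) (fun p n hp hn h ih hX => ?_) hn
  · rw [calg_cv_one, ro, sm, calg_hf_one, calg_hf_one, one_mul]
  · rw [calg_nm_mul] at hX
    have h1 := hp.sq.one_le
    have h2 := hn.one_le
    have h3 : cv (fun m => sm y (p * m)) (fun _ => 1) n = sm y p * cv (sm y) (fun _ => 1) n := by
      rw [cv_comm (sm y), ← congrFun (cv_smul (sm y p) (fun _ => 1) (sm y)) n, cv_comm fun _ => 1]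
      exact calg_cv_congr fun a b ha _ hab => by
        rw [sm, calg_hf_step 1 0 y hp h ha (hab ▸ dvd_mul_right a b)]
    rw [calg_step hp hn h, h3, ← ih (by nlinarith), ro, sm, calg_hf_step 0 y X hp h hn dvd_rfl,
      calg_hf_prime 0 y X hp, calg_hf_prime 1 0 y hp]
    by_cases h4 : (nm p : ℝ) ≤ y
    · rw [ind_of_not fun h5 => h5.1.not_ge h4, ind_of ⟨by linarith, h4⟩]
      ring
    · rw [ind_of ⟨not_le.1 h4, by nlinarith⟩, ind_of_not fun h5 => h4 h5.2]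
      ring
theorem cv_Lr_ro (X y : ℝ) (n : O) : cv (Lr X y) (ro X y) n = lg n * ro X y n := by
  by_cases hn : Sq n
  · refine Sq.induction (P := fun n => cv (Lr X y) (ro X y) n = lg n * ro X y n) ?_
      (fun p n hp hn h ih => ?_) hn
    · simp [calg_cv_one, Lr, rw', Lam, lg]
    · have h1 : cv (Lr X y) (fun m => ro X y (p * m)) n = ro X y p * cv (Lr X y) (ro X y) n := by
        rw [← congrFun (cv_smul (ro X y p) (Lr X y) (ro X y)) n]
        exact calg_cv_congr fun a b _ hb hab => by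
          rw [ro, calg_hf_step 0 y X hp h hb (hab ▸ dvd_mul_left b a)]
      have h2 : cv (fun m => Lr X y (p * m)) (ro X y) n = Lr X y p * ro X y n := by
        have h3 := congrFun (cv_smul (Lr X y p) (ro X y) fun m => ind (m = 1)) n
        rw [cv_delta, ind_of hn, one_mul] at h3
        rw [← h3, cv_comm (ro X y)]
        refine calg_cv_congr fun a b ha _ _ => congrArg (· * _) ?_
        by_cases h4 : a = 1
        · rw [h4, mul_one, ind_of rfl, mul_one]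
        · rw [ind_of_not h4, mul_zero]
          by_contra h5
          have h6 := (Lam_sq (rw_ne_zero h5).1).1.irreducible.isUnit_or_isUnit rfl
          exact h4 (ha.1.eq_one_of_isUnit (h6.resolve_left hp.1.not_isUnit))
      have h3 : Lr X y p = lg p * ro X y p := by
        rw [Lr, rw', Lam, ind_of hp, ro, calg_hf_prime 0 y X hp, win, lg]
        ring
      rw [calg_step hp hn h, h1, h2, ih, h3, calg_lg_mul hp.sq hn, ro,
        calg_hf_step 0 y X hp h hn dvd_rfl]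
      ring
  · have : ro X y n = 0 := by
      by_contra h0
      exact hn (hf_sq h0)
    rw [cv_eq_zero hn, this, mul_zero]
theorem calg_hf_eq (j : ℕ) (Y₁ Y₂ : ℝ) (n : O) : hf j Y₁ Y₂ n = mu n ^ j * hf 0 Y₁ Y₂ n := by
  unfold hf
  ring

theorem calg_hf_zero {Y₁ Y₂ : ℝ} {n : O} (h : hf 0 Y₁ Y₂ n ≠ 0) : hf 0 Y₁ Y₂ n = 1 := by
  rw [hf, ind_of (hf_sq h), ind_of (calg_ind_ne (right_ne_zero_of_mul h))]
  ring

theorem ga_ne_zero {X y : ℝ} (hX : 1 ≤ X) {n : O} (h : ga X y n ≠ 0) :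
    Sq n ∧ zz X < nm n ∧ ro X y n ≠ 0 := by
  have h1 : n ≠ 1 := fun h0 => h (h0 ▸ calg_ga_one hX y)
  rw [calg_ga_of_ne h1] at h
  obtain ⟨hn, a, b, ha, hb, hab, h2, h3⟩ := cv_ne_zero h
  have h4 : ro X y n ≠ 0 := by
    have h5 := (rw_ne_zero h2).1
    rw [calg_hf_eq] at h5
    rw [hab, ro, hf_mul 0 y X ha hb (Sq.coprime (hab ▸ hn))]
    exact mul_ne_zero (right_ne_zero_of_mul h5) h3
  refine ⟨hn, not_le.1 fun h5 => h ?_, h4⟩
  rw [cv, ← ind_of_not h1, ← sum_mu_pdiv hn.1, ind_of hn, one_mul]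
  refine Finset.sum_congr rfl fun d hd => ?_
  obtain ⟨h6, h7, h8⟩ := hn.div hd
  have h9 := h4
  rw [← h8, ro, hf_mul 0 y X h6 h7 (Sq.coprime (h8.symm ▸ hn))] at h9
  have h10 : (nm d : ℝ) ≤ nm n := by
    exact_mod_cast nm_le_of_dvd hn.ne_zero ((mem_pdiv hn.ne_zero).1 hd).2
  rw [la, rw_of (lt_of_lt_of_le one_pos h6.one_le) (h10.trans h5), calg_hf_eq, ro,
    calg_hf_zero (left_ne_zero_of_mul h9), calg_hf_zero (right_ne_zero_of_mul h9)]
  ring
theorem ga_of_ne {X y : ℝ} {n : O} (h : n ≠ 1) : ga X y n = cv (la X y 0) (ro X y) n := calg_ga_of_ne h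
theorem vaughan (X y : ℝ) (n : O) : Lr X y n =
    cv (la X y 0) (fun m => lg m * ro X y m) n - cv (ga X y) (Lr X y) n := by
  have h1 : cv (la X y 0) (fun m => lg m * ro X y m) = cv (Lr X y) (cv (la X y 0) (ro X y)) := by
    rw [← funext (cv_Lr_ro X y), ← cv_assoc, cv_comm (la X y 0), cv_assoc]
  have h2 : cv (Lr X y) (dl 1) n = Lr X y n := by
    refine (cv_delta _ n).trans ?_
    by_cases h0 : Lr X y n = 0
    · rw [h0, mul_zero]
    · rw [ind_of (Lam_sq (rw_ne_zero h0).1).sq, one_mul]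
  have h3 := congrFun (cv_sub (Lr X y) (cv (la X y 0) (ro X y)) (dl 1)) n
  rw [h1, cv_comm (ga X y)]
  change _ = _ - cv (Lr X y) (fun n => cv (la X y 0) (ro X y) n - dl 1 n) n
  rw [h3, h2]
  ring

end Vale.Agent.P006
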