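import Vale.Agent.P006.CAlg

/-! C2: dyadic boxes and logarithmic weights.
Plans: `box_eq`: `j = Nat.clog 2 (nm n)` is the unique `j` with `2^j/2 < N n ≤ 2^j`.  `log_weight`: `log v = log a + ∫_a^b 1[s < v] ds/s` for `v ∈ (a, b]`
(`integral_inv`/`integral_one_div`), `intervalIntegral.integral_finset_sum`, `intervalIntegral.norm_integral_le_of_norm_le`; or Abel summation by induction on the
number of distinct values.  `geom_min`: split at the `i` where `8^i` passes `Z`; two geometric series. -/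

namespace Vale.Agent.P006

open Vale.Agent.P026 Filter
open scoped ComplexConjugate Real

/-- number of dyadic boxes -/
noncomputable def nb (X : ℝ) : ℕ := Nat.log 2 ⌊X⌋₊ + 2

theorem nb_le : ∀ᶠ X : ℝ in atTop, (nb X : ℝ) ≤ 2 * Real.log X := by
  filter_upwards [eventually_ge_atTop 1, Real.tendsto_log_atTop.eventually_ge_atTop 4]
    with X hX h4
  have h1 := Real.log_le_log (by positivity) (pow_log_floor_le hX)
  rw [Real.log_pow] at h1
  have h2 := Real.log_two_gt_d9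
  have h3 : (0 : ℝ) ≤ Nat.log 2 ⌊X⌋₊ := Nat.cast_nonneg _
  rw [nb]
  push_cast
  nlinarith

theorem box_le {X : ℝ} (hX : 1 ≤ X) {j : ℕ} (hj : j < nb X) : (2 : ℝ) ^ j / 2 ≤ X := by
  have h1 : (2 : ℝ) ^ j ≤ 2 ^ (Nat.log 2 ⌊X⌋₊ + 1) :=
    pow_le_pow_right₀ one_le_two (Nat.lt_succ_iff.1 hj)
  have h2 := pow_log_floor_le hX
  rw [pow_succ] at h1
  linarith

theorem CBox_win {a b : ℝ} (h : a ≤ b) (n : O) :
    win a b n = ind ((nm n : ℝ) ≤ b) - ind ((nm n : ℝ) ≤ a) := by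
  rw [win]
  by_cases h1 : (nm n : ℝ) ≤ a
  · rw [ind_of_not fun h2 => not_le.2 h2.1 h1, ind_of h1, ind_of (h1.trans h), sub_self]
  · rw [ind_of_not h1, sub_zero]
    by_cases h2 : (nm n : ℝ) ≤ b
    · rw [ind_of h2, ind_of ⟨not_le.1 h1, h2⟩]
    · rw [ind_of_not h2, ind_of_not fun h3 => h2 h3.2]

theorem box_eq (X : ℝ) (f : O → ℂ) :
    EqX X f fun n => ∑ j ∈ Finset.range (nb X), rw' f (2 ^ j / 2) (2 * (2 ^ j / 2)) n := by
  intro n hn hX
  have h1 : ∀ j : ℕ, rw' f (2 ^ j / 2) (2 * (2 ^ j / 2)) n =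
      f n * ind ((nm n : ℝ) ≤ 2 ^ (j + 1) / 2) - f n * ind ((nm n : ℝ) ≤ 2 ^ j / 2) := fun j => by
    have h2 : (0 : ℝ) < 2 ^ j / 2 := by positivity
    have h3 : (2 : ℝ) ^ (j + 1) / 2 = 2 * (2 ^ j / 2) := by ring
    rw [rw', CBox_win (by linarith), h3, mul_sub]
  have h2 : (nm n : ℝ) ≤ 2 ^ nb X / 2 := by
    have a1 : nm n < 2 ^ (Nat.log 2 ⌊X⌋₊ + 1) :=
      (Nat.le_floor hX).trans_lt (Nat.lt_pow_succ_log_self one_lt_two _)
    have a2 : (nm n : ℝ) < 2 ^ (Nat.log 2 ⌊X⌋₊ + 1) := by exact_mod_cast a1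
    rw [nb, pow_succ]
    linarith
  have h3 : ¬(nm n : ℝ) ≤ 2 ^ 0 / 2 := by
    have := hn.one_le
    norm_num
    linarith
  simp only [h1]
  rw [Finset.sum_range_sub (fun j => f n * ind ((nm n : ℝ) ≤ 2 ^ j / 2)), ind_of h2,
    ind_of_not h3, mul_one, mul_zero, sub_zero]

theorem S1_box_eq {X x₁ x₂ : ℝ} (hx : x₂ ≤ X) (f g : O → ℂ) : S1 x₁ x₂ (cv f g) =
    ∑ j ∈ Finset.range (nb X), S1 x₁ x₂ (cv f (rw' g (2 ^ j / 2) (2 * (2 ^ j / 2)))) := by
  rw [(EqX.rfl.cv (box_eq X g)).S1 hx, cv_sum, S1_sum]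

theorem S1_box {X x₁ x₂ E : ℝ} (hX : 1 ≤ X) (hx : x₂ ≤ X) (f g : O → ℂ)
    (h : ∀ B : ℝ, 1 / 2 ≤ B → B ≤ X → ‖S1 x₁ x₂ (cv f (rw' g B (2 * B)))‖ ≤ E) :
    ‖S1 x₁ x₂ (cv f g)‖ ≤ nb X * E := by
  rw [S1_box_eq hx]
  refine (norm_sum_le_of_le _ (n := fun _ => E) fun j hj => h _ ?_
    (box_le hX (Finset.mem_range.1 hj))).trans ?_
  · exact div_le_div_of_nonneg_right (one_le_pow₀ one_le_two) two_pos.le
  · rw [Finset.sum_const, Finset.card_range, nsmul_eq_mul]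

theorem S1_box2 {X x₁ x₂ E : ℝ} (hX : 1 ≤ X) (hx : x₂ ≤ X) (f g g' : O → ℂ)
    (h : ∀ B B' : ℝ, 1 / 2 ≤ B → B ≤ X → 1 / 2 ≤ B' → B' ≤ X →
      ‖S1 x₁ x₂ (cv f (cv (rw' g B (2 * B)) (rw' g' B' (2 * B'))))‖ ≤ E) :
    ‖S1 x₁ x₂ (cv f (cv g g'))‖ ≤ nb X ^ 2 * E := by
  rw [cv_comm g, ← cv_assoc, sq, mul_assoc]
  refine S1_box hX hx _ _ fun B b1 b2 => ?_
  rw [cv_assoc, cv_comm g', ← cv_assoc]
  refine S1_box hX hx _ _ fun B' b3 b4 => ?_
  rw [cv_assoc]
  exact h B B' b1 b2 b3 b4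

open MeasureTheory in
theorem CBox_int {a b : ℝ} (ha : 0 < a) (hab : a ≤ b) :
    IntegrableOn (fun x : ℝ => x⁻¹) (Set.Ioc a b) ∧
      ∫ x in Set.Ioc a b, x⁻¹ = Real.log (b / a) := by
  refine ⟨(ContinuousOn.integrableOn_Icc (continuousOn_inv₀.mono fun x hx => ?_)).mono_set
    Set.Ioc_subset_Icc_self, ?_⟩
  · exact (ha.trans_le hx.1).ne'
  · rw [← intervalIntegral.integral_of_le hab, integral_inv_of_pos ha (ha.trans_le hab)]

open Classical MeasureTheory in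
theorem log_weight {ι : Type*} (s : Finset ι) (w : ι → ℂ) (v : ι → ℝ) {a b E : ℝ} (ha : 0 < a)
    (hab : a ≤ b) (hv : ∀ i ∈ s, a < v i ∧ v i ≤ b)
    (h : ∀ x, a ≤ x → x ≤ b → ‖∑ i ∈ s.filter (fun i => x < v i), w i‖ ≤ E) :
    ‖∑ i ∈ s, (Real.log (v i) : ℝ) * w i‖ ≤ (|Real.log a| + Real.log (b / a)) * E := by
  set F : ι → ℝ → ℂ := fun i => (Set.Iio (v i)).indicator fun x => ((x⁻¹ : ℝ) : ℂ) * w i with hF
  have h1 : ∀ i ∈ s, Integrable (F i) (volume.restrict (Set.Ioc a b)) := fun i _ =>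
    (((CBox_int ha hab).1.ofReal (𝕜 := ℂ)).mul_const (w i)).indicator measurableSet_Iio
  have h2 : ∀ i ∈ s, (Real.log (v i) : ℝ) * w i =
      (Real.log a : ℝ) * w i + ∫ x in Set.Ioc a b, F i x := fun i hi => by
    have a1 : Set.Ioc a b ∩ Set.Iio (v i) = Set.Ioo a (v i) := by
      ext x
      exact ⟨fun hx => ⟨hx.1.1, hx.2⟩, fun hx => ⟨⟨hx.1, hx.2.le.trans (hv i hi).2⟩, hx.2⟩⟩
    rw [hF, setIntegral_indicator measurableSet_Iio, a1, ← integral_Ioc_eq_integral_Ioo,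
      integral_mul_const, integral_complex_ofReal, (CBox_int ha (hv i hi).1.le).2,
      Real.log_div (ha.trans (hv i hi).1).ne' ha.ne']
    push_cast
    ring
  have h3 : ‖∑ i ∈ s, w i‖ ≤ E := by
    have := h a le_rfl hab
    rwa [Finset.filter_true_of_mem fun i hi => (hv i hi).1] at this
  have h4 : ‖∫ x in Set.Ioc a b, ∑ i ∈ s, F i x‖ ≤ ∫ x in Set.Ioc a b, x⁻¹ * E := by
    refine norm_integral_le_of_norm_le ((CBox_int ha hab).1.mul_const E) ?_
    filter_upwards [ae_restrict_mem measurableSet_Ioc] with x hx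
    have a1 : ∑ i ∈ s, F i x = ((x⁻¹ : ℝ) : ℂ) * ∑ i ∈ s.filter (fun i => x < v i), w i := by
      rw [Finset.mul_sum, Finset.sum_filter]
      refine Finset.sum_congr rfl fun i _ => ?_
      simp only [hF, Set.indicator_apply, Set.mem_Iio]
    have a2 : 0 ≤ x⁻¹ := (inv_pos.2 (ha.trans hx.1)).le
    rw [a1, norm_mul, Complex.norm_real, Real.norm_of_nonneg a2]
    exact mul_le_mul_of_nonneg_left (h x hx.1.le hx.2) a2
  rw [integral_mul_const, (CBox_int ha hab).2] at h4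
  rw [Finset.sum_congr rfl h2, Finset.sum_add_distrib, ← Finset.mul_sum,
    ← integral_finsetSum s h1, add_mul]
  refine (norm_add_le _ _).trans (add_le_add ?_ h4)
  rw [norm_mul, Complex.norm_real, Real.norm_eq_abs]
  exact mul_le_mul_of_nonneg_left h3 (abs_nonneg _)

open Classical in
theorem CBox_sum (X a b : ℝ) (F : O → ℂ) : ∑ n ∈ qball X, F n * win a b n =
    ∑ n ∈ ((qball X).filter fun n => (nm n : ℝ) ≤ b).filter (fun n => a < (nm n : ℝ)), F n := by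
  rw [Finset.filter_filter, Finset.sum_filter]
  refine Finset.sum_congr rfl fun n _ => ?_
  split_ifs with h
  · rw [win, ind_of h.symm, mul_one]
  · rw [win, ind_of_not fun h' => h h'.symm, mul_zero]

theorem S1_lg {X E : ℝ} (hX : 2 ≤ X) (c : O → ℂ)
    (h : ∀ x, X / 2 ≤ x → ‖S1 x X c‖ ≤ E) :
    ‖S1 (X / 2) X fun n => lg n * c n‖ ≤ Real.log X * E := by
  classical
  have h1 := log_weight (((qball X).filter fun n => (nm n : ℝ) ≤ X).filter
    (fun n => X / 2 < (nm n : ℝ))) (fun n => c n * aq n) (fun n => nm n) (a := X / 2) (b := X)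
    (E := E) (by linarith) (by linarith)
    (fun n hn => ⟨(Finset.mem_filter.1 hn).2, (Finset.mem_filter.1 (Finset.mem_filter.1 hn).1).2⟩)
    fun x x1 _ => by
      have := h x x1
      rw [S1, CBox_sum] at this
      refine le_of_eq_of_le (congrArg _ (Finset.sum_congr ?_ fun _ _ => rfl)) this
      ext n
      simp only [Finset.mem_filter]
      exact ⟨fun h => ⟨h.1.1, h.2⟩, fun h => ⟨⟨h.1, x1.trans_lt h.2⟩, h.2⟩⟩
  rw [abs_of_nonneg (Real.log_nonneg (by linarith)),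
    ← Real.log_mul (by positivity) (by positivity), mul_div_cancel₀ _ (by positivity)] at h1
  rw [S1, CBox_sum]
  simpa only [lg, mul_assoc] using h1

theorem S1_lg_left {X x₁ x₂ Z E : ℝ} (hZ : 1 ≤ Z) (hx : x₂ ≤ X) (f g : O → ℂ)
    (h : ∀ s, ‖S1 x₁ x₂ (cv (rw' f s Z) g)‖ ≤ E) :
    ‖S1 x₁ x₂ (cv (fun n => lg n * rw' f 0 Z n) g)‖ ≤ (2 + Real.log Z) * E := by
  classical
  set W : O → ℂ := fun a => ∑ b ∈ qball X, g b * aq (a * b) * win x₁ x₂ (a * b) with hW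
  have h0 : ∀ (F : O → ℂ) (s : ℝ), S1 x₁ x₂ (cv (rw' F s Z) g) =
      ∑ n ∈ ((qball X).filter fun n => (nm n : ℝ) ≤ Z).filter (fun n => s < (nm n : ℝ)),
        F n * W n := fun F s => by
    rw [S1_cv x₁ x₂ hx, ← CBox_sum]
    refine Finset.sum_congr rfl fun a _ => ?_
    rw [hW, Finset.mul_sum, Finset.sum_mul]
    refine Finset.sum_congr rfl fun b _ => ?_
    rw [rw']
    ring
  have hE : 0 ≤ E := (norm_nonneg _).trans (h 0)
  have h1 := log_weight ((qball X).filter fun n => (nm n : ℝ) ≤ Z) (fun n => f n * W n)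
    (fun n => nm n) (a := 1 / 2) (b := Z) (E := E) (by norm_num) (by linarith)
    (fun n hn => ⟨by linarith [(mem_qball.1 (Finset.mem_filter.1 hn).1).1.one_le],
      (Finset.mem_filter.1 hn).2⟩)
    fun x _ _ => by
      have := h x
      rw [h0] at this
      exact le_of_eq_of_le (congrArg _ (Finset.sum_congr (by ext n; simp) fun _ _ => rfl)) this
  have h2 : (fun n => lg n * rw' f 0 Z n) = rw' (fun n => lg n * f n) 0 Z :=
    funext fun n => (mul_assoc _ _ _).symm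
  have h3 : |Real.log (1 / 2)| + Real.log (Z / (1 / 2)) ≤ 2 + Real.log Z := by
    have := Real.log_two_lt_d9
    rw [Real.log_div (by positivity) (by norm_num : (1 / 2 : ℝ) ≠ 0), one_div, Real.log_inv,
      abs_neg, abs_of_pos (Real.log_pos one_lt_two)]
    linarith
  rw [h2, h0, Finset.filter_true_of_mem fun n hn =>
    one_pos.trans_le (mem_qball.1 (Finset.mem_filter.1 hn).1).1.one_le]
  refine le_trans ?_ (h1.trans (mul_le_mul_of_nonneg_right h3 hE))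
  simp only [lg, mul_assoc, le_refl]

theorem CBox_geom {r : ℝ} (h0 : 0 ≤ r) (h1 : r < 1) (s : Finset ℕ) (φ : ℕ → ℕ)
    (hφ : Set.InjOn φ s) : ∑ j ∈ s, r ^ φ j ≤ (1 - r)⁻¹ := by
  rw [← Finset.sum_image (f := fun i => r ^ i) hφ, ← tsum_geometric_of_lt_one h0 h1]
  exact (summable_geometric_of_lt_one h0 h1).sum_le_tsum _ fun _ _ => by positivity

theorem geom_min {a : ℝ} (ha : 0 < a) : ∃ C : ℝ, 0 < C ∧ ∀ (Z : ℝ) (s : Finset ℕ), 0 < Z →
    ∑ j ∈ s, min ((2 ^ j / 2) ^ 3 / Z) (Z / (2 ^ j / 2) ^ 3) ^ a ≤ C := by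
  set r : ℝ := (1 / 8 : ℝ) ^ a with hr
  have r0 : 0 ≤ r := by positivity
  have r1 : r < 1 := Real.rpow_lt_one (by norm_num) (by norm_num) ha
  have r2 : 0 < (1 - r)⁻¹ := inv_pos.2 (by linarith)
  refine ⟨(1 - r)⁻¹ + (1 - r)⁻¹, by positivity, fun Z s hZ => ?_⟩
  have e : ∀ j : ℕ, ((2 : ℝ) ^ j / 2) ^ 3 = 8 ^ j / 8 := fun j => by
    rw [div_pow, ← pow_mul, mul_comm, pow_mul]
    norm_num
  have hex : ∃ j : ℕ, Z < 8 ^ j / 8 := by
    obtain ⟨j, hj⟩ := pow_unbounded_of_one_lt (Z * 8) (by norm_num : (1 : ℝ) < 8)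
    exact ⟨j, by linarith⟩
  set k := Nat.find hex with hk
  have key : ∀ (j i : ℕ), min ((8 : ℝ) ^ j / 8 / Z) (Z / (8 ^ j / 8)) ≤ (1 / 8) ^ i →
      min ((8 : ℝ) ^ j / 8 / Z) (Z / (8 ^ j / 8)) ^ a ≤ r ^ i := fun j i h => by
    refine (Real.rpow_le_rpow (le_min (by positivity) (by positivity)) h ha.le).trans_eq ?_
    rw [hr, ← Real.rpow_natCast, ← Real.rpow_natCast, ← Real.rpow_mul (by norm_num),
      ← Real.rpow_mul (by norm_num), mul_comm]
  simp only [e]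
  rw [← Finset.sum_filter_add_sum_filter_not s (fun j => j < k)]
  refine add_le_add ((Finset.sum_le_sum fun j hj => key j (k - 1 - j) ?_).trans
    (CBox_geom r0 r1 _ (fun j => k - 1 - j) fun i hi j hj h => ?_))
    ((Finset.sum_le_sum fun j hj => key j (j - k) ?_).trans
      (CBox_geom r0 r1 _ (fun j => j - k) fun i hi j hj h => ?_))
  · have a1 := (Finset.mem_filter.1 hj).2
    have a2 := not_lt.1 (Nat.find_min hex (show k - 1 < k by omega))
    obtain ⟨i, hi⟩ : ∃ i, k - 1 = j + i := ⟨k - 1 - j, by omega⟩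
    rw [hi, pow_add] at a2
    refine (min_le_left _ _).trans ?_
    rw [hi, Nat.add_sub_cancel_left, one_div_pow, div_le_div_iff₀ hZ (by positivity)]
    linarith
  · have a1 := (Finset.mem_filter.1 (Finset.mem_coe.1 hi)).2
    have a2 := (Finset.mem_filter.1 (Finset.mem_coe.1 hj)).2
    simp only at h
    omega
  · have a1 := not_lt.1 (Finset.mem_filter.1 hj).2
    have a2 : Z < 8 ^ k / 8 := Nat.find_spec hex
    obtain ⟨i, rfl⟩ := Nat.exists_eq_add_of_le a1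
    refine (min_le_right _ _).trans ?_
    rw [Nat.add_sub_cancel_left, one_div_pow, div_le_div_iff₀ (by positivity) (by positivity),
      pow_add]
    have a3 : (0 : ℝ) < 8 ^ i := by positivity
    nlinarith
  · have a1 := (Finset.mem_filter.1 (Finset.mem_coe.1 hi)).2
    have a2 := (Finset.mem_filter.1 (Finset.mem_coe.1 hj)).2
    simp only at h
    omega

end Vale.Agent.P006
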