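import Vale.Agent.P006.KCv

/-! Part C (combinatorial decomposition): definitions.  See `notes/P006.md`. -/

namespace Vale.Agent.P006

open Vale.Agent.P026 Filter
open scoped ComplexConjugate Real

/-- `f` restricted to the window `(a, b]` -/
noncomputable def rw' (f : O → ℂ) (a b : ℝ) (n : O) : ℂ := f n * win a b n
/-- point mass -/
noncomputable def dl (q n : O) : ℂ := ind (n = q)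
/-- `log N n` -/
noncomputable def lg (n : O) : ℂ := (Real.log (nm n) : ℝ)
/-- the truncation point `z` -/
noncomputable def zz (X : ℝ) : ℝ := X ^ (1 / 3 - 0.002 : ℝ)
/-- the lower end `Y` of the Type II range -/
noncomputable def YY (X : ℝ) : ℝ := X ^ (1 / 3 + 0.0005 : ℝ)
/-- rough numbers -/
noncomputable def ro (X y : ℝ) : O → ℂ := hf 0 y X
/-- `μ` on smooth numbers -/
noncomputable def sm (y : ℝ) : O → ℂ := hf 1 0 y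
/-- `μ` on rough numbers in `(s, z]` -/
noncomputable def la (X y s : ℝ) : O → ℂ := rw' (hf 1 y X) s (zz X)
/-- `λ * 1 - δ` -/
noncomputable def ga (X y : ℝ) (n : O) : ℂ := cv (la X y 0) (ro X y) n - dl 1 n
/-- `Λ` on primes of norm in `(y, X]` -/
noncomputable def Lr (X y : ℝ) : O → ℂ := rw' Lam y X

/-- a total order on `O` refining the norm -/
def plt (p q : O) : Prop :=
  nm p < nm q ∨ (nm p = nm q ∧ (p.re < q.re ∨ (p.re = q.re ∧ p.im < q.im)))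
/-- `μ` on smooth numbers with all primes above `q` -/
noncomputable def hup (y : ℝ) (q n : O) : ℂ := sm y n * ind (∀ p, PP p → p ∣ n → plt q p)
/-- `μ` on smooth numbers with all primes below `q` -/
noncomputable def hdn (y : ℝ) (q n : O) : ℂ := sm y n * ind (∀ p, PP p → p ∣ n → plt p q)

/-- equality on `Sq` elements of norm at most `X` -/
def EqX (X : ℝ) (f g : O → ℂ) : Prop := ∀ n, Sq n → (nm n : ℝ) ≤ X → f n = g n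
/-- support in norm at most `R` -/
def Le (R : ℝ) (f : O → ℂ) : Prop := ∀ n, f n ≠ 0 → (nm n : ℝ) ≤ R

/-- cancellation in every window -/
def SI (X A γ η : ℝ) (h : O → ℂ) : Prop :=
  ∀ (g k : O) (t u₁ u₂ : ℝ), Sq g → (nm g : ℝ) ≤ X ^ γ → k ≠ 0 → (nm k : ℝ) ≤ X ^ A → ¬Cube k →
    |t| ≤ X → 0 ≤ u₂ → u₂ ≤ X →
      ‖∑ v ∈ qball u₂, ind (Sq (g * v)) * h (g * v) * win u₁ u₂ (g * v) * cub k v *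
        np v (-1 / 4 + Complex.I * t)‖ ≤ X ^ (-η) * u₂ ^ (3 / 4 : ℝ)

/-- base cases of `SI` -/
def SIBase : Prop :=
  ∀ η₀ : ℝ, 0 < η₀ → ∃ η : ℝ, 0 < η ∧ ∀ᶠ X : ℝ in atTop, ∀ v₁ v₂ : ℝ, X ^ η₀ ≤ v₁ →
    (∀ (j : ℕ) (Y₁ Y₂ : ℝ) (q : O), q ≠ 0 → (nm q : ℝ) ≤ X →
      SI X 22 η η (rw' (fun n => hf j Y₁ Y₂ n * ind (IsCoprime n q)) v₁ v₂)) ∧
    SI X 22 η η (rw' Lam v₁ v₂)

def RIStmt : Prop :=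
  ∃ η : ℝ, 0 < η ∧ ∀ η₀ : ℝ, 0 < η₀ → η₀ ≤ η → ∀ᶠ X : ℝ in atTop, ∀ (x₁ x₂ : ℝ) (ρ : O → ℂ),
    X / 2 ≤ x₁ → x₂ ≤ X → Bd (X ^ η) ρ → Le (X ^ (0.34 : ℝ)) ρ →
      ‖S1 x₁ x₂ (cv ρ (ro X (X ^ η₀)))‖ ≤ X ^ (5 / 6 - η)

def RIIStmt : Prop :=
  ∃ c η : ℝ, 0 < c ∧ 0 < η ∧ ∀ η₀ : ℝ, 0 < η₀ → η₀ ≤ η → ∀ᶠ X : ℝ in atTop,
    ∀ (R x₁ x₂ : ℝ) (α β₀ : O → ℂ), X ^ (1 / 2 - c) ≤ R → R ≤ X ^ (1 / 2 + c) → X / 2 ≤ x₁ →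
      x₂ ≤ X → Supp 2 R α → Bd (X ^ η) α → Bd (X ^ η) β₀ → Le (X ^ (0.004 : ℝ)) β₀ →
        ‖S1 x₁ x₂ (cv α (cv β₀ (ro X (X ^ η₀))))‖ ≤ X ^ (5 / 6 - η)

def G1Stmt : Prop :=
  ∃ η : ℝ, 0 < η ∧ ∀ η₀ : ℝ, 0 < η₀ → η₀ ≤ η → ∀ᶠ X : ℝ in atTop, ∀ (s x₁ x₂ : ℝ) (ρ : O → ℂ),
    X / 2 ≤ x₁ → x₂ ≤ X → Bd (X ^ η) ρ → Le (YY X) ρ →
      ‖S1 x₁ x₂ (cv ρ (cv (la X (X ^ η₀) s) (ro X (X ^ η₀))))‖ ≤ X ^ (5 / 6 - η)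

def G1LStmt : Prop :=
  ∃ η : ℝ, 0 < η ∧ ∀ η₀ : ℝ, 0 < η₀ → η₀ ≤ η → ∀ᶠ X : ℝ in atTop, ∀ ρ : O → ℂ,
    Bd (X ^ η) ρ → Le (YY X) ρ →
      ‖S1 (X / 2) X (cv ρ (cv (la X (X ^ η₀) 0) fun n => lg n * ro X (X ^ η₀) n))‖ ≤ X ^ (5 / 6 - η)

def G2Stmt : Prop :=
  ∀ η₁ : ℝ, 0 < η₁ → ∃ η : ℝ, 0 < η ∧ ∀ η₀ : ℝ, 0 < η₀ → η₀ ≤ η → ∀ᶠ X : ℝ in atTop,
    ∀ (R : ℝ) (ρ : O → ℂ), YY X / 2 ≤ R → Supp 2 R ρ → Bd (X ^ η) ρ → SI X 10 η₁ η₁ ρ →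
      ‖S1 (X / 2) X (cv ρ (rw' (ga X (X ^ η₀)) (YY X) X))‖ ≤ X ^ (5 / 6 - η)

def G12Stmt : Prop :=
  ∀ η₁ : ℝ, 0 < η₁ → ∃ η : ℝ, 0 < η ∧ ∀ η₀ : ℝ, 0 < η₀ → η₀ ≤ η → ∀ᶠ X : ℝ in atTop,
    ∀ ρ : O → ℂ, (∀ n, ρ n ≠ 0 → Sq n) → Bd (X ^ η) ρ → SI X 10 η₁ η₁ (rw' ρ (YY X) X) →
      ‖S1 (X / 2) X (cv ρ (rw' (ga X (X ^ η₀)) (YY X) X))‖ ≤ X ^ (5 / 6 - η)

/-- `ga` has cancellation in every window -/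
def SIgaStmt : Prop :=
  ∃ η : ℝ, 0 < η ∧ ∀ᶠ X : ℝ in atTop, ∀ y : ℝ, SI X 16 η η (ga X y)

/-- mean squares in the narrow range -/
def NormStmt : Prop :=
  ∀ η₀ : ℝ, 0 < η₀ → ∃ C : ℝ, 1 ≤ C ∧ ∀ᶠ X : ℝ in atTop,
    (∀ n, ro X (X ^ η₀) n ≠ 0 → (nm n : ℝ) ≤ X → tau n ≤ C) ∧
    ∀ M Z : ℝ, X ^ (0.3 : ℝ) ≤ M → 2 * M ≤ X →
      ∑ n ∈ qball Z, ‖rw' (ga X (X ^ η₀)) M (2 * M) n‖ ^ 2 ≤ C * M / Real.log X ∧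
      ∑ n ∈ qball Z, ‖rw' (Lr X (X ^ η₀)) M (2 * M) n‖ ^ 2 ≤ C * M * Real.log X

def NarStmt : Prop :=
  ∀ η₀ ε : ℝ, 0 < η₀ → η₀ ≤ 0.1 → 0 < ε → ∀ᶠ X : ℝ in atTop,
    ‖S1 (X / 2) X (cv (rw' (ga X (X ^ η₀)) 0 (YY X)) (cv (rw' (ga X (X ^ η₀)) 0 (YY X))
      (rw' (Lr X (X ^ η₀)) 0 (YY X))))‖ ≤ ε * X ^ (5 / 6 : ℝ)

end Vale.Agent.P006
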