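import Vale.Agent.P006.CBox
import Vale.Agent.P006.CSplit
import Vale.Agent.P006.CSI

/-! C5: Type I for rough numbers.
Plan: `W = X^0.345`.  `cv ρ ro ≡ cv (cv ρ sm) 1` (`ro_eq`, `cv_assoc`), `split y W`.  First part: `TIStmt` for `rw' (cv ρ sm) 0 W / X^{2η}` (`ev_bd_cv`).
For each `q ∈ prb y` (at most `C y` of them, `card_ball_le`): `S1 (cv α β)`, `β = rw' (cv ρ (hup y q)) (W/N q) W`, `α = rw' (cv (cv (dl q) (hdn y q)) 1) 0 X`; `S1_box`;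
a box `B` of `β` vanishes unless `W/(2 N q) ≤ B ≤ W`; `TIIaStmt` with `δ = 0.01`, `c = 0.1`.  `SW`: `rw_cv_congr` replaces `hup y q` by `rw' (hup y q) (X^0.004) X`
(`N u > W/(N q X^0.34)`, `η₀ ≤ 0.001`), `hup_eq`, `SIBase 0.004`, `SI.cv`, `SI.rw'`, `SI.sw`.  Choose `η ≤ η_{II}/4`. -/

namespace Vale.Agent.P006

open Vale.Agent.P026 Filter
open scoped ComplexConjugate Real

/-- the long variable for a fixed prime `q` -/
noncomputable def criA (X y : ℝ) (q : O) : O → ℂ :=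
  rw' (cv (fun _ => 1) (rw' (cv (dl q) (hdn y q)) 0 X)) 0 X

theorem cri_eqX (X : ℝ) (f : O → ℂ) : EqX X f (rw' f 0 X) :=
  fun _ hn h => (rw_of (lt_of_lt_of_le one_pos hn.one_le) h).symm

theorem cri_decomp {X W x₂ : ℝ} (y x₁ : ℝ) (hx : x₂ ≤ X) {ρ : O → ℂ} (hρ : Le W ρ) :
    S1 x₁ x₂ (cv ρ (ro X y)) = S1 x₁ x₂ (cv (fun _ => 1) (rw' (cv ρ (sm y)) 0 W)) -
      ∑ q ∈ prb y, S1 x₁ x₂ (cv (criA X y q) (rw' (cv ρ (hup y q)) (W / nm q) W)) := by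
  have h1 := congrArg (fun g => S1 x₁ x₂ (cv (fun _ => 1) g)) (funext (split y W hρ))
  beta_reduce at h1
  rw [cv_sub, S1_sub, cv_sum, S1_sum] at h1
  rw [(EqX.cv EqX.rfl (ro_eq X y)).S1 hx, ← cv_assoc, cv_comm (cv ρ (sm y))]
  refine h1.trans (congrArg _ (Finset.sum_congr rfl fun q _ => ?_))
  rw [cv_comm (rw' _ _ _), ← cv_assoc]
  exact (EqX.cv ((EqX.cv EqX.rfl (cri_eqX X _)).trans (cri_eqX X _)) EqX.rfl).S1 hx

theorem cri_first (hI : TIStmt) {η : ℝ} (hη : 0 < η) (hη1 : η ≤ 0.001) :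
    ∀ᶠ X : ℝ in atTop, ∀ (x₁ x₂ y : ℝ) (ρ : O → ℂ), X / 2 ≤ x₁ → x₂ ≤ X → Bd (X ^ η) ρ →
      ‖S1 x₁ x₂ (cv (fun _ => 1) (rw' (cv ρ (sm y)) 0 (X ^ (0.345 : ℝ))))‖ ≤ X ^ (5 / 6 - η) / 2 := by
  filter_upwards [hI, ev_bd_cv hη, eventually_ge_atTop (1 : ℝ),
    ev_const 2 (ε := 0.002) (by norm_num)] with X h1 h2 hX h3 x₁ x₂ y ρ hx1 hx2 hρ
  have hX0 : 0 < X := by linarith
  have hp : ∀ a b : ℝ, a ≤ b → X ^ a ≤ X ^ b := fun a b hab =>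
    Real.rpow_le_rpow_of_exponent_le hX hab
  have hW : X ^ (0.345 : ℝ) ≤ X := (hp 0.345 1 (by norm_num)).trans (Real.rpow_one X).le
  have hB := h2 _ _ 0 _ ρ (sm y) hW hρ (bd_hf 1 0 y)
  set F := rw' (cv ρ (sm y)) 0 (X ^ (0.345 : ℝ)) with hF
  set M := X ^ η * (X ^ η * 1) with hM
  have hM0 : 0 < M := by positivity
  have hMc : (M : ℂ) ≠ 0 := by exact_mod_cast hM0.ne'
  have e : F = fun n => (M : ℂ) * ((M : ℂ)⁻¹ * F n) := by
    funext n; rw [mul_inv_cancel_left₀ hMc]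
  have h4 := h1 x₁ x₂ (fun n => (M : ℂ)⁻¹ * F n) hx1 hx2 (fun r => by
      rw [norm_mul, norm_inv, Complex.norm_real, Real.norm_of_nonneg hM0.le, inv_mul_le_iff₀ hM0,
        mul_one]
      exact hB r)
    fun r hr => (rw_ne_zero (right_ne_zero_of_mul hr)).2.2.trans (hp _ _ (by norm_num))
  rw [e, cv_smul, S1_smul, norm_mul, Complex.norm_real, Real.norm_of_nonneg hM0.le, cv_comm]
  refine (mul_le_mul_of_nonneg_left h4 hM0.le).trans ?_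
  have h5 : M * X ^ (5 / 6 - 1 / 200 : ℝ) * X ^ (0.002 : ℝ) ≤ X ^ (5 / 6 - η) := by
    rw [hM, mul_one, ← Real.rpow_add hX0, ← Real.rpow_add hX0, ← Real.rpow_add hX0]
    exact hp _ _ (by linarith)
  have h6 : 0 ≤ M * X ^ (5 / 6 - 1 / 200 : ℝ) := by positivity
  nlinarith

theorem cri_si (hb : SIBase) : ∃ η₂ : ℝ, 0 < η₂ ∧ ∀ᶠ X : ℝ in atTop, ∀ (y : ℝ) (ρ : O → ℂ) (q : O),
    PP q → (nm q : ℝ) ≤ X ^ (0.001 : ℝ) → Bd (X ^ (η₂ / 2)) ρ → Le (X ^ (0.34 : ℝ)) ρ →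
      SI X 10 η₂ η₂ (rw' (cv ρ (hup y q)) (X ^ (0.345 : ℝ) / nm q) (X ^ (0.345 : ℝ))) := by
  obtain ⟨η₁, h1, hb⟩ := hb 0.004 (by norm_num)
  have h2 : 0 < min η₁ 1 := lt_min h1 one_pos
  refine ⟨min η₁ 1 / 2, by positivity, ?_⟩
  filter_upwards [hb, SI.cv (η := min η₁ 1) (ε := min η₁ 1 / 2 / 2) (by positivity),
    eventually_ge_atTop (1 : ℝ)] with X hb hcv hX y ρ q hq hqX hρ hρL
  have hX0 : 0 < X := by linarith
  have hp : ∀ a b : ℝ, a ≤ b → X ^ a ≤ X ^ b := fun a b hab =>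
    Real.rpow_le_rpow_of_exponent_le hX hab
  have hW : X ^ (0.345 : ℝ) ≤ X := (hp 0.345 1 (by norm_num)).trans (Real.rpow_one X).le
  have hq1 := hq.sq.one_le
  obtain ⟨q', a1, a2, a3⟩ := hup_eq y hq
  have a4 : (nm q' : ℝ) ≤ X := by
    have a5 : (nm q' : ℝ) ≤ (nm q : ℝ) ^ 2 := by exact_mod_cast a2
    refine a5.trans ((pow_le_pow_left₀ (by linarith) hqX 2).trans ?_)
    rw [← Real.rpow_two, ← Real.rpow_mul hX0.le]
    exact (hp _ 1 (by norm_num)).trans (Real.rpow_one X).le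
  have a6 := (hb _ X le_rfl).1 1 (nm q - 1 / 2) y q' a1 a4
  rw [← a3] at a6
  have a7 := hcv 10 (min η₁ 1 / 2) ρ _ (by linarith [min_le_right η₁ 1]) hρ
    (a6.mono hX (by norm_num) (by linarith [min_le_left η₁ 1]) (min_le_left η₁ 1))
  rw [show min η₁ 1 - 2 * (min η₁ 1 / 2 / 2) = min η₁ 1 / 2 by ring] at a7
  rw [rw_cv_congr (g' := rw' (hup y q) (X ^ (0.004 : ℝ)) X)]
  · exact a7.rw' _ _
  · intro u v hu hv h3 h4 h5
    have b1 := hρL u h3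
    have b2 := hu.one_le
    have b3 := hv.one_le
    refine (rw_of ?_ (by nlinarith)).symm
    by_contra b4
    rw [not_lt] at b4
    rw [div_lt_iff₀ (by linarith)] at h4
    have b5 : (nm u : ℝ) * nm v * nm q ≤ X ^ (0.34 : ℝ) * X ^ (0.004 : ℝ) * X ^ (0.001 : ℝ) := by
      gcongr
    rw [← Real.rpow_add hX0, ← Real.rpow_add hX0,
      show (0.34 + 0.004 + 0.001 : ℝ) = 0.345 by norm_num] at b5
    linarith

theorem cri_prime (ha : TIIaStmt) (hb : SIBase) : ∃ η₃ : ℝ, 0 < η₃ ∧ ∀ᶠ X : ℝ in atTop,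
    ∀ (x₁ x₂ y : ℝ) (ρ : O → ℂ) (q : O), X / 2 ≤ x₁ → x₂ ≤ X → PP q →
      (nm q : ℝ) ≤ X ^ (0.001 : ℝ) → Bd (X ^ η₃) ρ → Le (X ^ (0.34 : ℝ)) ρ →
        ‖S1 x₁ x₂ (cv (criA X y q) (rw' (cv ρ (hup y q)) (X ^ (0.345 : ℝ) / nm q)
          (X ^ (0.345 : ℝ))))‖ ≤ nb X * X ^ (5 / 6 - 4 * η₃) := by
  obtain ⟨η₂, h2, hsi⟩ := cri_si hb
  obtain ⟨η, hη, ha⟩ := ha 0.01 0.1 (η₂ / 2) (by norm_num) (by norm_num) (by positivity)
  have h3 : 0 < min (η₂ / 2) (η / 4) := lt_min (by positivity) (by positivity)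
  refine ⟨_, h3, ?_⟩
  filter_upwards [hsi, ha, SI.sw h2, ev_bd_cv h3, eventually_ge_atTop (1 : ℝ),
    ev_const 2 (ε := 0.0006) (by norm_num), ev_const 16 (ε := 0.6) (by norm_num)]
    with X hsi ha hsw hbd hX c1 c2 x₁ x₂ y ρ q hx1 hx2 hq hqX hρ hρL
  have m1 := min_le_left (η₂ / 2) (η / 4)
  have m2 := min_le_right (η₂ / 2) (η / 4)
  set e := min (η₂ / 2) (η / 4) with he
  have hX0 : 0 < X := by linarith
  have hp : ∀ a b : ℝ, a ≤ b → X ^ a ≤ X ^ b := fun a b hab =>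
    Real.rpow_le_rpow_of_exponent_le hX hab
  have hW : X ^ (0.345 : ℝ) ≤ X := (hp 0.345 1 (by norm_num)).trans (Real.rpow_one X).le
  have hq1 := hq.sq.one_le
  have hee : X ^ e * X ^ e ≤ X ^ η := by
    rw [← Real.rpow_add hX0]; exact hp _ _ (by linarith)
  have bA : Bd (X ^ η) (criA X y q) :=
    (hbd 1 _ 0 X (fun _ => 1) _ le_rfl (fun _ => norm_one.le)
      (hbd 1 1 0 X _ _ le_rfl (bd_dl q) (bd_hdn y q))).mono (by simpa using hee)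
  have bB : Bd (X ^ η) (rw' (cv ρ (hup y q)) (X ^ (0.345 : ℝ) / nm q) (X ^ (0.345 : ℝ))) :=
    (hbd _ 1 _ _ _ _ hW hρ (bd_hup y q)).mono (by simpa using hee)
  have sB := hsi y ρ q hq hqX (hρ.mono (hp _ _ m1)) hρL
  refine S1_box hX hx2 _ _ fun B hB1 _ => ?_
  by_cases hB : B < X ^ (0.345 : ℝ) ∧ X ^ (0.345 : ℝ) / nm q < 2 * B
  · have su := supp_rw (f := rw' (cv ρ (hup y q)) (X ^ (0.345 : ℝ) / nm q) (X ^ (0.345 : ℝ)))
      (fun n hn => (cv_ne_zero (rw_ne_zero hn).1).1) (B := B) (c := 16) (by linarith) (by norm_num)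
    have d1 : 16 * B ≤ X := by
      have d2 : X ^ (0.6 : ℝ) * X ^ (0.345 : ℝ) ≤ X := by
        rw [← Real.rpow_add hX0]
        exact (hp _ 1 (by norm_num)).trans (Real.rpow_one X).le
      exact (mul_le_mul c2 hB.1.le (by linarith) (by positivity)).trans d2
    have d3 : X ^ (1 / 3 + 0.01 : ℝ) ≤ B := by
      have d4 := hB.2
      rw [div_lt_iff₀ (by linarith)] at d4
      have d5 : 2 * B * nm q ≤ X ^ (0.0006 : ℝ) * B * X ^ (0.001 : ℝ) := by gcongr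
      have d6 : X ^ (1 / 3 + 0.01 : ℝ) * (X ^ (0.0006 : ℝ) * X ^ (0.001 : ℝ)) ≤ X ^ (0.345 : ℝ) := by
        rw [← Real.rpow_add hX0, ← Real.rpow_add hX0]
        exact hp _ _ (by norm_num)
      refine le_of_mul_le_mul_right (a := X ^ (0.0006 : ℝ) * X ^ (0.001 : ℝ)) ?_ (by positivity)
      linarith
    refine (ha B x₁ x₂ _ _ d3 (hB.1.le.trans (hp _ _ (by norm_num))) hx1 hx2 su bA (bB.rw' _ _)
      (hsw B _ (by linarith) d1 su (sB.rw' _ _))).trans (hp _ _ (by linarith))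
  · rw [S1_cv_eq_zero, norm_zero]
    · positivity
    · intro a b _ _ _ h4 _ _
      obtain ⟨h5, h6, h7⟩ := rw_ne_zero h4
      obtain ⟨-, h8, h9⟩ := rw_ne_zero h5
      exact hB ⟨h6.trans_le h9, h8.trans_le h7⟩

theorem ri (hI : TIStmt) (ha : TIIaStmt) (hb : SIBase) : RIStmt := by
  obtain ⟨η₃, h3, hq⟩ := cri_prime ha hb
  obtain ⟨C, hC, hcard⟩ := card_ball_le
  have hη : 0 < min η₃ 0.001 := lt_min h3 (by norm_num)
  refine ⟨_, hη, fun η₀ h0 h0' => ?_⟩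
  have m1 := min_le_left η₃ 0.001
  have m2 := min_le_right η₃ 0.001
  set η := min η₃ 0.001 with he
  filter_upwards [hq, cri_first hI hη m2, nb_le, ev_log (8 * C) 1 hη, eventually_ge_atTop (1 : ℝ)]
    with X hq hf hnb hl hX x₁ x₂ ρ hx1 hx2 hρ hρL
  have hX0 : 0 < X := by linarith
  have hp : ∀ a b : ℝ, a ≤ b → X ^ a ≤ X ^ b := fun a b hab =>
    Real.rpow_le_rpow_of_exponent_le hX hab
  rw [cri_decomp (W := X ^ (0.345 : ℝ)) _ x₁ hx2 fun n hn => (hρL n hn).trans (hp _ _ (by norm_num))]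
  refine (norm_sub_le _ _).trans ?_
  have a1 := hf x₁ x₂ (X ^ η₀) ρ hx1 hx2 hρ
  have a2 := (norm_sum_le _ _).trans (Finset.sum_le_card_nsmul (prb (X ^ η₀)) _ _ fun q hq' =>
    hq x₁ x₂ (X ^ η₀) ρ q hx1 hx2 (mem_prb.1 hq').1
      ((mem_prb.1 hq').2.trans (hp _ _ (h0'.trans m2))) (hρ.mono (hp _ _ m1)) hρL)
  rw [nsmul_eq_mul] at a2
  have a3 : ((prb (X ^ η₀)).card : ℝ) ≤ 2 * C * X ^ η := by
    have b1 : ((prb (X ^ η₀)).card : ℝ) ≤ (ball (X ^ η₀)).card :=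
      Nat.cast_le.2 (Finset.card_le_card fun p hp' => mem_ball.2 (mem_prb.1 hp').2)
    have b2 := hcard (X ^ η₀) (by positivity)
    have b3 := hp _ _ h0'
    have b4 : 1 ≤ X ^ η := Real.one_le_rpow hX hη.le
    nlinarith
  have a4 : X ^ η * X ^ η * X ^ (5 / 6 - 4 * η₃) ≤ X ^ (5 / 6 - η) := by
    rw [← Real.rpow_add hX0, ← Real.rpow_add hX0]
    exact hp _ _ (by linarith)
  have a5 : ((prb (X ^ η₀)).card : ℝ) * (nb X * X ^ (5 / 6 - 4 * η₃)) ≤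
      2 * C * X ^ η * (2 * Real.log X * X ^ (5 / 6 - 4 * η₃)) := by gcongr
  rw [pow_one] at hl
  have a6 := mul_le_mul_of_nonneg_right hl
    (show 0 ≤ X ^ η * X ^ (5 / 6 - 4 * η₃) by positivity)
  linarith

end Vale.Agent.P006
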