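import Vale.Agent.P006.DDefs

/-! D-Lat: lattice sums.
Plans. `Gs 1 y * y^σ = exp (-u² + σ u) ≤ exp (σ²/4)`, `u = log y`.  `sum_min2`: split at `N a ≤ Y` (`card_le_of_nm`) and `N a > Y` (`sum_rpow_tail` with `σ = 2`).
`sum_Gs_le`: `Gs 1 y y^σ ≤ C min 1 y⁻²`, `Y = A / N d`.  `summable_Gs`: `summable_of_sum_le` (treat `a = 0` separately) or compare with `summable_rpow`.
`sum_Gs_sq_le`: choose `d a`, `sum_le_sum_cover`-type covering by the pairs `(d, a / d²)`, `sum_Gs_le` with `d²`, `sum_rpow_tail`.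
`sum_min_le`: `sum_rpow_le (3/4)`, `sum_rpow_tail (3/2)`.  `dyadic`: group by `j = Nat.log 2 (N k)` (`log_mem_range`, `Finset.sum_fiberwise_of_maps_to`),
use the hypothesis with `K₁ = min K 2^(j+1)`; `2^j ≤ K` gives `j ≤ 2 log K`.  `tsum_dvd`: `Function.Injective.tsum_eq` for `a ↦ d² a`, `Prim.of_mul`. -/

namespace Vale.Agent.P006.D

open Vale.Agent.P026 Filter MeasureTheory
open scoped ComplexConjugate Real

theorem Gs_mul_rpow_le {y : ℝ} (hy : 0 < y) (σ : ℝ) : Gs 1 y * y ^ σ ≤ Real.exp (σ ^ 2 / 4) := by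
  rw [Gs, Real.rpow_def_of_pos hy, ← Real.exp_add]
  exact Real.exp_le_exp.2 (by nlinarith [sq_nonneg (Real.log y - σ / 2)])

theorem dlat_div {x : ℝ} (hx : 0 < x) (a : O) (σ : ℝ) :
    (nm a / x : ℝ) ^ (-σ) = x ^ σ * (nm a : ℝ) ^ (-σ) := by
  rw [Real.div_rpow (Nat.cast_nonneg _) hx.le, Real.rpow_neg hx.le, div_inv_eq_mul, mul_comm]

theorem dlat_tail {σ : ℝ} (hσ : 1 < σ) : ∃ C : ℝ, 0 < C ∧ ∀ (Y : ℝ) (s : Finset O), 0 < Y →
    (∀ a ∈ s, Y < nm a) → ∑ a ∈ s, (nm a / Y : ℝ) ^ (-σ) ≤ C * Y := by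
  obtain ⟨C, hC, h⟩ := sum_rpow_tail hσ
  refine ⟨C, hC, fun Y s hY hs => ?_⟩
  simp only [dlat_div hY]
  rw [← Finset.mul_sum]
  refine (mul_le_mul_of_nonneg_left (h Y s hY hs) (by positivity)).trans_eq ?_
  rw [mul_left_comm, ← Real.rpow_add hY, add_sub_cancel, Real.rpow_one]

theorem dlat_Gs {y σ : ℝ} (hy : 0 < y) (h1 : -1 ≤ σ) (h2 : σ ≤ 0) :
    Gs 1 y * y ^ σ ≤ Real.exp 1 * min 1 (y ^ (-2 : ℝ)) := by
  rw [mul_min_of_nonneg _ _ (Real.exp_pos 1).le, mul_one]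
  refine le_min ((Gs_mul_rpow_le hy σ).trans (Real.exp_le_exp.2 (by nlinarith))) ?_
  have h3 := (Gs_mul_rpow_le hy (σ + 2)).trans (Real.exp_le_exp.2 (show _ ≤ 1 by nlinarith))
  have h4 : y ^ σ = y ^ (σ + 2) * y ^ (-2 : ℝ) := by
    rw [← Real.rpow_add hy]
    norm_num
  rw [h4, ← mul_assoc]
  exact mul_le_mul_of_nonneg_right h3 (by positivity)

theorem sum_min2 : ∃ C : ℝ, 0 < C ∧ ∀ (Y : ℝ) (s : Finset O), 0 < Y → 0 ∉ s →
    ∑ a ∈ s, min 1 ((nm a / Y : ℝ) ^ (-2 : ℝ)) ≤ C * Y := by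
  classical
  obtain ⟨C₁, hC₁, h₁⟩ := card_le_of_nm
  obtain ⟨C₂, hC₂, h₂⟩ := dlat_tail one_lt_two
  refine ⟨C₁ + C₂, by positivity, fun Y s hY hs => ?_⟩
  rw [← Finset.sum_filter_add_sum_filter_not s fun a => (nm a : ℝ) ≤ Y, add_mul]
  refine add_le_add ?_ ?_
  · refine (Finset.sum_le_card_nsmul _ _ 1 fun a _ => min_le_left _ _).trans ?_
    rw [nsmul_eq_mul, mul_one]
    refine h₁ Y _ hY.le fun a ha => ?_
    rw [Finset.mem_filter] at ha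
    exact ⟨fun h => hs (h ▸ ha.1), ha.2⟩
  · refine (Finset.sum_le_sum fun a _ => min_le_right _ _).trans (h₂ Y _ hY fun a ha => ?_)
    exact not_le.1 (Finset.mem_filter.1 ha).2

theorem sum_Gs_le : ∃ C : ℝ, 0 < C ∧ ∀ (A σ : ℝ) (d : O) (s : Finset O), 0 < A → -1 ≤ σ → σ ≤ 0 →
    d ≠ 0 → 0 ∉ s →
    ∑ a ∈ s, Gs 1 (nm (d * a) / A) * (nm (d * a) : ℝ) ^ σ ≤ C * A ^ (1 + σ) / nm d := by
  obtain ⟨C, hC, h⟩ := sum_min2
  refine ⟨Real.exp 1 * C, by positivity, fun A σ d s hA h1 h2 hd hs => ?_⟩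
  have hd' := nm_pos' hd
  have key : ∀ a ∈ s, Gs 1 (nm (d * a) / A) * (nm (d * a) : ℝ) ^ σ ≤
      Real.exp 1 * A ^ σ * min 1 ((nm a / (A / nm d) : ℝ) ^ (-2 : ℝ)) := by
    intro a ha
    have ha' := nm_pos' (a := a) fun h => hs (h ▸ ha)
    have e1 : (nm (d * a) : ℝ) = nm a / (A / nm d) * A := by
      rw [nm_mul, Nat.cast_mul]
      field_simp
    have hy : (0 : ℝ) < nm a / (A / nm d) := by positivity
    rw [e1, mul_div_cancel_right₀ _ hA.ne', Real.mul_rpow hy.le hA.le, ← mul_assoc,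
      mul_right_comm (Real.exp 1)]
    exact mul_le_mul_of_nonneg_right (dlat_Gs hy h1 h2) (by positivity)
  refine (Finset.sum_le_sum key).trans ?_
  rw [← Finset.mul_sum]
  refine (mul_le_mul_of_nonneg_left (h _ s (by positivity) hs) (by positivity)).trans_eq ?_
  rw [Real.rpow_add hA, Real.rpow_one]
  ring

theorem summable_Gs {L A : ℝ} (hL : 1 ≤ L) (hA : 0 < A) {d : O} (hd : d ≠ 0) :
    Summable fun a : O => Gs L (nm (d * a) / A) := by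
  classical
  obtain ⟨C, hC, h⟩ := sum_Gs_le
  refine summable_of_sum_le (c := 1 + C * A ^ (1 + 0 : ℝ) / nm d) (fun a => (Gs_pos _ _).le)
    fun u => ?_
  refine (Finset.sum_le_sum_of_subset_of_nonneg (Finset.subset_insert_iff.2 (le_refl (u.erase 0)))
    fun a _ _ => (Gs_pos _ _).le).trans ?_
  rw [Finset.sum_insert (Finset.notMem_erase _ _)]
  refine add_le_add (Gs_le_one _ _) (le_trans (Finset.sum_le_sum fun a _ => ?_)
    (h A 0 d _ hA (by norm_num) le_rfl hd (Finset.notMem_erase 0 u)))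
  rw [Real.rpow_zero, mul_one]
  exact Gs_le_Gs_one hL _

theorem summable_GsR {L A M : ℝ} (hL : 1 ≤ L) (hA : 0 < A) {d : O} (hd : d ≠ 0) {f g : O → ℝ}
    (hf : ∀ a, |f a| ≤ 1) (hg : ∀ a, |g a| ≤ M) :
    Summable fun a : O => f a * Gs L (nm (d * a) / A) * g a := by
  refine Summable.of_norm_bounded ((summable_Gs hL hA hd).mul_right M) fun a => ?_
  rw [norm_mul, norm_mul, Real.norm_of_nonneg (Gs_pos _ _).le]
  exact mul_le_mul (mul_le_of_le_one_left (Gs_pos _ _).le (hf a)) (hg a) (norm_nonneg _)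
    (Gs_pos _ _).le

theorem summable_GsC {L A M : ℝ} (hL : 1 ≤ L) (hA : 0 < A) {d : O} (hd : d ≠ 0) {f g : O → ℂ}
    (hf : ∀ a, ‖f a‖ ≤ 1) (hg : ∀ a, ‖g a‖ ≤ M) :
    Summable fun a : O => f a * (Gs L (nm (d * a) / A) : ℝ) * g a := by
  refine Summable.of_norm_bounded ((summable_Gs hL hA hd).mul_right M) fun a => ?_
  rw [norm_mul, norm_mul, Complex.norm_real, Real.norm_of_nonneg (Gs_pos _ _).le]
  exact mul_le_mul (mul_le_of_le_one_left (Gs_pos _ _).le (hf a)) (hg a) (norm_nonneg _)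
    (Gs_pos _ _).le

theorem nm_rpow_le_one (a : O) {σ : ℝ} (hσ : σ ≤ 0) : (nm a : ℝ) ^ σ ≤ 1 := by
  by_cases h : a = 0
  · rw [nm_eq_zero.2 h, Nat.cast_zero]
    exact Real.zero_rpow_le_one σ
  · exact Real.rpow_le_one_of_one_le_of_nonpos (one_le_nm h) hσ

theorem sum_Gs_sq_le : ∃ C : ℝ, 0 < C ∧ ∀ (A σ D : ℝ) (s : Finset O), 0 < A → -1 ≤ σ → σ ≤ 0 →
    0 < D → (∀ a ∈ s, a ≠ 0 ∧ ∃ d, D < nm d ∧ d ^ 2 ∣ a) →
    ∑ a ∈ s, Gs 1 (nm a / A) * (nm a : ℝ) ^ σ ≤ C * A ^ (1 + σ) / D := by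
  classical
  obtain ⟨C₁, hC₁, h₁⟩ := sum_Gs_le
  obtain ⟨C₂, hC₂, h₂⟩ := sum_rpow_tail one_lt_two
  refine ⟨C₁ * C₂, by positivity, fun A σ D s hA h1 h2 hD hs => ?_⟩
  have hs' : ∀ a ∈ s, ∃ d m : O, D < nm d ∧ m ≠ 0 ∧ d ^ 2 * m = a := fun a ha => by
    obtain ⟨h0, d, hd, m, rfl⟩ := hs a ha
    exact ⟨d, m, hd, right_ne_zero_of_mul h0, rfl⟩
  choose! dd mm e1 e2 e3 using hs'
  have hdd : ∀ d ∈ s.image dd, D < nm d := fun d hd => by
    obtain ⟨a, ha, rfl⟩ := Finset.mem_image.1 hd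
    exact e1 a ha
  have hmm : (0 : O) ∉ s.image mm := fun hm => by
    obtain ⟨a, ha, h⟩ := Finset.mem_image.1 hm
    exact e2 a ha h
  refine (sum_le_sum_cover s (s.image dd ×ˢ s.image mm) (fun i => i.1 ^ 2 * i.2)
    (fun a => Gs 1 (nm a / A) * (nm a : ℝ) ^ σ)
    (fun a => mul_nonneg (Gs_pos _ _).le (by positivity)) fun a ha =>
      ⟨(dd a, mm a), Finset.mem_product.2
        ⟨Finset.mem_image_of_mem _ ha, Finset.mem_image_of_mem _ ha⟩, e3 a ha⟩).trans ?_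
  rw [Finset.sum_product]
  have key : ∀ d ∈ s.image dd, ∑ m ∈ s.image mm,
      Gs 1 (nm (d ^ 2 * m) / A) * (nm (d ^ 2 * m) : ℝ) ^ σ ≤
        C₁ * A ^ (1 + σ) * (nm d : ℝ) ^ (-2 : ℝ) := fun d hd => by
    have hd0 : d ≠ 0 := fun h => by
      have := hdd d hd
      rw [nm_eq_zero.2 h, Nat.cast_zero] at this
      linarith
    refine (h₁ A σ (d ^ 2) _ hA h1 h2 (pow_ne_zero 2 hd0) hmm).trans_eq ?_
    rw [nm_pow, Nat.cast_pow, Real.rpow_neg (Nat.cast_nonneg _), Real.rpow_two, div_eq_mul_inv]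
  refine (Finset.sum_le_sum key).trans ?_
  rw [← Finset.mul_sum]
  refine (mul_le_mul_of_nonneg_left (h₂ D _ hD hdd) (by positivity)).trans_eq ?_
  rw [show (1 - 2 : ℝ) = -1 by norm_num, Real.rpow_neg_one]
  ring

theorem sum_min_le : ∃ C : ℝ, 0 < C ∧ ∀ (x : ℝ) (s : Finset O), 0 < x → 0 ∉ s →
    ∑ m ∈ s, min ((nm m / x : ℝ) ^ (-3 / 4 : ℝ)) ((nm m / x : ℝ) ^ (-3 / 2 : ℝ)) ≤ C * x := by
  classical
  obtain ⟨C₁, hC₁, h₁⟩ := sum_rpow_le (σ := 3 / 4) (by norm_num) (by norm_num)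
  obtain ⟨C₂, hC₂, h₂⟩ := dlat_tail (σ := 3 / 2) (by norm_num)
  refine ⟨C₁ + C₂, by positivity, fun x s hx _ => ?_⟩
  rw [← Finset.sum_filter_add_sum_filter_not s fun a => (nm a : ℝ) ≤ x, add_mul, neg_div, neg_div]
  refine add_le_add ?_ ?_
  · refine (Finset.sum_le_sum fun a _ => min_le_left _ _).trans ?_
    refine (Finset.sum_le_sum_of_subset_of_nonneg (t := ball x)
      (fun a ha => mem_ball.2 (Finset.mem_filter.1 ha).2) fun a _ _ => by positivity).trans ?_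
    simp only [dlat_div hx]
    rw [← Finset.mul_sum]
    refine (mul_le_mul_of_nonneg_left (h₁ x hx) (by positivity)).trans_eq ?_
    rw [mul_left_comm, ← Real.rpow_add hx, add_sub_cancel, Real.rpow_one]
  · refine (Finset.sum_le_sum fun a _ => min_le_right _ _).trans (h₂ x _ hx fun a ha => ?_)
    exact not_le.1 (Finset.mem_filter.1 ha).2

theorem dyadic (K M : ℝ) (F : O → ℝ) (s : Finset O) (hK : 1 ≤ K) (hM : 0 ≤ M)
    (hs : ∀ k ∈ s, 0 ≤ F k ∧ k ≠ 0 ∧ (nm k : ℝ) ≤ K)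
    (h : ∀ K₁ : ℝ, 1 ≤ K₁ → K₁ ≤ K → ∑ k ∈ s with (nm k : ℝ) ≤ K₁, F k ≤ M * K₁ ^ (1 / 4 : ℝ)) :
    ∑ k ∈ s, (nm k : ℝ) ^ (-1 / 4 : ℝ) * F k ≤ 4 * (1 + Real.log K) * M := by
  classical
  rw [← Finset.sum_fiberwise_of_maps_to (g := fun k => Nat.log 2 (nm k))
    (t := Finset.range (Nat.log 2 ⌊K⌋₊ + 1)) fun k hk => log_mem_range (mem_ball.2 (hs k hk).2.2)]
  have key : ∀ j ∈ Finset.range (Nat.log 2 ⌊K⌋₊ + 1),
      ∑ k ∈ s with Nat.log 2 (nm k) = j, (nm k : ℝ) ^ (-1 / 4 : ℝ) * F k ≤ 2 * M := by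
    intro j _
    have h1 : (1 : ℝ) ≤ 2 ^ (j + 1) := one_le_pow₀ one_le_two
    have h2 := h (min K (2 ^ (j + 1))) (le_min hK h1) (min_le_left _ _)
    have h3 : ∑ k ∈ s with Nat.log 2 (nm k) = j, (nm k : ℝ) ^ (-1 / 4 : ℝ) * F k ≤
        ∑ k ∈ s with Nat.log 2 (nm k) = j, ((2 : ℝ) ^ j) ^ (-1 / 4 : ℝ) * F k := by
      refine Finset.sum_le_sum fun k hk => ?_
      obtain ⟨hk1, hk2⟩ := Finset.mem_filter.1 hk
      refine mul_le_mul_of_nonneg_right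
        (Real.rpow_le_rpow_of_nonpos (by positivity) ?_ (by norm_num)) (hs k hk1).1
      rw [← hk2]
      exact_mod_cast Nat.pow_log_le_self 2 (nm_pos (hs k hk1).2.1).ne'
    have h4 : ∑ k ∈ s with Nat.log 2 (nm k) = j, F k ≤
        ∑ k ∈ s with (nm k : ℝ) ≤ min K (2 ^ (j + 1)), F k := by
      refine Finset.sum_le_sum_of_subset_of_nonneg (fun k hk => ?_)
        fun k hk _ => (hs k (Finset.mem_filter.1 hk).1).1
      obtain ⟨hk1, hk2⟩ := Finset.mem_filter.1 hk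
      refine Finset.mem_filter.2 ⟨hk1, le_min (hs k hk1).2.2 ?_⟩
      rw [← hk2]
      exact_mod_cast (Nat.lt_pow_succ_log_self one_lt_two (nm k)).le
    have h5 : (min K (2 ^ (j + 1))) ^ (1 / 4 : ℝ) ≤ 2 * ((2 : ℝ) ^ j) ^ (1 / 4 : ℝ) := by
      refine (Real.rpow_le_rpow (le_min (by linarith) (by positivity)) (min_le_right _ _)
        (by norm_num)).trans ?_
      rw [pow_succ', Real.mul_rpow zero_le_two (by positivity)]
      exact mul_le_mul_of_nonneg_right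
        (Real.rpow_le_self_of_one_le one_le_two (by norm_num)) (by positivity)
    rw [← Finset.mul_sum] at h3
    refine h3.trans ((mul_le_mul_of_nonneg_left
      (h4.trans (h2.trans (mul_le_mul_of_nonneg_left h5 hM))) (by positivity)).trans_eq ?_)
    have h6 : ((2 : ℝ) ^ j) ^ (-1 / 4 : ℝ) * ((2 : ℝ) ^ j) ^ (1 / 4 : ℝ) = 1 := by
      rw [← Real.rpow_add (by positivity)]
      norm_num
    linear_combination 2 * M * h6
  refine (Finset.sum_le_card_nsmul _ _ _ key).trans ?_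
  rw [Finset.card_range, nsmul_eq_mul]
  have h1 : (2 : ℝ) ^ Nat.log 2 ⌊K⌋₊ ≤ K := by
    refine le_trans ?_ (Nat.floor_le (by linarith))
    exact_mod_cast Nat.pow_log_le_self 2 (Nat.floor_pos.2 hK).ne'
  have h2 := Real.log_le_log (by positivity) h1
  rw [Real.log_pow] at h2
  have h3 : (Nat.log 2 ⌊K⌋₊ : ℝ) ≤ 2 * Real.log K := by
    nlinarith [Real.log_two_gt_d9, (Nat.log 2 ⌊K⌋₊).cast_nonneg (α := ℝ)]
  push_cast
  nlinarith

theorem tsum_dvd {d : O} (hd : Prim d) (f : O → ℝ) :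
    ∑' a : O, ir (Prim a) * ir (d ^ 2 ∣ a) * f a = ∑' a : O, ir (Prim a) * f (d ^ 2 * a) := by
  have h0 : d ^ 2 ≠ 0 := (hd.pow 2).ne_zero
  rw [← (mul_right_injective₀ h0).tsum_eq (f := fun a => ir (Prim a) * ir (d ^ 2 ∣ a) * f a)]
  · refine tsum_congr fun a => ?_
    rw [ir_of (dvd_mul_right _ _), mul_one,
      propext (⟨(hd.pow 2).of_mul, (hd.pow 2).mul⟩ : Prim (d ^ 2 * a) ↔ Prim a)]
  · intro a ha
    by_contra h
    refine ha ?_
    simp only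
    rw [ir_of_not (p := d ^ 2 ∣ a) fun ⟨m, hm⟩ => h ⟨m, hm.symm⟩, mul_zero, zero_mul]

end Vale.Agent.P006.D
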