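import Vale.Agent.P006.DKer
import Vale.Agent.P006.DLat

/-! D-Cross: the cross term.
Plans. `Me_le`: at most `C 16 B / N e` terms `b = e m` (`card_le_of_nm`), each at most `M B^{-1/6}`.  `Mo_sub_le`: `ind_coprime` gives `Mo a = ∑_{e ∈ qball (max Z E)} μ e 1[e ∣ a] Me e`
(`Me e = 0` for `N e > Z`); the terms with `N e > E` have `e ∈ pdiv a`.
`cross`: `Xc = ∑_e μ e conj (Me e) ∑_b γ b J e b`, `J e b = ∑'_k Gs 1 (N(e k)/A) N(e k)^{-1/6} aq (e k b)` (`summable_GsC`, `norm_aq_le`, `a = e k`).  `J e b = 0` unless `Sq (e b)`.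
With `r = e b`, `x r = A N r / N e` if `B < N r / N e ≤ 16 B`, else `X`: `J e b = 17 A^{-1/6} ∑'_k aq (r k) mellinInv 2 ϕ (N(r k)/x r)`, `ϕ = Gm 1 (· - 1/6)/17` (`inv_Gm`, `ct_Gm6`; `aq 0 = 0`).
`tc` with `T = 1`, `R = 16 B X^{0.02} ≤ X^{0.53}`; `b ↦ e b` is injective; `∑_{N e ≤ E} 1/N e ≤ C X^{0.001}` (`sum_inv_le_rpow`); `X^{5/6} ≤ (100 A B)^{5/6}`. -/

namespace Vale.Agent.P006.D

open Vale.Agent.P026 Filter MeasureTheory
open scoped ComplexConjugate Real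

theorem dcross_term {B M : ℝ} {γ : O → ℂ} (hB : 0 < B) (hS : Supp 16 B γ) (hM : Bd M γ) (b : O) :
    ‖γ b * np b (-1 / 6)‖ ≤ M * B ^ (-1 / 6 : ℝ) := by
  have hM0 : 0 ≤ M := (norm_nonneg _).trans (hM 0)
  by_cases h : γ b = 0
  · rw [h, zero_mul, norm_zero]; positivity
  · rw [norm_mul, np_sixth, Complex.norm_real, Real.norm_of_nonneg (by positivity)]
    exact mul_le_mul (hM b) (Real.rpow_le_rpow_of_nonpos hB (hS b h).2.1.le (by norm_num))
      (by positivity) hM0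

theorem dcross_pow {B : ℝ} (hB : 0 < B) : B * B ^ (-1 / 6 : ℝ) = B ^ (5 / 6 : ℝ) := by
  rw [show (5 / 6 : ℝ) = 1 + -1 / 6 by norm_num, Real.rpow_add hB, Real.rpow_one]

theorem Me_le : ∃ C : ℝ, 0 < C ∧ ∀ (B M : ℝ) (γ : O → ℂ) (e : O), 0 < B → Supp 16 B γ → Bd M γ →
    e ≠ 0 → ‖Me (16 * B) γ e‖ ≤ C * M * B ^ (5 / 6 : ℝ) / nm e := by
  classical
  obtain ⟨C, hC, h⟩ := card_le_of_nm
  refine ⟨16 * C, by positivity, fun B M γ e hB hS hM he => ?_⟩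
  have hM0 : 0 ≤ M := (norm_nonneg _).trans (hM 0)
  have he0 := nm_pos' he
  have h1 : Me (16 * B) γ e = ∑ b ∈ qball (16 * B) with e ∣ b, γ b * np b (-1 / 6) := by
    rw [Me, Finset.sum_filter]
    refine Finset.sum_congr rfl fun b _ => ?_
    split_ifs with hb
    · rw [ind_of hb, one_mul]
    · rw [ind_of_not hb, zero_mul, zero_mul]
  have h2 : (qball (16 * B)).filter (e ∣ ·) ⊆
      ((ball (16 * B / nm e)).filter (· ≠ 0)).image (e * ·) := by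
    intro b hb
    obtain ⟨hb, m, rfl⟩ := Finset.mem_filter.1 hb
    obtain ⟨h3, h4⟩ := mem_qball.1 hb
    refine Finset.mem_image_of_mem _ (Finset.mem_filter.2 ⟨mem_ball.2 ?_,
      right_ne_zero_of_mul (sq_ne h3)⟩)
    rwa [le_div_iff₀' he0, ← Nat.cast_mul, ← nm_mul]
  have h3 := h (16 * B / nm e) ((ball (16 * B / nm e)).filter (· ≠ 0)) (by positivity)
    fun m hm => ⟨(Finset.mem_filter.1 hm).2, mem_ball.1 (Finset.mem_filter.1 hm).1⟩
  have h4 := (Nat.cast_le (α := ℝ)).2 ((Finset.card_le_card h2).trans Finset.card_image_le)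
  rw [h1]
  refine (norm_sum_le _ _).trans
    ((Finset.sum_le_card_nsmul _ _ _ fun b _ => dcross_term hB hS hM b).trans ?_)
  rw [nsmul_eq_mul, ← dcross_pow hB]
  exact (mul_le_mul_of_nonneg_right (h4.trans h3) (by positivity)).trans (le_of_eq (by ring))

theorem Mo_le : ∃ C : ℝ, 0 < C ∧ ∀ (B M : ℝ) (γ : O → ℂ) (a : O), 0 < B → Supp 16 B γ → Bd M γ →
    ‖Mo (16 * B) γ a‖ ≤ C * M * B ^ (5 / 6 : ℝ) := by
  obtain ⟨C, hC, h⟩ := card_le_of_nm
  refine ⟨16 * C, by positivity, fun B M γ a hB hS hM => ?_⟩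
  have hM0 : 0 ≤ M := (norm_nonneg _).trans (hM 0)
  have h3 := h (16 * B) (qball (16 * B)) (by positivity)
    fun m hm => ⟨sq_ne (mem_qball.1 hm).1, (mem_qball.1 hm).2⟩
  refine (norm_sum_le _ _).trans ((Finset.sum_le_card_nsmul _ _ (M * B ^ (-1 / 6 : ℝ))
    fun b _ => ?_).trans ?_)
  · rw [mul_left_comm, norm_mul]
    exact (mul_le_of_le_one_left (norm_nonneg _) (norm_ind_le _)).trans (dcross_term hB hS hM b)
  · rw [nsmul_eq_mul, ← dcross_pow hB]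
    exact (mul_le_mul_of_nonneg_right h3 (by positivity)).trans (le_of_eq (by ring))

theorem dcross_Mo {Z Z' : ℝ} (h : Z ≤ Z') (γ : O → ℂ) (a : O) : Mo Z γ a = Mo1 Z' Z γ a := by
  simp only [Mo, Mo1, Me, Finset.mul_sum]
  rw [Finset.sum_comm]
  refine Finset.sum_congr rfl fun b hb => ?_
  have hb' := mem_qball.1 hb
  rw [ind_coprime hb'.1.1, ← Finset.sum_subset (pdiv_subset (qball_mono h hb)), Finset.sum_mul,
    Finset.mul_sum]
  · refine Finset.sum_congr rfl fun e he => ?_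
    rw [ind_of ((mem_pdiv (sq_ne hb'.1)).1 he).2]
    ring
  · intro e he he'
    rw [ind_of_not (p := e ∣ b) fun h =>
      he' ((mem_pdiv (sq_ne hb'.1)).2 ⟨(mem_qball.1 he).1.1, h⟩)]
    ring

theorem Mo_sub_le : ∃ C : ℝ, 0 < C ∧ ∀ (B M E : ℝ) (γ : O → ℂ) (a : O), 0 < B → 0 < E →
    Supp 16 B γ → Bd M γ → a ≠ 0 →
    ‖Mo (16 * B) γ a - Mo1 E (16 * B) γ a‖ ≤ C * tau a * M * B ^ (5 / 6 : ℝ) / E := by
  classical
  obtain ⟨C, hC, h⟩ := Me_le
  refine ⟨C, hC, fun B M E γ a hB hE hS hM ha => ?_⟩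
  have hM0 : 0 ≤ M := (norm_nonneg _).trans (hM 0)
  rw [dcross_Mo (le_max_left (16 * B) E), Mo1, Mo1,
    ← Finset.sum_sdiff (qball_mono (le_max_right (16 * B) E)), add_sub_cancel_right,
    ← Finset.sum_filter_of_ne (p := (· ∣ a)) fun e _ he => by
      by_contra h1
      exact he (by rw [ind_of_not h1, mul_zero, zero_mul])]
  have h2 : (qball (max (16 * B) E) \ qball E).filter (· ∣ a) ⊆ pdiv a := fun e he =>
    (mem_pdiv ha).2 ⟨(mem_qball.1 (Finset.mem_sdiff.1 (Finset.mem_filter.1 he).1).1).1.1,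
      (Finset.mem_filter.1 he).2⟩
  have h3 := (Nat.cast_le (α := ℝ)).2 (Finset.card_le_card h2)
  refine (norm_sum_le _ _).trans ((Finset.sum_le_card_nsmul _ _ (C * M * B ^ (5 / 6 : ℝ) / E)
    fun e he => ?_).trans ?_)
  · obtain ⟨h4, h5⟩ := Finset.mem_sdiff.1 (Finset.mem_filter.1 he).1
    have h6 := (mem_qball.1 h4).1
    have h7 : E ≤ nm e := le_of_not_ge fun h => h5 (mem_qball.2 ⟨h6, h⟩)
    rw [norm_mul, norm_mul]
    refine (mul_le_of_le_one_left (norm_nonneg _)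
      (mul_le_one₀ (norm_mu_le _) (norm_nonneg _) (norm_ind_le _))).trans
        ((h B M γ e hB hS hM (sq_ne h6)).trans ?_)
    exact div_le_div_of_nonneg_left (by positivity) hE h7
  · rw [nsmul_eq_mul]
    exact (mul_le_mul_of_nonneg_right h3 (by positivity)).trans (le_of_eq (by rw [tau]; ring))

/-- the summand of the inner sum -/
noncomputable def dcrossF (A : ℝ) (e b a : O) : ℂ :=
  ind (e ∣ a) * (Gs 1 (nm (1 * a) / A) : ℝ) * ((((nm a : ℝ) ^ (-1 / 6 : ℝ) : ℝ) : ℂ) * aq (a * b))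

theorem dcross_summable {A : ℝ} (hA : 0 < A) (e b : O) : Summable (dcrossF A e b) :=
  summable_GsC (M := 1 + kst) le_rfl hA one_ne_zero (fun _ => norm_ind_le _) fun a => by
    rw [norm_mul, Complex.norm_real, Real.norm_of_nonneg (by positivity)]
    exact (mul_le_of_le_one_left (norm_nonneg _) (nm_rpow_le_one a (by norm_num))).trans
      (norm_aq_le _)

theorem dcross_Xc {A : ℝ} (hA : 0 < A) (E Z : ℝ) (γ : O → ℂ) : Xc A E Z γ =
    ∑ e ∈ qball E, mu e * conj (Me Z γ e) * ∑ b ∈ qball Z, γ b * ∑' a, dcrossF A e b a := by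
  have h1 : ∀ e, Summable fun a => ∑ b ∈ qball Z, γ b * dcrossF A e b a := fun e =>
    summable_sum fun b _ => (dcross_summable hA e b).mul_left _
  have h2 : ∀ e, ∑ b ∈ qball Z, γ b * ∑' a, dcrossF A e b a =
      ∑' a, ∑ b ∈ qball Z, γ b * dcrossF A e b a := fun e => by
    rw [Summable.tsum_finsetSum fun b _ => (dcross_summable hA e b).mul_left _]
    simp only [tsum_mul_left]
  simp only [h2]
  simp only [← tsum_mul_left]
  rw [← Summable.tsum_finsetSum fun e _ => (h1 e).mul_left _, Xc]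
  refine tsum_congr fun a => ?_
  rw [Mo1, map_sum, Finset.mul_sum, Finset.mul_sum]
  refine Finset.sum_congr rfl fun e _ => ?_
  rw [Ga, Finset.sum_mul, Finset.mul_sum, Finset.mul_sum]
  refine Finset.sum_congr rfl fun b _ => ?_
  rw [map_mul, map_mul, conj_mu, conj_ind, dcrossF, one_mul]
  push_cast
  ring

theorem dcross_inv {y : ℝ} (hy : 0 < y) : ((y ^ (-(1 / 6) : ℝ) * Gs 1 y : ℝ) : ℂ) =
    17 * mellinInv 2 (fun s => Gm 1 (s - (1 / 6 : ℝ)) / 17) y := by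
  rw [← inv_Gm hy, mellinInv_def, mellinInv_def, mul_left_comm, ← integral_const_mul 17]
  congr 2
  funext t
  ring

theorem dcross_J {A : ℝ} (hA : 0 < A) {e b : O} (he : e ≠ 0) (hb : b ≠ 0) :
    ∑' a, dcrossF A e b a = (17 * A ^ (-1 / 6 : ℝ) : ℝ) * ∑' k : O, aq (e * b * k) *
      mellinInv 2 (fun s => Gm 1 (s - (1 / 6 : ℝ)) / 17) (nm (e * b * k) / (A * nm b)) := by
  rw [← (mul_right_injective₀ he).tsum_eq (f := dcrossF A e b) fun a ha => by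
    by_contra h
    exact ha (by rw [dcrossF, ind_of_not fun ⟨k, hk⟩ => h ⟨k, hk.symm⟩, zero_mul, zero_mul]),
    ← tsum_mul_left]
  refine tsum_congr fun k => ?_
  rw [dcrossF, ind_of (dvd_mul_right e k), one_mul, one_mul, mul_right_comm e k b]
  by_cases hk : k = 0
  · rw [hk, mul_zero (e * b), aq_eq_zero fun h => sq_ne h rfl]
    simp
  have h1 := nm_pos' (mul_ne_zero he hk)
  have h2 := nm_pos' hb
  have e1 : (nm (e * b * k) : ℝ) / (A * nm b) = nm (e * k) / A := by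
    rw [mul_right_comm, nm_mul (e * k), Nat.cast_mul, mul_div_mul_right _ _ h2.ne']
  have e2 : (nm (e * k) : ℝ) ^ (-1 / 6 : ℝ) = A ^ (-1 / 6 : ℝ) * (nm (e * k) / A) ^ (-(1 / 6) : ℝ) := by
    rw [← neg_div, ← Real.mul_rpow hA.le (by positivity), mul_div_cancel₀ _ hA.ne']
  have e3 := dcross_inv (div_pos h1 hA)
  rw [e1, e2]
  push_cast at e3 ⊢
  linear_combination (aq (e * b * k) * (A ^ (-1 / 6 : ℝ) : ℝ)) * e3

theorem dcross_e {A B M E W : ℝ} {γ : O → ℂ} {e : O} (hA : 0 < A) (hB : 0 < B) (he : e ∈ qball E)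
    (hM : Bd M γ) (x : O → ℝ) (hx : ∀ b, γ b ≠ 0 → x (e * b) = A * nm b)
    (hW : ∑ r ∈ qball (16 * B * E), ‖∑' k : O, aq (r * k) *
      mellinInv 2 (fun s => Gm 1 (s - (1 / 6 : ℝ)) / 17) (nm (r * k) / x r)‖ ≤ W) :
    ‖∑ b ∈ qball (16 * B), γ b * ∑' a, dcrossF A e b a‖ ≤ M * (17 * A ^ (-1 / 6 : ℝ)) * W := by
  classical
  have hM0 : 0 ≤ M := (norm_nonneg _).trans (hM 0)
  obtain ⟨he1, he2⟩ := mem_qball.1 he
  rw [← Finset.sum_filter_of_ne (p := fun b => γ b ≠ 0 ∧ Sq (e * b)) fun b hb h => by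
    refine ⟨left_ne_zero_of_mul h, by_contra fun h1 => right_ne_zero_of_mul h ?_⟩
    have h2 : ∀ k, aq (e * b * k) = 0 := fun k => aq_eq_zero fun h3 =>
      h1 ⟨he1.1.mul (mem_qball.1 hb).1.1, h3.2.of_mul_left⟩
    simp [dcross_J hA (sq_ne he1) (sq_ne (mem_qball.1 hb).1), h2]]
  refine (norm_sum_le _ _).trans (le_trans ?_ (mul_le_mul_of_nonneg_left hW (by positivity)))
  have h2 : ((qball (16 * B)).filter fun b => γ b ≠ 0 ∧ Sq (e * b)).image (e * ·) ⊆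
      qball (16 * B * E) := by
    intro r hr
    obtain ⟨b, hb, rfl⟩ := Finset.mem_image.1 hr
    obtain ⟨h3, -, h4⟩ := Finset.mem_filter.1 hb
    refine mem_qball.2 ⟨h4, ?_⟩
    rw [nm_mul, Nat.cast_mul, mul_comm]
    exact mul_le_mul (mem_qball.1 h3).2 he2 (Nat.cast_nonneg _) (by positivity)
  refine le_trans ?_ (mul_le_mul_of_nonneg_left
    (Finset.sum_le_sum_of_subset_of_nonneg h2 fun _ _ _ => norm_nonneg _) (by positivity))
  rw [Finset.sum_image fun a _ b _ h => mul_right_injective₀ (sq_ne he1) h, Finset.mul_sum]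
  refine Finset.sum_le_sum fun b hb => ?_
  obtain ⟨h3, h4, -⟩ := Finset.mem_filter.1 hb
  rw [dcross_J hA (sq_ne he1) (sq_ne (mem_qball.1 h3).1), hx b h4, norm_mul, norm_mul,
    Complex.norm_real, Real.norm_of_nonneg (by positivity), mul_assoc M]
  exact mul_le_mul_of_nonneg_right (hM b) (by positivity)

theorem dcross_num {X A B c : ℝ} (hX : 0 < X) (hA : 0 < A) (hB : 0 < B) (hc0 : 0 ≤ c)
    (h : X / 100 ≤ A * B) (hc : 1700 * c ≤ X ^ (0.003 : ℝ)) :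
    c * (X ^ (0.02 : ℝ)) ^ (1 / 10 : ℝ) * B ^ (5 / 6 : ℝ) * (17 * A ^ (-1 / 6 : ℝ)) *
      X ^ (5 / 6 - 1 / 100 : ℝ) ≤ X ^ (-1 / 200 : ℝ) * A ^ (2 / 3 : ℝ) * B ^ (5 / 3 : ℝ) := by
  have h1 : X ^ (5 / 6 : ℝ) ≤ 100 * (A ^ (5 / 6 : ℝ) * B ^ (5 / 6 : ℝ)) := by
    refine (Real.rpow_le_rpow hX.le (by linarith : X ≤ 100 * (A * B)) (by norm_num)).trans ?_
    rw [Real.mul_rpow (by norm_num) (by positivity), Real.mul_rpow hA.le hB.le]
    exact mul_le_mul_of_nonneg_right (Real.rpow_le_self_of_one_le (by norm_num) (by norm_num))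
      (by positivity)
  have e1 : A ^ (2 / 3 : ℝ) = A ^ (-1 / 6 : ℝ) * A ^ (5 / 6 : ℝ) := by
    rw [← Real.rpow_add hA]; norm_num
  have e2 : B ^ (5 / 3 : ℝ) = B ^ (5 / 6 : ℝ) * B ^ (5 / 6 : ℝ) := by
    rw [← Real.rpow_add hB]; norm_num
  have e3 : X ^ (-1 / 200 : ℝ) =
      X ^ (0.003 : ℝ) * (X ^ (0.02 * (1 / 10) : ℝ) * X ^ (-(1 / 100) : ℝ)) := by
    rw [← Real.rpow_add hX, ← Real.rpow_add hX]; norm_num
  rw [← Real.rpow_mul hX.le, sub_eq_add_neg, Real.rpow_add hX, e1, e2, e3]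
  calc _ = 17 * c * (X ^ (0.02 * (1 / 10) : ℝ) * X ^ (-(1 / 100) : ℝ)) * A ^ (-1 / 6 : ℝ) *
        B ^ (5 / 6 : ℝ) * X ^ (5 / 6 : ℝ) := by ring
    _ ≤ 17 * c * (X ^ (0.02 * (1 / 10) : ℝ) * X ^ (-(1 / 100) : ℝ)) * A ^ (-1 / 6 : ℝ) *
        B ^ (5 / 6 : ℝ) * (100 * (A ^ (5 / 6 : ℝ) * B ^ (5 / 6 : ℝ))) := by gcongr
    _ = 1700 * c * ((X ^ (0.02 * (1 / 10) : ℝ) * X ^ (-(1 / 100) : ℝ)) * (A ^ (-1 / 6 : ℝ) *
        A ^ (5 / 6 : ℝ)) * (B ^ (5 / 6 : ℝ) * B ^ (5 / 6 : ℝ))) := by ring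
    _ ≤ _ := (mul_le_mul_of_nonneg_right hc (by positivity)).trans (le_of_eq (by ring))

theorem cross (tc : TCStmt) {η : ℝ} (h1 : η ≤ 1 / 100) : ∀ᶠ X : ℝ in atTop,
    ∀ (A B M : ℝ) (γ : O → ℂ), Rng η X A B → Supp 16 B γ → Bd M γ →
      ‖Xc A (X ^ (0.02 : ℝ)) (16 * B) γ‖ ≤
        M ^ 2 * X ^ (-1 / 200 : ℝ) * A ^ (2 / 3 : ℝ) * B ^ (5 / 3 : ℝ) := by
  classical
  obtain ⟨C, hC, hMe⟩ := Me_le
  obtain ⟨C', hC', hinv⟩ := sum_inv_le_rpow (by norm_num : (0 : ℝ) < 1 / 10)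
  filter_upwards [tc, rng_facts h1, ev_const 16 (by norm_num : (0 : ℝ) < 0.009),
    ev_const (1700 * (C * C')) (by norm_num : (0 : ℝ) < 0.003)] with X hT ⟨hX, hR⟩ h16 hc
  intro A B M γ hr hS hM
  obtain ⟨-, -, hB2, hA1, hB1⟩ := hR A B hr
  have hA : 0 < A := by linarith
  have hB : 0 < B := by linarith
  have hX0 : 0 < X := by linarith
  have hX1 : 1 ≤ X := by linarith
  have hM0 : 0 ≤ M := (norm_nonneg _).trans (hM 0)
  have hE : 1 ≤ X ^ (0.02 : ℝ) := Real.one_le_rpow hX1 (by norm_num)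
  have h2 : ∀ e ∈ qball (X ^ (0.02 : ℝ)), ‖mu e * conj (Me (16 * B) γ e) *
      ∑ b ∈ qball (16 * B), γ b * ∑' a, dcrossF A e b a‖ ≤ (nm e : ℝ)⁻¹ * (C * M * B ^ (5 / 6 : ℝ) *
        (M * (17 * A ^ (-1 / 6 : ℝ)) * X ^ (5 / 6 - 1 / 100 : ℝ))) := by
    intro e he
    have he0 := sq_ne (mem_qball.1 he).1
    have he1 := nm_pos' he0
    have h3 := dcross_e hA hB he hM
      (fun r => if B < (nm r : ℝ) / nm e ∧ (nm r : ℝ) / nm e ≤ 16 * B then A * (nm r / nm e) else X)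
      (fun b hb => by
        rw [nm_mul, Nat.cast_mul, mul_div_cancel_left₀ _ he1.ne', if_pos (hS b hb).2])
      (hT 1 _ _ _ le_rfl (Real.one_le_rpow hX1 (by norm_num)) (by nlinarith) (by
        calc _ ≤ X ^ (0.009 : ℝ) * X ^ (0.501 : ℝ) * X ^ (0.02 : ℝ) := by rw [mul_one]; gcongr
          _ = _ := by rw [← Real.rpow_add hX0, ← Real.rpow_add hX0]; norm_num) ct_Gm6 fun r => by
        have h4 := hr.p₁
        have h5 := hr.p₂
        split_ifs with h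
        · constructor <;> nlinarith [h.1, h.2]
        · constructor <;> linarith)
    have h4 : ‖mu e * conj (Me (16 * B) γ e)‖ ≤ C * M * B ^ (5 / 6 : ℝ) / nm e := by
      rw [norm_mul, Complex.norm_conj]
      exact (mul_le_of_le_one_left (norm_nonneg _) (norm_mu_le _)).trans (hMe B M γ e hB hS hM he0)
    rw [norm_mul]
    exact (mul_le_mul h4 h3 (norm_nonneg _) (by positivity)).trans (le_of_eq (by ring))
  rw [dcross_Xc hA]
  refine (norm_sum_le _ _).trans ((Finset.sum_le_sum h2).trans ?_)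
  rw [← Finset.sum_mul]
  refine (mul_le_mul_of_nonneg_right (hinv _ _ hE fun n hn => (mem_qball.1 hn).2)
    (by positivity)).trans ?_
  have h3 := mul_le_mul_of_nonneg_left (dcross_num hX0 hA hB (by positivity) hr.p₁ hc) (sq_nonneg M)
  exact (le_of_eq (by ring)).trans (h3.trans (le_of_eq (by ring)))

end Vale.Agent.P006.D
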