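import Vale.Agent.P006.DMaj
import Vale.Agent.P006.DCross

/-! D-A1: the dispersion inequality.
Plan. For `a ∈ Sq`: `Ga a = gl a Fa a - κ N a^{-1/6} Mo a` (`Ga_eq`), so `‖Ga‖² = ‖Fa‖² - κ² N^{-1/3} ‖Mo‖² - 2 κ N^{-1/6} Re (Ga conj Mo)`, and
`2 κ N^{-1/6} ‖Ga‖ ‖Mo - Mo1‖ ≤ ‖Ga‖²/2 + 2 κ² N^{-1/3} ‖Mo - Mo1‖²`.  With the majorant `nu` of `exists_maj`, for all `a`:
`W ‖Ga‖²/2 ≤ 1[Prim] nu W (‖Fa‖² - κ² N^{-1/3} ‖Mo‖²) + κ² 1[Prim, ¬Sq] nu W N^{-1/3} ‖Mo‖² - 2 κ Re (W N^{-1/6} Ga conj Mo1) + 2 κ² 1[a ≠ 0] W N^{-1/3} ‖Mo - Mo1‖²`.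
Sum over all `a` (`tsum_dvd`, `summable_GsR`); `tau a ^ 2 ≤ C N a^ε`, `sum_Gs_le`, `sum_Gs_sq_le`, `Mo_le`, `Mo_sub_le`; `∑ tau d² N d^{-6/5} ≤ C`, `∑_{N d ≤ D²} tau d² ≤ C D⁴`. -/

namespace Vale.Agent.P006.D

open Vale.Agent.P026 Filter MeasureTheory
open scoped ComplexConjugate Real

theorem Ga_eq (Z : ℝ) {γ : O → ℂ} {a : O} (ha : Sq a) :
    Ga Z γ a = gl a * Fa Z γ a - (kst * (nm a : ℝ) ^ (-1 / 6 : ℝ) : ℝ) * Mo Z γ a := by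
  rw [Ga, Fa, Mo, Finset.mul_sum, Finset.mul_sum, ← Finset.sum_sub_distrib]
  refine Finset.sum_congr rfl fun b hb => ?_
  have hb' := (mem_qball.1 hb).1
  by_cases h : IsCoprime a b
  · rw [aq, ind_of (sq_mul ha hb' h), ind_of h, gl_mul ha.1 hb'.1 h, np_mul, np_sixth a]
    push_cast
    ring
  · rw [aq_eq_zero fun h' => h (sq_coprime h'), ind_of_not h, cub_eq_zero hb'.1.not_lam_dvd h]
    simp

theorem Ga_eq_zero (Z : ℝ) {γ : O → ℂ} {a : O} (ha : ¬Sq a) : Ga Z γ a = 0 :=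
  Finset.sum_eq_zero fun b hb => by
    rw [aq_eq_zero fun h => ha (sq_left h (mem_qball.1 hb).1.1), mul_zero]

theorem DA1_Fa_le (Z : ℝ) (γ : O → ℂ) (a : O) : ‖Fa Z γ a‖ ≤ ∑ b ∈ qball Z, ‖γ b‖ := by
  refine norm_sum_le_of_le _ fun b hb => ?_
  rw [norm_mul, norm_mul, norm_gl (mem_qball.1 hb).1, one_mul, Complex.norm_conj]
  exact mul_le_of_le_one_right (norm_nonneg _) (norm_cub_le _ _)

theorem DA1_Ga_le (Z : ℝ) (γ : O → ℂ) (a : O) :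
    ‖Ga Z γ a‖ ≤ ∑ b ∈ qball Z, ‖γ b‖ * (1 + kst) := by
  refine norm_sum_le_of_le _ fun b _ => ?_
  rw [norm_mul]
  exact mul_le_mul_of_nonneg_left (norm_aq_le _) (norm_nonneg _)

theorem DA1_Mo1_le (E Z : ℝ) (γ : O → ℂ) (a : O) :
    ‖Mo1 E Z γ a‖ ≤ ∑ e ∈ qball E, ‖mu e‖ * ‖Me Z γ e‖ := by
  refine norm_sum_le_of_le _ fun e _ => ?_
  rw [norm_mul, norm_mul, norm_ind]
  exact mul_le_mul_of_nonneg_right (mul_le_of_le_one_right (norm_nonneg _) (ir_le_one _))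
    (norm_nonneg _)

theorem DA1_abs_ir (p q : Prop) : |ir p * ir q| ≤ 1 := by
  rw [abs_of_nonneg (mul_nonneg (ir_nonneg _) (ir_nonneg _))]
  exact mul_le_one₀ (ir_le_one _) (ir_nonneg _) (ir_le_one _)

theorem DA1_has {A M : ℝ} (hA : 0 < A) {d : O} (hd : Prim d) {g : O → ℝ} (hg : ∀ a, |g a| ≤ M) :
    HasSum (fun a : O => ir (Prim a) * ir (d ^ 2 ∣ a) * (Gs 1 (nm a / A) * g a))
      (∑' a : O, ir (Prim a) * Gs 1 (nm (d ^ 2 * a) / A) * g (d ^ 2 * a)) := by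
  have h := summable_GsR le_rfl hA one_ne_zero (fun a => DA1_abs_ir (Prim a) (d ^ 2 ∣ a)) hg
  simp only [one_mul, mul_assoc] at h ⊢
  have h2 := tsum_dvd hd fun a => Gs 1 (nm a / A) * g a
  simp only [mul_assoc] at h2
  exact h2 ▸ h.hasSum

theorem DA1_hasX {A : ℝ} (hA : 0 < A) (E Z : ℝ) (γ : O → ℂ) :
    HasSum (fun a : O => Gs 1 (nm a / A) * (nm a : ℝ) ^ (-1 / 6 : ℝ) *
      (Ga Z γ a * conj (Mo1 E Z γ a)).re) (Xc A E Z γ).re := by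
  have h := summable_GsC (f := fun a => (((nm a : ℝ) ^ (-1 / 6 : ℝ) : ℝ) : ℂ))
    (g := fun a => Ga Z γ a * conj (Mo1 E Z γ a)) le_rfl hA one_ne_zero
    (fun a => by
      rw [Complex.norm_real, Real.norm_of_nonneg (by positivity)]
      exact nm_rpow_le_one a (by norm_num))
    (fun a => by
      rw [norm_mul, Complex.norm_conj]
      exact mul_le_mul (DA1_Ga_le Z γ a) (DA1_Mo1_le E Z γ a) (norm_nonneg _)
        ((norm_nonneg _).trans (DA1_Ga_le Z γ a)))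
  have h2 : Summable fun a : O => ((Gs 1 (nm a / A) * (nm a : ℝ) ^ (-1 / 6 : ℝ) : ℝ) : ℂ) *
      (Ga Z γ a * conj (Mo1 E Z γ a)) := by
    refine h.congr fun a => ?_
    rw [one_mul, Complex.ofReal_mul]
    ring
  simpa only [Complex.re_ofReal_mul, Xc] using Complex.hasSum_re h2.hasSum

theorem DA1_lim {f g h : O → ℝ} {S c : ℝ} (s : Finset O) (hf : ∀ a, 0 ≤ f a) (hg : HasSum g S)
    (hle : ∀ a, f a ≤ g a + h a) (hh : ∀ t : Finset O, ∑ a ∈ t, h a ≤ c) :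
    ∑ a ∈ s, f a ≤ S + c := by
  have h1 : Tendsto (fun t : Finset O => ∑ a ∈ t, g a + c) atTop (nhds (S + c)) :=
    Tendsto.add_const c hg
  refine ge_of_tendsto h1 ?_
  filter_upwards [eventually_ge_atTop s] with t ht
  calc ∑ a ∈ s, f a ≤ ∑ a ∈ t, f a := Finset.sum_le_sum_of_subset_of_nonneg ht fun a _ _ => hf a
    _ ≤ ∑ a ∈ t, (g a + h a) := Finset.sum_le_sum fun a _ => hle a
    _ ≤ _ := by rw [Finset.sum_add_distrib]; linarith [hh t]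

theorem DA1_bd {K c : ℝ} {P : O → Prop} {h w : O → ℝ} (hK : 0 ≤ K) (h1 : ∀ a, ¬P a → h a = 0)
    (h2 : ∀ a, P a → h a ≤ K * w a)
    (h3 : ∀ t : Finset O, (∀ a ∈ t, P a) → ∑ a ∈ t, w a ≤ c) (t : Finset O) :
    ∑ a ∈ t, h a ≤ K * c := by
  classical
  rw [← Finset.sum_filter_of_ne (p := P) fun a _ ha => by_contra fun h' => ha (h1 a h')]
  refine (Finset.sum_le_sum fun a ha => h2 a (Finset.mem_filter.1 ha).2).trans ?_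
  rw [← Finset.mul_sum]
  exact mul_le_mul_of_nonneg_left (h3 _ fun a ha => (Finset.mem_filter.1 ha).2) hK

theorem DA1_alg (G M M₁ : ℂ) (k : ℝ) : ‖G‖ ^ 2 / 2 ≤ ‖G + k * M‖ ^ 2 - k ^ 2 * ‖M‖ ^ 2 -
    2 * k * (G * conj M₁).re + 2 * k ^ 2 * ‖M - M₁‖ ^ 2 := by
  simp only [Complex.sq_norm, Complex.normSq_apply, Complex.add_re, Complex.add_im, Complex.mul_re,
    Complex.mul_im, Complex.ofReal_re, Complex.ofReal_im, Complex.conj_re, Complex.conj_im,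
    Complex.sub_re, Complex.sub_im]
  nlinarith [sq_nonneg (G.re + 2 * k * (M.re - M₁.re)), sq_nonneg (G.im + 2 * k * (M.im - M₁.im))]

theorem DA1_point (E Z W v : ℝ) (γ : O → ℂ) (a : O) (hW : 0 ≤ W) (h0 : Prim a → 0 ≤ v)
    (h1 : Sq a → v = 1) : W * ‖Ga Z γ a‖ ^ 2 / 2 ≤
      (ir (Prim a) * v * (W * ‖Fa Z γ a‖ ^ 2 -
          kst ^ 2 * (W * ((nm a : ℝ) ^ (-1 / 3 : ℝ) * ‖Mo Z γ a‖ ^ 2))) -
        2 * kst * (W * (nm a : ℝ) ^ (-1 / 6 : ℝ) * (Ga Z γ a * conj (Mo1 E Z γ a)).re)) +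
      (ir (Prim a ∧ ¬Sq a) * v * (kst ^ 2 * (W * ((nm a : ℝ) ^ (-1 / 3 : ℝ) * ‖Mo Z γ a‖ ^ 2))) +
        ir (a ≠ 0) * (2 * kst ^ 2 *
          (W * ((nm a : ℝ) ^ (-1 / 3 : ℝ) * ‖Mo Z γ a - Mo1 E Z γ a‖ ^ 2)))) := by
  by_cases hs : Sq a
  · have h2 := DA1_alg (Ga Z γ a) (Mo Z γ a) (Mo1 E Z γ a) (kst * (nm a : ℝ) ^ (-1 / 6 : ℝ))
    have h3 : ((nm a : ℝ) ^ (-1 / 6 : ℝ)) ^ 2 = (nm a : ℝ) ^ (-1 / 3 : ℝ) := by
      rw [← Real.rpow_natCast, ← Real.rpow_mul (Nat.cast_nonneg _)]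
      norm_num
    rw [Ga_eq Z hs, sub_add_cancel, ← Ga_eq Z hs, norm_mul, norm_gl hs, one_mul, mul_pow, h3] at h2
    rw [h1 hs, ir_of hs.1, ir_of_not fun h => h.2 hs, ir_of (sq_ne hs)]
    nlinarith [mul_le_mul_of_nonneg_left h2 hW]
  · have h4 : 0 ≤ ir (a ≠ 0) * (2 * kst ^ 2 *
        (W * ((nm a : ℝ) ^ (-1 / 3 : ℝ) * ‖Mo Z γ a - Mo1 E Z γ a‖ ^ 2))) := by
      have := ir_nonneg (a ≠ 0)
      positivity
    rw [Ga_eq_zero Z hs]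
    by_cases hp : Prim a
    · have h5 : 0 ≤ v * (W * ‖Fa Z γ a‖ ^ 2) := by
        have := h0 hp
        positivity
      rw [ir_of hp, ir_of (p := Prim a ∧ ¬Sq a) ⟨hp, hs⟩]
      simp only [norm_zero, zero_mul, Complex.zero_re]
      nlinarith
    · rw [ir_of_not hp, ir_of_not (p := Prim a ∧ ¬Sq a) fun h => hp h.1]
      simp only [norm_zero, zero_mul, Complex.zero_re]
      nlinarith

theorem DA1_nu : ∃ C : ℝ, 0 < C ∧ ∀ (D W₁ W₂ : ℝ) (ν u : O → ℝ), 1 ≤ D → 0 ≤ W₁ → 0 ≤ W₂ →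
    (∀ d, d ≠ 0 → |ν d| ≤ tau d ^ 2) →
    (∀ d, Sq d → nm d ≤ D ^ 2 → |u d| ≤ W₁ * (nm d : ℝ) ^ (-6 / 5 : ℝ) + W₂) →
    ∑ d ∈ qball (D ^ 2), ν d * u d ≤ C * (W₁ + D ^ 4 * W₂) := by
  obtain ⟨C₁, hC₁, h₁⟩ := tau_pow_le 2 (by norm_num : (0 : ℝ) < 1 / 10)
  obtain ⟨C₂, hC₂, h₂⟩ := sum_rpow_le_const (by norm_num : (1 : ℝ) < 11 / 10)
  obtain ⟨C₃, hC₃, h₃⟩ := card_le_of_nm
  refine ⟨C₁ * (C₂ + C₃), by positivity, fun D W₁ W₂ ν u hD hW₁ hW₂ hν hu => ?_⟩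
  have h4 : ∀ d ∈ qball (D ^ 2), ν d * u d ≤
      C₁ * W₁ * (nm d : ℝ) ^ (-(11 / 10) : ℝ) + C₁ * D ^ 2 * W₂ := by
    intro d hd
    obtain ⟨hs, hn⟩ := mem_qball.1 hd
    have h0 := nm_pos' (sq_ne hs)
    have h5 : (nm d : ℝ) ^ (1 / 10 : ℝ) ≤ D ^ 2 :=
      (Real.rpow_le_self_of_one_le (one_le_nm (sq_ne hs)) (by norm_num)).trans hn
    calc ν d * u d ≤ |ν d| * |u d| := by rw [← abs_mul]; exact le_abs_self _
      _ ≤ C₁ * (nm d : ℝ) ^ (1 / 10 : ℝ) * (W₁ * (nm d : ℝ) ^ (-6 / 5 : ℝ) + W₂) :=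
          mul_le_mul ((hν d (sq_ne hs)).trans (h₁ d (sq_ne hs))) (hu d hs hn) (abs_nonneg _)
            (by positivity)
      _ = C₁ * W₁ * (nm d : ℝ) ^ (1 / 10 + -6 / 5 : ℝ) + C₁ * (nm d : ℝ) ^ (1 / 10 : ℝ) * W₂ := by
          rw [Real.rpow_add h0]
          ring
      _ ≤ _ := by
          rw [show (1 / 10 + -6 / 5 : ℝ) = -(11 / 10) by norm_num]
          gcongr
  refine (Finset.sum_le_sum h4).trans ?_
  rw [Finset.sum_add_distrib, ← Finset.mul_sum, Finset.sum_const, nsmul_eq_mul]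
  have h6 := h₃ (D ^ 2) (qball (D ^ 2)) (by positivity) fun n hn =>
    ⟨sq_ne (mem_qball.1 hn).1, (mem_qball.1 hn).2⟩
  calc _ ≤ C₁ * W₁ * C₂ + C₃ * D ^ 2 * (C₁ * D ^ 2 * W₂) := by gcongr; exact h₂ _
    _ ≤ _ := by
        have : 0 ≤ C₁ * C₃ * W₁ + C₁ * C₂ * (D ^ 4 * W₂) := by positivity
        nlinarith

theorem DA1_fin {S T r x w y z c₁ k c₂ c₃ : ℝ} (h1 : S / 2 ≤ T - 2 * k * r + (c₂ * y + c₃ * z))
    (h2 : T ≤ c₁ * w) (h3 : -r ≤ x) (a1 : 0 ≤ c₁) (a2 : 0 ≤ k) (a3 : 0 ≤ c₂) (a4 : 0 ≤ c₃)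
    (b1 : 0 ≤ w) (b2 : 0 ≤ x) (b3 : 0 ≤ y) (b4 : 0 ≤ z) :
    S ≤ 2 * (c₁ + 2 * k + c₂ + c₃) * (w + x + (y + z)) := by
  have h4 := mul_le_mul_of_nonneg_left h3 a2
  have h5 : 0 ≤ c₁ * (x + y + z) + 2 * k * (w + y + z) + c₂ * (w + x + z) + c₃ * (w + x + y) := by
    positivity
  nlinarith

theorem DA1_w {ε C K x y c W : ℝ} {a : O} (ha : a ≠ 0) (hW : 0 ≤ W) (hc : 0 ≤ c) (hC : 0 ≤ C)
    (h0 : 0 ≤ y) (hy : y ≤ K) (h : x ≤ C * (nm a : ℝ) ^ ε) :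
    x * (c * (W * ((nm a : ℝ) ^ (-1 / 3 : ℝ) * y ^ 2))) ≤
      C * c * K ^ 2 * (W * (nm a : ℝ) ^ (ε + -1 / 3)) := by
  rw [Real.rpow_add (nm_pos' ha)]
  calc _ ≤ C * (nm a : ℝ) ^ ε * (c * (W * ((nm a : ℝ) ^ (-1 / 3 : ℝ) * K ^ 2))) := by gcongr
    _ = _ := by ring

theorem S_le {ε : ℝ} (hε : 0 < ε) (hε' : ε ≤ 1 / 3) : ∃ C : ℝ, 0 < C ∧
    ∀ (A B M D E W₁ W₂ : ℝ) (γ : O → ℂ) (s : Finset O), 0 < A → 0 < B → 1 ≤ D → 0 < E → 0 ≤ W₁ →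
      0 ≤ W₂ → Supp 16 B γ → Bd M γ →
      (∀ d, Sq d → nm d ≤ D ^ 2 → |Ud 1 A (16 * B) γ d - kst ^ 2 * Vd A (16 * B) γ d| ≤
        W₁ * (nm d : ℝ) ^ (-6 / 5 : ℝ) + W₂) →
      ∑ a ∈ s, Gs 1 (nm a / A) * ‖Ga (16 * B) γ a‖ ^ 2 ≤
        C * (W₁ + D ^ 4 * W₂ + ‖Xc A E (16 * B) γ‖ +
          M ^ 2 * A ^ (2 / 3 + ε) * B ^ (5 / 3 : ℝ) * (1 / D + 1 / E ^ 2)) := by
  obtain ⟨C₁, hC₁, h₁⟩ := DA1_nu
  obtain ⟨C₂, hC₂, h₂⟩ := tau_pow_le 2 hε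
  obtain ⟨C₃, hC₃, h₃⟩ := Mo_le
  obtain ⟨C₄, hC₄, h₄⟩ := Mo_sub_le
  obtain ⟨C₅, hC₅, h₅⟩ := sum_Gs_le
  obtain ⟨C₆, hC₆, h₆⟩ := sum_Gs_sq_le
  have hk := kst_pos
  refine ⟨2 * (C₁ + 2 * kst + C₂ * kst ^ 2 * C₃ ^ 2 * C₆ + 2 * C₂ * kst ^ 2 * C₄ ^ 2 * C₅),
    by positivity, fun A B M D E W₁ W₂ γ s hA hB hD hE hW₁ hW₂ hγ hM hUV => ?_⟩
  obtain ⟨ν, hν, hv⟩ := exists_maj hD
  have hM0 : 0 ≤ M := (norm_nonneg _).trans (hM 0)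
  have hB2 : (B ^ (5 / 6 : ℝ)) ^ 2 = B ^ (5 / 3 : ℝ) := by
    rw [← Real.rpow_natCast, ← Real.rpow_mul hB.le]
    norm_num
  have hσ : (1 : ℝ) + (ε + -1 / 3) = 2 / 3 + ε := by ring
  have a1 : HasSum (fun a : O => ir (Prim a) * (∑ d ∈ qball (D ^ 2), ν d * ir (d ^ 2 ∣ a)) *
      (Gs 1 (nm a / A) * ‖Fa (16 * B) γ a‖ ^ 2 - kst ^ 2 *
        (Gs 1 (nm a / A) * ((nm a : ℝ) ^ (-1 / 3 : ℝ) * ‖Mo (16 * B) γ a‖ ^ 2))))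
      (∑ d ∈ qball (D ^ 2), ν d * (Ud 1 A (16 * B) γ d - kst ^ 2 * Vd A (16 * B) γ d)) := by
    have b1 : ∀ d ∈ qball (D ^ 2), HasSum _ (ν d * (Ud 1 A (16 * B) γ d -
        kst ^ 2 * Vd A (16 * B) γ d)) := fun d hd =>
      ((DA1_has (g := fun a => ‖Fa (16 * B) γ a‖ ^ 2) hA (mem_qball.1 hd).1.1 fun a => by
        rw [abs_of_nonneg (sq_nonneg _)]
        exact pow_le_pow_left₀ (norm_nonneg _) (DA1_Fa_le _ _ a) 2).sub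
      ((DA1_has (g := fun a => (nm a : ℝ) ^ (-1 / 3 : ℝ) * ‖Mo (16 * B) γ a‖ ^ 2) hA
        (mem_qball.1 hd).1.1 fun a => by
        rw [abs_of_nonneg (by positivity)]
        exact (mul_le_of_le_one_left (sq_nonneg _) (nm_rpow_le_one a (by norm_num))).trans
          (pow_le_pow_left₀ (norm_nonneg _) (h₃ B M γ a hB hγ hM) 2)).mul_left (kst ^ 2))).mul_left _
    convert hasSum_sum b1 using 2 with a
    rw [Finset.mul_sum, Finset.sum_mul]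
    exact Finset.sum_congr rfl fun d _ => by ring
  have a2 := DA1_bd (P := fun a => a ≠ 0 ∧ ∃ d, D < nm d ∧ d ^ 2 ∣ a)
    (h := fun a => ir (Prim a ∧ ¬Sq a) * (∑ d ∈ qball (D ^ 2), ν d * ir (d ^ 2 ∣ a)) *
      (kst ^ 2 * (Gs 1 (nm a / A) * ((nm a : ℝ) ^ (-1 / 3 : ℝ) * ‖Mo (16 * B) γ a‖ ^ 2))))
    (K := C₂ * kst ^ 2 * (C₃ * M * B ^ (5 / 6 : ℝ)) ^ 2) (by positivity)
    (fun a ha => by
      by_cases hp : Prim a ∧ ¬Sq a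
      · rw [show ∑ d ∈ qball (D ^ 2), ν d * ir (d ^ 2 ∣ a) = 0 from by_contra fun h =>
          ha ⟨hp.1.ne_zero, (hv a hp.1).2.2.2 hp.2 h⟩, mul_zero, zero_mul]
      · rw [ir_of_not hp, zero_mul, zero_mul])
    (fun a ha => by
      by_cases hp : Prim a ∧ ¬Sq a
      · rw [ir_of hp, one_mul]
        exact DA1_w ha.1 (Gs_pos _ _).le (sq_nonneg _) hC₂.le (norm_nonneg _)
          (h₃ B M γ a hB hγ hM) ((hv a hp.1).2.1.trans (h₂ a ha.1))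
      · rw [ir_of_not hp, zero_mul, zero_mul]
        have := Gs_pos 1 (nm a / A)
        positivity)
    fun t ht => h₆ A (ε + -1 / 3) D t hA (by linarith) (by linarith) (by linarith) ht
  have a4 := DA1_bd (P := fun a => a ≠ 0)
    (h := fun a => ir (a ≠ 0) * (2 * kst ^ 2 * (Gs 1 (nm a / A) *
      ((nm a : ℝ) ^ (-1 / 3 : ℝ) * ‖Mo (16 * B) γ a - Mo1 E (16 * B) γ a‖ ^ 2))))
    (K := C₂ * (2 * kst ^ 2) * (C₄ * M * B ^ (5 / 6 : ℝ) / E) ^ 2) (by positivity)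
    (fun a ha => by rw [ir_of_not ha, zero_mul])
    (fun a ha => by
      have := Gs_pos 1 (nm a / A)
      refine le_trans ?_ (DA1_w ha this.le (by positivity) hC₂.le (by positivity) le_rfl (h₂ a ha))
      calc _ ≤ 1 * (2 * kst ^ 2 * (Gs 1 (nm a / A) * ((nm a : ℝ) ^ (-1 / 3 : ℝ) *
            (C₄ * tau a * M * B ^ (5 / 6 : ℝ) / E) ^ 2))) := by
            rw [ir_of ha]
            gcongr
            exact h₄ B M E γ a hB hE hγ hM ha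
        _ = _ := by ring)
    fun t ht => by
      simpa only [one_mul, nm_one, Nat.cast_one, div_one] using h₅ A (ε + -1 / 3) 1 t hA
        (by linarith) (by linarith) one_ne_zero fun h => ht 0 h rfl
  have a5 := DA1_lim s (fun a => by have := Gs_pos 1 (nm a / A); positivity)
    (a1.sub ((DA1_hasX hA E (16 * B) γ).mul_left (2 * kst)))
    (fun a => DA1_point E (16 * B) _ _ γ a (Gs_pos 1 (nm a / A)).le (fun h => (hv a h).1)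
      fun h => (hv a h.1).2.2.1 h)
    fun t => Finset.sum_add_distrib.trans_le (add_le_add (a2 t) (a4 t))
  have a6 := h₁ D W₁ W₂ ν _ hD hW₁ hW₂ hν hUV
  have a7 : -(Xc A E (16 * B) γ).re ≤ ‖Xc A E (16 * B) γ‖ :=
    (neg_le_abs _).trans (Complex.abs_re_le_norm _)
  rw [← Finset.sum_div, hσ] at a5
  obtain ⟨u, hu⟩ : ∃ u, u = M ^ 2 * A ^ (2 / 3 + ε) * B ^ (5 / 3 : ℝ) := ⟨_, rfl⟩
  have hu0 : 0 ≤ u := by rw [hu]; positivity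
  have a8 : C₂ * kst ^ 2 * (C₃ * M * B ^ (5 / 6 : ℝ)) ^ 2 * (C₆ * A ^ (2 / 3 + ε) / D) +
      C₂ * (2 * kst ^ 2) * (C₄ * M * B ^ (5 / 6 : ℝ) / E) ^ 2 * (C₅ * A ^ (2 / 3 + ε)) =
      C₂ * kst ^ 2 * C₃ ^ 2 * C₆ * (u * (1 / D)) +
        2 * C₂ * kst ^ 2 * C₄ ^ 2 * C₅ * (u * (1 / E ^ 2)) := by
    rw [hu, ← hB2]
    ring
  rw [a8] at a5
  rw [← hu, mul_add u]
  exact DA1_fin a5 a6 a7 hC₁.le hk.le (by positivity) (by positivity) (by positivity)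
    (norm_nonneg _) (by positivity) (by positivity)

end Vale.Agent.P006.D
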