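import Vale.Agent.P006.DPair

/-! D-Cube: the frequencies with `k w₀` a cube.
Plans. `cube_iff`: `Δ = e Δ'`, `k w₀ = k d Δ'² e⁴ = n³` gives `d ∣ n`, `Δ' ∣ n`, `e² ∣ n` (`Squarefree.dvd_pow_iff_dvd`, twice for `e`), pairwise coprime, so `n = d Δ' e² m`;
`(d² e Δ) w₀ = (d e Δ)³`.  `hasSum_cube` (cf. `qker_half` in `P026/QKer.lean`): `m ↦ b m³` is three to one on `m ≠ 0` (`m³ - m'³ = (m - m')(m - ω m')(m - ω² m')`);
choose a root `r k`; `(j, k) ↦ ω^j r k` is a bijection from `Fin 3 × {k | ∃ m ≠ 0, k = b m³}` onto `{m ≠ 0}`.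
`pair_eq`: split `ind (k ≠ 0) = ind (k ≠ 0 ∧ Cube) + ind (k ≠ 0 ∧ ¬Cube)`; on `k = d² e Δ m³`: `eq_cube`, `cub_cube_pair`, `Tri.copΔ`, the argument of `shp` is `xi0 * N m ^ 3`. -/

namespace Vale.Agent.P006.D

open Vale.Agent.P026 Filter MeasureTheory
open scoped ComplexConjugate Real

theorem cube_iff {d Δ e : O} (hd : Sq d) (hΔ : Sq Δ) (h : IsCoprime d Δ) (he : e ∈ pdiv Δ) (k : O) :
    Cube (k * w0 d Δ e) ↔ ∃ m, k = d ^ 2 * e * Δ * m ^ 3 := by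
  refine ⟨fun ⟨n, hn⟩ => ?_, fun ⟨m, hm⟩ => ⟨d * e * Δ * m, by rw [hm, w0]; ring⟩⟩
  obtain ⟨-, Δ', rfl⟩ := (mem_pdiv (sq_ne hΔ)).1 he
  have he0 : e ≠ 0 := left_ne_zero_of_mul (sq_ne hΔ)
  have hΔ0 : Δ' ≠ 0 := right_ne_zero_of_mul (sq_ne hΔ)
  have hc := sq_coprime hΔ
  rw [w0] at hn
  have h1 : d ∣ n := hd.2.isRadical 3 n ⟨k * (e * Δ') ^ 2 * e ^ 2, by rw [← hn]; ring⟩
  have h2 : Δ' ∣ n := hΔ.2.of_mul_right.isRadical 3 n ⟨k * d * e ^ 4 * Δ', by rw [← hn]; ring⟩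
  obtain ⟨n₁, rfl⟩ : e ∣ n :=
    hΔ.2.of_mul_left.isRadical 3 n ⟨k * d * e ^ 3 * Δ' ^ 2, by rw [← hn]; ring⟩
  have h3 : n₁ ^ 3 = e * (k * d * Δ' ^ 2) :=
    mul_left_cancel₀ (pow_ne_zero 3 he0) (by linear_combination -hn)
  obtain ⟨n₂, rfl⟩ : e ∣ n₁ := hΔ.2.of_mul_left.isRadical 3 n₁ ⟨_, h3⟩
  have h4 : d ∣ n₂ :=
    h.of_mul_right_left.dvd_of_dvd_mul_left (h.of_mul_right_left.dvd_of_dvd_mul_left h1)
  have h5 : Δ' ∣ n₂ := hc.symm.dvd_of_dvd_mul_left (hc.symm.dvd_of_dvd_mul_left h2)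
  obtain ⟨m, rfl⟩ := h.of_mul_right_right.mul_dvd h4 h5
  refine ⟨m, mul_left_cancel₀ (mul_ne_zero (mul_ne_zero (sq_ne hd) (pow_ne_zero 2 hΔ0)) he0) ?_⟩
  linear_combination -h3

theorem DCube_summable {G : O → ℂ} (hG : Summable fun k => ind (k ≠ 0) * G k) (p : O → Prop) :
    Summable fun k => ind (k ≠ 0 ∧ p k) * G k := by
  refine Summable.of_norm_bounded hG.norm fun k => ?_
  rw [ind_and, mul_right_comm, norm_mul]
  exact mul_le_of_le_one_right (norm_nonneg _) (norm_ind_le _)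

theorem DCube_roots {l l' : O} (h : l ^ 3 = l' ^ 3) : l = l' ∨ l = om * l' ∨ l = om * (om * l') := by
  have h1 : (l - l') * ((l - om * l') * (l - om * (om * l'))) = 0 := by
    linear_combination h + (l * l' ^ 2 * om - l ^ 2 * l' + (1 - om) * l' ^ 3) * om_sq_add
  simpa only [mul_eq_zero, sub_eq_zero] using h1

/-- multiplication by `ω` -/
def DCube_rot : O ≃ O where
  toFun l := om * l
  invFun l := om ^ 2 * l
  left_inv l := by linear_combination l * om_cube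
  right_inv l := by linear_combination l * om_cube

theorem DCube_sector : ∃ P : Set O,
    (∀ l, l ≠ 0 ↔ l ∈ P ∨ om * l ∈ P ∨ om * (om * l) ∈ P) ∧ (∀ l, l ∈ P → om * l ∉ P) ∧
      ∀ l, l ∈ P → om * (om * l) ∉ P := by
  have e1 : ∀ l : O, (om * l).re = -l.im := fun l => by simp [om]
  have e2 : ∀ l : O, (om * l).im = l.re - l.im := fun l => by simp [om]; ring
  refine ⟨{l | 0 < l.re ∧ 0 ≤ l.im}, fun l => ?_, fun l => ?_, fun l => ?_⟩
  · rw [Ne, QuadraticAlgebra.ext_iff]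
    simp only [Set.mem_ofPred_eq, e1, e2, QuadraticAlgebra.re_zero, QuadraticAlgebra.im_zero]
    omega
  · simp only [Set.mem_ofPred_eq, e1, e2]
    omega
  · simp only [Set.mem_ofPred_eq, e1, e2]
    omega

theorem hasSum_cube {G : O → ℂ} (hG : Summable fun k => ind (k ≠ 0) * G k) {b : O} (hb : b ≠ 0) :
    HasSum (fun m : O => ind (m ≠ 0) * G (b * m ^ 3))
      (3 * ∑' k : O, ind (k ≠ 0 ∧ ∃ m, k = b * m ^ 3) * G k) := by
  obtain ⟨P, p0, p1, p2⟩ := DCube_sector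
  have c1 : ∀ l : O, (om * l) ^ 3 = l ^ 3 := fun l => by rw [mul_pow, om_cube, one_mul]
  have c3 : ∀ l : O, om * (om * (om * l)) = l := fun l => by linear_combination l * om_cube
  have inj : Function.Injective fun l : P => b * (l : O) ^ 3 := fun l l' e => by
    rcases DCube_roots (mul_left_cancel₀ hb e) with h | h | h
    · exact Subtype.ext h
    · exact absurd (h ▸ l.2) (p1 _ l'.2)
    · exact absurd (h ▸ l.2) (p2 _ l'.2)
  have h1 := (inj.hasSum_iff fun k hk => by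
    refine mul_eq_zero_of_left (ind_of_not ?_) _
    rintro ⟨h0, l, rfl⟩
    rcases (p0 l).1 (fun h => h0 (by simp [h])) with h | h | h
    · exact hk ⟨⟨l, h⟩, rfl⟩
    · exact hk ⟨⟨_, h⟩, by simp only [c1]⟩
    · exact hk ⟨⟨_, h⟩, by simp only [c1]⟩).2
    (DCube_summable hG fun k => ∃ m, k = b * m ^ 3).hasSum
  generalize ∑' k : O, ind (k ≠ 0 ∧ ∃ m, k = b * m ^ 3) * G k = S at h1
  have h2 : HasSum (P.indicator fun l => G (b * l ^ 3)) S := by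
    rw [← hasSum_subtype_iff_indicator]
    refine h1.congr_fun fun l => ?_
    simp only [Function.comp]
    rw [ind_of ⟨mul_ne_zero hb (pow_ne_zero 3 ((p0 _).2 (Or.inl l.2))), l, rfl⟩, one_mul]
  have h3 := DCube_rot.hasSum_iff.2 h2
  have h4 := DCube_rot.hasSum_iff.2 h3
  rw [show 3 * S = S + S + S by ring]
  refine ((h2.add h3).add h4).congr_fun fun l => ?_
  simp only [Function.comp, DCube_rot, Equiv.coe_fn_mk]
  by_cases a : l ∈ P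
  · rw [ind_of ((p0 l).2 (Or.inl a)), Set.indicator_of_mem a, Set.indicator_of_notMem (p1 l a),
      Set.indicator_of_notMem (p2 l a)]
    ring
  by_cases a' : om * l ∈ P
  · rw [ind_of ((p0 l).2 (Or.inr (Or.inl a'))), Set.indicator_of_mem a', Set.indicator_of_notMem a,
      Set.indicator_of_notMem (p1 _ a'), c1]
    ring
  by_cases a'' : om * (om * l) ∈ P
  · rw [ind_of ((p0 l).2 (Or.inr (Or.inr a''))), Set.indicator_of_mem a'',
      Set.indicator_of_notMem a, Set.indicator_of_notMem a', c1, c1]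
    ring
  · rw [ind_of_not fun h0 => ((p0 l).1 h0).elim a fun h => h.elim a' a'',
      Set.indicator_of_notMem a, Set.indicator_of_notMem a', Set.indicator_of_notMem a'']
    ring

theorem DCube_kt {L A : ℝ} {d Δ m₁ m₂ e : O} (hd : Sq d) (T : Tri Δ m₁ m₂) (he : e ∈ pdiv Δ)
    (m : O) :
    ind (m ≠ 0) * kt L (A / nm (d ^ 2 * e)) (w0 d Δ e) m₁ m₂ (d ^ 2 * e * Δ * m ^ 3) =
      ind (IsCoprime d (m₁ * m₂)) / (√(nm (m₁ * m₂)) : ℝ) *
        (ind (m ≠ 0 ∧ IsCoprime m (m₁ * m₂)) *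
          shp (Gm L) (xi0 A Δ (m₁ * m₂) * (nm m : ℝ) ^ 3)) := by
  obtain ⟨he1, he2⟩ := (mem_pdiv (sq_ne T.hΔ)).1 he
  have h1 : d ^ 2 * e * Δ * m ^ 3 * w0 d Δ e = (d * (e * Δ * m)) ^ 3 := by rw [w0]; ring
  have h2 : (nm (d ^ 2 * e) : ℝ) ≠ 0 :=
    (nm_pos' (mul_ne_zero (pow_ne_zero 2 (sq_ne hd)) he1.ne_zero)).ne'
  have h3 : c0 ^ 2 * (A / nm (d ^ 2 * e)) * nm (d ^ 2 * e * Δ * m ^ 3) / (9 * nm (m₁ * m₂)) =
      xi0 A Δ (m₁ * m₂) * (nm m : ℝ) ^ 3 := by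
    rw [xi0, nm_mul (d ^ 2 * e * Δ), nm_mul (d ^ 2 * e) Δ, nm_pow m]
    push_cast
    field_simp
  have h4 : IsCoprime (d * (e * Δ * m)) (m₁ * m₂) ↔
      IsCoprime d (m₁ * m₂) ∧ IsCoprime m (m₁ * m₂) := by
    simp only [IsCoprime.mul_left_iff, T.copΔ, T.copΔ.of_isCoprime_of_dvd_left he2, true_and]
  rw [kt, h1, h3, eq_cube (((hd.1.pow 2).mul he1).mul T.hΔ.1), cub_cube_pair T.h₁.1 T.h₂.1,
    propext h4, ind_and, ind_and]
  ring

theorem DCube_tsum {L A : ℝ} (hL : 1 ≤ L) (hA : 0 < A) {d Δ m₁ m₂ e : O} (hd : Sq d)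
    (T : Tri Δ m₁ m₂) (h : IsCoprime d Δ) (he : e ∈ pdiv Δ) :
    ∑' k : O, ind (k ≠ 0) * kt L (A / nm (d ^ 2 * e)) (w0 d Δ e) m₁ m₂ k =
      ind (IsCoprime d (m₁ * m₂)) / (√(nm (m₁ * m₂)) : ℝ) *
          Sig L (xi0 A Δ (m₁ * m₂)) (m₁ * m₂) / 3 +
        ∑' k : O, ind (k ≠ 0 ∧ ¬Cube (k * w0 d Δ e)) *
          kt L (A / nm (d ^ 2 * e)) (w0 d Δ e) m₁ m₂ k := by
  have he0 : e ≠ 0 := ((mem_pdiv (sq_ne T.hΔ)).1 he).1.ne_zero
  have h0 : d ^ 2 * e ≠ 0 := mul_ne_zero (pow_ne_zero 2 (sq_ne hd)) he0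
  have hs := summable_kt (L := L) (by linarith) (div_pos hA (nm_pos' h0)) (w0 d Δ e)
    (sq_ne T.h₁) (sq_ne T.h₂)
  have h1 := (hasSum_cube hs (mul_ne_zero h0 (sq_ne T.hΔ))).tsum_eq
  simp only [DCube_kt hd T he, tsum_mul_left] at h1
  rw [Sig, h1, mul_div_cancel_left₀ _ (three_ne_zero' ℂ),
    ← (DCube_summable hs _).tsum_add (DCube_summable hs _)]
  refine tsum_congr fun k => ?_
  rw [← cube_iff hd T.hΔ h he, ind_and, ind_and]
  by_cases hc : Cube (k * w0 d Δ e)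
  · rw [ind_of hc, ind_of_not (not_not.2 hc)]
    ring
  · rw [ind_of_not hc, ind_of (p := ¬_) hc]
    ring

theorem pair_eq (mp : MPStmt) {L A : ℝ} (hL : 1 ≤ L) (hA : 0 < A) {d Δ m₁ m₂ : O} (hd : Sq d)
    (T : Tri Δ m₁ m₂) :
    Hu L A d Δ m₁ m₂ = Hz L A d Δ m₁ m₂ + Hc L A d Δ m₁ m₂ + Hn L A d Δ m₁ m₂ := by
  rw [Hu_eq mp hL hA hd.1 T, add_assoc, add_right_inj, Hc, Hn, propext IsCoprime.mul_right_iff,
    ind_and]
  by_cases h : IsCoprime d Δ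
  · rw [ind_of h, one_mul, one_mul, one_mul, phiS, Finset.mul_sum, Finset.sum_mul, Finset.sum_mul,
      ← Finset.sum_add_distrib]
    refine Finset.sum_congr rfl fun e he => ?_
    rw [DCube_tsum hL hA hd T h he, nm_mul (d ^ 2), nm_pow]
    push_cast
    ring
  · rw [ind_of_not h]
    ring

end Vale.Agent.P006.D
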