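import Vale.Agent.P006.DNb1

/-! D-Nb2: non-cubes, large common factor.  Notation as in `DNb1`; `g = Δ f`, `a = NΔ`, `b = N f`, `N' = 16 B / (a b)`.
Plans. `lf_ls2`: if `N g > 16 B` then `lf = 0`; otherwise `lf` is a sum over `qball N'` with coefficients `β (g m) cub w m np m (..)` (`cub_mul_left`, `Finset.sum_subset`), `LS2Stmt`, `sum_rpow_le (1/2)`.
`nb_large`: `dyadic` with `M = C X^{3δ} N'^{1/2} (K^{1/12} N' + K^{3/4} + K^{5/12} N'^{2/3})` (`ε = δ/3`, `K₁ N' ≤ X²`); the three terms times `Y^{3/4} b^{-1/2}` are at most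
`64 P^{1/12} A^{2/3} B^{5/3} (ab)^{-3/2}`, `4 P^{3/4} B²/(ab)`, `26 P^{5/12} A^{1/3} B² (ab)^{-5/3}` (`P = X^{4δ}`), and `a b > X^{50 δ}`, `B ≤ A X^{25δ/2}`, `A ≥ X^{0.49}`.  Compare logarithms.
`nb`: if `Δ f` is not `Sq` then `lf = 0` (`β (Δ f m) ≠ 0` forces it, `sq_left`). -/

namespace Vale.Agent.P006.D

open Vale.Agent.P026 Filter MeasureTheory
open scoped ComplexConjugate Real

theorem DNb2_lf_eq {B u : ℝ} {β : O → ℂ} {g : O} (hβ : Supp 16 B β) (hg : g ≠ 0)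
    (hN : 1 ≤ 16 * B / nm g) (k w : O) : lf B β g (k * w) u =
      ∑ m ∈ qball (16 * B / nm g), β (g * m) * cub w m * np m (-1 / 4 + Complex.I * u) * cub k m := by
  have hg1 : (1 : ℝ) ≤ nm g := one_le_nm hg
  have hg0 : (0 : ℝ) < nm g := by linarith
  have hB : (nm g : ℝ) ≤ 16 * B := by rwa [le_div_iff₀ hg0, one_mul] at hN
  have hsub : qball (16 * B / nm g) ⊆ qball (16 * B) :=
    qball_mono (div_le_self (by linarith) hg1)
  rw [lf, ← Finset.sum_subset hsub]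
  · refine Finset.sum_congr rfl fun m _ => ?_
    rw [cub_mul_left]
    ring
  · intro m hm hm'
    have h0 : β (g * m) = 0 := by
      by_contra h
      refine hm' (mem_qball.2 ⟨(mem_qball.1 hm).1, ?_⟩)
      have h1 := (hβ _ h).2.2
      rw [nm_mul, Nat.cast_mul] at h1
      rw [le_div_iff₀ hg0, mul_comm]
      exact h1
    rw [h0, zero_mul, zero_mul]

theorem DNb2_coef {M u : ℝ} {β : O → ℂ} (hM : Bd M β) (g w : O) {m : O} (hm : m ≠ 0) :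
    ‖β (g * m) * cub w m * np m (-1 / 4 + Complex.I * u)‖ ^ 2 ≤ M ^ 2 * (nm m : ℝ) ^ (-(1 / 2) : ℝ) := by
  have hm0 : (0 : ℝ) ≤ nm m := Nat.cast_nonneg _
  have h1 : (-1 / 4 + Complex.I * u : ℂ).re = -1 / 4 := by
    simp
  have h2 : ((nm m : ℝ) ^ (-1 / 4 : ℝ)) ^ 2 = (nm m : ℝ) ^ (-(1 / 2) : ℝ) := by
    rw [← Real.rpow_natCast, ← Real.rpow_mul hm0]
    norm_num
  rw [norm_mul, norm_mul, norm_np hm, h1, mul_pow, h2]
  refine mul_le_mul_of_nonneg_right ?_ (by positivity)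
  refine pow_le_pow_left₀ (by positivity) ?_ 2
  exact (mul_le_of_le_one_right (norm_nonneg _) (norm_cub_le _ _)).trans (hM _)

theorem lf_ls2 (h2 : LS2Stmt) {ε : ℝ} (hε : 0 < ε) : ∃ C : ℝ, 0 < C ∧
    ∀ (B M K u : ℝ) (β : O → ℂ) (g w : O), Supp 16 B β → Bd M β → g ≠ 0 → 1 ≤ K →
      1 ≤ 16 * B / nm g → ∑ k ∈ ball K, ‖lf B β g (k * w) u‖ ^ 2 ≤
        C * M ^ 2 * (K * (16 * B / nm g)) ^ ε * (16 * B / nm g) ^ (1 / 2 : ℝ) *
          (K ^ (1 / 3 : ℝ) * (16 * B / nm g) + K + (K * (16 * B / nm g)) ^ (2 / 3 : ℝ)) := by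
  obtain ⟨C, hC, h⟩ := h2 ε hε
  obtain ⟨C', hC', h'⟩ := sum_rpow_le (σ := 1 / 2) (by norm_num) (by norm_num)
  refine ⟨C * C', by positivity, fun B M K u β g w hβ hM hg hK hN => ?_⟩
  simp only [DNb2_lf_eq hβ hg hN]
  generalize 16 * B / (nm g : ℝ) = N at hN ⊢
  refine (h K N (fun m => β (g * m) * cub w m * np m (-1 / 4 + Complex.I * u)) hK hN).trans ?_
  have h3 : ∑ m ∈ qball N, ‖β (g * m) * cub w m * np m (-1 / 4 + Complex.I * u)‖ ^ 2 ≤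
      M ^ 2 * (C' * N ^ (1 / 2 : ℝ)) := by
    calc _ ≤ ∑ m ∈ qball N, M ^ 2 * (nm m : ℝ) ^ (-(1 / 2) : ℝ) :=
          Finset.sum_le_sum fun m hm => DNb2_coef hM g w (sq_ne (mem_qball.1 hm).1)
      _ ≤ ∑ m ∈ ball N, M ^ 2 * (nm m : ℝ) ^ (-(1 / 2) : ℝ) :=
          Finset.sum_le_sum_of_subset_of_nonneg (qball_subset N) fun m _ _ => by positivity
      _ = M ^ 2 * ∑ m ∈ ball N, (nm m : ℝ) ^ (-(1 / 2) : ℝ) := by rw [Finset.mul_sum]
      _ ≤ _ := by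
          refine mul_le_mul_of_nonneg_left ?_ (by positivity)
          have h4 := h' N (by linarith)
          rwa [show (1 - 1 / 2 : ℝ) = 1 / 2 by norm_num] at h4
  have hK0 : 0 < K := by linarith
  have hN0 : 0 < N := by linarith
  refine (mul_le_mul_of_nonneg_left h3 (by positivity)).trans (le_of_eq ?_)
  ring

theorem DNb2_lf_zero {B u : ℝ} {β : O → ℂ} {g : O} (h : ∀ m, Sq m → β (g * m) = 0) (k : O) :
    lf B β g k u = 0 := by
  refine Finset.sum_eq_zero fun m hm => ?_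
  rw [h m (mem_qball.1 hm).1, zero_mul, zero_mul]

theorem DNb2_split {K K₁ s t : ℝ} (h1 : 1 ≤ K₁) (hK : K₁ ≤ K) (hs : 0 ≤ s) (hst : t = s + 1 / 4) :
    K₁ ^ t ≤ K ^ s * K₁ ^ (1 / 4 : ℝ) := by
  have h0 : 0 < K₁ := by linarith
  rw [hst, Real.rpow_add h0]
  exact mul_le_mul_of_nonneg_right (Real.rpow_le_rpow h0.le hK hs) (by positivity)

theorem DNb2_piece {K K₁ N X ε : ℝ} (h1 : 1 ≤ K₁) (hK : K₁ ≤ K) (hN : 1 ≤ N) (hKX : K ≤ X)
    (hNX : N ≤ X) (hε : 0 ≤ ε) :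
    (K₁ * N) ^ ε * N ^ (1 / 2 : ℝ) * (K₁ ^ (1 / 3 : ℝ) * N + K₁ + (K₁ * N) ^ (2 / 3 : ℝ)) ≤
      X ^ (2 * ε) * N ^ (1 / 2 : ℝ) *
        (K ^ (1 / 12 : ℝ) * N + K ^ (3 / 4 : ℝ) + K ^ (5 / 12 : ℝ) * N ^ (2 / 3 : ℝ)) *
          K₁ ^ (1 / 4 : ℝ) := by
  have h0 : 0 < K₁ := by linarith
  have hN0 : 0 < N := by linarith
  have hX0 : 0 < X := by linarith
  have hK0 : 0 < K := by linarith
  have e1 : (K₁ * N) ^ ε ≤ X ^ (2 * ε) := by
    rw [Real.rpow_mul hX0.le]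
    refine Real.rpow_le_rpow (by positivity) ?_ hε
    rw [Real.rpow_two, sq]
    exact mul_le_mul (hK.trans hKX) hNX hN0.le hX0.le
  have e2 := DNb2_split h1 hK (s := 1 / 12) (t := 1 / 3) (by norm_num) (by norm_num)
  have e3 := DNb2_split h1 hK (s := 3 / 4) (t := 1) (by norm_num) (by norm_num)
  have e4 := DNb2_split h1 hK (s := 5 / 12) (t := 2 / 3) (by norm_num) (by norm_num)
  rw [Real.rpow_one] at e3
  rw [Real.mul_rpow h0.le hN0.le (z := 2 / 3), mul_assoc (X ^ (2 * ε) * N ^ (1 / 2 : ℝ))]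
  refine mul_le_mul (mul_le_mul_of_nonneg_right e1 (by positivity)) ?_ (by positivity)
    (by positivity)
  have e5 := mul_le_mul_of_nonneg_right e2 hN0.le
  have e6 := mul_le_mul_of_nonneg_right e4 (Real.rpow_nonneg hN0.le (2 / 3))
  linarith

theorem DNb2_num {x t lA lB lY lK lN la lb : ℝ} (ht : 0 ≤ t) (htx : 50000 * t ≤ x)
    (hY : lY ≤ lA) (hK : lK = 4 * t + 2 * lB - lY - 2 * la) (hN : lN ≤ t + lB - la - lb)
    (ha : 0 ≤ la) (hb : 0 ≤ lb) (hab : 50 * t ≤ la + lb) (hB : lB ≤ lA + 25 / 2 * t)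
    (hA : 0.49 * x ≤ lA) (hB' : lB ≤ 0.501 * x) :
    Real.exp (3 / 4 * lY - 1 / 2 * lb + 4 * t + 1 / 2 * lN) *
      (Real.exp (1 / 12 * lK + lN) + Real.exp (3 / 4 * lK) + Real.exp (5 / 12 * lK + 2 / 3 * lN)) ≤
      3 * Real.exp (-(25 / 2 * t) + 2 / 3 * lA + 5 / 3 * lB - la - lb) := by
  rw [mul_add, mul_add, ← Real.exp_add, ← Real.exp_add, ← Real.exp_add]
  have e1 : Real.exp (3 / 4 * lY - 1 / 2 * lb + 4 * t + 1 / 2 * lN + (1 / 12 * lK + lN)) ≤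
      Real.exp (-(25 / 2 * t) + 2 / 3 * lA + 5 / 3 * lB - la - lb) :=
    Real.exp_le_exp.2 (by linarith)
  have e2 : Real.exp (3 / 4 * lY - 1 / 2 * lb + 4 * t + 1 / 2 * lN + 3 / 4 * lK) ≤
      Real.exp (-(25 / 2 * t) + 2 / 3 * lA + 5 / 3 * lB - la - lb) :=
    Real.exp_le_exp.2 (by linarith)
  have e3 : Real.exp (3 / 4 * lY - 1 / 2 * lb + 4 * t + 1 / 2 * lN + (5 / 12 * lK + 2 / 3 * lN)) ≤
      Real.exp (-(25 / 2 * t) + 2 / 3 * lA + 5 / 3 * lB - la - lb) :=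
    Real.exp_le_exp.2 (by linarith)
  linarith

theorem DNb2_log_le {X y s : ℝ} (hX : 0 < X) (hy : 0 < y) (h : y ≤ X ^ s) :
    Real.log y ≤ s * Real.log X := by
  rw [← Real.log_rpow hX]
  exact Real.log_le_log hy h

theorem DNb2_le_log {X y s : ℝ} (hX : 0 < X) (h : X ^ s ≤ y) : s * Real.log X ≤ Real.log y := by
  rw [← Real.log_rpow hX]
  exact Real.log_le_log (by positivity) h

theorem DNb2_num2 {X η A B Y K a b : ℝ} (hX : 2 ≤ X) (h0 : 0 < η) (h1 : η ≤ 1 / 100)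
    (hY0 : 0 < Y) (hY : Y ≤ A) (hB0 : 0 < B) (hK : K = X ^ (η / 125) * B ^ 2 / (Y * a ^ 2))
    (ha : 1 ≤ a) (hb : 1 ≤ b) (h16 : 16 ≤ X ^ (η / 500)) (hab : X ^ (η / 10) ≤ a * b)
    (hB : B ≤ A * X ^ (η / 40)) (hA : X ^ (0.49 : ℝ) ≤ A) (hB' : B ≤ X ^ (0.501 : ℝ)) :
    Y ^ (3 / 4 : ℝ) * b ^ (-1 / 2 : ℝ) * X ^ (η / 125) * (16 * B / (a * b)) ^ (1 / 2 : ℝ) *
      (K ^ (1 / 12 : ℝ) * (16 * B / (a * b)) + K ^ (3 / 4 : ℝ) +
        K ^ (5 / 12 : ℝ) * (16 * B / (a * b)) ^ (2 / 3 : ℝ)) ≤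
      3 * (X ^ (-η / 40) * A ^ (2 / 3 : ℝ) * B ^ (5 / 3 : ℝ) / (a * b)) := by
  have hX0 : 0 < X := by linarith
  have hA0 : 0 < A := by linarith
  have ha0 : 0 < a := by linarith
  have hb0 : 0 < b := by linarith
  have hK0 : 0 < K := by rw [hK]; positivity
  have hx : 0 ≤ Real.log X := Real.log_nonneg (by linarith)
  have hN0 : 0 < 16 * B / (a * b) := by positivity
  have hN : Real.log (16 * B / (a * b)) ≤
      η / 500 * Real.log X + Real.log B - Real.log a - Real.log b := by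
    rw [Real.log_div (by positivity) (by positivity), Real.log_mul (by norm_num) hB0.ne',
      Real.log_mul ha0.ne' hb0.ne']
    linarith [DNb2_log_le hX0 (by norm_num) h16]
  have hK' : Real.log K = 4 * (η / 500 * Real.log X) + 2 * Real.log B - Real.log Y -
      2 * Real.log a := by
    rw [hK, Real.log_div (by positivity) (by positivity), Real.log_mul (by positivity)
      (by positivity), Real.log_mul (by positivity) (by positivity), Real.log_rpow hX0,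
      Real.log_pow, Real.log_pow]
    push_cast
    ring
  have hab' : 50 * (η / 500 * Real.log X) ≤ Real.log a + Real.log b := by
    have := DNb2_le_log hX0 hab
    rw [Real.log_mul ha0.ne' hb0.ne'] at this
    linarith
  have hBA : Real.log B ≤ Real.log A + 25 / 2 * (η / 500 * Real.log X) := by
    have := Real.log_le_log hB0 hB
    rw [Real.log_mul hA0.ne' (by positivity), Real.log_rpow hX0] at this
    linarith
  have key := DNb2_num (x := Real.log X) (t := η / 500 * Real.log X) (by positivity)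
    (by nlinarith) (Real.log_le_log hY0 hY) hK' hN (Real.log_nonneg ha) (Real.log_nonneg hb) hab'
    hBA (DNb2_le_log hX0 hA) (DNb2_log_le hX0 hB0 hB')
  generalize 16 * B / (a * b) = N at hN0 key ⊢
  refine le_trans (le_of_eq ?_) (key.trans (le_of_eq ?_))
  · rw [Real.rpow_def_of_pos hY0, Real.rpow_def_of_pos hb0, Real.rpow_def_of_pos hX0,
      Real.rpow_def_of_pos hN0, Real.rpow_def_of_pos hN0, Real.rpow_def_of_pos hK0,
      Real.rpow_def_of_pos hK0, Real.rpow_def_of_pos hK0, ← Real.exp_add, ← Real.exp_add,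
      ← Real.exp_add, ← Real.exp_add, Real.exp_add (1 / 12 * Real.log K), Real.exp_log hN0]
    ring_nf
  · rw [Real.rpow_def_of_pos hX0, Real.rpow_def_of_pos hA0, Real.rpow_def_of_pos hB0,
      Real.exp_sub, Real.exp_sub, Real.exp_log ha0, Real.exp_log hb0, ← Real.exp_add,
      ← Real.exp_add, div_div]
    ring_nf

theorem DNb2_sum {C X ε M K N : ℝ} {F : O → ℝ} {w : O} (hC : 0 < C) (hε : 0 ≤ ε) (hK : 1 ≤ K)
    (hN : 1 ≤ N) (hKX : K ≤ X) (hNX : N ≤ X) (hF : ∀ k, 0 ≤ F k)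
    (h : ∀ K₁, 1 ≤ K₁ → ∑ k ∈ ball K₁, F k ≤ C * M ^ 2 * (K₁ * N) ^ ε * N ^ (1 / 2 : ℝ) *
      (K₁ ^ (1 / 3 : ℝ) * N + K₁ + (K₁ * N) ^ (2 / 3 : ℝ))) :
    ∑ k ∈ ncb K w, (nm k : ℝ) ^ (-1 / 4 : ℝ) * F k ≤
      4 * (1 + Real.log X) * (C * M ^ 2 * (X ^ (2 * ε) * N ^ (1 / 2 : ℝ) *
        (K ^ (1 / 12 : ℝ) * N + K ^ (3 / 4 : ℝ) + K ^ (5 / 12 : ℝ) * N ^ (2 / 3 : ℝ)))) := by
  have hK0 : 0 < K := by linarith
  have hN0 : 0 < N := by linarith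
  have hX0 : 0 < X := by linarith
  have hM0 : 0 ≤ C * M ^ 2 * (X ^ (2 * ε) * N ^ (1 / 2 : ℝ) *
      (K ^ (1 / 12 : ℝ) * N + K ^ (3 / 4 : ℝ) + K ^ (5 / 12 : ℝ) * N ^ (2 / 3 : ℝ))) := by
    positivity
  refine (dyadic K _ F (ncb K w) hK hM0 (fun k hk => ⟨hF k, (mem_ncb.1 hk).2.1, (mem_ncb.1 hk).1⟩)
    fun K₁ h1 h2 => ?_).trans ?_
  · have hsub : (ncb K w).filter (fun k => (nm k : ℝ) ≤ K₁) ⊆ ball K₁ :=
      fun k hk => mem_ball.2 (Finset.mem_filter.1 hk).2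
    refine (Finset.sum_le_sum_of_subset_of_nonneg hsub fun k _ _ => hF k).trans
      ((h K₁ h1).trans ?_)
    have e := mul_le_mul_of_nonneg_left (DNb2_piece h1 h2 hN hKX hNX hε)
      (show 0 ≤ C * M ^ 2 by positivity)
    refine le_trans (le_of_eq ?_) (e.trans (le_of_eq ?_)) <;> ring
  · refine mul_le_mul_of_nonneg_right ?_ hM0
    linarith [Real.log_le_log hK0 hKX]

theorem DNb2_ev (C : ℝ) (hC : 0 < C) {δ : ℝ} (hδ : 0 < δ) :
    ∀ᶠ X : ℝ in atTop, 12 * (1 + Real.log X) * C ≤ X ^ δ := by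
  filter_upwards [ev_log (24 * C) 1 hδ, Real.tendsto_log_atTop.eventually_ge_atTop 1] with X h1 h2
  rw [pow_one] at h1
  nlinarith

theorem DNb2_fin {S T L C X δ R Z : ℝ} (hX : 0 < X) (hT : 0 ≤ T) (hZ : 0 ≤ Z)
    (hS : S ≤ 4 * L * (C * (X ^ δ) ^ 2 * (X ^ (2 * (δ / 2)) * Z))) (hL : 12 * L * C ≤ X ^ δ)
    (hR : T * X ^ (4 * δ) * Z ≤ 3 * R) : T * S ≤ R := by
  have e : X ^ (4 * δ) = (X ^ δ) ^ 4 := by
    rw [← Real.rpow_natCast, ← Real.rpow_mul hX.le, mul_comm]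
    norm_num
  rw [show 2 * (δ / 2) = δ by ring] at hS
  rw [e] at hR
  have hP : 0 < X ^ δ := by positivity
  generalize X ^ δ = P at *
  have h1 : T * S ≤ T * (4 * L * (C * P ^ 2 * (P * Z))) := mul_le_mul_of_nonneg_left hS hT
  have h2 : (12 * L * C) * (T * P ^ 3 * Z) ≤ P * (T * P ^ 3 * Z) :=
    mul_le_mul_of_nonneg_right hL (by positivity)
  nlinarith

theorem nb_large (h2 : LS2Stmt) {η : ℝ} (h0 : 0 < η) (h1 : η ≤ 1 / 100) : ∀ᶠ X : ℝ in atTop,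
    ∀ (A B u : ℝ) (β : O → ℂ) (d Δ e f : O), Rng η X A B → Supp 16 B β → Bd (X ^ (η / 500)) β →
      d ≠ 0 → nm d ≤ X ^ (η / 500) → Δ ≠ 0 → e ∈ pdiv Δ → X ^ (η / 10) ≤ nm (Δ * f) →
      (A / nm (d ^ 2 * e)) ^ (3 / 4 : ℝ) * ((nm f : ℝ) ^ (-1 / 2 : ℝ) *
        ∑ k ∈ ncb (Kst (X ^ (η / 125)) A B d Δ e) (w0 d Δ e),
          (nm k : ℝ) ^ (-1 / 4 : ℝ) * ‖lf B β (Δ * f) (k * w0 d Δ e) u‖ ^ 2) ≤
        X ^ (-η / 40) * A ^ (2 / 3 : ℝ) * B ^ (5 / 3 : ℝ) / nm (Δ * f) := by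
  have hδ : 0 < η / 500 := by positivity
  obtain ⟨C, hC, hls⟩ := lf_ls2 h2 (half_pos hδ)
  filter_upwards [rng_facts h1, Kst_le_X h0 h1, DNb2_ev C hC hδ, ev_const 16 hδ,
    ev_const 16 (by norm_num : (0 : ℝ) < 0.499)] with X hr hKX hL h16 h16'
  intro A B u β d Δ e f hR hβ hM hd hdX hΔ he hg
  obtain ⟨hX, hr⟩ := hr
  obtain ⟨hA, -, hB, hA1, hB1⟩ := hr A B hR
  have hX0 : 0 < X := by linarith
  have hA0 : 0 < A := by linarith
  have hB0 : 0 < B := by linarith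
  have hg0 : (0 : ℝ) < nm (Δ * f) := lt_of_lt_of_le (by positivity) hg
  have hg' : Δ * f ≠ 0 := by
    intro h
    rw [h] at hg0
    simp at hg0
  have hf : f ≠ 0 := right_ne_zero_of_mul hg'
  have he0 : e ≠ 0 := ((mem_pdiv hΔ).1 he).1.ne_zero
  have hde : (1 : ℝ) ≤ nm (d ^ 2 * e) := one_le_nm (mul_ne_zero (pow_ne_zero 2 hd) he0)
  have hY0 : 0 < A / nm (d ^ 2 * e) := by positivity
  have hrhs : 0 ≤ X ^ (-η / 40) * A ^ (2 / 3 : ℝ) * B ^ (5 / 3 : ℝ) / nm (Δ * f) := by positivity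
  by_cases hN : 1 ≤ 16 * B / nm (Δ * f)
  swap
  · have hz : ∀ m, Sq m → β (Δ * f * m) = 0 := by
      intro m hm
      by_contra h
      have h3 := (hβ _ h).2.2
      rw [nm_mul, Nat.cast_mul] at h3
      refine hN ((one_le_div hg0).2 (le_trans ?_ h3))
      exact le_mul_of_one_le_right hg0.le (one_le_nm (sq_ne hm))
    simp only [DNb2_lf_zero hz, norm_zero, ne_eq, OfNat.ofNat_ne_zero, not_false_eq_true, zero_pow,
      mul_zero, Finset.sum_const_zero]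
    exact hrhs
  by_cases hK : 1 ≤ Kst (X ^ (η / 125)) A B d Δ e
  swap
  · rw [Finset.sum_eq_zero, mul_zero, mul_zero]
    · exact hrhs
    · intro k hk
      exact absurd ((one_le_nm (mem_ncb.1 hk).2.1).trans (mem_ncb.1 hk).1) hK
  have hNX : 16 * B / nm (Δ * f) ≤ X := by
    refine (div_le_self (by positivity) (one_le_nm hg')).trans ?_
    calc 16 * B ≤ X ^ (0.499 : ℝ) * X ^ (0.501 : ℝ) := by gcongr
      _ = X := by
          rw [← Real.rpow_add hX0]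
          norm_num
  have hS := DNb2_sum (w := w0 d Δ e) (F := fun k => ‖lf B β (Δ * f) (k * w0 d Δ e) u‖ ^ 2) hC
    (half_pos hδ).le hK hN (hKX A B d Δ e hR hd hdX hΔ he) hNX (fun k => by positivity)
    fun K₁ hK₁ => hls B _ K₁ u β (Δ * f) (w0 d Δ e) hβ hM hg' hK₁ hN
  have hK0 : 0 < Kst (X ^ (η / 125)) A B d Δ e := by linarith
  rw [nm_mul Δ f, Nat.cast_mul] at hS hg ⊢
  have hn := DNb2_num2 (K := Kst (X ^ (η / 125)) A B d Δ e) hX h0 h1 hY0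
    (div_le_self hA0.le hde) hB0 rfl (one_le_nm hΔ) (one_le_nm hf) h16 hg hR.hi hA hB
  rw [← mul_assoc]
  have ha0 := nm_pos' hΔ
  have hb0 := nm_pos' hf
  rw [mul_assoc (X ^ (2 * (η / 500 / 2)))] at hS
  refine DNb2_fin hX0 (by positivity) (by positivity) hS hL ?_
  rw [show 4 * (η / 500) = η / 125 by ring, ← mul_assoc]
  exact hn

theorem nb (h2 : LS2Stmt) {η : ℝ} (h0 : 0 < η) (h1 : η ≤ 1 / 100) : ∀ᶠ X : ℝ in atTop,
    ∀ (A B u : ℝ) (β : O → ℂ) (d Δ e f : O), Rng η X A B → Supp 16 B β → Bd (X ^ (η / 500)) β →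
      NCH X B (X ^ η * B ^ 2 / A) η β → d ≠ 0 → nm d ≤ X ^ (η / 500) → Δ ≠ 0 → e ∈ pdiv Δ →
      |u| ≤ X ^ (0.18 : ℝ) →
      (A / nm (d ^ 2 * e)) ^ (3 / 4 : ℝ) * ((nm f : ℝ) ^ (-1 / 2 : ℝ) *
        ∑ k ∈ ncb (Kst (X ^ (η / 125)) A B d Δ e) (w0 d Δ e),
          (nm k : ℝ) ^ (-1 / 4 : ℝ) * ‖lf B β (Δ * f) (k * w0 d Δ e) u‖ ^ 2) ≤
        X ^ (-η / 40) * A ^ (2 / 3 : ℝ) * B ^ (5 / 3 : ℝ) / nm (Δ * f) := by
  filter_upwards [rng_facts h1, nb_large h2 h0 h1, nb_small h0 h1] with X hr hl hs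
  intro A B u β d Δ e f hR hβ hM hnc hd hdX hΔ he hu
  rcases le_total (X ^ (η / 10)) (nm (Δ * f) : ℝ) with h | h
  · exact hl A B u β d Δ e f hR hβ hM hd hdX hΔ he h
  by_cases hq : Sq (Δ * f)
  · exact hs A B u β d Δ e f hR hnc hd hdX hΔ he hq h hu
  obtain ⟨hX, hr⟩ := hr
  obtain ⟨-, -, -, hA1, hB1⟩ := hr A B hR
  have hz : ∀ m, Sq m → β (Δ * f * m) = 0 := by
    intro m hm
    by_contra h'
    exact hq (sq_left (hβ _ h').1 hm.1)
  simp only [DNb2_lf_zero hz, norm_zero, ne_eq, OfNat.ofNat_ne_zero, not_false_eq_true, zero_pow,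
    mul_zero, Finset.sum_const_zero]
  have hX0 : 0 < X := by linarith
  have hA0 : 0 < A := by linarith
  have hB0 : 0 < B := by linarith
  positivity

end Vale.Agent.P006.D
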