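import Vale.Agent.P006.DKer

/-! D-Sep: separation of the variables in the non-cube terms.
Plans. `sep_alg` (cf. `dual_alg` in `P026/PSTwo.lean`): `ind_coprime` for `m₁`, written as a sum over `f ∈ qball` (`pdiv_subset`); `∑_m ind (f ∣ m) H m = ∑_n H (f n)` when
`H m ≠ 0 → m ∈ qball` (bijection `n ↦ f n`); with `m = f n` the sums become `(unimodular) * cub n₀ f * np f (-1/4 ± ..) * lf B β (Δ f) n₀ (t ± τ)`
(`nt_mul`, `np_mul`, `np_add`, `np_I`, `cub_mul_right`, `conj_np`); `|x y| ≤ |x|² + |y|²`.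
`Dk_le`: `shp_rep`; `ξ^{-s}/√Nq = (c0² Y N k/9)^{-s} np m₁ (s - 1/2) np m₂ (s - 1/2)`, `s = 1/4 + τ I`, `c0²/9 ≥ 1`; `integral_finsetSum`, `norm_integral_le_of_norm_le`.
`sep_sum`: `Qf` is continuous in `u`; `integral_finsetSum`; bound the integrand by `2 M + 2 M' 1[T₀ < |τ|]`; `gauss_moment 0`, `gauss_tail`. -/

namespace Vale.Agent.P006.D

open Vale.Agent.P026 Filter MeasureTheory
open scoped ComplexConjugate Real

theorem DSep_cont_np {m : O} (hm : m ≠ 0) :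
    Continuous fun u : ℝ => np m (-1 / 4 + Complex.I * u) := by
  have h0 : (nm m : ℂ) ≠ 0 := Nat.cast_ne_zero.2 (nm_pos hm).ne'
  unfold np
  exact Continuous.const_cpow (by fun_prop) (Or.inl h0)

theorem DSep_norm_np {m : O} (hm : m ≠ 0) (u : ℝ) :
    ‖np m (-1 / 4 + Complex.I * u)‖ = (nm m : ℝ) ^ (-1 / 4 : ℝ) := by
  rw [norm_np hm]
  congr 1
  simp

theorem continuous_Qf (B : ℝ) (β : O → ℂ) (Δ n : O) : Continuous (Qf B β Δ n) := by
  unfold Qf lf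
  refine continuous_finsetSum _ fun f _ => continuous_const.mul (Continuous.pow ?_ 2)
  refine Continuous.norm (continuous_finsetSum _ fun m hm => continuous_const.mul ?_)
  exact DSep_cont_np (sq_ne (mem_qball.1 hm).1)

theorem Qf_nonneg (B : ℝ) (β : O → ℂ) (Δ n : O) (u : ℝ) : 0 ≤ Qf B β Δ n u :=
  Finset.sum_nonneg fun _ _ => by positivity

theorem DSep_ind {Z : ℝ} {m₁ : O} (h1 : m₁ ∈ qball Z) (m₂ : O) :
    ind (IsCoprime m₁ m₂) = ∑ f ∈ qball Z, mu f * (ind (f ∣ m₁) * ind (f ∣ m₂)) := by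
  have hq := (mem_qball.1 h1).1
  have h0 := sq_ne hq
  rw [show ind (IsCoprime m₁ m₂) = ind (IsCoprime m₂ m₁) by rw [isCoprime_comm],
    ind_coprime hq.1]
  symm
  rw [← Finset.sum_subset (pdiv_subset h1)]
  · refine Finset.sum_congr rfl fun e he => ?_
    rw [ind_of ((mem_pdiv h0).1 he).2, one_mul]
  · intro f hf hf'
    rw [mem_pdiv h0] at hf'
    rw [ind_of_not (p := f ∣ m₁) fun h => hf' ⟨(mem_qball.1 hf).1.1, h⟩]
    simp

theorem DSep_reidx {B : ℝ} {β : O → ℂ} (hβ : Supp 16 B β) (Δ : O) {f : O} (hf : Sq f) (n : O)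
    (u : ℝ) :
    ∑ m ∈ qball (16 * B), ind (f ∣ m) * (β (Δ * m) * cub n m * np m (-1 / 4 + Complex.I * u)) =
      cub n f * np f (-1 / 4 + Complex.I * u) * lf B β (Δ * f) n u := by
  have hf0 := sq_ne hf
  have e1 : cub n f * np f (-1 / 4 + Complex.I * u) * lf B β (Δ * f) n u =
      ∑ m ∈ qball (16 * B), ind (f ∣ f * m) *
        (β (Δ * (f * m)) * cub n (f * m) * np (f * m) (-1 / 4 + Complex.I * u)) := by
    rw [lf, Finset.mul_sum]
    refine Finset.sum_congr rfl fun m hm => ?_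
    rw [ind_of (dvd_mul_right f m), cub_mul_right hf0 (sq_ne (mem_qball.1 hm).1), np_mul,
      mul_assoc Δ f m]
    ring
  rw [e1]
  symm
  refine Finset.sum_bij_ne_zero (fun m _ _ => f * m) ?_ ?_ ?_ ?_
  · intro m hm h
    have h1 : β (Δ * (f * m)) ≠ 0 := fun e => h (by rw [e]; ring)
    have h2 := supp_mem hβ _ h1
    exact pdiv_subset h2 ((mem_pdiv (sq_ne (mem_qball.1 h2).1)).2
      ⟨hf.1.mul (mem_qball.1 hm).1.1, dvd_mul_left _ _⟩)
  · intro a _ _ b _ _ h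
    exact mul_left_cancel₀ hf0 h
  · intro m hm h
    have h1 : f ∣ m := by
      by_contra h1
      exact h (by rw [ind_of_not h1, zero_mul])
    obtain ⟨a, rfl⟩ := h1
    have hq := (mem_qball.1 hm).1
    exact ⟨a, pdiv_subset hm ((mem_pdiv (sq_ne hq)).2 ⟨hf.1.of_mul hq.1, dvd_mul_left _ _⟩), h,
      rfl⟩
  · intro a _ _
    rfl

theorem DSep_nt {m : O} (hm : m ≠ 0) (t τ : ℝ) :
    nt m t * np m (-1 / 4 + Complex.I * τ) = np m (-1 / 4 + Complex.I * (t + τ : ℝ)) := by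
  rw [← np_I hm, ← np_add hm]
  congr 1
  push_cast
  ring

theorem DSep_nt' {m : O} (hm : m ≠ 0) (t τ : ℝ) :
    conj (nt m t) * np m (-1 / 4 + Complex.I * τ) =
      conj (np m (-1 / 4 + Complex.I * (t - τ : ℝ))) := by
  rw [conj_nt, DSep_nt hm, conj_np]
  congr 1
  simp only [map_add, map_mul, map_div₀, map_neg, map_one, map_ofNat, Complex.conj_I,
    Complex.conj_ofReal]
  push_cast
  ring

theorem sep_alg {B : ℝ} {β : O → ℂ} (hβ : Supp 16 B β) {Δ : O} (hΔ : Sq Δ) (n : O) (t τ : ℝ) :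
    ‖∑ m₁ ∈ qball (16 * B), ∑ m₂ ∈ qball (16 * B), ind (IsCoprime m₁ m₂) *
        (β (Δ * m₁) * nt (Δ * m₁) t * conj (β (Δ * m₂) * nt (Δ * m₂) t)) *
        (cub n m₁ * conj (cub n m₂) *
          (np m₁ (-1 / 4 + Complex.I * τ) * np m₂ (-1 / 4 + Complex.I * τ)))‖ ≤
      Qf B β Δ n (t + τ) + Qf B β Δ n (t - τ) := by
  have hΔ0 := sq_ne hΔ
  obtain ⟨H, hH⟩ : ∃ H : ℝ → O → ℂ, ∀ u m,
      H u m = β (Δ * m) * cub n m * np m (-1 / 4 + Complex.I * u) := ⟨_, fun _ _ => rfl⟩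
  have e1 : ∑ m₁ ∈ qball (16 * B), ∑ m₂ ∈ qball (16 * B), ind (IsCoprime m₁ m₂) *
        (β (Δ * m₁) * nt (Δ * m₁) t * conj (β (Δ * m₂) * nt (Δ * m₂) t)) *
        (cub n m₁ * conj (cub n m₂) *
          (np m₁ (-1 / 4 + Complex.I * τ) * np m₂ (-1 / 4 + Complex.I * τ))) =
      ∑ f ∈ qball (16 * B), mu f * ((∑ m ∈ qball (16 * B), ind (f ∣ m) * H (t + τ) m) *
        conj (∑ m ∈ qball (16 * B), ind (f ∣ m) * H (t - τ) m)) := by
    simp only [map_sum, Finset.sum_mul_sum]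
    simp only [Finset.mul_sum]
    symm
    rw [Finset.sum_comm]
    refine Finset.sum_congr rfl fun m₁ h1 => ?_
    rw [Finset.sum_comm]
    refine Finset.sum_congr rfl fun m₂ h2 => ?_
    have h10 := sq_ne (mem_qball.1 h1).1
    have h20 := sq_ne (mem_qball.1 h2).1
    have e0 : nt Δ t * conj (nt Δ t) = 1 := by
      rw [Complex.mul_conj, Complex.normSq_eq_norm_sq, norm_nt]
      simp
    have e2 : β (Δ * m₁) * nt (Δ * m₁) t * conj (β (Δ * m₂) * nt (Δ * m₂) t) *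
        (cub n m₁ * conj (cub n m₂) *
          (np m₁ (-1 / 4 + Complex.I * τ) * np m₂ (-1 / 4 + Complex.I * τ))) =
        H (t + τ) m₁ * conj (H (t - τ) m₂) := by
      rw [hH, hH, nt_mul hΔ0 h10, nt_mul hΔ0 h20]
      simp only [map_mul]
      rw [← DSep_nt h10, ← DSep_nt' h20]
      linear_combination (β (Δ * m₁) * nt m₁ t * conj (β (Δ * m₂)) * conj (nt m₂ t) * cub n m₁ *
        conj (cub n m₂) * np m₁ (-1 / 4 + Complex.I * τ) * np m₂ (-1 / 4 + Complex.I * τ)) * e0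
    rw [mul_assoc (ind _), e2, DSep_ind h1, Finset.sum_mul]
    refine Finset.sum_congr rfl fun f _ => ?_
    rw [map_mul, conj_ind]
    ring
  rw [e1, Qf, Qf, ← Finset.sum_add_distrib]
  refine (norm_sum_le _ _).trans (Finset.sum_le_sum fun f hf => ?_)
  have hq := (mem_qball.1 hf).1
  have hf0 := sq_ne hq
  have hN := nm_pos' hf0
  have e3 : ∀ u, ‖∑ m ∈ qball (16 * B), ind (f ∣ m) * H u m‖ ≤
      (nm f : ℝ) ^ (-1 / 4 : ℝ) * ‖lf B β (Δ * f) n u‖ := fun u => by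
    simp only [hH]
    rw [DSep_reidx hβ Δ hq, norm_mul, norm_mul, DSep_norm_np hf0]
    exact mul_le_mul_of_nonneg_right
      (mul_le_of_le_one_left (by positivity) (norm_cub_le n f)) (norm_nonneg _)
  have e4 : (nm f : ℝ) ^ (-1 / 2 : ℝ) = (nm f : ℝ) ^ (-1 / 4 : ℝ) * (nm f : ℝ) ^ (-1 / 4 : ℝ) := by
    rw [← Real.rpow_add hN]
    norm_num
  rw [norm_mul, norm_mul, Complex.norm_conj]
  refine (mul_le_of_le_one_left (by positivity) (norm_mu_le f)).trans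
    ((mul_le_mul (e3 _) (e3 _) (norm_nonneg _) (by positivity)).trans ?_)
  rw [e4]
  generalize (nm f : ℝ) ^ (-1 / 4 : ℝ) = r
  generalize ‖lf B β (Δ * f) n (t + τ)‖ = x
  generalize ‖lf B β (Δ * f) n (t - τ)‖ = y
  nlinarith [sq_nonneg (r * x - r * y), sq_nonneg (r * x), sq_nonneg (r * y)]

theorem DSep_cpow {x : ℝ} (hx : 0 < x) (z : ℂ) :
    (x : ℂ) ^ z = Complex.exp (Real.log x * z) := by
  rw [Complex.cpow_def_of_ne_zero (by exact_mod_cast hx.ne'), Complex.ofReal_log hx.le]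

theorem DSep_pow {y : ℝ} (hy : 0 < y) {a b : O} (ha : a ≠ 0) (hb : b ≠ 0) (τ : ℝ) :
    ((y / nm (a * b) : ℝ) : ℂ) ^ (-((1 / 4 : ℝ) + τ * Complex.I)) / (√(nm (a * b)) : ℝ) =
      (y : ℂ) ^ (-((1 / 4 : ℝ) + τ * Complex.I)) *
        (np a (-1 / 4 + Complex.I * τ) * np b (-1 / 4 + Complex.I * τ)) := by
  have h1 := nm_pos' ha
  have h2 := nm_pos' hb
  have e1 : √(nm (a * b) : ℝ) = Real.exp ((Real.log (nm a) + Real.log (nm b)) / 2) := by
    rw [Real.exp_half, Real.exp_add, Real.exp_log h1, Real.exp_log h2, nm_mul, Nat.cast_mul]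
  rw [e1, np, np, ← Complex.ofReal_natCast, ← Complex.ofReal_natCast, DSep_cpow h1, DSep_cpow h2,
    DSep_cpow hy, nm_mul, Nat.cast_mul, DSep_cpow (by positivity),
    Real.log_div hy.ne' (by positivity), Real.log_mul h1.ne' h2.ne', Complex.ofReal_exp,
    ← Complex.exp_sub, ← Complex.exp_add, ← Complex.exp_add]
  congr 1
  push_cast
  ring

theorem DSep_c0 : 1 ≤ c0 ^ 2 / 9 := by
  have h3 : (√3 : ℝ) ^ 2 = 3 := Real.sq_sqrt (by norm_num)
  rw [c0, div_pow, h3, div_div, one_le_div (by norm_num)]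
  nlinarith [Real.pi_gt_three]

theorem DSep_rep {L Y B t : ℝ} {β : O → ℂ} {Δ : O} (w : O) {k : O} {ω : ℝ → ℂ} (hY : 0 < Y)
    (hβ : Supp 16 B β) (hΔ : Sq Δ) (hk : k ≠ 0) (hω : Integrable ω)
    (hr : ∀ ξ : ℝ, 0 < ξ → shp (Gm L) ξ =
      ∫ τ : ℝ, ω τ * (ξ : ℂ) ^ (-((1 / 4 : ℝ) + τ * Complex.I))) :
    ∃ F : ℝ → ℂ, Integrable F ∧ Dk L Y (16 * B) (fun b => β b * nt b t) Δ w k = ∫ τ, F τ ∧
      ∀ τ, ‖F τ‖ ≤ ‖ω τ‖ * Y ^ (-1 / 4 : ℝ) * ((nm k : ℝ) ^ (-1 / 4 : ℝ) * Qf B β Δ (k * w) (t + τ) +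
        (nm k : ℝ) ^ (-1 / 4 : ℝ) * Qf B β Δ (k * w) (t - τ)) := by
  have hN := nm_pos' hk
  have hc := DSep_c0
  obtain ⟨y, hy⟩ : ∃ y : ℝ, y = c0 ^ 2 / 9 * (Y * nm k) := ⟨_, rfl⟩
  have hy0 : 0 < y := by rw [hy]; positivity
  obtain ⟨E, hE⟩ : ∃ E : ℝ → ℂ, ∀ τ, E τ = eq k 3 * (y : ℂ) ^ (-((1 / 4 : ℝ) + τ * Complex.I)) :=
    ⟨_, fun _ => rfl⟩
  have hE1 : ∀ τ, ‖E τ‖ = y ^ (-1 / 4 : ℝ) := fun τ => by
    rw [hE, norm_mul, norm_eq, one_mul, Complex.norm_cpow_eq_rpow_re_of_pos hy0]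
    congr 1
    simp
    norm_num
  have hEc : Continuous E := by
    rw [funext hE]
    exact continuous_const.mul (Continuous.const_cpow (by fun_prop)
      (Or.inl (by exact_mod_cast hy0.ne')))
  obtain ⟨a, ha⟩ : ∃ a : O → O → ℂ, ∀ m₁ m₂, a m₁ m₂ = ind (IsCoprime m₁ m₂) *
      (β (Δ * m₁) * nt (Δ * m₁) t * conj (β (Δ * m₂) * nt (Δ * m₂) t)) := ⟨_, fun _ _ => rfl⟩
  obtain ⟨G, hG⟩ : ∃ G : O → O → ℝ → ℂ, ∀ m₁ m₂ τ, G m₁ m₂ τ = ω τ * (E τ * (a m₁ m₂ *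
      (cub (k * w) m₁ * conj (cub (k * w) m₂) *
        (np m₁ (-1 / 4 + Complex.I * τ) * np m₂ (-1 / 4 + Complex.I * τ))))) :=
    ⟨_, fun _ _ _ => rfl⟩
  have hi : ∀ m₁ ∈ qball (16 * B), ∀ m₂ ∈ qball (16 * B), Integrable (G m₁ m₂) := by
    intro m₁ h1 m₂ h2
    have h10 := sq_ne (mem_qball.1 h1).1
    have h20 := sq_ne (mem_qball.1 h2).1
    rw [funext (hG m₁ m₂)]
    refine hω.mul_bdd (c := y ^ (-1 / 4 : ℝ) * (‖a m₁ m₂‖ *
      (‖cub (k * w) m₁ * conj (cub (k * w) m₂)‖ *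
        ((nm m₁ : ℝ) ^ (-1 / 4 : ℝ) * (nm m₂ : ℝ) ^ (-1 / 4 : ℝ)))))
      (hEc.mul (continuous_const.mul (continuous_const.mul
        ((DSep_cont_np h10).mul (DSep_cont_np h20))))).aestronglyMeasurable
      (Eventually.of_forall fun τ => le_of_eq ?_)
    rw [norm_mul, norm_mul, norm_mul, norm_mul (np _ _), hE1, DSep_norm_np h10, DSep_norm_np h20]
  refine ⟨fun τ => ∑ m₁ ∈ qball (16 * B), ∑ m₂ ∈ qball (16 * B), G m₁ m₂ τ,
    integrable_finsetSum _ fun m₁ h1 => integrable_finsetSum _ (hi m₁ h1), ?_, fun τ => ?_⟩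
  · rw [integral_finsetSum _ fun m₁ h1 => integrable_finsetSum _ (hi m₁ h1), Dk]
    refine Finset.sum_congr rfl fun m₁ h1 => ?_
    rw [integral_finsetSum _ (hi m₁ h1)]
    refine Finset.sum_congr rfl fun m₂ h2 => ?_
    have h10 := sq_ne (mem_qball.1 h1).1
    have h20 := sq_ne (mem_qball.1 h2).1
    have h12 := nm_pos' (mul_ne_zero h10 h20)
    have e1 : c0 ^ 2 * Y * nm k / (9 * nm (m₁ * m₂)) = y / nm (m₁ * m₂) := by
      rw [hy]
      field_simp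
    rw [← ha, kt, e1, hr _ (by positivity), ← integral_const_mul, ← integral_const_mul]
    refine integral_congr_ae (Eventually.of_forall fun τ => ?_)
    have e2 := DSep_pow hy0 h10 h20 τ
    simp only [hG, hE]
    linear_combination (a m₁ m₂ * eq k 3 * (cub (k * w) m₁ * conj (cub (k * w) m₂)) * ω τ) * e2
  · have e3 : y ^ (-1 / 4 : ℝ) ≤ Y ^ (-1 / 4 : ℝ) * (nm k : ℝ) ^ (-1 / 4 : ℝ) := by
      rw [← Real.mul_rpow hY.le hN.le]
      refine Real.rpow_le_rpow_of_nonpos (by positivity) ?_ (by norm_num)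
      rw [hy]
      exact le_mul_of_one_le_left (by positivity) hc
    simp only [hG, ← Finset.mul_sum]
    simp only [ha]
    rw [norm_mul, norm_mul, hE1]
    refine (mul_le_mul_of_nonneg_left (mul_le_mul e3 (sep_alg hβ hΔ (k * w) t τ) (norm_nonneg _)
      (by positivity)) (norm_nonneg _)).trans_eq ?_
    ring

theorem sep_sum : ∃ C : ℝ, 0 < C ∧ ∀ (L Y B t T₀ M M' : ℝ) (β : O → ℂ) (Δ w : O) (s : Finset O),
    1 ≤ L → 0 < Y → 0 ≤ T₀ → Supp 16 B β → Sq Δ → 0 ∉ s →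
    (∀ u, |u - t| ≤ T₀ → ∑ k ∈ s, (nm k : ℝ) ^ (-1 / 4 : ℝ) * Qf B β Δ (k * w) u ≤ M) →
    (∀ u, ∑ k ∈ s, (nm k : ℝ) ^ (-1 / 4 : ℝ) * Qf B β Δ (k * w) u ≤ M') →
    ∑ k ∈ s, ‖Dk L Y (16 * B) (fun b => β b * nt b t) Δ w k‖ ≤
      C * Y ^ (-1 / 4 : ℝ) * (M + M' * Real.exp (-(1 / 8 * T₀ ^ 2 / L ^ 2))) := by
  obtain ⟨C, hC, hrep⟩ := shp_rep
  obtain ⟨C₁, hC₁, hm⟩ := gauss_moment 0 (by norm_num : (0 : ℝ) < 1 / 4)
  obtain ⟨C₂, hC₂, ht⟩ := gauss_tail (by norm_num : (0 : ℝ) < 1 / 4)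
  refine ⟨2 * C * (C₁ + C₂), by positivity,
    fun L Y B t T₀ M M' β Δ w s hL hY hT hβ hΔ hs hM hM' => ?_⟩
  obtain ⟨ω, hωc, hωb, hr⟩ := hrep L hL
  have hL0 : 0 < L := by linarith
  obtain ⟨g, hg⟩ : ∃ g : ℝ → ℝ, g = fun τ => Real.exp (-(1 / 4 * τ ^ 2 / L ^ 2)) := ⟨_, rfl⟩
  obtain ⟨hgi, hgb⟩ := hm L hL
  simp only [pow_zero, one_mul, zero_add, pow_one] at hgi hgb
  have htb := ht L T₀ hL0 hT
  rw [← hg] at hgi hgb htb
  have hg0 : ∀ τ, 0 ≤ g τ := fun τ => by rw [hg]; positivity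
  have hωb' : ∀ τ, ‖ω τ‖ ≤ C / L * g τ := fun τ => by rw [hg]; exact hωb τ
  have hωi : Integrable ω :=
    (hgi.const_mul (C / L)).mono' hωc.aestronglyMeasurable (Eventually.of_forall hωb')
  have hS0 : ∀ u, 0 ≤ ∑ k ∈ s, (nm k : ℝ) ^ (-1 / 4 : ℝ) * Qf B β Δ (k * w) u := fun u =>
    Finset.sum_nonneg fun k _ => mul_nonneg (by positivity) (Qf_nonneg _ _ _ _ _)
  have hM0 : 0 ≤ M := (hS0 t).trans (hM t (by simpa using hT))
  have hM0' : 0 ≤ M' := (hS0 t).trans (hM' t)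
  have hU : MeasurableSet {τ : ℝ | T₀ < |τ|} :=
    (isOpen_lt continuous_const continuous_abs).measurableSet
  have hF : ∀ k : O, ∃ F : ℝ → ℂ, k ∈ s → (Integrable F ∧
      Dk L Y (16 * B) (fun b => β b * nt b t) Δ w k = ∫ τ, F τ ∧
      ∀ τ, ‖F τ‖ ≤ ‖ω τ‖ * Y ^ (-1 / 4 : ℝ) * ((nm k : ℝ) ^ (-1 / 4 : ℝ) * Qf B β Δ (k * w) (t + τ) +
        (nm k : ℝ) ^ (-1 / 4 : ℝ) * Qf B β Δ (k * w) (t - τ))) := fun k => by
    by_cases hk : k ∈ s
    · obtain ⟨F, hF⟩ := DSep_rep (t := t) w hY hβ hΔ (fun e : k = 0 => hs (e ▸ hk)) hωi hr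
      exact ⟨F, fun _ => hF⟩
    · exact ⟨0, fun h => absurd h hk⟩
  choose F hF using hF
  obtain ⟨K, hK⟩ : ∃ K : ℝ, K = C / L * Y ^ (-1 / 4 : ℝ) := ⟨_, rfl⟩
  have hK0 : 0 ≤ K := by rw [hK]; positivity
  have hI := hgi.indicator hU
  calc _ ≤ ∑ k ∈ s, ∫ τ, ‖F k τ‖ := by
        refine Finset.sum_le_sum fun k hk => ?_
        rw [(hF k hk).2.1]
        exact norm_integral_le_integral_norm _
    _ = ∫ τ, ∑ k ∈ s, ‖F k τ‖ := (integral_finsetSum _ fun k hk => (hF k hk).1.norm).symm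
    _ ≤ ∫ τ, (K * (2 * M) * g τ + K * (2 * M') * {τ : ℝ | T₀ < |τ|}.indicator g τ) := by
        refine integral_mono (integrable_finsetSum _ fun k hk => (hF k hk).1.norm)
          ((hgi.const_mul _).add (hI.const_mul _)) fun τ => ?_
        refine (Finset.sum_le_sum fun k hk => (hF k hk).2.2 τ).trans ?_
        rw [← Finset.mul_sum, Finset.sum_add_distrib]
        have e1 : ‖ω τ‖ * Y ^ (-1 / 4 : ℝ) ≤ K * g τ := by
          rw [hK, mul_right_comm]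
          exact mul_le_mul_of_nonneg_right (hωb' τ) (by positivity)
        refine (mul_le_mul_of_nonneg_right e1 (add_nonneg (hS0 _) (hS0 _))).trans ?_
        have hKg := mul_nonneg hK0 (hg0 τ)
        by_cases hτ : T₀ < |τ|
        · have e2 := add_le_add (hM' (t + τ)) (hM' (t - τ))
          have e3 := mul_le_mul_of_nonneg_left e2 hKg
          have e4 := mul_nonneg hKg hM0
          simp only [Set.indicator_of_mem (show τ ∈ {τ : ℝ | T₀ < |τ|} from hτ)]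
          nlinarith
        · have e2 := add_le_add (hM (t + τ) (by simpa using hτ)) (hM (t - τ) (by simpa using hτ))
          have e3 := mul_le_mul_of_nonneg_left e2 hKg
          simp only [Set.indicator_of_notMem (show τ ∉ {τ : ℝ | T₀ < |τ|} from hτ)]
          nlinarith
    _ = K * (2 * M) * (∫ τ, g τ) + K * (2 * M') * ∫ τ in {τ : ℝ | T₀ < |τ|}, g τ := by
        rw [integral_add (hgi.const_mul _) (hI.const_mul _), integral_const_mul,
          integral_const_mul, integral_indicator hU]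
    _ ≤ K * (2 * M) * ((C₁ + C₂) * L) +
          K * (2 * M') * ((C₁ + C₂) * L * Real.exp (-(1 / 8 * T₀ ^ 2 / L ^ 2))) := by
        refine add_le_add (mul_le_mul_of_nonneg_left (hgb.trans ?_) (by positivity))
          (mul_le_mul_of_nonneg_left (htb.trans ?_) (by positivity))
        · exact mul_le_mul_of_nonneg_right (by linarith) hL0.le
        · rw [show (1 / 4 / 2 : ℝ) = 1 / 8 by norm_num]
          exact mul_le_mul_of_nonneg_right (mul_le_mul_of_nonneg_right (by linarith) hL0.le)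
            (Real.exp_pos _).le
    _ = _ := by
        rw [hK]
        field_simp

end Vale.Agent.P006.D
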