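import Vale.Agent.P006.DLat

/-! D-Nb1: non-cubes, small common factor.  Write `δ = η/500`, `Y = A / N(d² e) ≤ A`, `K = Kst`, `Y K = X^{4δ} B² / NΔ²`.
Plans. `Kst_le`: `N e ≤ NΔ ≤ NΔ²`.  `nb_small`: if `K < 1` the sum is empty.  Otherwise `dyadic` with `M = X^{-η} K^{1/12} B^{3/2}` (`K₁^{1/3} ≤ K^{1/12} K₁^{1/4}`;
`(ncb K w).filter (N ≤ K₁) = ncb K₁ w`), `N w₀ ≤ X^{201 δ} ≤ X^η`, `K ≤ X^η B²/A`, `4 (1 + log K) ≤ X^δ` (`K ≤ X`, `ev_log`),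
`Y^{3/4} K^{1/12} = Y^{2/3} (Y K)^{1/12} ≤ A^{2/3} X^{δ/3} B^{1/6}`.  It is convenient to compare logarithms. -/

namespace Vale.Agent.P006.D

open Vale.Agent.P026 Filter MeasureTheory
open scoped ComplexConjugate Real

theorem Kst_le {P A B D : ℝ} (hP : 0 ≤ P) (hA : 0 < A) {d Δ e : O} (hd : d ≠ 0) (hD : nm d ≤ D)
    (hΔ : Δ ≠ 0) (he : e ∈ pdiv Δ) : Kst P A B d Δ e ≤ P * D ^ 2 * B ^ 2 / A := by
  have h1 := nm_pos' hd
  have h2 : (1 : ℝ) ≤ nm Δ := one_le_nm hΔ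
  rw [mem_pdiv hΔ] at he
  have h3 := nm_pos' he.1.ne_zero
  have h4 : (nm e : ℝ) ≤ nm Δ := by exact_mod_cast nm_le_of_dvd hΔ he.2
  have h5 : (nm e : ℝ) / (nm Δ : ℝ) ^ 2 ≤ 1 := by
    rw [div_le_one (by positivity)]
    nlinarith
  have e1 : Kst P A B d Δ e = P * (nm d : ℝ) ^ 2 * B ^ 2 / A * (nm e / (nm Δ : ℝ) ^ 2) := by
    rw [Kst, nm_mul, nm_pow]
    push_cast
    field_simp
  rw [e1]
  refine (mul_le_of_le_one_right (by positivity) h5).trans ?_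
  gcongr

theorem DNb1_Kst {η X A B : ℝ} (h0 : 0 < η) (hX : 1 ≤ X) (hA : 0 < A) {d Δ e : O} (hd : d ≠ 0)
    (hD : nm d ≤ X ^ (η / 500)) (hΔ : Δ ≠ 0) (he : e ∈ pdiv Δ) :
    Kst (X ^ (η / 125)) A B d Δ e ≤ X ^ η * B ^ 2 / A := by
  have hX0 : 0 < X := zero_lt_one.trans_le hX
  refine (Kst_le (by positivity) hA hd hD hΔ he).trans ?_
  rw [sq, ← Real.rpow_add hX0, ← Real.rpow_add hX0]
  gcongr
  linarith

theorem Kst_le_X {η : ℝ} (h0 : 0 < η) (h1 : η ≤ 1 / 100) : ∀ᶠ X : ℝ in atTop,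
    ∀ (A B : ℝ) (d Δ e : O), Rng η X A B → d ≠ 0 → nm d ≤ X ^ (η / 500) → Δ ≠ 0 → e ∈ pdiv Δ →
      Kst (X ^ (η / 125)) A B d Δ e ≤ X := by
  filter_upwards [rng_facts h1] with X hX A B d Δ e hr hd hD hΔ he
  obtain ⟨a1, -, a3, a4, a5⟩ := hX.2 A B hr
  have hX1 : 1 ≤ X := by linarith [hX.1]
  have hX0 : 0 < X := by linarith
  refine (DNb1_Kst h0 hX1 (by linarith) hd hD hΔ he).trans ?_
  rw [div_le_iff₀ (by linarith)]
  calc X ^ η * B ^ 2 ≤ X ^ (0.01 : ℝ) * (X ^ (0.501 : ℝ)) ^ 2 := by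
        gcongr
        linarith
    _ ≤ X ^ (1 : ℝ) * X ^ (0.49 : ℝ) := by
        rw [sq, ← Real.rpow_add hX0, ← Real.rpow_add hX0, ← Real.rpow_add hX0]
        exact Real.rpow_le_rpow_of_exponent_le hX1 (by norm_num)
    _ ≤ X * A := by
        rw [Real.rpow_one]
        gcongr

theorem DNb1_w0 {η X : ℝ} (h0 : 0 < η) (hX : 1 ≤ X) {d Δ e : O} (hD : nm d ≤ X ^ (η / 500))
    (hΔ : Δ ≠ 0) (he : Prim e ∧ e ∣ Δ) (h : nm Δ ≤ X ^ (η / 10)) : nm (w0 d Δ e) ≤ X ^ η := by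
  have hX0 : 0 < X := zero_lt_one.trans_le hX
  have h4 : (nm e : ℝ) ≤ X ^ (η / 10) := le_trans (by exact_mod_cast nm_le_of_dvd hΔ he.2) h
  rw [w0, nm_mul, nm_mul, nm_pow, nm_pow]
  push_cast
  calc (nm d : ℝ) * (nm Δ : ℝ) ^ 2 * (nm e : ℝ) ^ 2 ≤
        X ^ (η / 500) * (X ^ (η / 10)) ^ 2 * (X ^ (η / 10)) ^ 2 := by gcongr
    _ ≤ X ^ η := by
        rw [sq, ← Real.rpow_add hX0, ← Real.rpow_add hX0, ← Real.rpow_add hX0]
        exact Real.rpow_le_rpow_of_exponent_le hX (by linarith)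

theorem DNb1_num {η X A B Y K N : ℝ} (h0 : 0 < η) (hX : 1 ≤ X) (hB : 0 < B) (hY : 0 < Y)
    (hK : 0 < K) (hN : 0 < N) (hYA : Y ≤ A) (hYK : Y * K ≤ X ^ (η / 125) * B ^ 2)
    (hNX : N ≤ X ^ (η / 10)) :
    Y ^ (3 / 4 : ℝ) * (X ^ (η / 500) * (X ^ (-η) * K ^ (1 / 12 : ℝ) * B ^ (3 / 2 : ℝ))) ≤
      X ^ (-η / 40) * A ^ (2 / 3 : ℝ) * B ^ (5 / 3 : ℝ) / N := by
  have hX0 : 0 < X := zero_lt_one.trans_le hX
  have hA : 0 < A := hY.trans_le hYA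
  have a1 := Real.log_le_log hY hYA
  have a2 := Real.log_le_log (by positivity) hYK
  have a3 := Real.log_le_log hN hNX
  have a4 := mul_nonneg h0.le (Real.log_nonneg hX)
  rw [Real.log_mul hY.ne' hK.ne', Real.log_mul (by positivity) (by positivity), Real.log_rpow hX0,
    Real.log_pow] at a2
  rw [Real.log_rpow hX0] at a3
  rw [← Real.log_le_log_iff (by positivity) (by positivity)]
  simp (disch := positivity) only [Real.log_mul, Real.log_div, Real.log_rpow]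
  push_cast at a2
  linarith

theorem nb_small {η : ℝ} (h0 : 0 < η) (h1 : η ≤ 1 / 100) : ∀ᶠ X : ℝ in atTop,
    ∀ (A B u : ℝ) (β : O → ℂ) (d Δ e f : O), Rng η X A B → NCH X B (X ^ η * B ^ 2 / A) η β →
      d ≠ 0 → nm d ≤ X ^ (η / 500) → Δ ≠ 0 → e ∈ pdiv Δ → Sq (Δ * f) →
      nm (Δ * f) ≤ X ^ (η / 10) → |u| ≤ X ^ (0.18 : ℝ) →
      (A / nm (d ^ 2 * e)) ^ (3 / 4 : ℝ) * ((nm f : ℝ) ^ (-1 / 2 : ℝ) *
        ∑ k ∈ ncb (Kst (X ^ (η / 125)) A B d Δ e) (w0 d Δ e),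
          (nm k : ℝ) ^ (-1 / 4 : ℝ) * ‖lf B β (Δ * f) (k * w0 d Δ e) u‖ ^ 2) ≤
        X ^ (-η / 40) * A ^ (2 / 3 : ℝ) * B ^ (5 / 3 : ℝ) / nm (Δ * f) := by
  classical
  filter_upwards [rng_facts h1, Kst_le_X h0 h1, ev_const 8 (by positivity : 0 < η / 500),
    ev_log 8 1 (by positivity : 0 < η / 500)] with X hX hKX c1 c2 A B u β d Δ e f hr hN hd hD hΔ he
    hs hf hu
  obtain ⟨-, -, -, a4, a5⟩ := hX.2 A B hr
  have hX1 : 1 ≤ X := by linarith [hX.1]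
  have hX0 : 0 < X := by linarith
  have hA : 0 < A := by linarith
  have hB : 0 < B := by linarith
  have hN0 := nm_pos' (sq_ne hs)
  have he' := (mem_pdiv hΔ).1 he
  have hde : (1 : ℝ) ≤ nm (d ^ 2 * e) := one_le_nm (mul_ne_zero (pow_ne_zero 2 hd) he'.1.ne_zero)
  have hf1 : (1 : ℝ) ≤ nm f := one_le_nm (right_ne_zero_of_mul (sq_ne hs))
  have hΔ1 : (1 : ℝ) ≤ nm Δ := one_le_nm hΔ
  have hK1 := hKX A B d Δ e hr hd hD hΔ he
  have hK2 := DNb1_Kst (B := B) h0 hX1 hA hd hD hΔ he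
  have hY : 0 < A / nm (d ^ 2 * e) := by positivity
  have hYK : A / nm (d ^ 2 * e) * Kst (X ^ (η / 125)) A B d Δ e ≤ X ^ (η / 125) * B ^ 2 := by
    rw [Kst, ← mul_div_assoc, mul_div_mul_left _ _ hY.ne']
    exact div_le_self (by positivity) (one_le_pow₀ hΔ1)
  generalize Kst (X ^ (η / 125)) A B d Δ e = K at hK1 hK2 hYK ⊢
  rcases lt_or_ge K 1 with hK | hK
  · rw [Finset.sum_eq_zero, mul_zero, mul_zero]
    · positivity
    · intro k hk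
      rw [mem_ncb] at hk
      linarith [one_le_nm hk.2.1]
  have hw : nm (w0 d Δ e) ≤ X ^ η := by
    refine DNb1_w0 h0 hX1 hD hΔ he' (le_trans ?_ hf)
    rw [nm_mul, Nat.cast_mul]
    exact le_mul_of_one_le_right (by linarith) hf1
  have hw0 : w0 d Δ e ≠ 0 :=
    mul_ne_zero (mul_ne_zero hd (pow_ne_zero 2 hΔ)) (pow_ne_zero 2 he'.1.ne_zero)
  have h2 := dyadic K (X ^ (-η) * K ^ (1 / 12 : ℝ) * B ^ (3 / 2 : ℝ))
    (fun k => ‖lf B β (Δ * f) (k * w0 d Δ e) u‖ ^ 2) (ncb K (w0 d Δ e)) hK (by positivity)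
    (fun k hk => ⟨sq_nonneg _, (mem_ncb.1 hk).2.1, (mem_ncb.1 hk).1⟩) fun K₁ k1 k2 => by
      have h3 := hN (Δ * f) (w0 d Δ e) u K₁ hs
        (hf.trans (Real.rpow_le_rpow_of_exponent_le hX1 (by linarith))) hw0 hw hu k1 (k2.trans hK2)
      refine (Finset.sum_le_sum_of_subset_of_nonneg (t := ncb K₁ (w0 d Δ e)) (fun k hk => ?_)
        fun _ _ _ => sq_nonneg _).trans (h3.trans ?_)
      · rw [Finset.mem_filter, mem_ncb] at hk
        exact mem_ncb.2 ⟨hk.2, hk.1.2⟩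
      · rw [show (1 / 3 : ℝ) = 1 / 12 + 1 / 4 by norm_num, Real.rpow_add (by linarith),
          mul_right_comm _ (B ^ _), ← mul_assoc]
        gcongr
  have h4 : 4 * (1 + Real.log K) ≤ X ^ (η / 500) := by
    have := Real.log_le_log (by linarith) hK1
    rw [pow_one] at c2
    linarith
  refine le_trans (mul_le_mul_of_nonneg_left ?_ (by positivity))
    (DNb1_num h0 hX1 hB hY (by linarith) hN0 (div_le_self hA.le hde) hYK hf)
  refine (mul_le_of_le_one_left (Finset.sum_nonneg fun _ _ => by positivity)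
    (nm_rpow_le_one f (by norm_num))).trans (h2.trans ?_)
  exact mul_le_mul_of_nonneg_right h4 (by positivity)

end Vale.Agent.P006.D
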