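import Vale.Agent.P006.DKer
import Vale.Agent.P006.DNb1

/-! D-Tail: large frequencies and crude bounds.  `δ = η/500`, `P = X^{4δ}`, `K = Kst`.
Plans. `tail`: choose `n ≥ 3` with `n δ ≥ 20`.  If `γ(Δ m₁) γ(Δ m₂) ≠ 0` then `N(m₁ m₂) ≤ 256 B²/NΔ²`, so `ξ = c0² Y N k/(9 N q) ≥ P (N k / K)/256` (`c0² ≥ 9`);
`‖kt‖ ≤ ‖shp‖ ≤ C L^n (P/256)^{-(n+1)/2} (N k/K)^{-2}` (`shp_le n`), `∑ (N k/K)^{-2} ≤ C K` (`sum_rpow_tail 2`), `K ≤ X` (`Kst_le_X`), `#qball (16 B) ≤ C X` (`card_le_of_nm`).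
`crude`: `‖lf‖ ≤ #qball * X`, all weights are at most `1`. -/

namespace Vale.Agent.P006.D

open Vale.Agent.P026 Filter MeasureTheory
open scoped ComplexConjugate Real

theorem DTail_c0 : (9 : ℝ) ≤ c0 ^ 2 := by
  have h3 : (√3 : ℝ) ^ 2 = 3 := Real.sq_sqrt (by norm_num)
  rw [c0, div_pow, h3, le_div_iff₀ (by norm_num)]
  nlinarith [Real.pi_gt_three]

theorem DTail_kt {n : ℕ} {C : ℝ} (hC0 : 0 < C) (hC : ∀ L ξ : ℝ, 1 ≤ L → 0 < ξ →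
    ‖shp (Gm L) ξ‖ ≤ C * L ^ n * ξ ^ (-((n + 1) / 2 : ℝ))) {L Y R : ℝ} {w m₁ m₂ k : O}
    (hL : 1 ≤ L) (hR : 0 < R) (hm : m₁ * m₂ ≠ 0) (h : R * nm (m₁ * m₂) ≤ Y * nm k) :
    ‖kt L Y w m₁ m₂ k‖ ≤ C * L ^ n * R ^ (-((n + 1) / 2 : ℝ)) := by
  have hN : (1 : ℝ) ≤ nm (m₁ * m₂) := one_le_nm hm
  have h0 : 0 < Y * nm k := lt_of_lt_of_le (by positivity) h
  have hξ : R ≤ c0 ^ 2 * Y * nm k / (9 * nm (m₁ * m₂)) := by
    rw [le_div_iff₀ (by positivity)]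
    nlinarith [DTail_c0]
  have h1 := hC L _ hL (hR.trans_le hξ)
  have h2 : (c0 ^ 2 * Y * nm k / (9 * nm (m₁ * m₂))) ^ (-((n + 1) / 2 : ℝ)) ≤
      R ^ (-((n + 1) / 2 : ℝ)) :=
    Real.rpow_le_rpow_of_nonpos hR hξ (neg_nonpos.2 (by positivity))
  have h3 : ‖eq k 3 * (cub (k * w) m₁ * conj (cub (k * w) m₂)) / (√(nm (m₁ * m₂)) : ℝ)‖ ≤ 1 := by
    rw [norm_div, norm_mul, norm_mul, norm_eq, Complex.norm_conj, Complex.norm_real,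
      Real.norm_of_nonneg (Real.sqrt_nonneg _), one_mul]
    have h4 : (1 : ℝ) ≤ √(nm (m₁ * m₂)) := Real.one_le_sqrt.2 hN
    rw [div_le_one (by linarith)]
    exact (mul_le_one₀ (norm_cub_le _ _) (norm_nonneg _) (norm_cub_le _ _)).trans h4
  rw [kt, norm_mul]
  refine (mul_le_of_le_one_left (norm_nonneg _) h3).trans (h1.trans ?_)
  have : 0 ≤ C * L ^ n := by positivity
  gcongr

theorem DTail_Dk {n : ℕ} {C : ℝ} (hC0 : 0 < C) (hC : ∀ L ξ : ℝ, 1 ≤ L → 0 < ξ →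
    ‖shp (Gm L) ξ‖ ≤ C * L ^ n * ξ ^ (-((n + 1) / 2 : ℝ))) {L Y R B M : ℝ} {γ : O → ℂ}
    {Δ w k : O} (hL : 1 ≤ L) (hR : 0 < R) (hS : Supp 16 B γ) (hM : Bd M γ) (hΔ : Δ ≠ 0)
    (h : R * (256 * B ^ 2) ≤ Y * nm k * (nm Δ : ℝ) ^ 2) :
    ‖Dk L Y (16 * B) γ Δ w k‖ ≤ ((qball (16 * B)).card : ℝ) ^ 2 *
      (M ^ 2 * (C * L ^ n * R ^ (-((n + 1) / 2 : ℝ)))) := by
  have hM0 : 0 ≤ M := (norm_nonneg _).trans (hM 0)
  have hD : (0 : ℝ) < nm Δ := nm_pos' hΔ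
  have hE : 0 ≤ C * L ^ n * R ^ (-((n + 1) / 2 : ℝ)) := by positivity
  have key : ∀ m₁ ∈ qball (16 * B), ∀ m₂ ∈ qball (16 * B),
      ‖ind (IsCoprime m₁ m₂) * (γ (Δ * m₁) * conj (γ (Δ * m₂))) * kt L Y w m₁ m₂ k‖ ≤
        M ^ 2 * (C * L ^ n * R ^ (-((n + 1) / 2 : ℝ))) := by
    intro m₁ h₁ m₂ h₂
    by_cases a₁ : γ (Δ * m₁) = 0
    · rw [a₁, zero_mul, mul_zero, zero_mul, norm_zero]; positivity
    by_cases a₂ : γ (Δ * m₂) = 0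
    · rw [a₂, map_zero, mul_zero, mul_zero, zero_mul, norm_zero]; positivity
    have b₁ := (hS _ a₁).2.2
    have b₂ := (hS _ a₂).2.2
    rw [nm_mul, Nat.cast_mul] at b₁ b₂
    have hm : m₁ * m₂ ≠ 0 := mul_ne_zero (sq_ne (mem_qball.1 h₁).1) (sq_ne (mem_qball.1 h₂).1)
    have b₃ : (nm (m₁ * m₂) : ℝ) * (nm Δ : ℝ) ^ 2 ≤ 256 * B ^ 2 := by
      have := mul_le_mul b₁ b₂ (by positivity) (le_trans (by positivity) b₁)
      rw [nm_mul, Nat.cast_mul]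
      nlinarith
    have b₄ : R * nm (m₁ * m₂) ≤ Y * nm k := by
      refine le_of_mul_le_mul_right (le_trans ?_ h) (pow_pos hD 2)
      rw [mul_assoc]
      exact mul_le_mul_of_nonneg_left b₃ hR.le
    rw [norm_mul, norm_mul, norm_mul, norm_ind, Complex.norm_conj]
    refine mul_le_mul ?_ (DTail_kt hC0 hC hL hR hm b₄) (norm_nonneg _) (by positivity)
    refine (mul_le_of_le_one_left (by positivity) (ir_le_one _)).trans ?_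
    rw [sq]
    exact mul_le_mul (hM _) (hM _) (norm_nonneg _) hM0
  rw [Dk]
  refine (norm_sum_le _ _).trans ?_
  refine (Finset.sum_le_card_nsmul _ _ (((qball (16 * B)).card : ℝ) *
    (M ^ 2 * (C * L ^ n * R ^ (-((n + 1) / 2 : ℝ))))) fun m₁ h₁ => ?_).trans ?_
  · refine (norm_sum_le _ _).trans ?_
    exact (Finset.sum_le_card_nsmul _ _ _ (key m₁ h₁)).trans (nsmul_eq_mul _ _).le
  · rw [nsmul_eq_mul]
    exact le_of_eq (by ring)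

theorem DTail_card : ∃ C : ℝ, 0 < C ∧ ∀ B : ℝ, 0 ≤ B → ((qball (16 * B)).card : ℝ) ≤ C * B := by
  obtain ⟨C, hC, h⟩ := card_le_of_nm
  refine ⟨16 * C, by positivity, fun B hB => ?_⟩
  refine (h (16 * B) _ (by positivity) fun n hn => ?_).trans (le_of_eq (by ring))
  exact ⟨sq_ne (mem_qball.1 hn).1, (mem_qball.1 hn).2⟩

theorem DTail_num {n : ℕ} (hn : 3 ≤ n) {X δ L K N : ℝ} (hX : 0 < X) (hL0 : 0 ≤ L)
    (hL : L ≤ X ^ δ) (hK : 0 < K) (hN : K < N) :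
    (X ^ δ) ^ 2 * (L ^ n * (X ^ (4 * δ) / 256 * (N / K)) ^ (-((n + 1) / 2 : ℝ))) ≤
      (256 : ℝ) ^ ((n + 1) / 2 : ℝ) * X ^ (-(n * δ)) * K ^ 2 * N ^ (-(2 : ℝ)) := by
  have hN0 : 0 < N := hK.trans hN
  have hn' : (3 : ℝ) ≤ n := by exact_mod_cast hn
  have h1 : (N / K) ^ (-((n + 1) / 2 : ℝ)) ≤ K ^ 2 * N ^ (-(2 : ℝ)) := by
    refine (Real.rpow_le_rpow_of_exponent_le ((one_le_div hK).2 hN.le)
      (show -((n + 1) / 2 : ℝ) ≤ -(2 : ℝ) by linarith)).trans (le_of_eq ?_)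
    rw [Real.rpow_neg (by positivity), Real.rpow_neg hN0.le, Real.rpow_two, Real.rpow_two]
    field_simp
  have h2 : (X ^ (4 * δ) / 256) ^ (-((n + 1) / 2 : ℝ)) =
      (256 : ℝ) ^ ((n + 1) / 2 : ℝ) * X ^ (-(2 * (n + 1) * δ)) := by
    rw [Real.div_rpow (by positivity) (by norm_num), ← Real.rpow_mul hX.le,
      Real.rpow_neg (by norm_num : (0 : ℝ) ≤ 256), div_inv_eq_mul, mul_comm]
    congr 2
    ring
  have h3 : L ^ n ≤ X ^ (n * δ) := by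
    rw [mul_comm, Real.rpow_mul hX.le, Real.rpow_natCast]
    exact pow_le_pow_left₀ hL0 hL n
  have h4 : (X ^ δ) ^ 2 * X ^ (n * δ) * X ^ (-(2 * (n + 1) * δ)) = X ^ (-(n * δ)) := by
    rw [← Real.rpow_natCast, ← Real.rpow_mul hX.le, ← Real.rpow_add hX, ← Real.rpow_add hX]
    congr 1
    push_cast
    ring
  rw [Real.mul_rpow (by positivity) (by positivity), h2, ← h4]
  calc _ ≤ (X ^ δ) ^ 2 * (X ^ (n * δ) * ((256 : ℝ) ^ ((n + 1) / 2 : ℝ) *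
        X ^ (-(2 * (n + 1) * δ)) * (K ^ 2 * N ^ (-(2 : ℝ))))) := by gcongr
    _ = _ := by ring

theorem tail {η : ℝ} (h0 : 0 < η) (h1 : η ≤ 1 / 100) : ∀ᶠ X : ℝ in atTop,
    ∀ (A B L : ℝ) (γ : O → ℂ) (d Δ e w : O) (s : Finset O), Rng η X A B → Supp 16 B γ →
      Bd (X ^ (η / 500)) γ → 1 ≤ L → L ≤ X ^ (η / 500) → d ≠ 0 → nm d ≤ X ^ (η / 500) → Δ ≠ 0 →
      e ∈ pdiv Δ → (∀ k ∈ s, Kst (X ^ (η / 125)) A B d Δ e < nm k) →
      ∑ k ∈ s, ‖Dk L (A / nm (d ^ 2 * e)) (16 * B) γ Δ w k‖ ≤ X ^ (-10 : ℝ) := by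
  obtain ⟨n, hn⟩ := exists_nat_ge (14 / (η / 500))
  have hδ : 0 < η / 500 := by positivity
  rw [div_le_iff₀ hδ] at hn
  have hn3 : 3 ≤ n := by
    have : (3 : ℝ) ≤ n := by nlinarith
    exact_mod_cast this
  obtain ⟨C, hC0, hC⟩ := shp_le n
  obtain ⟨C₁, hC₁, h₁⟩ := DTail_card
  obtain ⟨C₂, hC₂, h₂⟩ := sum_rpow_tail (σ := 2) one_lt_two
  filter_upwards [rng_facts h1, Kst_le_X h0 h1,
    ev_const (C₁ ^ 2 * C * (256 : ℝ) ^ ((n + 1) / 2 : ℝ) * C₂) one_pos] with X hX hK hc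
  intro A B L γ d Δ e w s hR hS hB hL hLX hd hdX hΔ he hs
  obtain ⟨-, -, b3, hA1, hB1⟩ := hX.2 A B hR
  have hX1 : 1 ≤ X := by linarith [hX.1]
  have hX0 : 0 < X := by linarith
  have hBX : B ≤ X := b3.trans (Real.rpow_le_self_of_one_le hX1 (by norm_num))
  have hKX := hK A B d Δ e hR hd hdX hΔ he
  have he0 : e ≠ 0 := ((mem_pdiv hΔ).1 he).1.ne_zero
  have hq : (0 : ℝ) < nm (d ^ 2 * e) := nm_pos' (mul_ne_zero (pow_ne_zero 2 hd) he0)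
  have hD : (0 : ℝ) < nm Δ := nm_pos' hΔ
  have hP : X ^ (η / 125) = X ^ (4 * (η / 500)) := by congr 1; ring
  rw [hP] at hKX hs
  set K := Kst (X ^ (4 * (η / 500))) A B d Δ e with hKd
  have hK0 : 0 < K := by rw [hKd, Kst]; positivity
  have hcard : ((qball (16 * B)).card : ℝ) ≤ C₁ * X :=
    (h₁ B (by linarith)).trans (mul_le_mul_of_nonneg_left hBX hC₁.le)
  have key : ∀ k ∈ s, ‖Dk L (A / nm (d ^ 2 * e)) (16 * B) γ Δ w k‖ ≤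
      (C₁ * X) ^ 2 * C * ((256 : ℝ) ^ ((n + 1) / 2 : ℝ) * X ^ (-(n * (η / 500))) * K ^ 2) *
        (nm k : ℝ) ^ (-(2 : ℝ)) := by
    intro k hk
    have hk0 : (0 : ℝ) < nm k := hK0.trans (hs k hk)
    refine (DTail_Dk hC0 hC (R := X ^ (4 * (η / 500)) / 256 * (nm k / K)) hL (by positivity) hS hB
      hΔ (le_of_eq ?_)).trans ?_
    · rw [hKd, Kst]
      field_simp
    · have := DTail_num hn3 hX0 (by linarith) hLX hK0 (hs k hk)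
      calc _ = ((qball (16 * B)).card : ℝ) ^ 2 * C * ((X ^ (η / 500)) ^ 2 * (L ^ n *
            (X ^ (4 * (η / 500)) / 256 * (nm k / K)) ^ (-((n + 1) / 2 : ℝ)))) := by ring
        _ ≤ (C₁ * X) ^ 2 * C * ((256 : ℝ) ^ ((n + 1) / 2 : ℝ) * X ^ (-(n * (η / 500))) * K ^ 2 *
            (nm k : ℝ) ^ (-(2 : ℝ))) := by gcongr
        _ = _ := by ring
  refine (Finset.sum_le_sum key).trans ?_
  rw [← Finset.mul_sum]
  have h3 := h₂ K s hK0 hs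
  have h4 : K ^ 2 * K ^ (1 - 2 : ℝ) = K := by
    rw [← Real.rpow_two, ← Real.rpow_add hK0]; norm_num
  have h5 : X ^ (-(n * (η / 500))) ≤ X ^ (-14 : ℝ) :=
    Real.rpow_le_rpow_of_exponent_le hX1 (by linarith)
  have h6 : X ^ (1 : ℝ) * (X ^ 2 * X) * X ^ (-14 : ℝ) = X ^ (-10 : ℝ) := by
    rw [← pow_succ, ← Real.rpow_natCast, ← Real.rpow_add hX0, ← Real.rpow_add hX0]; norm_num
  calc _ ≤ (C₁ * X) ^ 2 * C * ((256 : ℝ) ^ ((n + 1) / 2 : ℝ) * X ^ (-(n * (η / 500))) * K ^ 2) *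
        (C₂ * K ^ (1 - 2 : ℝ)) := by gcongr
    _ = C₁ ^ 2 * C * (256 : ℝ) ^ ((n + 1) / 2 : ℝ) * C₂ * (X ^ 2 * (K ^ 2 * K ^ (1 - 2 : ℝ))) *
        X ^ (-(n * (η / 500))) := by ring
    _ ≤ X ^ (1 : ℝ) * (X ^ 2 * X) * X ^ (-14 : ℝ) := by rw [h4]; gcongr
    _ = _ := h6

theorem crude : ∀ᶠ X : ℝ in atTop, ∀ (B u : ℝ) (β : O → ℂ) (Δ w : O) (s : Finset O), 0 ≤ B →
    B ≤ X → Bd X β → (∀ k ∈ s, (nm k : ℝ) ≤ X) →
      ∑ k ∈ s, (nm k : ℝ) ^ (-1 / 4 : ℝ) * Qf B β Δ (k * w) u ≤ X ^ (10 : ℝ) := by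
  obtain ⟨C₁, hC₁, h₁⟩ := DTail_card
  obtain ⟨C₂, hC₂, h₂⟩ := card_ball_le
  filter_upwards [eventually_ge_atTop (1 : ℝ), ev_const (2 * C₂ * C₁ ^ 3) one_pos] with X hX hc
  intro B u β Δ w s hB hBX hβ hs
  have hX0 : 0 < X := by linarith
  have hcard : ((qball (16 * B)).card : ℝ) ≤ C₁ * X :=
    (h₁ B hB).trans (mul_le_mul_of_nonneg_left hBX hC₁.le)
  have hw : ∀ (k : O) (a : ℝ), a < 0 → (nm k : ℝ) ^ a ≤ 1 := by
    intro k a ha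
    by_cases hk : k = 0
    · rw [hk, nm_zero, Nat.cast_zero, Real.zero_rpow ha.ne]; exact zero_le_one
    · exact Real.rpow_le_one_of_one_le_of_nonpos (one_le_nm hk) ha.le
  have hlf : ∀ g k : O, ‖lf B β g k u‖ ≤ C₁ * X * X := by
    intro g k
    refine (norm_sum_le _ _).trans ((Finset.sum_le_card_nsmul _ _ X fun m hm => ?_).trans ?_)
    · rw [norm_mul, norm_mul, norm_np (sq_ne (mem_qball.1 hm).1)]
      refine (mul_le_of_le_one_right (by positivity) (hw _ _ (by norm_num))).trans ?_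
      exact (mul_le_of_le_one_right (norm_nonneg _) (norm_cub_le _ _)).trans (hβ _)
    · rw [nsmul_eq_mul]
      gcongr
  have hQ : ∀ k : O, Qf B β Δ k u ≤ C₁ * X * (C₁ * X * X) ^ 2 := by
    intro k
    refine (Finset.sum_le_card_nsmul _ _ ((C₁ * X * X) ^ 2) fun f _ => ?_).trans ?_
    · refine (mul_le_of_le_one_left (by positivity) (hw _ _ (by norm_num))).trans ?_
      exact pow_le_pow_left₀ (norm_nonneg _) (hlf _ _) 2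
    · rw [nsmul_eq_mul]
      gcongr
  have hs' : (s.card : ℝ) ≤ C₂ * (2 * X) := by
    have h3 : s ⊆ ball X := fun k hk => mem_ball.2 (hs k hk)
    refine le_trans (by exact_mod_cast Finset.card_le_card h3) ((h₂ X hX0.le).trans ?_)
    exact mul_le_mul_of_nonneg_left (by linarith) hC₂.le
  refine (Finset.sum_le_card_nsmul _ _ (C₁ * X * (C₁ * X * X) ^ 2) fun k _ => ?_).trans ?_
  · refine (mul_le_of_le_one_left ?_ (hw _ _ (by norm_num))).trans (hQ _)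
    exact Finset.sum_nonneg fun f _ => by positivity
  · rw [nsmul_eq_mul]
    rw [Real.rpow_one] at hc
    calc _ ≤ C₂ * (2 * X) * (C₁ * X * (C₁ * X * X) ^ 2) := by gcongr
      _ = 2 * C₂ * C₁ ^ 3 * X ^ 6 := by ring
      _ ≤ X * X ^ 6 := by gcongr
      _ = X ^ ((7 : ℕ) : ℝ) := by rw [Real.rpow_natCast]; ring
      _ ≤ _ := Real.rpow_le_rpow_of_exponent_le hX (by norm_num)

end Vale.Agent.P006.D
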