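import Vale.Agent.P006.DPair
import Vale.Agent.P006.DSep
import Vale.Agent.P006.DNb2
import Vale.Agent.P006.DTail

/-! D-Non: the non-cube terms.
Plans. `PSum_Hn_le`: move the sums over `m₁, m₂` inside (`Finset.sum_comm`, `Summable.tsum_finsetSum` with `summable_kt`, `tsum_mul_left`).
`noncube`: for each `(Δ, e)`, `‖∑' ind * Dk‖ ≤ ∑_{ncb K} ‖Dk‖ + X^{-10}` (`norm_tsum_le_tsum_norm`, `Real.tsum_le_of_sum_le`, `summable_of_sum_le`, split a finite set at `N k ≤ K`, `tail`);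
`sep_sum` with `T₀ = X^{0.179}`, `M = Y^{-3/4} ∑_f X^{-η/40} A^{2/3} B^{5/3} / N(Δ f)` (`nb`, `Finset.sum_comm`), `M' = X^{10}` (`crude`), `ev_exp`;
`∑_Δ tau Δ / NΔ ∑_f 1/N f ≤ X^{η/500}` (`ev_tau`, `sum_inv_le_rpow`). -/

namespace Vale.Agent.P006.D

open Vale.Agent.P026 Filter MeasureTheory
open scoped ComplexConjugate Real

theorem DNon_c0 : c0 ≤ 9 := by
  have h1 : (1 : ℝ) ≤ √3 := Real.one_le_sqrt.2 (by norm_num)
  rw [c0, div_le_iff₀ (by linarith)]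
  linarith [Real.pi_lt_four]

theorem DNon_swap {L Y Z : ℝ} (hL : 0 < L) (hY : 0 < Y) (γ : O → ℂ) (Δ w : O) (Q : O → Prop) :
    ∑' k : O, ind (k ≠ 0 ∧ Q k) * Dk L Y Z γ Δ w k = ∑ m₁ ∈ qball Z, ∑ m₂ ∈ qball Z,
      ind (IsCoprime m₁ m₂) * (γ (Δ * m₁) * conj (γ (Δ * m₂))) *
        ∑' k : O, ind (k ≠ 0 ∧ Q k) * kt L Y w m₁ m₂ k := by
  have h : ∀ m₁ ∈ qball Z, ∀ m₂ ∈ qball Z,
      Summable fun k : O => ind (k ≠ 0 ∧ Q k) * kt L Y w m₁ m₂ k := fun m₁ h₁ m₂ h₂ =>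
    Summable.of_norm_bounded (summable_kt hL hY w (sq_ne (mem_qball.1 h₁).1)
      (sq_ne (mem_qball.1 h₂).1)).norm fun k => by
        rw [ind_and, mul_comm (ind _) (ind _), mul_assoc, norm_mul]
        exact mul_le_of_le_one_left (norm_nonneg _) (norm_ind_le _)
  rw [← (hasSum_sum fun m₁ h₁ => hasSum_sum fun m₂ h₂ => (h m₁ h₁ m₂ h₂).hasSum.mul_left
    (ind (IsCoprime m₁ m₂) * (γ (Δ * m₁) * conj (γ (Δ * m₂))))).tsum_eq]
  refine tsum_congr fun k => ?_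
  simp only [Dk, Finset.mul_sum]
  exact Finset.sum_congr rfl fun _ _ => Finset.sum_congr rfl fun _ _ => by ring

theorem PSum_Hn_le {L A Z : ℝ} (hL : 0 < L) (hA : 0 < A) (γ : O → ℂ) {d : O} (hd : d ≠ 0) :
    ‖PSum Z γ (Hn L A d)‖ ≤ ∑ Δ ∈ qball Z, ∑ e ∈ pdiv Δ, A / nm (d ^ 2 * e) *
      ‖∑' k : O, ind (k ≠ 0 ∧ ¬Cube (k * w0 d Δ e)) *
        Dk L (A / nm (d ^ 2 * e)) Z γ Δ (w0 d Δ e) k‖ := by
  refine norm_sum_le_of_le _ fun Δ hΔ => ?_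
  have hΔ0 := sq_ne (mem_qball.1 hΔ).1
  have hY : ∀ e ∈ pdiv Δ, 0 < A / nm (d ^ 2 * e) := fun e he => div_pos hA
    (nm_pos' (mul_ne_zero (pow_ne_zero 2 hd) ((mem_pdiv hΔ0).1 he).1.ne_zero))
  have h1 : ∑ m₁ ∈ qball Z, ∑ m₂ ∈ qball Z,
      ind (IsCoprime m₁ m₂) * (γ (Δ * m₁) * conj (γ (Δ * m₂))) * Hn L A d Δ m₁ m₂ =
      ∑ e ∈ pdiv Δ, ind (IsCoprime d Δ) * mu e * (c0 * (A / nm (d ^ 2 * e)) / 9 : ℝ) *
        ∑' k : O, ind (k ≠ 0 ∧ ¬Cube (k * w0 d Δ e)) *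
          Dk L (A / nm (d ^ 2 * e)) Z γ Δ (w0 d Δ e) k := by
    rw [Finset.sum_congr (s₁ := pdiv Δ) rfl fun e he => by rw [DNon_swap hL (hY e he)]]
    simp only [Hn, Finset.mul_sum]
    rw [Finset.sum_comm (s := pdiv Δ)]
    refine Finset.sum_congr rfl fun m₁ _ => ?_
    rw [Finset.sum_comm (s := pdiv Δ)]
    exact Finset.sum_congr rfl fun m₂ _ => Finset.sum_congr rfl fun e _ => by ring
  rw [h1]
  refine norm_sum_le_of_le _ fun e he => ?_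
  have h2 := hY e he
  have h3 := mul_pos c0_pos h2
  have h4 := mul_le_mul_of_nonneg_right DNon_c0 h2.le
  rw [norm_mul, norm_mul, norm_mul, Complex.norm_real, Real.norm_of_nonneg (by linarith)]
  refine mul_le_mul_of_nonneg_right ((mul_le_of_le_one_left (by linarith) (mul_le_one₀
    (norm_ind_le _) (norm_nonneg _) (norm_mu_le _))).trans (by linarith)) (norm_nonneg _)

theorem DNon_tsum {F : O → ℂ} {w : O} {K E : ℝ}
    (h : ∀ s : Finset O, (∀ k ∈ s, K < nm k) → ∑ k ∈ s, ‖F k‖ ≤ E) :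
    ‖∑' k : O, ind (k ≠ 0 ∧ ¬Cube (k * w)) * F k‖ ≤ ∑ k ∈ ncb K w, ‖F k‖ + E := by
  classical
  have h1 : ∀ s : Finset O, ∑ k ∈ s, ‖ind (k ≠ 0 ∧ ¬Cube (k * w)) * F k‖ ≤
      ∑ k ∈ ncb K w, ‖F k‖ + E := fun s => by
    rw [← Finset.sum_filter_add_sum_filter_not s fun k => (nm k : ℝ) ≤ K]
    refine add_le_add ?_ ((Finset.sum_le_sum fun k _ => ?_).trans
      (h _ fun k hk => not_le.1 (Finset.mem_filter.1 hk).2))
    · refine (Finset.sum_le_sum_of_subset_of_nonneg (t := ball K) (fun k hk =>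
        mem_ball.2 (Finset.mem_filter.1 hk).2) fun _ _ _ => norm_nonneg _).trans_eq ?_
      rw [ncb, Finset.sum_filter]
      refine Finset.sum_congr rfl fun k _ => ?_
      split_ifs with h
      · rw [ind_of h, one_mul]
      · rw [ind_of_not h, zero_mul, norm_zero]
    · rw [norm_mul]
      exact mul_le_of_le_one_left (norm_nonneg _) (norm_ind_le _)
  have h2 := summable_of_sum_le (fun _ => norm_nonneg _) h1
  exact (norm_tsum_le_tsum_norm h2).trans (h2.tsum_le_of_sum_le h1)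

theorem DNon_num {X Y C P G S x T : ℝ} (hX : 1 ≤ X) (hY : 0 < Y) (hYX : Y ≤ X) (hC : 0 < C)
    (hP : 2 * C + 1 ≤ P) (hG : X ^ (-9 : ℝ) ≤ G) (hS : S ≤ P ^ 2) (hx : x ≤ X ^ (-20 : ℝ))
    (h : T ≤ C * Y ^ (-1 / 4 : ℝ) * (G * S / Y ^ (3 / 4 : ℝ) + X ^ (10 : ℝ) * x) + X ^ (-10 : ℝ)) :
    Y * T ≤ P ^ 3 * G := by
  have X0 : 0 < X := by linarith
  have h1 : Y * Y ^ (-1 / 4 : ℝ) = Y ^ (3 / 4 : ℝ) := by
    rw [← Real.rpow_one_add' hY.le (by norm_num)]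
    norm_num
  have h2 : Y ^ (3 / 4 : ℝ) ≤ X := (Real.rpow_le_rpow hY.le hYX (by norm_num)).trans
    (Real.rpow_le_self_of_one_le hX (by norm_num))
  have h3 : X * X ^ (-10 : ℝ) = X ^ (-9 : ℝ) := by
    rw [← Real.rpow_one_add' X0.le (by norm_num)]
    norm_num
  have h4 : X ^ (10 : ℝ) * x ≤ X ^ (-10 : ℝ) :=
    (mul_le_mul_of_nonneg_left hx (by positivity)).trans_eq (by rw [← Real.rpow_add X0]; norm_num)
  have h5 : 0 < Y ^ (3 / 4 : ℝ) := by positivity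
  have h6 : 0 < X ^ (-10 : ℝ) := by positivity
  have G0 : 0 < G := lt_of_lt_of_le (by positivity) hG
  have h7 : Y ^ (3 / 4 : ℝ) * (X ^ (10 : ℝ) * x) ≤ G :=
    (mul_le_mul_of_nonneg_left h4 h5.le).trans
      ((mul_le_mul_of_nonneg_right h2 h6.le).trans (h3.trans_le hG))
  have h8 : Y * X ^ (-10 : ℝ) ≤ G := (mul_le_mul_of_nonneg_right hYX h6.le).trans (h3.trans_le hG)
  have h9 : 1 ≤ P ^ 2 := one_le_pow₀ (by linarith)
  calc Y * T ≤ _ := mul_le_mul_of_nonneg_left h hY.le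
    _ = C * (G * S) + C * (Y ^ (3 / 4 : ℝ) * (X ^ (10 : ℝ) * x)) + Y * X ^ (-10 : ℝ) := by
        rw [mul_add Y, ← mul_assoc Y, mul_left_comm Y, h1]
        field_simp
    _ ≤ C * (G * P ^ 2) + C * (G * P ^ 2) + G * P ^ 2 := by
        have := le_mul_of_one_le_right G0.le h9
        exact add_le_add (add_le_add (mul_le_mul_of_nonneg_left
          (mul_le_mul_of_nonneg_left hS G0.le) hC.le)
          (mul_le_mul_of_nonneg_left (h7.trans this) hC.le)) (h8.trans this)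
    _ = (2 * C + 1) * (P ^ 2 * G) := by ring
    _ ≤ P * (P ^ 2 * G) := mul_le_mul_of_nonneg_right hP (by positivity)
    _ = _ := by ring

theorem DNon_B {X B : ℝ} (X0 : 0 < X) (h : 16 ≤ X ^ (0.499 : ℝ)) (hB : B ≤ X ^ (0.501 : ℝ))
    (h0 : 0 ≤ B) : 16 * B ≤ X :=
  (mul_le_mul h hB h0 (by positivity)).trans_eq (by rw [← Real.rpow_add X0]; norm_num)

theorem DNon_exp {X L η : ℝ} (hX : 1 ≤ X) (h1 : η ≤ 1 / 100) (hL : 1 ≤ L)
    (hLX : L ≤ X ^ (η / 500)) : Real.exp (-(1 / 8 * (X ^ (0.179 : ℝ)) ^ 2 / L ^ 2)) ≤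
      Real.exp (-(1 / 8 * X ^ (0.3 : ℝ))) := by
  have X0 : 0 < X := by linarith
  refine Real.exp_le_exp.2 (neg_le_neg ?_)
  rw [mul_div_assoc, ← div_pow]
  refine mul_le_mul_of_nonneg_left ?_ (by norm_num)
  rw [show (0.3 : ℝ) = 0.15 * (2 : ℕ) by norm_num, Real.rpow_mul_natCast X0.le]
  refine pow_le_pow_left₀ (by positivity) ((le_div_iff₀ (by linarith)).2
    ((mul_le_mul_of_nonneg_left hLX (by positivity)).trans ?_)) 2
  rw [← Real.rpow_add X0]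
  exact Real.rpow_le_rpow_of_exponent_le hX (by linarith)

theorem DNon_term (h2 : LS2Stmt) {η : ℝ} (h0 : 0 < η) (h1 : η ≤ 1 / 100) : ∀ᶠ X : ℝ in atTop,
    ∀ (A B t L : ℝ) (β : O → ℂ) (d Δ e : O), Rng η X A B → Supp 16 B β → Bd (X ^ (η / 500)) β →
      NCH X B (X ^ η * B ^ 2 / A) η β → |t| ≤ X ^ (0.179 : ℝ) → 1 ≤ L → L ≤ X ^ (η / 500) →
      d ≠ 0 → nm d ≤ X ^ (η / 500) → Δ ∈ qball (16 * B) → e ∈ pdiv Δ →
      ∑ f ∈ qball (16 * B), (nm f : ℝ)⁻¹ ≤ (X ^ (η / 1200)) ^ 2 →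
      A / nm (d ^ 2 * e) * ‖∑' k : O, ind (k ≠ 0 ∧ ¬Cube (k * w0 d Δ e)) *
        Dk L (A / nm (d ^ 2 * e)) (16 * B) (fun b => β b * nt b t) Δ (w0 d Δ e) k‖ ≤
        (X ^ (η / 1200)) ^ 3 * (X ^ (-η / 40) * A ^ (2 / 3 : ℝ) * B ^ (5 / 3 : ℝ) *
          (nm Δ : ℝ)⁻¹) := by
  obtain ⟨C, hC, h3⟩ := sep_sum
  filter_upwards [nb h2 h0 h1, tail h0 h1, crude, Kst_le_X h0 h1, rng_facts h1,
    ev_const (2 * C + 1) (show 0 < η / 1200 by positivity),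
    ev_const 16 (show (0 : ℝ) < 0.499 by norm_num), ev_const 2 (show (0 : ℝ) < 0.001 by norm_num),
    ev_exp 20 (show (0 : ℝ) < 1 / 8 by norm_num) (show (0 : ℝ) < 0.3 by norm_num)]
    with X H1 H2 H3 H4 ⟨hX, hr⟩ e1 e3 e4 e5 A B t L β d Δ e hR hβ hb hn ht hL hLX hd hdX hΔ he hS
  obtain ⟨-, r2, r3, r4, r5⟩ := hr A B hR
  have X0 : 0 < X := by linarith
  have X1 : 1 ≤ X := by linarith
  have b1 := DNon_B X0 e3 r3 (by linarith)
  obtain ⟨hΔ1, hΔ2⟩ := mem_qball.1 hΔ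
  have hΔ0 := sq_ne hΔ1
  have n1 := nm_pos' hΔ0
  have b2 := one_le_nm (mul_ne_zero (pow_ne_zero 2 hd) ((mem_pdiv hΔ0).1 he).1.ne_zero)
  have hY : 0 < A / nm (d ^ 2 * e) := by positivity
  have b3 : X ^ (η / 500) ≤ X := Real.rpow_le_self_of_one_le X1 (by linarith)
  refine DNon_num X1 hY ((div_le_self (by linarith) b2).trans
    (r2.trans (Real.rpow_le_self_of_one_le X1 (by norm_num)))) hC e1 ?_ hS
    ((DNon_exp X1 h1 hL hLX).trans e5) ((DNon_tsum fun s hs => H2 A B L _ d Δ e _ s hR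
      (supp_nt hβ) (fun b => (norm_mul_nt β t b).trans_le (hb b)) hL hLX hd hdX hΔ0 he hs).trans
      (add_le_add (h3 L _ B t _ _ _ β Δ _ _ hL hY (by positivity) hβ hΔ1
        (fun h => (mem_ncb.1 h).2.1 rfl) (fun u hu => ?_) fun u => H3 B u β Δ _ _ (by linarith)
        (by linarith) (fun b => (hb b).trans b3) fun k hk => (mem_ncb.1 hk).1.trans
          (H4 A B d Δ e hR hd hdX hΔ0 he)) le_rfl))
  · rw [show (-9 : ℝ) = -8 + -1 by norm_num, Real.rpow_add X0, Real.rpow_neg_one]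
    refine mul_le_mul ?_ (inv_anti₀ n1 (hΔ2.trans b1)) (by positivity) (by positivity)
    rw [mul_assoc]
    exact (Real.rpow_le_rpow_of_exponent_le X1 (by linarith)).trans (le_mul_of_one_le_right
      (by positivity) (one_le_mul_of_one_le_of_one_le (Real.one_le_rpow r4 (by norm_num))
        (Real.one_le_rpow r5 (by norm_num))))
  · have b4 : |u| ≤ X ^ (0.18 : ℝ) := by
      rw [show (0.18 : ℝ) = 0.001 + 0.179 by norm_num, Real.rpow_add X0]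
      have := mul_le_mul_of_nonneg_right e4 (Real.rpow_nonneg X0.le (0.179 : ℝ))
      linarith [abs_sub_abs_le_abs_sub u t]
    rw [le_div_iff₀' (by positivity)]
    simp only [Qf, Finset.mul_sum]
    rw [Finset.sum_comm]
    refine Finset.sum_le_sum fun f _ => ?_
    have := H1 A B u β d Δ e f hR hβ hb hn hd hdX hΔ0 he b4
    simp only [Finset.mul_sum] at this
    refine (Finset.sum_congr rfl fun k _ => by ring).trans_le (this.trans_eq ?_)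
    rw [nm_mul, Nat.cast_mul, div_eq_mul_inv, mul_inv, ← mul_assoc]

theorem noncube (h2 : LS2Stmt) {η : ℝ} (h0 : 0 < η) (h1 : η ≤ 1 / 100) : ∀ᶠ X : ℝ in atTop,
    ∀ (A B t L : ℝ) (β : O → ℂ) (d : O), Rng η X A B → Supp 16 B β → Bd (X ^ (η / 500)) β →
      NCH X B (X ^ η * B ^ 2 / A) η β → |t| ≤ X ^ (0.179 : ℝ) → 1 ≤ L → L ≤ X ^ (η / 500) →
      d ≠ 0 → nm d ≤ X ^ (η / 500) → ‖PSum (16 * B) (fun b => β b * nt b t) (Hn L A d)‖ ≤
        X ^ (-η / 50) * A ^ (2 / 3 : ℝ) * B ^ (5 / 3 : ℝ) := by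
  have hε : 0 < η / 1200 := by positivity
  obtain ⟨C, hC, h3⟩ := sum_inv_le_rpow hε
  filter_upwards [DNon_term h2 h0 h1, rng_facts h1, ev_const C hε, ev_tau 1 hε,
    ev_const 16 (show (0 : ℝ) < 0.499 by norm_num)]
    with X H ⟨hX, hr⟩ e1 e2 e3 A B t L β d hR hβ hb hn ht hL hLX hd hdX
  obtain ⟨-, -, r3, r4, r5⟩ := hr A B hR
  have X0 : 0 < X := by linarith
  have b1 := DNon_B X0 e3 r3 (by linarith)
  have b2 : ∑ f ∈ qball (16 * B), (nm f : ℝ)⁻¹ ≤ (X ^ (η / 1200)) ^ 2 := by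
    refine (h3 X _ (by linarith) fun n hn => (mem_qball.1 hn).2.trans b1).trans ?_
    rw [sq]
    exact mul_le_mul_of_nonneg_right e1 (by positivity)
  refine (PSum_Hn_le (by linarith) (by linarith) _ hd).trans ?_
  have b3 : X ^ (-η / 50) = (X ^ (η / 1200)) ^ 6 * X ^ (-η / 40) := by
    rw [← Real.rpow_natCast, ← Real.rpow_mul X0.le, ← Real.rpow_add X0]
    congr 1
    push_cast
    ring
  rw [b3]
  have b4 : 0 ≤ X ^ (-η / 40) * A ^ (2 / 3 : ℝ) * B ^ (5 / 3 : ℝ) := by positivity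
  have b5 : 0 ≤ X ^ (η / 1200) := by positivity
  refine (Finset.sum_le_sum fun Δ hΔ => (Finset.sum_le_card_nsmul _ _ _ fun e he =>
    H A B t L β d Δ e hR hβ hb hn ht hL hLX hd hdX hΔ he b2).trans ((nsmul_eq_mul _ _).trans_le
      (mul_le_mul_of_nonneg_right (e2 Δ (sq_ne (mem_qball.1 hΔ).1) (by
        rw [Real.rpow_one]
        exact (mem_qball.1 hΔ).2.trans b1)) (by positivity)))).trans ?_
  rw [← Finset.mul_sum, ← Finset.mul_sum, ← Finset.mul_sum]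
  refine (mul_le_mul_of_nonneg_left (mul_le_mul_of_nonneg_left (mul_le_mul_of_nonneg_left b2 b4)
    (by positivity)) b5).trans_eq ?_
  ring

end Vale.Agent.P006.D
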