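import Vale.Agent.P006.DSig

/-! D-V: the model term and the cancellation of the main terms.
Plans. `Hv_asymp`: `IsCoprime (d² a) (Δ m₁) ∧ IsCoprime (d² a) (Δ m₂) ↔ IsCoprime d Q ∧ IsCoprime a Q`, `Q = Δ m₁ m₂`; for `a` primary
`Gs 1 y * N(d² a)^{-1/3} = A^{-1/3} mellinInv 2 (Gm 1 (· - 1/3)) (N a / x)`, `x = A / N d²`, `y = N a / x` (`inv_Gm`); first part of `lc` with `T = 1`, `Gm3_le`; `np_sixth`.
`Hc_sub_Hv`: the main terms agree (`phiS_mul`, `gam_third`, `kst_sq`, `NΔ² Nq = N(Δ m₁) N(Δ m₂)`; prove the real identity by taking logarithms or with `Real.mul_rpow`);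
errors: `tau q ≤ τ²`, `tau Q = tau (Δ m₁) tau m₂ ≤ τ²` (`tau_mul`, `tau_mono`), `Nq^{-3/10} NΔ^{-1/5} ≤ B^{-3/5} NΔ`, `N d^{-2} ≤ N d^{-6/5}`, `1 ≤ NΔ`. -/

namespace Vale.Agent.P006.D

open Vale.Agent.P026 Filter MeasureTheory
open scoped ComplexConjugate Real

theorem DV_cop (d a Δ m₁ m₂ : O) :
    IsCoprime (d ^ 2 * a) (Δ * m₁) ∧ IsCoprime (d ^ 2 * a) (Δ * m₂) ↔
      IsCoprime d (Δ * (m₁ * m₂)) ∧ IsCoprime a (Δ * (m₁ * m₂)) := by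
  simp only [IsCoprime.mul_left_iff, IsCoprime.mul_right_iff, sq]
  tauto

theorem DV_eq {A : ℝ} (hA : 0 < A) {d : O} (hd : Prim d) (Δ m₁ m₂ : O) :
    Hv A d Δ m₁ m₂ = ind (IsCoprime d (Δ * (m₁ * m₂))) *
      ((nm (Δ * m₁) * nm (Δ * m₂) : ℝ) ^ (-1 / 6 : ℝ) * A ^ (-1 / 3 : ℝ) : ℝ) *
      ∑' a : O, ind (Prim a ∧ IsCoprime a (Δ * (m₁ * m₂))) *
        mellinInv 2 (fun s => Gm 1 (s - (1 / 3 : ℝ))) (nm a / (A / (nm d : ℝ) ^ 2)) := by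
  rw [Hv, ← tsum_mul_left]
  refine tsum_congr fun a => ?_
  by_cases ha : Prim a
  swap
  · rw [ind_of_not ha, ind_of_not (p := Prim a ∧ _) fun h => ha h.1]
    simp only [zero_mul, mul_zero]
  by_cases hc : IsCoprime d (Δ * (m₁ * m₂)) ∧ IsCoprime a (Δ * (m₁ * m₂))
  · obtain ⟨h1, h2⟩ := (DV_cop d a Δ m₁ m₂).2 hc
    have p1 := nm_pos' ha.ne_zero
    have p2 := nm_pos' hd.ne_zero
    have e1 : (nm a : ℝ) / (A / (nm d : ℝ) ^ 2) = nm (d ^ 2 * a) / A := by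
      rw [nm_mul, nm_pow]
      push_cast
      field_simp
    have p3 := nm_pos' (mul_ne_zero (pow_ne_zero 2 hd.ne_zero) ha.ne_zero)
    have e2 : (nm (d ^ 2 * a) : ℝ) ^ (-1 / 3 : ℝ) =
        A ^ (-1 / 3 : ℝ) * (nm (d ^ 2 * a) / A) ^ (-(1 / 3 : ℝ)) := by
      rw [← neg_div, ← Real.mul_rpow hA.le (by positivity), mul_div_cancel₀ _ hA.ne']
    rw [ind_of ha, ind_of h1, ind_of h2, ind_of hc.1, ind_of ⟨ha, hc.2⟩, e1,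
      inv_Gm (by positivity), np_sixth, np_sixth, one_mul, one_mul, one_mul, Complex.conj_ofReal,
      Real.mul_rpow (Nat.cast_nonneg _) (Nat.cast_nonneg _), e2]
    push_cast
    ring
  · have h1 : ind (IsCoprime (d ^ 2 * a) (Δ * m₁)) * ind (IsCoprime (d ^ 2 * a) (Δ * m₂)) = 0 := by
      rcases not_and_or.1 (mt (DV_cop d a Δ m₁ m₂).1 hc) with h | h
      · rw [ind_of_not h, zero_mul]
      · rw [ind_of_not h, mul_zero]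
    have h2 : ind (IsCoprime d (Δ * (m₁ * m₂))) *
        ind (Prim a ∧ IsCoprime a (Δ * (m₁ * m₂))) = 0 := by
      rcases not_and_or.1 hc with h | h
      · rw [ind_of_not h, zero_mul]
      · rw [ind_of_not (p := Prim a ∧ _) fun h' => h h'.2, mul_zero]
    rw [map_mul, conj_ind, mul_mul_mul_comm (ind _) _ (ind _), h1, mul_mul_mul_comm (ind _) _ (ind _),
      h2]
    simp only [zero_mul, mul_zero]

theorem Hv_asymp (lc : LCStmt) : ∃ C : ℝ, 0 < C ∧ ∀ (A : ℝ) (d Δ m₁ m₂ : O), 0 < A → Prim d →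
    Tri Δ m₁ m₂ → ‖Hv A d Δ m₁ m₂ - ind (IsCoprime d (Δ * (m₁ * m₂))) *
      ((nm (Δ * m₁) * nm (Δ * m₂) : ℝ) ^ (-1 / 6 : ℝ) * A ^ (2 / 3 : ℝ) * (c0 / 9) /
        (nm d : ℝ) ^ 2 : ℝ) * phiS (Δ * (m₁ * m₂)) * Gm 1 (2 / 3)‖ ≤
      C * tau (Δ * (m₁ * m₂)) * (nm (Δ * m₁) * nm (Δ * m₂) : ℝ) ^ (-1 / 6 : ℝ) *
        A ^ (4 / 15 : ℝ) * (nm d : ℝ) ^ (-6 / 5 : ℝ) := by
  obtain ⟨C, hC, h⟩ := lc
  obtain ⟨M, hM, hG⟩ := Gm3_le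
  refine ⟨C * M, by positivity, fun A d Δ m₁ m₂ hA hd ht => ?_⟩
  have p2 := nm_pos' hd.ne_zero
  have hψ : Differentiable ℂ fun s => Gm 1 (s - (1 / 3 : ℝ)) :=
    (gd_Gm one_pos).1.comp (differentiable_id.sub_const _)
  have h1 := (h (Δ * (m₁ * m₂)) _ (A / (nm d : ℝ) ^ 2) M 1 ht.sq3 (by positivity) le_rfl
    hψ.differentiableOn hG).1
  have e1 : (1 : ℂ) - (1 / 3 : ℝ) = 2 / 3 := by
    push_cast
    norm_num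
  have e2 : A ^ (2 / 3 : ℝ) = A ^ (-1 / 3 : ℝ) * A := by
    rw [← Real.rpow_add_one hA.ne']
    norm_num
  have e3 : A ^ (4 / 15 : ℝ) * (nm d : ℝ) ^ (-6 / 5 : ℝ) =
      A ^ (-1 / 3 : ℝ) * (A / (nm d : ℝ) ^ 2) ^ (3 / 5 : ℝ) := by
    rw [Real.div_rpow hA.le (by positivity), ← mul_div_assoc, ← Real.rpow_add hA,
      ← Real.rpow_natCast, ← Real.rpow_mul p2.le, div_eq_mul_inv _ (_ ^ _), ← Real.rpow_neg p2.le]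
    norm_num
  have hW : 0 ≤ (nm (Δ * m₁) * nm (Δ * m₂) : ℝ) ^ (-1 / 6 : ℝ) := by positivity
  have hV : 0 ≤ A ^ (-1 / 3 : ℝ) := by positivity
  rw [e1] at h1
  rw [DV_eq hA hd, mul_assoc _ (A ^ (4 / 15 : ℝ)), e3, e2]
  generalize (nm (Δ * m₁) * nm (Δ * m₂) : ℝ) ^ (-1 / 6 : ℝ) = W at hW ⊢
  generalize A ^ (-1 / 3 : ℝ) = V at hV ⊢
  have h2 := mul_le_mul (mul_le_of_le_one_left (mul_nonneg hW hV)
    (ir_le_one (IsCoprime d (Δ * (m₁ * m₂))))) h1 (norm_nonneg _) (mul_nonneg hW hV)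
  refine le_of_eq_of_le ?_ (h2.trans_eq (by ring))
  have e4 : W * V = ‖((W * V : ℝ) : ℂ)‖ := by
    rw [Complex.norm_real, Real.norm_of_nonneg (mul_nonneg hW hV)]
  refine Eq.trans ?_ (congrArg (fun t => _ * t * _) e4.symm)
  rw [← norm_ind, ← norm_mul, ← norm_mul]
  congr 1
  generalize (∑' a : O, _ : ℂ) = S
  push_cast
  ring

theorem DV_main {c A D N q : ℝ} (hc : 0 < c) (hA : 0 < A) (hD : 0 < D) (hN : 0 < N) (hq : 0 < q) :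
    c * A / (27 * D ^ 2 * √q) * (c / 3 * (c ^ 2 * A * N / (9 * q)) ^ (-1 / 3 : ℝ)) =
      c ^ (1 / 3 : ℝ) * 9 ^ (-2 / 3 : ℝ) *
        ((N ^ 2 * q) ^ (-1 / 6 : ℝ) * A ^ (2 / 3 : ℝ) * (c / 9) / D ^ 2) := by
  have l9 : Real.log 9 = 2 * Real.log 3 := by
    rw [show (9 : ℝ) = 3 ^ 2 by norm_num, Real.log_pow, Nat.cast_ofNat]
  have l27 : Real.log 27 = 3 * Real.log 3 := by
    rw [show (27 : ℝ) = 3 ^ 3 by norm_num, Real.log_pow, Nat.cast_ofNat]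
  refine Real.log_injOn_pos (Set.mem_Ioi.2 (by positivity)) (Set.mem_Ioi.2 (by positivity)) ?_
  simp (disch := positivity) only [Real.log_mul, Real.log_div, Real.log_rpow, Real.log_pow,
    Real.log_sqrt, l9, l27]
  push_cast
  ring

theorem DV_err {c A B D N q : ℝ} (hc : 0 < c) (hA : 0 < A) (hB : 0 < B) (hD : 1 ≤ D) (hN : 1 ≤ N)
    (hq : 0 < q) (h : B ^ 2 ≤ N ^ 2 * q) :
    c * A / (27 * D ^ 2 * √q) * (c ^ 2 * A * N / (9 * q)) ^ (-1 / 5 : ℝ) ≤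
      c / 27 * (c ^ 2 / 9) ^ (-1 / 5 : ℝ) *
        (D ^ (-6 / 5 : ℝ) * (A ^ (4 / 5 : ℝ) * B ^ (-3 / 5 : ℝ)) * N) := by
  have a1 := Real.log_nonneg hD
  have a2 := Real.log_nonneg hN
  have hD0 : 0 < D := zero_lt_one.trans_le hD
  have hN0 : 0 < N := zero_lt_one.trans_le hN
  have a3 := Real.log_le_log (by positivity) h
  rw [← Real.log_le_log_iff (by positivity) (by positivity)]
  simp (disch := positivity) only [Real.log_mul, Real.log_div, Real.log_rpow, Real.log_pow,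
    Real.log_sqrt] at a3 ⊢
  push_cast at a3 ⊢
  linarith

theorem Hc_sub_Hv (lc : LCStmt) : ∃ C : ℝ, 0 < C ∧ ∀ (A B τ : ℝ) (d Δ m₁ m₂ : O), 0 < A → 0 < B →
    Prim d → Tri Δ m₁ m₂ → B ≤ nm (Δ * m₁) → B ≤ nm (Δ * m₂) → tau (Δ * m₁) ≤ τ →
    tau (Δ * m₂) ≤ τ → ‖Hc 1 A d Δ m₁ m₂ - (kst ^ 2 : ℝ) * Hv A d Δ m₁ m₂‖ ≤
      C * (nm d : ℝ) ^ (-6 / 5 : ℝ) * τ ^ 2 *
        (A ^ (4 / 5 : ℝ) * B ^ (-3 / 5 : ℝ) + A ^ (4 / 15 : ℝ) * B ^ (-1 / 3 : ℝ)) * nm Δ := by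
  obtain ⟨C₁, hC₁, h₁⟩ := Sig_asymp lc
  obtain ⟨C₂, hC₂, h₂⟩ := Hv_asymp lc
  have hc := c0_pos
  have hk := kst_pos
  refine ⟨C₁ * (c0 / 27 * (c0 ^ 2 / 9) ^ (-1 / 5 : ℝ)) + kst ^ 2 * C₂, by positivity,
    fun A B τ d Δ m₁ m₂ hA hB hd ht b₁ b₂ t₁ t₂ => ?_⟩
  have pd : (1 : ℝ) ≤ nm d := one_le_nm hd.ne_zero
  have pΔ : (1 : ℝ) ≤ nm Δ := one_le_nm (sq_ne ht.hΔ)
  have pq := nm_pos' (sq_ne ht.sq)
  have eN : (nm (Δ * m₁) * nm (Δ * m₂) : ℝ) = (nm Δ : ℝ) ^ 2 * nm (m₁ * m₂) := by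
    simp only [nm_mul]
    push_cast
    ring
  have hBB : B ^ 2 ≤ (nm Δ : ℝ) ^ 2 * nm (m₁ * m₂) := by
    rw [← eN, sq]
    exact mul_le_mul b₁ b₂ hB.le (hB.le.trans b₁)
  have hτ : 0 ≤ τ := (tau_nonneg _).trans t₁
  have u₁ : tau m₁ ≤ τ := (tau_mono (sq_ne ht.s₁) (dvd_mul_left _ _)).trans t₁
  have u₂ : tau m₂ ≤ τ := (tau_mono (sq_ne ht.s₂) (dvd_mul_left _ _)).trans t₂
  have v₁ : tau (m₁ * m₂) ≤ τ ^ 2 := by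
    rw [tau_mul ht.h₁.1 ht.h₂.1 ht.cop, sq]
    exact mul_le_mul u₁ u₂ (tau_nonneg _) hτ
  have v₂ : tau (Δ * (m₁ * m₂)) ≤ τ ^ 2 := by
    rw [← mul_assoc, tau_mul ht.s₁.1 ht.h₂.1 ((sq_coprime ht.s₂).mul_left ht.cop), sq]
    exact mul_le_mul t₁ u₂ (tau_nonneg _) hτ
  have hξ : 0 < xi0 A Δ (m₁ * m₂) := by
    unfold xi0
    positivity
  have g₁ := h₁ _ (m₁ * m₂) hξ ht.sq
  have g₂ := h₂ A d Δ m₁ m₂ hA hd ht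
  rw [eN] at g₂
  have g₃ : ((nm Δ : ℝ) ^ 2 * nm (m₁ * m₂)) ^ (-1 / 6 : ℝ) ≤ B ^ (-1 / 3 : ℝ) := by
    refine (Real.rpow_le_rpow_of_nonpos (by positivity) hBB (by norm_num)).trans_eq ?_
    rw [← Real.rpow_natCast, ← Real.rpow_mul hB.le]
    norm_num
  have g₄ := DV_err hc hA hB pd pΔ pq hBB
  have g₅ := congrArg Complex.ofReal (DV_main hc hA (by linarith : (0 : ℝ) < nm d)
    (by linarith : (0 : ℝ) < nm Δ) pq)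
  rw [← xi0] at g₄ g₅
  have hr : 0 ≤ c0 * A / (27 * (nm d : ℝ) ^ 2 * √(nm (m₁ * m₂))) := by positivity
  have e : Hc 1 A d Δ m₁ m₂ - (kst ^ 2 : ℝ) * Hv A d Δ m₁ m₂ =
      ind (IsCoprime d (Δ * (m₁ * m₂))) * phiS Δ *
        (c0 * A / (27 * (nm d : ℝ) ^ 2 * √(nm (m₁ * m₂))) : ℝ) *
        (Sig 1 (xi0 A Δ (m₁ * m₂)) (m₁ * m₂) - (c0 : ℝ) * phiS (m₁ * m₂) *
          (gam (1 / 3) * Gm 1 (2 / 3) / 3) * (xi0 A Δ (m₁ * m₂) ^ (-1 / 3 : ℝ) : ℝ)) -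
      (kst ^ 2 : ℝ) * (Hv A d Δ m₁ m₂ - ind (IsCoprime d (Δ * (m₁ * m₂))) *
        (((nm Δ : ℝ) ^ 2 * nm (m₁ * m₂)) ^ (-1 / 6 : ℝ) * A ^ (2 / 3 : ℝ) * (c0 / 9) /
          (nm d : ℝ) ^ 2 : ℝ) * phiS (Δ * (m₁ * m₂)) * Gm 1 (2 / 3)) := by
    rw [Hc, phiS_mul ht.hΔ.1 ht.sq.1 ht.copΔ, gam_third, kst_sq, mul_div_assoc (_ * _ ^ _),
      Complex.ofReal_mul (_ * _ ^ _)]
    rw [Complex.ofReal_mul, Complex.ofReal_mul, Complex.ofReal_mul (_ * _ ^ _),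
      Complex.ofReal_div c0 3, Complex.ofReal_ofNat] at g₅
    linear_combination ind (IsCoprime d (Δ * (m₁ * m₂))) * phiS Δ * phiS (m₁ * m₂) * Gm 1 (2 / 3) *
      (Real.Gamma (1 / 3) / Real.Gamma (2 / 3) : ℝ) * g₅
  rw [e]
  refine (norm_sub_le _ _).trans ?_
  rw [norm_mul, norm_mul, norm_mul, norm_mul (_ : ℂ) (Hv _ _ _ _ _ - _), Complex.norm_real,
    Complex.norm_real, Real.norm_of_nonneg hr, Real.norm_of_nonneg (sq_nonneg _), norm_ind]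
  have k₁ := mul_le_mul (mul_le_of_le_one_left hr (mul_le_one₀ (ir_le_one
    (IsCoprime d (Δ * (m₁ * m₂)))) (norm_nonneg _) (norm_phiS_le ht.hΔ))) g₁ (norm_nonneg _) hr
  have k₂ : C₂ * tau (Δ * (m₁ * m₂)) * ((nm Δ : ℝ) ^ 2 * nm (m₁ * m₂)) ^ (-1 / 6 : ℝ) *
      A ^ (4 / 15 : ℝ) * (nm d : ℝ) ^ (-6 / 5 : ℝ) ≤ C₂ * τ ^ 2 * (B ^ (-1 / 3 : ℝ) * nm Δ) *
      A ^ (4 / 15 : ℝ) * (nm d : ℝ) ^ (-6 / 5 : ℝ) := by
    gcongr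
    exact g₃.trans (le_mul_of_one_le_right (by positivity) pΔ)
  have k₃ := mul_le_mul (mul_le_mul_of_nonneg_left v₁ hC₁.le) g₄ (by positivity) (by positivity)
  have k₄ := mul_le_mul_of_nonneg_left (g₂.trans k₂) (sq_nonneg kst)
  have k₅ : 0 ≤ C₁ * (c0 / 27 * (c0 ^ 2 / 9) ^ (-1 / 5 : ℝ)) * (nm d : ℝ) ^ (-6 / 5 : ℝ) * τ ^ 2 *
    (A ^ (4 / 15 : ℝ) * B ^ (-1 / 3 : ℝ)) * nm Δ := by positivity
  have k₆ : 0 ≤ kst ^ 2 * C₂ * (nm d : ℝ) ^ (-6 / 5 : ℝ) * τ ^ 2 *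
    (A ^ (4 / 5 : ℝ) * B ^ (-3 / 5 : ℝ)) * nm Δ := by positivity
  linarith

end Vale.Agent.P006.D
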