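import Vale.Agent.P006.DSum
import Vale.Agent.P006.DCube
import Vale.Agent.P006.DV
import Vale.Agent.P006.DNon
import Vale.Agent.P006.DA1

/-! Part D: the dispersion estimates.  `δ = η/500`, `D² = X^δ`, `E = X^{0.02}`, `η' = δ/10`. -/

namespace Vale.Agent.P006.D

open Vale.Agent.P026 Filter
open scoped ComplexConjugate Real

theorem D_gq (Z : ℝ) (γ : O → ℂ) (a : O) :
    ‖∑ b ∈ qball Z, γ b * gq (a * b)‖ ^ 2 ≤ ir (Prim a) * ‖Fa Z γ a‖ ^ 2 := by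
  by_cases ha : Sq a
  · have h1 : ∑ b ∈ qball Z, γ b * gq (a * b) = gl a * Fa Z γ a := by
      rw [Fa, Finset.mul_sum]
      refine Finset.sum_congr rfl fun b hb => ?_
      have hb' := (mem_qball.1 hb).1
      by_cases h : IsCoprime a b
      · rw [gq, ind_of (sq_mul ha hb' h), gl_mul ha.1 hb'.1 h]
        ring
      · rw [gq, ind_of_not fun h' => h (sq_coprime h'), cub_eq_zero hb'.1.not_lam_dvd h]
        simp
    rw [h1, norm_mul, norm_gl ha, ir_of ha.1, one_mul, one_mul]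
  · rw [Finset.sum_eq_zero fun b hb => by
      rw [gq, ind_of_not fun h => ha (sq_left h (mem_qball.1 hb).1.1), zero_mul, mul_zero],
      norm_zero, sq, zero_mul]
    exact mul_nonneg (ir_nonneg _) (sq_nonneg _)

theorem D_le_U {L A : ℝ} (hL : 1 ≤ L) (hA : 0 < A) (Z : ℝ) (γ : O → ℂ) (s : Finset O) :
    ∑ a ∈ s, Gs L (nm a / A) * ‖∑ b ∈ qball Z, γ b * gq (a * b)‖ ^ 2 ≤ Ud L A Z γ 1 := by
  have h := summable_GsR (d := 1 ^ 2) (f := fun a => ir (Prim a))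
    (g := fun a => ‖Fa Z γ (1 ^ 2 * a)‖ ^ 2) hL hA (by simp)
    (fun a => by rw [abs_of_nonneg (ir_nonneg _)]; exact ir_le_one _)
    fun a => by
      rw [abs_of_nonneg (sq_nonneg _)]
      exact pow_le_pow_left₀ (norm_nonneg _) (DA1_Fa_le _ _ _) 2
  refine le_trans (Finset.sum_le_sum fun a _ => ?_) (h.sum_le_tsum s fun a _ =>
    mul_nonneg (mul_nonneg (ir_nonneg _) (Gs_pos _ _).le) (sq_nonneg _))
  rw [one_pow, one_mul, mul_comm (ir _), mul_assoc]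
  exact mul_le_mul_of_nonneg_left (D_gq Z γ a) (Gs_pos _ _).le

theorem D_split (mp : MPStmt) {L A Z : ℝ} {γ : O → ℂ} (hγ : ∀ b, γ b ≠ 0 → b ∈ qball Z)
    (hL : 1 ≤ L) (hA : 0 < A) {d : O} (hd : Sq d) : (Ud L A Z γ d : ℂ) =
      PSum Z γ (Hz L A d) + PSum Z γ (Hc L A d) + PSum Z γ (Hn L A d) := by
  rw [U_eq hγ hL hA (sq_ne hd), PSum_congr hγ fun Δ m₁ m₂ T => pair_eq mp hL hA hd T,
    PSum_add (fun Δ m₁ m₂ => Hz L A d Δ m₁ m₂ + Hc L A d Δ m₁ m₂) (Hn L A d),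
    PSum_add (Hz L A d) (Hc L A d)]

theorem D_tau {B τ : ℝ} {β : O → ℂ} (hβ : Supp 16 B β) (hτ : ∀ b, β b ≠ 0 → tau b ≤ τ) :
    1 ≤ τ ∨ ∀ b, β b = 0 := by
  by_cases h : ∀ b, β b = 0
  · exact Or.inr h
  · obtain ⟨b, hb⟩ := not_forall.1 h
    exact Or.inl ((one_le_tau (sq_ne (hβ b hb).1)).trans (hτ b hb))

theorem D_UV (mp : MPStmt) (lc : LCStmt) : ∃ C : ℝ, 0 < C ∧ ∀ (A B τ : ℝ) (γ : O → ℂ) (d : O),
    0 < A → 0 < B → B ^ (2 / 3 : ℝ) ≤ A ^ (11 / 15 : ℝ) → 1 ≤ τ → Supp 16 B γ →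
    (∀ b, γ b ≠ 0 → tau b ≤ τ) → Sq d →
    |Ud 1 A (16 * B) γ d - kst ^ 2 * Vd A (16 * B) γ d| ≤
      C * τ ^ 4 * A * (1 + (B ^ 2 / A) ^ (1 / 5 : ℝ)) * (∑ b ∈ qball (16 * B), ‖γ b‖ ^ 2) *
        (nm d : ℝ) ^ (-6 / 5 : ℝ) + ‖PSum (16 * B) γ (Hn 1 A d)‖ := by
  obtain ⟨C₁, hC₁, h₁⟩ := Hc_sub_Hv lc
  obtain ⟨C₂, hC₂, h₂⟩ := norm_PSum_le_nm
  refine ⟨2 + 16 * C₂ * C₁, by positivity, fun A B τ γ d hA hB hAB hτ hγ ht hd => ?_⟩
  have hm := supp_mem hγ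
  have e1 : ((Ud 1 A (16 * B) γ d - kst ^ 2 * Vd A (16 * B) γ d : ℝ) : ℂ) =
      PSum (16 * B) γ (Hz 1 A d) + PSum (16 * B) γ
        (fun Δ m₁ m₂ => Hc 1 A d Δ m₁ m₂ - (kst ^ 2 : ℝ) * Hv A d Δ m₁ m₂) +
        PSum (16 * B) γ (Hn 1 A d) := by
    rw [PSum_sub_mul, Complex.ofReal_sub, Complex.ofReal_mul, D_split mp hm le_rfl hA hd,
      V_eq hm hA (sq_ne hd)]
    ring
  rw [← Real.norm_eq_abs, ← Complex.norm_real, e1]
  refine (norm_add_le _ _).trans (add_le_add ((norm_add_le _ _).trans ?_) le_rfl)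
  have a1 := norm_PSum_z (Z := 16 * B) (γ := γ) le_rfl hA.le d
  have a2 := h₂ (16 * B) _ τ γ _ (by positivity) (by positivity) hm ht fun Δ m₁ m₂ T g₁ g₂ =>
    h₁ A B τ d Δ m₁ m₂ hA hB hd.1 T (hγ _ g₁).2.1.le (hγ _ g₂).2.1.le (ht _ g₁) (ht _ g₂)
  refine (add_le_add a1 a2).trans ?_
  have hd1 := one_le_nm (sq_ne hd)
  have b1 : A / (1 * (nm d : ℝ) ^ 2) ≤ A * (nm d : ℝ) ^ (-6 / 5 : ℝ) := by
    rw [one_mul, div_eq_mul_inv, ← Real.rpow_two, ← Real.rpow_neg (by linarith)]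
    exact mul_le_mul_of_nonneg_left (Real.rpow_le_rpow_of_exponent_le hd1 (by norm_num)) hA.le
  have b2 : A ^ (4 / 5 : ℝ) * B ^ (-3 / 5 : ℝ) * B = A * (B ^ 2 / A) ^ (1 / 5 : ℝ) := by
    refine Real.log_injOn_pos (Set.mem_Ioi.2 (by positivity)) (Set.mem_Ioi.2 (by positivity)) ?_
    rw [Real.log_mul (by positivity) hB.ne', Real.log_mul (by positivity) (by positivity),
      Real.log_mul hA.ne' (by positivity), Real.log_rpow hA, Real.log_rpow hB,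
      Real.log_rpow (by positivity), Real.log_div (by positivity) hA.ne', Real.log_pow]
    push_cast
    ring
  have b3 : A ^ (4 / 15 : ℝ) * B ^ (-1 / 3 : ℝ) * B ≤ A := by
    calc _ = A ^ (4 / 15 : ℝ) * B ^ (-1 / 3 + 1 : ℝ) := by rw [Real.rpow_add_one hB.ne', mul_assoc]
      _ ≤ A ^ (4 / 15 : ℝ) * A ^ (11 / 15 : ℝ) := by
          rw [show (-1 / 3 + 1 : ℝ) = 2 / 3 by norm_num]
          gcongr
      _ = A := by
          rw [← Real.rpow_add hA]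
          norm_num
  obtain ⟨S, hS⟩ : ∃ S, S = ∑ b ∈ qball (16 * B), ‖γ b‖ ^ 2 := ⟨_, rfl⟩
  have hS0 : 0 ≤ S := by rw [hS]; positivity
  obtain ⟨y, hy⟩ : ∃ y, y = (B ^ 2 / A) ^ (1 / 5 : ℝ) := ⟨_, rfl⟩
  have hy0 : 0 ≤ y := by rw [hy]; positivity
  obtain ⟨n, hn⟩ : ∃ n, n = (nm d : ℝ) ^ (-6 / 5 : ℝ) := ⟨_, rfl⟩
  have hn0 : 0 ≤ n := by rw [hn]; positivity
  rw [← hS, ← hy, ← hn]
  rw [← hn] at b1
  rw [← hy] at b2
  have b4 : τ ^ 3 ≤ τ ^ 4 := pow_le_pow_right₀ hτ (by norm_num)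
  have b5 : 1 ≤ τ ^ 4 * (1 + y) := one_le_mul_of_one_le_of_one_le (one_le_pow₀ hτ) (by linarith)
  calc _ = 2 * (A / (1 * (nm d : ℝ) ^ 2)) * S * 1 + 16 * C₂ * C₁ * τ ^ 3 *
        (A ^ (4 / 5 : ℝ) * B ^ (-3 / 5 : ℝ) * B + A ^ (4 / 15 : ℝ) * B ^ (-1 / 3 : ℝ) * B) *
          S * n := by ring
    _ ≤ 2 * (A * n) * S * (τ ^ 4 * (1 + y)) + 16 * C₂ * C₁ * τ ^ 4 * (A * y + A) * S * n := by
        rw [b2]
        gcongr
    _ = _ := by ring

theorem D_num {η X A R C x : ℝ} (h0 : 0 < η) (h1 : η ≤ 1 / 100) (hX : 1 ≤ X) (hA : 0 < A)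
    (hAX : A ≤ X) (hR : 0 ≤ R) (hC : 0 ≤ C) (h4 : 4 * C ≤ X ^ (η / 5000))
    (hx : x ≤ (X ^ (η / 5000)) ^ 2 * X ^ (-1 / 200 : ℝ) * A ^ (2 / 3 : ℝ) * R) :
    C * ((X ^ (η / 1000)) ^ 4 * (X ^ (-η / 50) * A ^ (2 / 3 : ℝ) * R) + x +
      (X ^ (η / 5000)) ^ 2 * A ^ (2 / 3 + η / 5000) * R *
        (1 / X ^ (η / 1000) + 1 / (X ^ (0.02 : ℝ)) ^ 2)) ≤
      X ^ (-(η / 5000)) * A ^ (2 / 3 : ℝ) * R := by
  have hX0 : 0 < X := by linarith
  have e : ∀ (a : ℝ) (n : ℕ), (X ^ a) ^ n = X ^ (a * n) := fun a n => by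
    rw [← Real.rpow_natCast, ← Real.rpow_mul hX0.le]
  have m : ∀ {a b : ℝ}, a ≤ b → X ^ a ≤ X ^ b := Real.rpow_le_rpow_of_exponent_le hX
  have a1 : (X ^ (η / 1000)) ^ 4 * X ^ (-η / 50) ≤ X ^ (-η / 2500) := by
    rw [e, ← Real.rpow_add hX0]
    exact m (by push_cast; linarith)
  have a2 : (X ^ (η / 5000)) ^ 2 * X ^ (-1 / 200 : ℝ) ≤ X ^ (-η / 2500) := by
    rw [e, ← Real.rpow_add hX0]
    exact m (by push_cast; linarith)
  have a3 : (X ^ (η / 5000)) ^ 2 * A ^ (η / 5000) *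
      (1 / X ^ (η / 1000) + 1 / (X ^ (0.02 : ℝ)) ^ 2) ≤ 2 * X ^ (-η / 2500) := by
    have b1 : 1 / (X ^ (0.02 : ℝ)) ^ 2 ≤ 1 / X ^ (η / 1000) := by
      rw [e]
      exact one_div_le_one_div_of_le (by positivity) (m (by push_cast; linarith))
    calc _ ≤ (X ^ (η / 5000)) ^ 2 * X ^ (η / 5000) * (1 / X ^ (η / 1000) + 1 / X ^ (η / 1000)) := by
          gcongr
      _ = 2 * ((X ^ (η / 5000)) ^ 3 / X ^ (η / 1000)) := by ring
      _ = _ := by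
          rw [e, ← Real.rpow_sub hX0]
          congr 2
          push_cast
          ring
  have a4 : X ^ (η / 5000) * X ^ (-η / 2500) = X ^ (-(η / 5000)) := by
    rw [← Real.rpow_add hX0]
    congr 1
    ring
  rw [Real.rpow_add hA, ← a4]
  obtain ⟨u, hu⟩ : ∃ u, u = A ^ (2 / 3 : ℝ) * R := ⟨_, rfl⟩
  have hu0 : 0 ≤ u := by rw [hu]; positivity
  calc _ ≤ C * ((X ^ (η / 1000)) ^ 4 * X ^ (-η / 50) * u +
        (X ^ (η / 5000)) ^ 2 * X ^ (-1 / 200 : ℝ) * u + (X ^ (η / 5000)) ^ 2 * A ^ (η / 5000) *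
          (1 / X ^ (η / 1000) + 1 / (X ^ (0.02 : ℝ)) ^ 2) * u) := by
        refine mul_le_mul_of_nonneg_left ?_ hC
        rw [hu]
        linarith
    _ ≤ C * (X ^ (-η / 2500) * u + X ^ (-η / 2500) * u + 2 * X ^ (-η / 2500) * u) := by gcongr
    _ = 4 * C * X ^ (-η / 2500) * u := by ring
    _ ≤ X ^ (η / 5000) * X ^ (-η / 2500) * u := by gcongr
    _ = _ := by rw [hu]; ring

end Vale.Agent.P006.D

namespace Vale.Agent.P006

open Vale.Agent.P026 Filter D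
open scoped ComplexConjugate Real

theorem db (mp : MPStmt) (h2 : LS2Stmt) : DBStmt := by
  intro η h0 h1
  obtain ⟨C, hC, hc⟩ := Hc_le
  refine ⟨η / 500, 2 + C, by positivity, by positivity, ?_⟩
  filter_upwards [rng_facts h1, noncube h2 h0 h1] with X hr hn A B τ t L β s r1 r2 r3 r4 hβ hb hτ
    hN ht hL hL'
  have R : Rng η X A B := ⟨r1, r2, r3, r4⟩
  obtain ⟨-, -, -, hA, hB⟩ := hr.2 A B R
  have hX : 1 ≤ X := by linarith [hr.1]
  have hA0 : 0 < A := by linarith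
  have hB0 : 0 < B := by linarith
  rcases D_tau hβ hτ with hτ1 | hz
  swap
  · simp only [hz, zero_mul, norm_zero, Finset.sum_const_zero, ne_eq, OfNat.ofNat_ne_zero,
      not_false_eq_true, zero_pow, mul_zero, zero_add]
    positivity
  have hγ := supp_nt (t := t) hβ
  have a1 := norm_PSum_z (Z := 16 * B) (γ := fun b => β b * nt b t) hL hA0.le 1
  have a2 := norm_PSum_le_const (supp_mem hγ) (by positivity) fun Δ m₁ m₂ T g₁ g₂ =>
    hc L A B Δ m₁ m₂ hL hA0 hB0 T (hγ _ g₁).2.1.le (hγ _ g₂).2.1.le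
  have a3 := hn A B t L β 1 R hβ hb hN ht hL hL' one_ne_zero
    (by simpa using Real.one_le_rpow hX (by positivity))
  have a4 := D_le_U hL hA0 (16 * B) (fun b => β b * nt b t) s
  have a5 : Ud L A (16 * B) (fun b => β b * nt b t) 1 ≤ _ :=
    ((le_abs_self _).trans_eq ((Real.norm_eq_abs _).symm.trans ((Complex.norm_real _).symm.trans
      (congrArg norm (D_split mp (supp_mem hγ) hL hA0 D.sq_one))))).trans
      ((norm_add_le _ _).trans (add_le_add ((norm_add_le _ _).trans (add_le_add a1 a2)) a3))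
  refine a4.trans (a5.trans ?_)
  simp only [norm_mul_nt, nm_one, Nat.cast_one, one_pow, mul_one]
  have b1 : C ≤ (2 + C) * τ := by nlinarith
  gcongr <;> linarith

theorem da (mp : MPStmt) (lc : LCStmt) (h2 : LS2Stmt) (tc : TCStmt) : DAStmt := by
  intro η h0 h1
  have h5 : 0 < η / 5000 := by positivity
  obtain ⟨C₁, hC₁, h₁⟩ := D_UV mp lc
  obtain ⟨C₂, hC₂, h₂⟩ := S_le h5 (by linarith)
  refine ⟨η / 5000, C₂ * C₁, h5, by positivity, ?_⟩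
  filter_upwards [rng_facts h1, noncube h2 h0 h1, cross tc h1, ev_const (4 * C₂) h5] with X hr hn
    hc h4 A B τ t β s r1 r2 r3 r4 hβ hb hτ hN ht
  have R : Rng η X A B := ⟨r1, r2, r3, r4⟩
  obtain ⟨f1, f2, f3, hA, hB⟩ := hr.2 A B R
  have hX : 1 ≤ X := by linarith [hr.1]
  have hX0 : 0 < X := by linarith
  have hA0 : 0 < A := by linarith
  have hB0 : 0 < B := by linarith
  rcases D_tau hβ hτ with hτ1 | hz
  swap
  · simp only [hz, zero_mul, norm_zero, Finset.sum_const_zero, ne_eq, OfNat.ofNat_ne_zero,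
      not_false_eq_true, zero_pow, mul_zero, zero_add]
    positivity
  have hγ := supp_nt (t := t) hβ
  have hbγ : Bd (X ^ (η / 5000)) fun b => β b * nt b t := fun b => (norm_mul_nt β t b).trans_le (hb b)
  have hb' : Bd (X ^ (η / 500)) β := fun b =>
    (hb b).trans (Real.rpow_le_rpow_of_exponent_le hX (by linarith))
  have hAB : B ^ (2 / 3 : ℝ) ≤ A ^ (11 / 15 : ℝ) := by
    calc _ ≤ (X ^ (0.501 : ℝ)) ^ (2 / 3 : ℝ) := by gcongr
      _ ≤ (X ^ (0.49 : ℝ)) ^ (11 / 15 : ℝ) := by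
          rw [← Real.rpow_mul hX0.le, ← Real.rpow_mul hX0.le]
          exact Real.rpow_le_rpow_of_exponent_le hX (by norm_num)
      _ ≤ _ := by gcongr
  have hD : (X ^ (η / 1000)) ^ 2 = X ^ (η / 500) := by
    rw [← Real.rpow_natCast, ← Real.rpow_mul hX0.le]
    congr 1
    push_cast
    ring
  have a1 := h₂ A B _ (X ^ (η / 1000)) (X ^ (0.02 : ℝ)) _ _ _ s hA0 hB0
    (Real.one_le_rpow hX (by positivity)) (by positivity) (by positivity) (by positivity) hγ hbγ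
    fun d hd hd' => (h₁ A B τ _ d hA0 hB0 hAB hτ1 hγ
      (fun b h => hτ b (left_ne_zero_of_mul h)) hd).trans (add_le_add le_rfl
      (hn A B t 1 β d R hβ hb' hN ht le_rfl (Real.one_le_rpow hX (by positivity)) (sq_ne hd)
        (hd'.trans_eq hD)))
  have a2 := D_num h0 h1 hX hA0 (f2.trans (Real.rpow_le_self_of_one_le hX (by norm_num)))
    (by positivity) hC₂.le h4 (hc A B _ _ R hγ hbγ)
  simp only [norm_mul_nt] at a1
  refine a1.trans ?_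
  linarith

end Vale.Agent.P006
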