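import Vale.Agent.P006.KMel

/-! K4: gamma factors.
Plans: `‖Γ(conj s)‖ = ‖Γ s‖` (`Complex.Gamma_conj`); `norm_Gamma_div_le`: `Γ(s)Γ(d) = Γ(s+d) B(s,d)` (`Complex.Gamma_mul_Gamma_eq_betaIntegral`),
`‖B(s,d)‖ ≤ B(Re s, d)`, continuity in `Re s`; `expG_invGamma`: reflection `1/Γ(w) = Γ(1-w) sin(πw)/π` for `Re w ≤ 1/2`, `‖Γ s‖ ≤ Γ(Re s)`,
recurrence `1/Γ(w) = w/Γ(w+1)` downwards and, for `Re w` large, `1/Γ(w+1) = (1/Γ w)/w` with `|w| ≥ 1/2`.
`norm_Gamma_ratio`: `Γ(s+n) = s(s+1)…(s+n-1)Γ(s)`; if `Γ s = 0` the quotient is `0`. -/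

namespace Vale.Agent.P006

open Vale.Agent.P026 Filter MeasureTheory
open scoped ComplexConjugate Real

theorem kgam_norm_le {s : ℂ} (hs : 0 < s.re) : ‖Complex.Gamma s‖ ≤ Real.Gamma s.re := by
  rw [Complex.Gamma_eq_integral hs, Real.Gamma_eq_integral hs, Complex.GammaIntegral]
  refine (norm_integral_le_integral_norm _).trans (le_of_eq ?_)
  refine setIntegral_congr_fun measurableSet_Ioi fun x hx => ?_
  simp only [norm_mul, Complex.norm_cpow_eq_rpow_re_of_pos hx, Complex.norm_real,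
    Real.norm_of_nonneg (Real.exp_pos _).le, Complex.sub_re, Complex.one_re]

theorem kgam_bounds {a : ℝ} (ha : 0 < a) (b : ℝ) : ∃ m M : ℝ, 0 < m ∧ 0 < M ∧
    ∀ x, a ≤ x → x ≤ b → m ≤ Real.Gamma x ∧ Real.Gamma x ≤ M := by
  have hc : ContinuousOn Real.Gamma (Set.Icc a (max a b)) := fun x hx =>
    (Real.differentiableAt_Gamma fun m h => by
      have : (0 : ℝ) ≤ m := m.cast_nonneg
      linarith [hx.1]).continuousAt.continuousWithinAt
  have hne : (Set.Icc a (max a b)).Nonempty := Set.nonempty_Icc.2 (le_max_left _ _)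
  obtain ⟨x, hx, h1⟩ := isCompact_Icc.exists_isMinOn hne hc
  obtain ⟨y, hy, h2⟩ := isCompact_Icc.exists_isMaxOn hne hc
  exact ⟨_, _, Real.Gamma_pos_of_pos (ha.trans_le hx.1), Real.Gamma_pos_of_pos (ha.trans_le hy.1),
    fun z h h' => ⟨h1 ⟨h, h'.trans (le_max_right _ _)⟩, h2 ⟨h, h'.trans (le_max_right _ _)⟩⟩⟩

theorem kgam_sin (z : ℂ) : ‖Complex.sin z‖ ≤ Real.exp |z.im| := by
  rw [Complex.sin, norm_div, norm_mul, Complex.norm_I, mul_one, Complex.norm_two,
    div_le_iff₀ two_pos, mul_two]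
  refine (norm_sub_le _ _).trans (add_le_add ?_ ?_) <;>
    rw [Complex.norm_exp, Real.exp_le_exp]
  · simpa using le_abs_self z.im
  · simpa using neg_le_abs z.im

theorem kgam_refl {s : ℂ} (hs : s.re < 1) :
    (Complex.Gamma s)⁻¹ = Complex.Gamma (1 - s) * Complex.sin (π * s) / π := by
  have h1 : Complex.Gamma (1 - s) ≠ 0 :=
    Complex.Gamma_ne_zero_of_re_pos (by simpa using hs)
  have h2 := Complex.Gamma_mul_Gamma_one_sub s
  have h3 : (π : ℂ) ≠ 0 := Complex.ofReal_ne_zero.2 Real.pi_ne_zero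
  by_cases h : Complex.sin (π * s) = 0
  · rw [h, div_zero] at h2
    rw [(mul_eq_zero.1 h2).resolve_right h1, h, inv_zero, mul_zero, zero_div]
  · rw [← eq_div_iff h1] at h2
    rw [h2]
    field_simp

theorem kgam_up {s : ℂ} (hs : 1 ≤ |s.im|) (n : ℕ) :
    ‖(Complex.Gamma (s + n))⁻¹‖ ≤ ‖(Complex.Gamma s)⁻¹‖ := by
  induction n with
  | zero => simp
  | succ n ih =>
    have h1 : 1 ≤ ‖s + n‖ := hs.trans (by simpa using Complex.abs_im_le_norm (s + n))
    have h2 : s + n ≠ 0 := norm_pos_iff.1 (one_pos.trans_le h1)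
    rw [Nat.cast_succ, ← add_assoc, Complex.Gamma_add_one _ h2, mul_inv, norm_mul, norm_inv]
    exact (mul_le_of_le_one_left (norm_nonneg _) (inv_le_one_of_one_le₀ h1)).trans ih

theorem expG_invGamma (a b : ℝ) (c : ℝ) : ExpG a b fun w => (Complex.Gamma (w + c))⁻¹ := by
  obtain ⟨n, hn⟩ := exists_nat_ge (b + c)
  obtain ⟨m, M, -, hM, h1⟩ := kgam_bounds one_pos (1 + n - (a + c))
  obtain ⟨C, hC⟩ := ((isCompact_Icc (a := a) (b := b)).reProdIm
    (isCompact_Icc (a := -1) (b := 1))).exists_bound_of_continuousOn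
    (f := fun w => (Complex.Gamma (w + c))⁻¹)
    (Complex.differentiable_one_div_Gamma.continuous.comp (by fun_prop)).continuousOn
  refine ⟨max (max C M) π, fun w ha hb => ?_⟩
  have hp : π ≤ max (max C M) π := le_max_right _ _
  have h0 : 0 ≤ max (max C M) π := Real.pi_pos.le.trans hp
  rcases le_total |w.im| 1 with h | h
  · refine (hC w ⟨⟨ha, hb⟩, abs_le.1 h⟩).trans (((le_max_left C M).trans (le_max_left _ π)).trans ?_)
    exact le_mul_of_one_le_right h0 (Real.one_le_exp (by positivity))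
  · have h2 := kgam_up (s := w + c - n) (by simpa using h) n
    rw [sub_add_cancel] at h2
    refine h2.trans ?_
    have h3 : (w + c - n).re < 1 := by
      simp only [Complex.sub_re, Complex.add_re, Complex.ofReal_re, Complex.natCast_re]
      linarith
    rw [kgam_refl h3, norm_div, norm_mul, Complex.norm_real, Real.norm_of_nonneg Real.pi_pos.le]
    refine (div_le_self (by positivity) (by linarith [Real.pi_gt_three])).trans (mul_le_mul
      ((kgam_norm_le (by simpa using h3)).trans ((h1 _ ?_ ?_).2.trans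
        ((le_max_right _ _).trans (le_max_left _ _)))) ((kgam_sin _).trans ?_) (norm_nonneg _) h0)
    · simp only [Complex.sub_re, Complex.add_re, Complex.ofReal_re, Complex.natCast_re,
        Complex.one_re]
      linarith
    · simp only [Complex.sub_re, Complex.add_re, Complex.ofReal_re, Complex.natCast_re,
        Complex.one_re]
      linarith
    · rw [Real.exp_le_exp]
      simp only [Complex.im_ofReal_mul, Complex.sub_im, Complex.add_im, Complex.ofReal_im,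
        Complex.natCast_im, add_zero, sub_zero, abs_mul, abs_of_pos Real.pi_pos]
      exact mul_le_mul_of_nonneg_right hp (abs_nonneg _)
theorem expG_Gamma {a : ℝ} (b : ℝ) {c : ℝ} (h : 0 < a + c) :
    ExpG a b fun w => Complex.Gamma (w + c) := by
  obtain ⟨m, M, -, -, h1⟩ := kgam_bounds h (b + c)
  refine ExpG.of_poly (C := M) (n := 0) fun w ha hb => ?_
  have e : (w + c).re = w.re + c := by simp
  rw [pow_zero, mul_one]
  exact (kgam_norm_le (by rw [e]; linarith)).trans (h1 _ (by rw [e]; linarith)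
    (by rw [e]; linarith)).2

theorem kgam_beta (s : ℂ) (d : ℝ) :
    ‖Complex.betaIntegral s d‖ ≤ ‖Complex.betaIntegral s.re d‖ := by
  have e : Complex.betaIntegral s.re d =
      ((∫ x in (0 : ℝ)..1, x ^ (s.re - 1) * (1 - x) ^ (d - 1) : ℝ) : ℂ) := by
    rw [Complex.betaIntegral, ← intervalIntegral.integral_ofReal]
    refine intervalIntegral.integral_congr fun x hx => ?_
    rw [Set.uIcc_of_le zero_le_one] at hx
    simp only [Complex.ofReal_mul, Complex.ofReal_cpow hx.1,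
      Complex.ofReal_cpow (sub_nonneg.2 hx.2), Complex.ofReal_sub, Complex.ofReal_one]
  rw [e, Complex.norm_real, Complex.betaIntegral]
  refine (intervalIntegral.norm_integral_le_integral_norm zero_le_one).trans
    ((le_of_eq ?_).trans (le_abs_self _))
  refine intervalIntegral.integral_congr_ae (Eventually.of_forall fun x hx => ?_)
  rw [Set.uIoc_of_le zero_le_one] at hx
  have e2 : (1 - (x : ℂ)) ^ ((d : ℂ) - 1) = (((1 - x) ^ (d - 1) : ℝ) : ℂ) := by
    simp only [Complex.ofReal_cpow (sub_nonneg.2 hx.2), Complex.ofReal_sub, Complex.ofReal_one]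
  rw [norm_mul, Complex.norm_cpow_eq_rpow_re_of_pos hx.1, e2, Complex.norm_real,
    Real.norm_of_nonneg (Real.rpow_nonneg (sub_nonneg.2 hx.2) _), Complex.sub_re, Complex.one_re]

theorem kgam_div {s : ℂ} (hs : 0 < s.re) {d : ℝ} (hd : 0 ≤ d) :
    ‖Complex.Gamma s / Complex.Gamma (s + d)‖ ≤ Real.Gamma s.re / Real.Gamma (s.re + d) := by
  rcases hd.eq_or_lt with rfl | hd
  · rw [Complex.ofReal_zero, add_zero, add_zero, div_self (Real.Gamma_pos_of_pos hs).ne',
      div_self (Complex.Gamma_ne_zero_of_re_pos hs), norm_one]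
  have key : ∀ u : ℂ, 0 < u.re → ‖Complex.Gamma u / Complex.Gamma (u + d)‖ =
      ‖Complex.betaIntegral u d‖ / ‖Complex.Gamma d‖ := fun u hu => by
    have h1 := Complex.Gamma_mul_Gamma_eq_betaIntegral hu (t := d) (by simpa using hd)
    have h2 : Complex.Gamma (u + d) ≠ 0 := Complex.Gamma_ne_zero_of_re_pos (by simp; linarith)
    have h3 : Complex.Gamma d ≠ 0 := Complex.Gamma_ne_zero_of_re_pos (by simpa using hd)
    rw [← norm_div, (div_eq_div_iff h2 h3).2 (h1.trans (mul_comm _ _))]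
  rw [key s hs]
  refine (div_le_div_of_nonneg_right (kgam_beta s d) (norm_nonneg _)).trans (le_of_eq ?_)
  rw [← key _ (by simpa using hs), ← Complex.ofReal_add, Complex.Gamma_ofReal, Complex.Gamma_ofReal,
    ← Complex.ofReal_div, Complex.norm_real, Real.norm_of_nonneg
      (div_pos (Real.Gamma_pos_of_pos hs) (Real.Gamma_pos_of_pos (add_pos hs hd))).le]
theorem norm_Gamma_div_le {a : ℝ} (ha : 0 < a) (b : ℝ) : ∃ C : ℝ, 0 < C ∧ ∀ (s : ℂ) (d : ℝ),
    a ≤ s.re → s.re ≤ b → 0 ≤ d → d ≤ 1 → ‖Complex.Gamma s / Complex.Gamma (s + d)‖ ≤ C := by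
  obtain ⟨m, M, hm, hM, h⟩ := kgam_bounds ha (b + 1)
  refine ⟨M / m, div_pos hM hm, fun s d h1 h2 h3 h4 => (kgam_div (ha.trans_le h1) h3).trans ?_⟩
  exact div_le_div₀ hM.le (h _ h1 (by linarith)).2 hm (h _ (by linarith) (by linarith)).1
theorem norm_Gamma_ratio (n : ℕ) (s : ℂ) :
    ‖Complex.Gamma (s + n) / Complex.Gamma (conj s)‖ ≤ (‖s‖ + n) ^ n := by
  rw [norm_div, Complex.Gamma_conj, Complex.norm_conj]
  by_cases h : Complex.Gamma s = 0
  · rw [h, norm_zero, div_zero]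
    positivity
  rw [div_le_iff₀ (norm_pos_iff.2 h)]
  induction n with
  | zero => simp
  | succ n ih =>
    have h2 : s + n ≠ 0 := fun e => h ((Complex.Gamma_eq_zero_iff s).2 ⟨n, eq_neg_of_add_eq_zero_left e⟩)
    rw [Nat.cast_succ, ← add_assoc, Complex.Gamma_add_one _ h2, norm_mul, pow_succ', mul_assoc]
    have h3 : ‖s + n‖ ≤ ‖s‖ + (n + 1 : ℕ) := (norm_add_le _ _).trans (by simp)
    refine mul_le_mul h3 (ih.trans ?_) (norm_nonneg _) (by positivity)
    gcongr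
    exact n.le_succ

theorem kgam_diff {s : ℂ} (hs : 0 < s.re) : DifferentiableAt ℂ gam s := by
  have h1 : DifferentiableAt ℂ Complex.Gamma s := Complex.differentiableAt_Gamma s fun m h => by
    rw [h, Complex.neg_re, Complex.natCast_re] at hs
    linarith [m.cast_nonneg (α := ℝ)]
  have h2 : DifferentiableAt ℂ (fun s : ℂ => (Complex.Gamma (1 - s))⁻¹) s :=
    (Complex.differentiable_one_div_Gamma _).comp s (by fun_prop)
  exact h1.mul h2

theorem kgam_main {a : ℝ} (ha : 0 < a) (b : ℝ) : ∃ C : ℝ, 0 < C ∧ ∀ (s : ℂ) (n : ℕ), a ≤ s.re →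
    s.re ≤ b → 2 * s.re - 1 ≤ n → n ≤ 2 * s.re → ‖gam s‖ ≤ C * (|1 - s.re| + |s.im| + n) ^ n := by
  obtain ⟨C, hC, h⟩ := norm_Gamma_div_le ha b
  refine ⟨C, hC, fun s n h1 h2 h3 h4 => ?_⟩
  have e : conj (1 - s) + n = s + (n + 1 - 2 * s.re : ℝ) := by
    apply Complex.ext <;> simp
    ring
  have h5 := norm_Gamma_ratio n (conj (1 - s))
  rw [Complex.conj_conj, e, Complex.norm_conj] at h5
  have h6 : Complex.Gamma (s + (n + 1 - 2 * s.re : ℝ)) ≠ 0 :=
    Complex.Gamma_ne_zero_of_re_pos (by rw [Complex.add_re, Complex.ofReal_re]; linarith)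
  have h7 : ‖1 - s‖ ≤ |1 - s.re| + |s.im| := by
    simpa using Complex.norm_le_abs_re_add_abs_im (1 - s)
  rw [gam, ← div_mul_div_cancel₀ h6, norm_mul]
  refine mul_le_mul (h s _ h1 h2 (by linarith) (by linarith)) (h5.trans ?_) (norm_nonneg _) hC.le
  gcongr
theorem holS_gam {a : ℝ} (ha : 0 < a) (b : ℝ) : HolS a b gam :=
  fun _ h _ => kgam_diff (ha.trans_le h)
theorem differentiableOn_gam : DifferentiableOn ℂ gam {s | 0 < s.re} :=
  fun _ h => (kgam_diff h).differentiableWithinAt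
theorem norm_gam_le {a : ℝ} (ha : 0 < a) : ∃ C : ℝ, 0 < C ∧ ∀ s : ℂ, a ≤ s.re → s.re ≤ 1 / 2 →
    ‖gam s‖ ≤ C := by
  obtain ⟨C, hC, h⟩ := kgam_main ha (1 / 2)
  refine ⟨C, hC, fun s h1 h2 => ?_⟩
  simpa using h s 0 h1 h2 (by push_cast; linarith) (by push_cast; linarith)
theorem norm_gam_poly {a : ℝ} (ha : 0 < a) (b : ℝ) : ∃ (C : ℝ) (n : ℕ), 0 < C ∧ ∀ s : ℂ,
    a ≤ s.re → s.re ≤ b → ‖gam s‖ ≤ C * (1 + |s.im|) ^ n := by
  obtain ⟨C, hC, h⟩ := kgam_main ha b
  obtain ⟨N, hN⟩ := exists_nat_ge (2 * b)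
  refine ⟨C * (1 + 2 * N) ^ N, N, by positivity, fun s h1 h2 => ?_⟩
  have h3 : (⌊2 * s.re⌋₊ : ℝ) ≤ 2 * s.re := Nat.floor_le (by linarith)
  have h4 : ⌊2 * s.re⌋₊ ≤ N := by exact_mod_cast (h3.trans (by linarith) : (⌊2 * s.re⌋₊ : ℝ) ≤ N)
  refine (h s _ h1 h2 (by linarith [Nat.lt_floor_add_one (2 * s.re)]) h3).trans ?_
  have h5 : |1 - s.re| ≤ 1 + N := abs_le.2 ⟨by linarith, by linarith [N.cast_nonneg (α := ℝ)]⟩
  have h6 := abs_nonneg s.im
  have h7 : (0 : ℝ) ≤ N := N.cast_nonneg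
  rw [mul_assoc, ← mul_pow]
  refine mul_le_mul_of_nonneg_left ((pow_le_pow_left₀ (by positivity) ?_ _).trans
    (pow_le_pow_right₀ (by nlinarith) h4)) hC.le
  nlinarith
theorem norm_gam_one {a : ℝ} (ha : 0 < a) : ∃ C : ℝ, 0 < C ∧ ∀ s : ℂ,
    a ≤ s.re → s.re ≤ 1 → ‖gam s‖ ≤ C * (1 + |s.im|) := by
  obtain ⟨C, hC, h⟩ := kgam_main ha 1
  refine ⟨2 * C, by positivity, fun s h1 h2 => ?_⟩
  have h3 := mul_nonneg hC.le (abs_nonneg s.im)
  rcases le_total s.re (1 / 2) with h4 | h4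
  · have := h s 0 h1 h2 (by push_cast; linarith) (by push_cast; linarith)
    rw [pow_zero] at this
    linarith
  · have := h s 1 h1 h2 (by push_cast; linarith) (by push_cast; linarith)
    rw [pow_one, abs_of_nonneg (by linarith), Nat.cast_one] at this
    nlinarith
theorem norm_gam_half (n : ℕ) (t : ℝ) :
    ‖gam (((n + 1) / 2 : ℝ) + t * Complex.I)‖ ≤ (2 * n + |t|) ^ n := by
  have h := norm_Gamma_ratio n (((1 - n) / 2 : ℝ) + t * Complex.I)
  have e1 : ((1 - n) / 2 : ℝ) + t * Complex.I + n = ((n + 1) / 2 : ℝ) + t * Complex.I := by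
    push_cast
    ring
  have e2 : conj ((((1 - n) / 2 : ℝ) : ℂ) + t * Complex.I) =
      1 - (((n + 1) / 2 : ℝ) + t * Complex.I) := by
    rw [map_add, map_mul, Complex.conj_ofReal, Complex.conj_ofReal, Complex.conj_I]
    push_cast
    ring
  rw [e1, e2] at h
  refine h.trans ?_
  rcases n.eq_zero_or_pos with rfl | hn
  · simp
  have h1 : (1 : ℝ) ≤ n := by exact_mod_cast hn
  refine pow_le_pow_left₀ (by positivity) ?_ _
  have h2 := norm_add_le (((1 - n) / 2 : ℝ) : ℂ) (t * Complex.I)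
  rw [norm_mul, Complex.norm_I, mul_one, Complex.norm_real, Complex.norm_real, Real.norm_eq_abs,
    Real.norm_eq_abs, abs_of_nonpos (by linarith)] at h2
  linarith
theorem gam_third : gam (1 / 3) = (Real.Gamma (1 / 3) / Real.Gamma (2 / 3) : ℝ) := by
  rw [gam, Complex.ofReal_div, ← Complex.Gamma_ofReal, ← Complex.Gamma_ofReal]
  norm_num
theorem GD.dec_gam {ϕ : ℂ → ℂ} (h : GD ϕ) {a : ℝ} (ha : 0 < a) (b : ℝ) :
    Dec a b (fun s => gam s * ϕ (1 - s)) ∧ HolS a b fun s => gam s * ϕ (1 - s) := by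
  obtain ⟨C, n, -, hC⟩ := norm_gam_poly ha b
  have h1 := (h.dec (1 - b) (1 - a)).refl (κ := 1)
  rw [sub_sub_cancel, sub_sub_cancel, Complex.ofReal_one] at h1
  exact ⟨h1.mul (ExpG.of_poly hC), fun w h2 h3 =>
    (holS_gam ha b w h2 h3).mul ((h.1 _).comp w (by fun_prop))⟩
theorem shp_line {ϕ : ℂ → ℂ} (h : GD ϕ) {σ ξ : ℝ} (hσ : 0 < σ) (hξ : 0 < ξ) :
    shp ϕ ξ = mellinInv σ (fun s => gam s * ϕ (1 - s)) ξ := by
  obtain ⟨h1, h2⟩ := h.dec_gam (lt_min hσ (by norm_num : (0 : ℝ) < 1 / 4)) (max σ (1 / 4))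
  exact mellinInv_shift h1 h2 (min_le_right _ _) (le_max_right _ _) (min_le_left _ _)
    (le_max_left _ _) hξ
theorem shp_bound {ϕ : ℂ → ℂ} (h : GD ϕ) {σ : ℝ} (hσ : 0 < σ) :
    ∃ C : ℝ, ∀ ξ : ℝ, 0 < ξ → ‖shp ϕ ξ‖ ≤ C * ξ ^ (-σ) := by
  refine ⟨(∫ t : ℝ, ‖gam (σ + t * Complex.I) * ϕ (1 - (σ + t * Complex.I))‖) / (2 * π),
    fun ξ hξ => ?_⟩
  rw [shp_line h hσ hξ]
  exact (norm_mellinInv_le σ _ hξ).trans (le_of_eq (by ring))
theorem summable_shp {ϕ : ℂ → ℂ} (h : GD ϕ) {a : ℝ} (ha : 0 < a) :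
    Summable fun k : O => ‖ind (k ≠ 0) * shp ϕ (a * nm k)‖ := by
  obtain ⟨C, hC⟩ := shp_bound h two_pos
  refine Summable.of_nonneg_of_le (fun _ => norm_nonneg _) (fun k => ?_)
    ((summable_rpow one_lt_two).mul_left (|C| * a ^ (-2 : ℝ)))
  by_cases hk : k = 0
  · rw [ind, if_neg (not_not.2 hk), zero_mul, norm_zero]
    positivity
  · have h1 : (0 : ℝ) < nm k := one_pos.trans_le (one_le_nm hk)
    rw [ind, if_pos hk, one_mul, mul_assoc, ← Real.mul_rpow ha.le h1.le]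
    exact (hC _ (mul_pos ha h1)).trans
      (mul_le_mul_of_nonneg_right (le_abs_self C) (by positivity))

end Vale.Agent.P006
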