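import Vale.Agent.P006.KMel

/-! K9: the explicit Gaussian weights.
Plans: `mellinInv_Gm`: move to `σ = 0`, `fourierIntegral_gaussian`/`integral_cexp_quadratic`.  `mellinInv_Pm`: Fubini and `mellinInv_scale`.
`Sm`: substitute `v = T log (s / y)`; `(1/√π) ∫_u^∞ e^{-v²} ≤ e^{-u²}/2` for `u ≥ 0`.
`Rm T L w = (e^{w²/4T²} - e^{w²/4L²})/w`; `mellinInv σ (Rm T L) y = E_T y - E_L y`, `E_T y = (1/√π) ∫_{T log y}^∞ e^{-v²} dv`; one way: let `x₁ → 0` in
`Pm_sub`, or compute `mellinInv (w e^{w² u})` (derivative of a Gaussian) and integrate in `u`. -/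

namespace Vale.Agent.P006

open Vale.Agent.P026 Filter MeasureTheory
open scoped ComplexConjugate Real

/-- Mellin transform of `Sm T x₁ x₂` -/
noncomputable def Pm (T x₁ x₂ : ℝ) (w : ℂ) : ℂ :=
  (∫ s in x₁..x₂, (s : ℂ) ^ (w - 1)) * Complex.exp (w ^ 2 / (4 * T ^ 2))

/-- difference of two smoothings of a step -/
noncomputable def Rm (T L : ℝ) (w : ℂ) : ℂ :=
  w * ∫ u in (1 / (4 * L ^ 2))..(1 / (4 * T ^ 2)), Complex.exp (w ^ 2 * u)

theorem Gs_pos (L y : ℝ) : 0 < Gs L y := Real.exp_pos _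
theorem Gs_le_one (L y : ℝ) : Gs L y ≤ 1 :=
  Real.exp_le_one_iff.2 (neg_nonpos.2 (by positivity))

theorem kgs_norm_exp (w : ℂ) (u : ℝ) :
    ‖Complex.exp (w ^ 2 * u)‖ = Real.exp ((w.re ^ 2 - w.im ^ 2) * u) := by
  rw [Complex.norm_exp, Complex.re_mul_ofReal, sq, Complex.mul_re, sq, sq]

theorem kgs_cast (L : ℝ) (w : ℂ) : w ^ 2 / (4 * (L : ℂ) ^ 2) = w ^ 2 * ((1 / (4 * L ^ 2) : ℝ) : ℂ) := by
  push_cast
  ring

theorem kgs_norm_exp' (w : ℂ) (L : ℝ) : ‖Complex.exp (w ^ 2 / (4 * (L : ℂ) ^ 2))‖ =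
    Real.exp ((w.re ^ 2 - w.im ^ 2) / (4 * L ^ 2)) := by
  rw [kgs_cast, kgs_norm_exp, mul_one_div]

theorem norm_Gm {L : ℝ} (hL : 0 < L) (w : ℂ) :
    ‖Gm L w‖ = √π / L * Real.exp ((w.re ^ 2 - w.im ^ 2) / (4 * L ^ 2)) := by
  rw [Gm, norm_mul, kgs_norm_exp', Complex.norm_real, Real.norm_of_nonneg (by positivity)]

theorem kgs_sq_le {a b x : ℝ} (ha : a ≤ x) (hb : x ≤ b) : x ^ 2 ≤ a ^ 2 + b ^ 2 := by
  rcases le_total 0 x with h | h <;> nlinarith [sq_nonneg a, sq_nonneg b]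

theorem kgs_gd_exp {L : ℝ} (hL : 0 < L) : GD fun w => Complex.exp (w ^ 2 / (4 * (L : ℂ) ^ 2)) := by
  refine ⟨by fun_prop, fun a b => ⟨Real.exp ((a ^ 2 + b ^ 2) / (4 * L ^ 2)), 1 / (4 * L ^ 2),
    by positivity, fun w ha hb => ?_⟩⟩
  rw [kgs_norm_exp', ← Real.exp_add, Real.exp_le_exp]
  have h1 := div_le_div_of_nonneg_right (kgs_sq_le ha hb) (by positivity : 0 ≤ 4 * L ^ 2)
  rw [sub_div]
  have : 1 / (4 * L ^ 2) * w.im ^ 2 = w.im ^ 2 / (4 * L ^ 2) := by ring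
  linarith

theorem gd_Gm {L : ℝ} (hL : 0 < L) : GD (Gm L) := (kgs_gd_exp hL).const_mul _

theorem kgs_exp94 : Real.exp (9 / 4) ≤ 9.49 := by
  have h1 := Real.exp_one_lt_d9
  have h2 : Real.exp (1 / 4) ≤ 1.2841 := by
    by_contra h
    have h3 : (1.2841 : ℝ) ^ 4 ≤ Real.exp (1 / 4) ^ 4 :=
      pow_le_pow_left₀ (by norm_num) (not_le.1 h).le 4
    rw [← Real.exp_nat_mul] at h3
    norm_num at h3
    linarith
  have h4 : Real.exp (9 / 4) = Real.exp 1 * Real.exp 1 * Real.exp (1 / 4) := by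
    rw [← Real.exp_add, ← Real.exp_add]; norm_num
  have h5 := Real.exp_pos 1
  have h6 : Real.exp 1 * Real.exp 1 ≤ 7.39 := by nlinarith
  rw [h4]
  nlinarith [Real.exp_pos (1 / 4)]

theorem kgs_exp_re {T : ℝ} (hT : 1 ≤ T) {x : ℝ} (hx : |x| ≤ 3) :
    Real.exp (x ^ 2 / (4 * T ^ 2)) ≤ 9.49 := by
  refine le_trans (Real.exp_le_exp.2 ?_) kgs_exp94
  have h1 : x ^ 2 ≤ 9 := by nlinarith [sq_abs x, abs_nonneg x]
  rw [div_le_iff₀ (by positivity)]
  nlinarith

theorem ct_Gm {L : ℝ} (hL : 1 ≤ L) : CT L fun w => Gm L w / 17 := by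
  have hL0 : 0 < L := by linarith
  refine ⟨(gd_Gm hL0).1.div_const _, fun w h1 h2 => ?_⟩
  rw [norm_div, norm_Gm hL0, sub_div, sub_eq_add_neg, Real.exp_add]
  have h3 := kgs_exp_re hL (x := w.re) (abs_le.2 ⟨by linarith, h2⟩)
  have h4 : √π ≤ 1.7725 := Real.sqrt_le_iff.2 ⟨by norm_num, by linarith [Real.pi_lt_d4]⟩
  have h5 : Real.exp (-(w.im ^ 2 / (4 * L ^ 2))) ≤ Real.exp (-(w.im ^ 2 / (8 * L ^ 2))) :=
    Real.exp_le_exp.2 (neg_le_neg (div_le_div_of_nonneg_left (sq_nonneg _) (by positivity)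
      (by nlinarith)))
  have h6 : √π * Real.exp (w.re ^ 2 / (4 * L ^ 2)) ≤ 17 := by
    nlinarith [Real.exp_pos (w.re ^ 2 / (4 * L ^ 2)), Real.sqrt_nonneg π]
  have h7 := mul_le_mul h6 h5 (Real.exp_pos _).le (by norm_num)
  rw [Complex.norm_ofNat, div_le_iff₀ (by norm_num)]
  calc _ = 1 / L * (√π * Real.exp (w.re ^ 2 / (4 * L ^ 2)) *
        Real.exp (-(w.im ^ 2 / (4 * L ^ 2)))) := by ring
    _ ≤ 1 / L * (17 * Real.exp (-(w.im ^ 2 / (8 * L ^ 2)))) :=
      mul_le_mul_of_nonneg_left h7 (by positivity)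
    _ = _ := by ring

theorem kgs_cpow {y : ℝ} (hy : 0 < y) (z : ℂ) : (y : ℂ) ^ z = Complex.exp (z * Real.log y) := by
  rw [Complex.cpow_def_of_ne_zero (Complex.ofReal_ne_zero.2 hy.ne'), ← Complex.ofReal_log hy.le,
    mul_comm]

/-- the basic Gaussian integral -/
theorem kgs_gauss {L : ℝ} (hL : 0 < L) (σ l : ℝ) :
    ∫ t : ℝ, Complex.exp (-(σ + t * Complex.I) * l + (σ + t * Complex.I) ^ 2 / (4 * (L : ℂ) ^ 2)) =
      ((2 * √π * L * Real.exp (-(L ^ 2 * l ^ 2)) : ℝ) : ℂ) := by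
  have hL' : (L : ℂ) ≠ 0 := Complex.ofReal_ne_zero.2 hL.ne'
  have h := integral_cexp_quadratic (b := ((-(1 / (4 * L ^ 2)) : ℝ) : ℂ))
    (by rw [Complex.ofReal_re]; exact neg_neg_of_pos (by positivity))
    (Complex.I * (σ / (2 * L ^ 2) - l)) (-σ * l + σ ^ 2 / (4 * L ^ 2))
  have e1 : ∀ t : ℝ, -(σ + t * Complex.I) * l + (σ + t * Complex.I) ^ 2 / (4 * (L : ℂ) ^ 2) =
      ((-(1 / (4 * L ^ 2)) : ℝ) : ℂ) * t ^ 2 + Complex.I * (σ / (2 * L ^ 2) - l) * t +
        (-σ * l + σ ^ 2 / (4 * L ^ 2)) := fun t => by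
    push_cast
    field_simp
    ring_nf
    rw [Complex.I_sq]
    ring
  simp only [e1]
  rw [h]
  have e2 : (π : ℂ) / -((-(1 / (4 * L ^ 2)) : ℝ) : ℂ) = (((2 * √π * L) ^ 2 : ℝ) : ℂ) := by
    rw [mul_pow, mul_pow, Real.sq_sqrt Real.pi_pos.le]
    push_cast
    field_simp
    ring
  have e3 : ((((2 * √π * L) ^ 2 : ℝ) : ℂ)) ^ (1 / 2 : ℂ) = ((2 * √π * L : ℝ) : ℂ) := by
    rw [show (1 / 2 : ℂ) = ((1 / 2 : ℝ) : ℂ) by push_cast; rfl,
      ← Complex.ofReal_cpow (by positivity), ← Real.sqrt_eq_rpow,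
      Real.sqrt_sq (by positivity)]
  have e4 : (-σ * l + σ ^ 2 / (4 * L ^ 2) : ℂ) - (Complex.I * (σ / (2 * L ^ 2) - l)) ^ 2 /
      (4 * ((-(1 / (4 * L ^ 2)) : ℝ) : ℂ)) = ((-(L ^ 2 * l ^ 2) : ℝ) : ℂ) := by
    rw [mul_pow, Complex.I_sq]
    push_cast
    field_simp
    ring
  rw [e2, e3, e4, ← Complex.ofReal_exp, ← Complex.ofReal_mul]

theorem mellinInv_Gm {L : ℝ} (hL : 0 < L) (σ : ℝ) {y : ℝ} (hy : 0 < y) :
    mellinInv σ (Gm L) y = Gs L y := by
  rw [mellinInv_def]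
  have e : ∀ t : ℝ, (y : ℂ) ^ (-(σ + t * Complex.I)) * Gm L (σ + t * Complex.I) =
      ((√π / L : ℝ) : ℂ) * Complex.exp (-(σ + t * Complex.I) * (Real.log y : ℝ) +
        (σ + t * Complex.I) ^ 2 / (4 * (L : ℂ) ^ 2)) := fun t => by
    rw [kgs_cpow hy, Gm, Complex.exp_add]; ring
  simp only [e]
  rw [integral_const_mul, kgs_gauss hL, ← Complex.ofReal_mul, ← Complex.ofReal_mul, Gs]
  congr 1
  have h1 := Real.mul_self_sqrt Real.pi_pos.le
  have h2 := Real.pi_pos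
  field_simp
  rw [Real.sq_sqrt Real.pi_pos.le]

/-- `∫ exp (z u) du` -/
noncomputable def kgsE (a b : ℝ) (z : ℂ) : ℂ := ∫ u in a..b, Complex.exp (z * u)

theorem kgsE_mul (a b : ℝ) (z : ℂ) :
    z * kgsE a b z = Complex.exp (z * b) - Complex.exp (z * a) := by
  by_cases hz : z = 0
  · simp [hz]
  · rw [kgsE, integral_exp_mul_complex hz, mul_div_cancel₀ _ hz]

theorem kgsE_diff (a b : ℝ) : Differentiable ℂ (kgsE a b) := by
  have e : kgsE a b = dslope (fun z : ℂ => Complex.exp (z * b) - Complex.exp (z * a)) 0 := by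
    funext z
    by_cases hz : z = 0
    · subst hz
      have h : HasDerivAt (fun z : ℂ => Complex.exp (z * b) - Complex.exp (z * a)) (b - a) 0 := by
        have h1 := (((hasDerivAt_id (0 : ℂ)).mul_const (b : ℂ)).cexp).fun_sub
          (((hasDerivAt_id (0 : ℂ)).mul_const (a : ℂ)).cexp)
        simp only [id, zero_mul, Complex.exp_zero, one_mul] at h1
        exact h1
      rw [dslope_same, h.deriv]
      simp [kgsE]
    · rw [dslope_of_ne _ hz, slope_def_field, ← kgsE_mul]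
      simp [hz]
  rw [e, ← differentiableOn_univ, Complex.differentiableOn_dslope univ_mem]
  fun_prop

theorem kgsE_le {a b C : ℝ} {z : ℂ} (h : ∀ u ∈ Set.uIoc a b, Real.exp (z.re * u) ≤ C) :
    ‖kgsE a b z‖ ≤ C * |b - a| :=
  intervalIntegral.norm_integral_le_of_norm_le_const fun u hu => by
    rw [Complex.norm_exp, Complex.re_mul_ofReal]; exact h u hu

theorem kgs_int_cpow {x₁ x₂ : ℝ} (h1 : 0 < x₁) (h2 : 0 < x₂) (w : ℂ) :
    ∫ s in x₁..x₂, (s : ℂ) ^ (w - 1) = kgsE (Real.log x₁) (Real.log x₂) w := by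
  have h0 : (0 : ℝ) ∉ Set.uIcc x₁ x₂ := Set.notMem_uIcc_of_lt h1 h2
  by_cases hw : w = 0
  · subst hw
    simp only [zero_sub, Complex.cpow_neg_one, ← Complex.ofReal_inv, kgsE, zero_mul,
      Complex.exp_zero]
    rw [intervalIntegral.integral_ofReal, integral_inv h0, Real.log_div h2.ne' h1.ne']
    simp
  · rw [integral_cpow (Or.inr ⟨fun h => hw (by linear_combination h), h0⟩), sub_add_cancel,
      kgs_cpow h1, kgs_cpow h2, ← kgsE_mul, mul_div_cancel_left₀ _ hw]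

theorem kgs_Pm {T x₁ x₂ : ℝ} (h1 : 0 < x₁) (h2 : 0 < x₂) : Pm T x₁ x₂ = fun w =>
    kgsE (Real.log x₁) (Real.log x₂) w * Complex.exp (w ^ 2 / (4 * (T : ℂ) ^ 2)) := by
  funext w
  rw [Pm, kgs_int_cpow h1 h2]

theorem kgs_abs_le {a b x : ℝ} (h : x ∈ Set.uIoc a b) : |x| ≤ |a| + |b| := by
  have h1 := le_abs_self a
  have h2 := neg_abs_le a
  have h3 := le_abs_self b
  have h4 := neg_abs_le b
  rcases Set.mem_uIoc.1 h with h | h <;> exact abs_le.2 ⟨by linarith [h.1], by linarith [h.2]⟩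

theorem gd_Pm {T x₁ x₂ : ℝ} (hT : 0 < T) (h1 : 0 < x₁) (h2 : 0 < x₂) : GD (Pm T x₁ x₂) := by
  rw [kgs_Pm h1 h2]
  refine ⟨(kgsE_diff _ _).mul (kgs_gd_exp hT).1, fun a b => ?_⟩
  refine Dec.mul (ExpG.of_poly (n := 0) (C := Real.exp ((|a| + |b|) *
    (|Real.log x₁| + |Real.log x₂|)) * |Real.log x₂ - Real.log x₁|) fun w ha hb => ?_)
    ((kgs_gd_exp hT).dec a b)
  rw [pow_zero, mul_one]
  refine kgsE_le fun u hu => Real.exp_le_exp.2 ((le_abs_self _).trans ?_)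
  rw [abs_mul]
  refine mul_le_mul (abs_le.2 ⟨?_, ?_⟩) (kgs_abs_le hu) (abs_nonneg _) (by positivity)
  · linarith [neg_abs_le a, abs_nonneg b]
  · linarith [le_abs_self b, abs_nonneg a]

theorem kgs_Sm {T x₁ x₂ y : ℝ} (h1 : 0 < x₁) (h2 : 0 < x₂) (hy : 0 < y) :
    Sm T x₁ x₂ y = T / √π * ∫ v in Real.log x₁..Real.log x₂,
      Real.exp (-(T ^ 2 * (Real.log y - v) ^ 2)) := by
  have hp : ∀ s ∈ Set.uIcc x₁ x₂, 0 < s := fun s hs => (lt_min h1 h2).trans_le hs.1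
  rw [Sm, ← intervalIntegral.integral_comp_mul_deriv (f := Real.log) (f' := fun s => s⁻¹)
    (g := fun v => Real.exp (-(T ^ 2 * (Real.log y - v) ^ 2)))
    (fun s hs => Real.hasDerivAt_log (hp s hs).ne')
    (continuousOn_id.inv₀ fun s hs => (hp s hs).ne') (by fun_prop)]
  congr 1
  refine intervalIntegral.integral_congr fun s hs => ?_
  simp only [Gs, Function.comp_apply]
  rw [Real.log_div hy.ne' (hp s hs).ne', div_eq_mul_inv]

theorem mellinInv_Pm {T x₁ x₂ : ℝ} (hT : 0 < T) (h1 : 0 < x₁) (h2 : 0 < x₂) (σ : ℝ) {y : ℝ}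
    (hy : 0 < y) : mellinInv σ (Pm T x₁ x₂) y = Sm T x₁ x₂ y := by
  rw [mellinInv_def, kgs_Sm h1 h2 hy, kgs_Pm h1 h2]
  generalize Real.log x₁ = a
  generalize Real.log x₂ = b
  let F : ℝ → ℝ → ℂ := fun v t => Complex.exp (-(σ + t * Complex.I) * ((Real.log y - v : ℝ) : ℂ) +
    (σ + t * Complex.I) ^ 2 / (4 * (T : ℂ) ^ 2))
  have e : ∀ t : ℝ, (y : ℂ) ^ (-(σ + t * Complex.I)) * (kgsE a b (σ + t * Complex.I) *
      Complex.exp ((σ + t * Complex.I) ^ 2 / (4 * (T : ℂ) ^ 2))) = ∫ v in a..b, F v t := fun t => by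
    rw [kgs_cpow hy, kgsE, ← intervalIntegral.integral_mul_const,
      ← intervalIntegral.integral_const_mul]
    refine intervalIntegral.integral_congr fun v _ => ?_
    simp only [F, ← Complex.exp_add]
    congr 1
    push_cast
    ring
  have hn : ∀ v t : ℝ, ‖F v t‖ = Real.exp (-σ * (Real.log y - v) + σ ^ 2 / (4 * T ^ 2)) *
      Real.exp (-(1 / (4 * T ^ 2)) * t ^ 2) := fun v t => by
    simp only [F]
    rw [Complex.exp_add, norm_mul, kgs_norm_exp', Complex.norm_exp, Complex.re_mul_ofReal,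
      ← Real.exp_add, ← Real.exp_add]
    congr 1
    simp
    ring
  have hi : Integrable (Function.uncurry F) ((volume.restrict (Set.uIoc a b)).prod volume) := by
    have i1 : Integrable (fun v => Real.exp (-σ * (Real.log y - v) + σ ^ 2 / (4 * T ^ 2)))
        (volume.restrict (Set.uIoc a b)) :=
      (Continuous.intervalIntegrable (by fun_prop) a b).def'
    refine (i1.mul_prod (integrable_exp_neg_mul_sq (b := 1 / (4 * T ^ 2))
      (by positivity))).mono' (Continuous.aestronglyMeasurable ?_)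
      (Eventually.of_forall fun z => (hn z.1 z.2).le)
    simp only [F, Function.uncurry_def]
    fun_prop
  simp only [e]
  rw [← intervalIntegral_integral_swap hi]
  simp only [F, kgs_gauss hT]
  rw [intervalIntegral.integral_ofReal, intervalIntegral.integral_const_mul, ← Complex.ofReal_mul]
  congr 1
  have h3 := Real.pi_pos
  have h4 := Real.sqrt_pos.2 h3
  field_simp
  rw [Real.sq_sqrt Real.pi_pos.le]

theorem norm_Pm_le {T x₁ x₂ : ℝ} (hT : 1 ≤ T) (h1 : 0 < x₁) (h2 : x₁ ≤ x₂) (h3 : x₂ ≤ 16 * x₁)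
    {w : ℂ} (hw : |w.re| ≤ 3) : ‖Pm T x₁ x₂ w‖ ≤
      300000 * x₂ ^ w.re / (1 + |w.im|) * Real.exp (-(w.im ^ 2 / (4 * T ^ 2))) := by
  have h2' := h1.trans_le h2
  have hab : Real.log x₁ ≤ Real.log x₂ := Real.log_le_log h1 h2
  have h16 : Real.log x₂ ≤ Real.log 16 + Real.log x₁ := by
    rw [← Real.log_mul (by norm_num) h1.ne']; exact Real.log_le_log h2' h3
  have hl : Real.log 16 ≤ 3 := by
    rw [show (16 : ℝ) = 2 ^ 4 by norm_num, Real.log_pow]
    have := Real.log_two_lt_d9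
    push_cast
    linarith
  rw [kgs_Pm h1 h2', norm_mul, kgs_norm_exp', sub_div, sub_eq_add_neg, Real.exp_add, ← mul_assoc,
    Real.rpow_def_of_pos h2']
  refine mul_le_mul_of_nonneg_right ?_ (Real.exp_pos _).le
  generalize Real.log x₁ = a at hab h16
  generalize Real.log x₂ = b at hab h16
  have hX := Real.exp_pos (b * w.re)
  have hb : ∀ u, a ≤ u → u ≤ b → Real.exp (w.re * u) ≤ 4096 * Real.exp (b * w.re) := fun u p q => by
    have e : (4096 : ℝ) = Real.exp (3 * Real.log 16) := by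
      rw [show 3 * Real.log 16 = Real.log (16 ^ 3) by rw [Real.log_pow]; norm_num,
        Real.exp_log (by norm_num)]
      norm_num
    rw [e, ← Real.exp_add, Real.exp_le_exp]
    have := abs_le.1 hw
    nlinarith
  have hE := kgs_exp_re hT hw
  have key : ‖kgsE a b w‖ * (1 + |w.im|) ≤ 30000 * Real.exp (b * w.re) := by
    have k1 : ‖kgsE a b w‖ ≤ 4096 * Real.exp (b * w.re) * |b - a| := kgsE_le fun u hu => by
      rw [Set.uIoc_of_le hab] at hu
      exact hb u hu.1.le hu.2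
    rw [abs_of_nonneg (by linarith)] at k1
    have k2 : ‖w‖ * ‖kgsE a b w‖ ≤ 8192 * Real.exp (b * w.re) := by
      rw [← norm_mul, kgsE_mul]
      refine (norm_sub_le _ _).trans ?_
      rw [Complex.norm_exp, Complex.norm_exp, Complex.re_mul_ofReal, Complex.re_mul_ofReal]
      linarith [hb a le_rfl hab, hb b hab le_rfl]
    have k3 := mul_le_mul_of_nonneg_right (Complex.abs_im_le_norm w) (norm_nonneg (kgsE a b w))
    have k4 := mul_le_mul_of_nonneg_left (show b - a ≤ 3 by linarith) hX.le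
    nlinarith
  rw [le_div_iff₀ (by positivity)]
  have := mul_le_mul key hE (Real.exp_pos _).le (by positivity)
  nlinarith

theorem integral_log_le : ∃ C : ℝ, 0 < C ∧ ∀ T : ℝ, 1 ≤ T →
    Integrable (fun t : ℝ => 1 / (1 + |t|) * Real.exp (-(t ^ 2 / (4 * T ^ 2)))) ∧
      ∫ t : ℝ, 1 / (1 + |t|) * Real.exp (-(t ^ 2 / (4 * T ^ 2))) ≤ C * Real.log (2 * T) := by
  refine ⟨20, by norm_num, fun T hT => ?_⟩
  have hT0 : 0 < T := by linarith
  have hg : Integrable fun t : ℝ => Real.exp (-(t ^ 2 / (4 * T ^ 2))) := by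
    have := integrable_exp_neg_mul_sq (b := 1 / (4 * T ^ 2)) (by positivity)
    refine this.congr (Eventually.of_forall fun t => ?_)
    simp only
    congr 1
    ring
  have hgi : ∫ t : ℝ, Real.exp (-(t ^ 2 / (4 * T ^ 2))) ≤ 4 * T := by
    have := integral_gaussian (1 / (4 * T ^ 2))
    have e : ∀ t : ℝ, -(1 / (4 * T ^ 2)) * t ^ 2 = -(t ^ 2 / (4 * T ^ 2)) := fun t => by ring
    simp only [e] at this
    rw [this, Real.sqrt_le_iff]
    refine ⟨by positivity, ?_⟩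
    rw [div_div_eq_mul_div, div_one]
    nlinarith [Real.pi_lt_four, sq_nonneg T]
  have hc : Continuous fun t : ℝ => 1 / (1 + |t|) * Real.exp (-(t ^ 2 / (4 * T ^ 2))) :=
    (continuous_const.div (by fun_prop) fun t => by positivity).mul (by fun_prop)
  have hf : Integrable fun t : ℝ => 1 / (1 + |t|) * Real.exp (-(t ^ 2 / (4 * T ^ 2))) := by
    refine hg.mono' hc.aestronglyMeasurable (Eventually.of_forall fun t => ?_)
    rw [Real.norm_of_nonneg (by positivity)]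
    refine mul_le_of_le_one_left (Real.exp_pos _).le ?_
    rw [div_le_one (by positivity)]
    linarith [abs_nonneg t]
  refine ⟨hf, ?_⟩
  have e1 : ∫ t : ℝ, 1 / (1 + |t|) * Real.exp (-(t ^ 2 / (4 * T ^ 2))) =
      2 * ∫ t in Set.Ioi (0 : ℝ), 1 / (1 + |t|) * Real.exp (-(t ^ 2 / (4 * T ^ 2))) := by
    rw [← integral_comp_abs]
    simp only [abs_abs, sq_abs]
  rw [e1, ← intervalIntegral.integral_interval_add_Ioi (b := T) hf.integrableOn hf.integrableOn]
  have b1 : ∫ t in (0 : ℝ)..T, 1 / (1 + |t|) * Real.exp (-(t ^ 2 / (4 * T ^ 2))) ≤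
      Real.log (2 * T) := by
    have c1 : ContinuousOn (fun t : ℝ => 1 / (t + 1)) (Set.uIcc 0 T) :=
      continuousOn_const.div (by fun_prop) fun t ht => by
        rw [Set.uIcc_of_le hT0.le] at ht
        linarith [ht.1]
    refine (intervalIntegral.integral_mono_on hT0.le (hc.intervalIntegrable _ _)
      c1.intervalIntegrable fun t ht => ?_).trans ?_
    · rw [abs_of_nonneg ht.1, add_comm]
      have := ht.1
      exact mul_le_of_le_one_right (by positivity)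
        (Real.exp_le_one_iff.2 (neg_nonpos.2 (by positivity)))
    · rw [intervalIntegral.integral_comp_add_right (fun t : ℝ => 1 / t) 1,
        integral_one_div_of_pos (by norm_num) (by linarith)]
      exact Real.log_le_log (by positivity) (by linarith)
  have b2 : ∫ t in Set.Ioi T, 1 / (1 + |t|) * Real.exp (-(t ^ 2 / (4 * T ^ 2))) ≤ 4 := by
    refine (setIntegral_mono_on hf.integrableOn (hg.const_mul (1 / T)).integrableOn
      measurableSet_Ioi fun t ht => ?_).trans ?_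
    · refine mul_le_mul_of_nonneg_right (one_div_le_one_div_of_le hT0 ?_) (Real.exp_pos _).le
      linarith [le_abs_self t, Set.mem_Ioi.1 ht]
    · refine (setIntegral_le_integral (hg.const_mul (1 / T))
        (Eventually.of_forall fun t => by positivity)).trans ?_
      rw [integral_const_mul, one_div, inv_mul_le_iff₀ hT0]
      linarith
  have b3 : Real.log 2 ≤ Real.log (2 * T) := Real.log_le_log (by norm_num) (by linarith)
  linarith [Real.log_two_gt_d9]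

theorem Sm_nonneg {T x₁ x₂ : ℝ} (hT : 0 < T) (h1 : 0 < x₁) (h2 : x₁ ≤ x₂) (y : ℝ) :
    0 ≤ Sm T x₁ x₂ y :=
  mul_nonneg (by positivity) (intervalIntegral.integral_nonneg h2 fun s hs =>
    div_nonneg (Gs_pos _ _).le (h1.le.trans hs.1))

/-- the error function -/
noncomputable def kgsH (a : ℝ) : ℝ := ∫ v in (0 : ℝ)..a, Real.exp (-v ^ 2)

theorem kgsH_neg (a : ℝ) : kgsH (-a) = -kgsH a := by
  have h := intervalIntegral.integral_comp_neg (a := 0) (b := a) (fun v : ℝ => Real.exp (-v ^ 2))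
  simp only [neg_sq, neg_zero] at h
  rw [kgsH, kgsH, h, intervalIntegral.integral_symm]

theorem kgsH_sub (a b : ℝ) : ∫ v in a..b, Real.exp (-v ^ 2) = kgsH b - kgsH a :=
  (intervalIntegral.integral_interval_sub_left (Continuous.intervalIntegrable (by fun_prop) _ _)
    (Continuous.intervalIntegrable (by fun_prop) _ _)).symm

theorem kgsH_lim : Tendsto kgsH atTop (nhds (√π / 2)) := by
  have hi : IntegrableOn (fun v : ℝ => Real.exp (-v ^ 2)) (Set.Ioi 0) := by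
    simpa using (integrable_exp_neg_mul_sq one_pos).integrableOn (s := Set.Ioi 0)
  have h := intervalIntegral_tendsto_integral_Ioi 0 hi tendsto_id
  have e := integral_gaussian_Ioi 1
  simp only [neg_mul, one_mul, div_one] at e
  rwa [e] at h

theorem kgsH_le (a : ℝ) : kgsH a ≤ √π / 2 := by
  refine ge_of_tendsto kgsH_lim ((eventually_ge_atTop a).mono fun b hb => ?_)
  have := intervalIntegral.integral_nonneg (μ := volume) (f := fun v : ℝ => Real.exp (-v ^ 2)) hb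
    fun _ _ => (Real.exp_pos _).le
  rw [kgsH_sub] at this
  linarith

theorem kgsH_ge {a : ℝ} (ha : 0 ≤ a) : √π / 2 ≤ kgsH a + √π / 2 * Real.exp (-a ^ 2) := by
  refine le_of_tendsto kgsH_lim ((eventually_ge_atTop a).mono fun b hb => ?_)
  have h1 := intervalIntegral.integral_comp_add_right (a := 0) (b := b - a)
    (fun v : ℝ => Real.exp (-v ^ 2)) a
  rw [zero_add, sub_add_cancel, kgsH_sub] at h1
  have h2 : ∫ v in (0 : ℝ)..(b - a), Real.exp (-(v + a) ^ 2) ≤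
      ∫ v in (0 : ℝ)..(b - a), Real.exp (-v ^ 2) * Real.exp (-a ^ 2) :=
    intervalIntegral.integral_mono_on (by linarith) (Continuous.intervalIntegrable (by fun_prop) _ _)
      (Continuous.intervalIntegrable (by fun_prop) _ _) fun v hv => by
        rw [← Real.exp_add, Real.exp_le_exp]
        nlinarith [mul_nonneg hv.1 ha]
  rw [intervalIntegral.integral_mul_const] at h2
  have h3 := mul_le_mul_of_nonneg_right (kgsH_le (b - a)) (Real.exp_pos (-a ^ 2)).le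
  unfold kgsH at h3
  linarith

theorem kgs_Sm_H {T x₁ x₂ y : ℝ} (h1 : 0 < x₁) (h2 : 0 < x₂) (hy : 0 < y) :
    √π * Sm T x₁ x₂ y = kgsH (T * (Real.log x₂ - Real.log y)) -
      kgsH (T * (Real.log x₁ - Real.log y)) := by
  have h := intervalIntegral.mul_integral_comp_mul_add (a := Real.log x₁) (b := Real.log x₂)
    (f := fun v : ℝ => Real.exp (-v ^ 2)) T (-(T * Real.log y))
  have e : ∀ v : ℝ, -(T * v + -(T * Real.log y)) ^ 2 = -(T ^ 2 * (Real.log y - v) ^ 2) :=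
    fun v => by ring
  simp only [e] at h
  rw [kgs_Sm h1 h2 hy, mul_sub, mul_sub, sub_eq_add_neg (T * _), sub_eq_add_neg (T * _),
    ← kgsH_sub, ← h]
  have := Real.sqrt_pos.2 Real.pi_pos
  field_simp

theorem Sm_le_one {T x₁ x₂ y : ℝ} (hT : 0 < T) (h1 : 0 < x₁) (h2 : x₁ ≤ x₂) (hy : 0 < y) :
    Sm T x₁ x₂ y ≤ 1 := by
  have _ := hT
  have h := kgs_Sm_H (T := T) h1 (h1.trans_le h2) hy
  have h3 := kgsH_le (T * (Real.log x₂ - Real.log y))
  have h4 := kgsH_le (-(T * (Real.log x₁ - Real.log y)))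
  rw [kgsH_neg] at h4
  have h5 := Real.sqrt_pos.2 Real.pi_pos
  exact le_of_mul_le_mul_left (by linarith) h5

theorem kgsH_sign {T x y : ℝ} (hT : 0 < T) (hx : 0 < x) (hy : 0 < y) :
    |kgsH (T * (Real.log x - Real.log y)) - √π / 2 * (if y ≤ x then 1 else -1)| ≤
      √π / 2 * Gs T (y / x) := by
  have e : Gs T (y / x) = Real.exp (-(T * (Real.log x - Real.log y)) ^ 2) := by
    rw [Gs, Real.log_div hy.ne' hx.ne']
    congr 1
    ring
  rw [e]
  have h0 : 0 ≤ √π / 2 * Real.exp (-(T * (Real.log x - Real.log y)) ^ 2) := by positivity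
  split_ifs with h
  · have h1 := kgsH_ge (mul_nonneg hT.le (sub_nonneg.2 (Real.log_le_log hy h)))
    have h2 := kgsH_le (T * (Real.log x - Real.log y))
    exact abs_le.2 ⟨by linarith, by linarith⟩
  · have h1 := kgsH_ge (a := -(T * (Real.log x - Real.log y)))
      (neg_nonneg.2 (mul_nonpos_of_nonneg_of_nonpos hT.le
        (sub_nonpos.2 (Real.log_le_log hx (not_le.1 h).le))))
    have h2 := kgsH_le (-(T * (Real.log x - Real.log y)))
    rw [kgsH_neg] at h1 h2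
    rw [neg_sq] at h1
    exact abs_le.2 ⟨by linarith, by linarith⟩

theorem kgs_Sm_half {T x₁ x₂ y : ℝ} (hT : 0 < T) (h1 : 0 < x₁) (h2 : 0 < x₂) (hy : 0 < y) :
    |Sm T x₁ x₂ y - ((if y ≤ x₂ then 1 else -1) - (if y ≤ x₁ then 1 else -1)) / 2| ≤
      (Gs T (y / x₁) + Gs T (y / x₂)) / 2 := by
  have h := kgs_Sm_H (T := T) h1 h2 hy
  have h3 := abs_le.1 (kgsH_sign hT h1 hy)
  have h4 := abs_le.1 (kgsH_sign hT h2 hy)
  have h5 := Real.sqrt_pos.2 Real.pi_pos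
  refine abs_le.2 ⟨le_of_mul_le_mul_left ?_ h5, le_of_mul_le_mul_left ?_ h5⟩ <;>
    linarith [h3.1, h3.2, h4.1, h4.2]

theorem Sm_sub_win {T x₁ x₂ : ℝ} (hT : 0 < T) (h1 : 0 < x₁) (h2 : x₁ ≤ x₂) {n : O} (hn : n ≠ 0) :
    ‖(Sm T x₁ x₂ (nm n) : ℂ) - win x₁ x₂ n‖ ≤ Gs T (nm n / x₁) + Gs T (nm n / x₂) := by
  have hy : (0 : ℝ) < nm n := one_pos.trans_le (one_le_nm hn)
  have h := kgs_Sm_half hT h1 (h1.trans_le h2) hy
  have e : win x₁ x₂ n = ((((if (nm n : ℝ) ≤ x₂ then 1 else -1) -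
      (if (nm n : ℝ) ≤ x₁ then 1 else -1)) / 2 : ℝ) : ℂ) := by
    unfold win
    split_ifs with p q q
    · rw [ind_of_not fun r => absurd q (not_le.2 r.1)]; norm_num
    · rw [ind_of ⟨not_le.1 q, p⟩]; norm_num
    · exact absurd (q.trans h2) p
    · rw [ind_of_not fun r => p r.2]; norm_num
  rw [e, ← Complex.ofReal_sub, Complex.norm_real, Real.norm_eq_abs]
  linarith [Gs_pos T (nm n / x₁), Gs_pos T (nm n / x₂)]

theorem kgs_Rm (T L : ℝ) : Rm T L = fun w =>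
    w * kgsE (1 / (4 * L ^ 2)) (1 / (4 * T ^ 2)) (w ^ 2) := rfl

theorem gd_Rm {T L : ℝ} (hT : 0 < T) (hL : 0 < L) : GD (Rm T L) := by
  rw [kgs_Rm]
  refine ⟨differentiable_id.mul ((kgsE_diff _ _).comp (differentiable_pow 2)), fun a b => ?_⟩
  have ha0 : 0 < 1 / (4 * L ^ 2) := by positivity
  have hb0 : 0 < 1 / (4 * T ^ 2) := by positivity
  generalize 1 / (4 * L ^ 2) = p at ha0
  generalize 1 / (4 * T ^ 2) = q at hb0
  refine Dec.mul (g := fun w => w) (ExpG.of_poly (n := 1) (C := 1 + |a| + |b|) fun w ha hb => ?_)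
    ⟨Real.exp ((a ^ 2 + b ^ 2) * (p + q)) * |q - p|, min p q, lt_min ha0 hb0, fun w ha hb => ?_⟩
  · have h1 := Complex.norm_le_abs_re_add_abs_im w
    have h2 : |w.re| ≤ |a| + |b| :=
      abs_le.2 ⟨by linarith [neg_abs_le a, abs_nonneg b], by linarith [le_abs_self b, abs_nonneg a]⟩
    nlinarith [abs_nonneg w.im, mul_nonneg (abs_nonneg a) (abs_nonneg w.im),
      mul_nonneg (abs_nonneg b) (abs_nonneg w.im)]
  · rw [mul_right_comm, ← Real.exp_add]
    refine kgsE_le fun u hu => Real.exp_le_exp.2 ?_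
    have h1 : min p q ≤ u := hu.1.le
    have h2 : u ≤ p + q := hu.2.trans (max_le (by linarith) (by linarith))
    have h3 : 0 ≤ u := (lt_min ha0 hb0).le.trans h1
    have h4 := mul_le_mul (kgs_sq_le ha hb) h2 h3 (by positivity)
    have h5 := mul_le_mul_of_nonneg_right h1 (sq_nonneg w.im)
    rw [sq w, Complex.mul_re]
    nlinarith

theorem kgs_mul_Rm (T L : ℝ) (w : ℂ) : w * Rm T L w =
    Complex.exp (w ^ 2 / (4 * (T : ℂ) ^ 2)) - Complex.exp (w ^ 2 / (4 * (L : ℂ) ^ 2)) := by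
  rw [kgs_cast, kgs_cast, ← kgsE_mul, kgs_Rm]
  ring

theorem Pm_sub {T L x₁ x₂ : ℝ} (hT : 0 < T) (hL : 0 < L) (h1 : 0 < x₁) (h2 : 0 < x₂) (w : ℂ) :
    Pm T x₁ x₂ w = Pm L x₁ x₂ w + (x₂ : ℂ) ^ w * Rm T L w - (x₁ : ℂ) ^ w * Rm T L w := by
  have _ := hT
  have _ := hL
  have e1 := kgsE_mul (Real.log x₁) (Real.log x₂) w
  have e2 := kgs_mul_Rm T L w
  rw [kgs_Pm h1 h2, kgs_Pm h1 h2, kgs_cpow h1, kgs_cpow h2]
  linear_combination Rm T L w * e1 - kgsE (Real.log x₁) (Real.log x₂) w * e2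

theorem kgs_Rm_le {T L : ℝ} (hL : 1 ≤ L) (hT : L ≤ T) {w : ℂ} (hw : |w.re| ≤ 3) :
    ‖Rm T L w‖ ≤ ‖w‖ * (3 / L ^ 2) * Real.exp (-(w.im ^ 2 / (4 * T ^ 2))) ∧
      ‖w‖ * ‖Rm T L w‖ ≤ 20 * Real.exp (-(w.im ^ 2 / (4 * T ^ 2))) := by
  have hL0 : 0 < L := by linarith
  have hT0 : 0 < T := by linarith
  have hpq : 1 / (4 * T ^ 2) ≤ 1 / (4 * L ^ 2) :=
    one_div_le_one_div_of_le (by positivity) (by nlinarith)
  have hb : ∀ u, 1 / (4 * T ^ 2) ≤ u → u ≤ 1 / (4 * L ^ 2) →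
      Real.exp ((w.re ^ 2 - w.im ^ 2) * u) ≤ 10 * Real.exp (-(w.im ^ 2 / (4 * T ^ 2))) :=
    fun u p q => by
      have h1 : Real.exp ((w.re ^ 2 - w.im ^ 2) * u) ≤
          Real.exp (w.re ^ 2 / (4 * L ^ 2)) * Real.exp (-(w.im ^ 2 / (4 * T ^ 2))) := by
        rw [← Real.exp_add, Real.exp_le_exp]
        have h2 := mul_le_mul_of_nonneg_left p (sq_nonneg w.im)
        have h3 := mul_le_mul_of_nonneg_left q (sq_nonneg w.re)
        rw [mul_one_div] at h2 h3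
        linarith
      have h4 := kgs_exp_re hL hw
      nlinarith [Real.exp_pos (-(w.im ^ 2 / (4 * T ^ 2)))]
  constructor
  · rw [kgs_Rm, norm_mul, mul_assoc]
    refine mul_le_mul_of_nonneg_left ((kgsE_le (C := 10 * Real.exp (-(w.im ^ 2 / (4 * T ^ 2))))
      fun u hu => ?_).trans ?_) (norm_nonneg _)
    · rw [Set.uIoc_of_ge hpq] at hu
      have := hb u hu.1.le hu.2
      rwa [sq w, Complex.mul_re, ← sq, ← sq]
    · rw [abs_of_nonpos (by linarith)]
      have h1 : 0 < 1 / (4 * T ^ 2) := by positivity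
      have h2 : 3 / L ^ 2 = 12 * (1 / (4 * L ^ 2)) := by field_simp; norm_num
      rw [h2]
      nlinarith [Real.exp_pos (-(w.im ^ 2 / (4 * T ^ 2)))]
  · rw [← norm_mul, kgs_mul_Rm, kgs_cast, kgs_cast]
    refine (norm_sub_le _ _).trans ?_
    rw [kgs_norm_exp, kgs_norm_exp]
    linarith [hb _ le_rfl hpq, hb _ hpq le_rfl]

theorem norm_Rm_le {T L : ℝ} (hL : 1 ≤ L) (hT : L ≤ T) {w : ℂ} (hw : |w.re| ≤ 3) :
    ‖Rm T L w‖ ≤ 100 / (1 + |w.im|) * Real.exp (-(w.im ^ 2 / (4 * T ^ 2))) := by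
  obtain ⟨h1, h2⟩ := kgs_Rm_le hL hT hw
  have h3 := mul_le_mul_of_nonneg_right (Complex.abs_im_le_norm w) (norm_nonneg (Rm T L w))
  have hE := Real.exp_pos (-(w.im ^ 2 / (4 * T ^ 2)))
  have h4 : ‖Rm T L w‖ ≤ 20 * Real.exp (-(w.im ^ 2 / (4 * T ^ 2))) := by
    rcases le_total 1 ‖w‖ with h | h
    · nlinarith [norm_nonneg (Rm T L w)]
    · have h5 : 3 / L ^ 2 ≤ 3 := div_le_self (by norm_num) (by nlinarith)
      have h6 := mul_le_mul h h5 (by positivity) zero_le_one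
      nlinarith
  rw [div_mul_eq_mul_div, le_div_iff₀ (by positivity)]
  nlinarith

theorem ct_Rm {L : ℝ} (hL : 1 ≤ L) : CT (2 * L) fun w => Rm (2 * L) L w / 100 := by
  have hL0 : 0 < L := by linarith
  refine ⟨(gd_Rm (by positivity) hL0).1.div_const _, fun w h1 h2 => ?_⟩
  obtain ⟨h3, h4⟩ := kgs_Rm_le hL (show L ≤ 2 * L by linarith) (w := w)
    (abs_le.2 ⟨by linarith, h2⟩)
  have h5 : Real.exp (-(w.im ^ 2 / (4 * (2 * L) ^ 2))) ≤
      Real.exp (-(w.im ^ 2 / (8 * (2 * L) ^ 2))) :=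
    Real.exp_le_exp.2 (neg_le_neg (div_le_div_of_nonneg_left (sq_nonneg _) (by positivity)
      (by nlinarith)))
  have hE := Real.exp_pos (-(w.im ^ 2 / (4 * (2 * L) ^ 2)))
  have h6 : L * ‖Rm (2 * L) L w‖ ≤ 20 * Real.exp (-(w.im ^ 2 / (4 * (2 * L) ^ 2))) := by
    rcases le_total L ‖w‖ with h | h
    · exact (mul_le_mul_of_nonneg_right h (norm_nonneg _)).trans h4
    · have h7 : L * (L * (3 / L ^ 2)) = 3 := by field_simp
      have h8 := mul_le_mul_of_nonneg_left (mul_le_mul_of_nonneg_right h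
        (by positivity : 0 ≤ 3 / L ^ 2)) hL0.le
      have h9 := mul_le_mul_of_nonneg_left h3 hL0.le
      nlinarith
  rw [norm_div, Complex.norm_ofNat, div_le_iff₀ (by norm_num), one_div, mul_assoc,
    le_inv_mul_iff₀ (by positivity)]
  nlinarith

theorem kgs_add {f g : ℂ → ℂ} (hf : GD f) (hg : GD g) (σ : ℝ) {y : ℝ} (hy : 0 < y) :
    mellinInv σ (fun w => f w + g w) y = mellinInv σ f y + mellinInv σ g y := by
  simp only [mellinInv_def, mul_add]
  rw [integral_add ((hf.dec σ σ).integrable_cpow (hf.holS σ σ) le_rfl le_rfl hy)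
    ((hg.dec σ σ).integrable_cpow (hg.holS σ σ) le_rfl le_rfl hy), mul_add]

theorem norm_mellinInv_Rm {T L : ℝ} (hL : 0 < L) (hT : L ≤ T) (σ : ℝ) {y : ℝ} (hy : 0 < y) :
    ‖mellinInv σ (Rm T L) y‖ ≤ Gs L y := by
  have hT0 := hL.trans_le hT
  have hR := gd_Rm hT0 hL
  have hG : ∀ z, Gs T z ≤ Gs L z := fun z => Real.exp_le_exp.2 (neg_le_neg
    (mul_le_mul_of_nonneg_right (pow_le_pow_left₀ hL.le hT 2) (sq_nonneg _)))
  set C := ∫ t : ℝ, ‖Rm T L ((1 : ℝ) + t * Complex.I)‖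
  have key : ∀ Y, 0 < Y → ‖mellinInv σ (Rm T L) y‖ ≤ Gs L y + Gs L Y + Y⁻¹ / (2 * π) * C := by
    intro Y hY
    have hx : 0 < y / Y := div_pos hy hY
    have e0 : y / (y / Y) = Y := by field_simp
    have e1 : (fun w => Pm T (y / Y) 1 w + ((y / Y : ℝ) : ℂ) ^ w * Rm T L w) =
        fun w => Pm L (y / Y) 1 w + Rm T L w := by
      funext w
      rw [Pm_sub hT0 hL hx one_pos w]
      simp
    have e2 := kgs_add (gd_Pm hT0 hx one_pos) (hR.cpow_mul hx) σ hy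
    rw [e1, kgs_add (gd_Pm hL hx one_pos) hR σ hy, mellinInv_Pm hT0 hx one_pos σ hy,
      mellinInv_Pm hL hx one_pos σ hy, ← mellinInv_scale σ _ hx hy, e0, hR.line σ 1 hY] at e2
    have b1 := norm_mellinInv_le 1 (Rm T L) hY
    rw [Real.rpow_neg_one] at b1
    have b2 := abs_le.1 (kgs_Sm_half hT0 hx one_pos hy)
    have b3 := abs_le.1 (kgs_Sm_half hL hx one_pos hy)
    rw [e0, div_one] at b2 b3
    have e3 : mellinInv σ (Rm T L) y = ((Sm T (y / Y) 1 y - Sm L (y / Y) 1 y : ℝ) : ℂ) +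
        mellinInv 1 (Rm T L) Y := by
      push_cast
      linear_combination e2
    rw [e3]
    refine (norm_add_le _ _).trans (add_le_add ?_ b1)
    rw [Complex.norm_real, Real.norm_eq_abs]
    exact abs_le.2 ⟨by linarith [b2.1, b3.2, hG y, hG Y], by linarith [b2.2, b3.1, hG y, hG Y]⟩
  have t1 : Tendsto (Gs L) atTop (nhds 0) :=
    Real.tendsto_exp_atBot.comp (tendsto_neg_atTop_atBot.comp
      (((tendsto_pow_atTop two_ne_zero).comp Real.tendsto_log_atTop).const_mul_atTop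
        (pow_pos hL 2)))
  have t2 := ((tendsto_const_nhds (x := Gs L y)).add t1).add
    ((tendsto_inv_atTop_zero.div_const (2 * π)).mul_const C)
  simp only [add_zero, zero_div, zero_mul] at t2
  exact ge_of_tendsto t2 ((eventually_gt_atTop 0).mono key)

end Vale.Agent.P006
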