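import Vale.Agent.P006.KCv
import Vale.Agent.P006.KGam
import Vale.Agent.P006.KGs
import Vale.Agent.P026.RecAux

/-! # Part D (dispersion): definitions and basic facts. -/

namespace Vale.Agent.P006.D

open Vale.Agent.P026 Filter
open scoped ComplexConjugate Real

/-- real indicator -/
noncomputable def ir (p : Prop) : ℝ := open Classical in if p then 1 else 0
/-- the Gauss sum form -/
noncomputable def Fa (Z : ℝ) (γ : O → ℂ) (a : O) : ℂ := ∑ b ∈ qball Z, γ b * (gl b * conj (cub a b))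
/-- the model form -/
noncomputable def Mo (Z : ℝ) (γ : O → ℂ) (a : O) : ℂ :=
  ∑ b ∈ qball Z, γ b * (ind (IsCoprime a b) * np b (-1 / 6))
/-- the form to be estimated -/
noncomputable def Ga (Z : ℝ) (γ : O → ℂ) (a : O) : ℂ := ∑ b ∈ qball Z, γ b * aq (a * b)
/-- mean square of `Fa` over primary multiples of `d²` -/
noncomputable def Ud (L A Z : ℝ) (γ : O → ℂ) (d : O) : ℝ :=
  ∑' a : O, ir (Prim a) * Gs L (nm (d ^ 2 * a) / A) * ‖Fa Z γ (d ^ 2 * a)‖ ^ 2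
/-- mean square of `Mo` over primary multiples of `d²` -/
noncomputable def Vd (A Z : ℝ) (γ : O → ℂ) (d : O) : ℝ :=
  ∑' a : O, ir (Prim a) * Gs 1 (nm (d ^ 2 * a) / A) *
    ((nm (d ^ 2 * a) : ℝ) ^ (-1 / 3 : ℝ) * ‖Mo Z γ (d ^ 2 * a)‖ ^ 2)
/-- sum over pairs `(Δ m₁, Δ m₂)` -/
noncomputable def PSum (Z : ℝ) (γ : O → ℂ) (H : O → O → O → ℂ) : ℂ :=
  ∑ Δ ∈ qball Z, ∑ m₁ ∈ qball Z, ∑ m₂ ∈ qball Z,
    ind (IsCoprime m₁ m₂) * (γ (Δ * m₁) * conj (γ (Δ * m₂))) * H Δ m₁ m₂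
/-- the data of a pair -/
structure Tri (Δ m₁ m₂ : O) : Prop where
  hΔ : Sq Δ
  h₁ : Sq m₁
  h₂ : Sq m₂
  cop : IsCoprime m₁ m₂
  s₁ : Sq (Δ * m₁)
  s₂ : Sq (Δ * m₂)
/-- pair kernel of `Ud` -/
noncomputable def Hu (L A : ℝ) (d Δ m₁ m₂ : O) : ℂ :=
  ∑' a : O, ind (Prim a) * (Gs L (nm (d ^ 2 * a) / A) : ℝ) *
    (gl (Δ * m₁) * conj (cub (d ^ 2 * a) (Δ * m₁)) *
      conj (gl (Δ * m₂) * conj (cub (d ^ 2 * a) (Δ * m₂))))
/-- pair kernel of `Vd` -/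
noncomputable def Hv (A : ℝ) (d Δ m₁ m₂ : O) : ℂ :=
  ∑' a : O, ind (Prim a) * (Gs 1 (nm (d ^ 2 * a) / A) : ℝ) *
    (((nm (d ^ 2 * a) : ℝ) ^ (-1 / 3 : ℝ) : ℝ) *
      (ind (IsCoprime (d ^ 2 * a) (Δ * m₁)) * np (Δ * m₁) (-1 / 6) *
        conj (ind (IsCoprime (d ^ 2 * a) (Δ * m₂)) * np (Δ * m₂) (-1 / 6))))
/-- the term of frequency `k` -/
noncomputable def kt (L Y : ℝ) (w m₁ m₂ k : O) : ℂ :=
  eq k 3 * (cub (k * w) m₁ * conj (cub (k * w) m₂)) / (√(nm (m₁ * m₂)) : ℝ) *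
    shp (Gm L) (c0 ^ 2 * Y * nm k / (9 * nm (m₁ * m₂)))
/-- the twist -/
def w0 (d Δ e : O) : O := d * Δ ^ 2 * e ^ 2
/-- the dual length parameter of the cubes -/
noncomputable def xi0 (A : ℝ) (Δ q : O) : ℝ := c0 ^ 2 * A * nm Δ / (9 * nm q)
/-- the sum over cubes -/
noncomputable def Sig (L ξ : ℝ) (q : O) : ℂ :=
  ∑' m : O, ind (m ≠ 0 ∧ IsCoprime m q) * shp (Gm L) (ξ * (nm m : ℝ) ^ 3)
/-- zero frequency -/
noncomputable def Hz (L A : ℝ) (d Δ m₁ m₂ : O) : ℂ :=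
  ind (IsCoprime d Δ) * ind (m₁ = 1 ∧ m₂ = 1) * phiS Δ * (c0 * A / (9 * (nm d : ℝ) ^ 2) : ℝ) *
    Gm L 1
/-- cubes -/
noncomputable def Hc (L A : ℝ) (d Δ m₁ m₂ : O) : ℂ :=
  ind (IsCoprime d (Δ * (m₁ * m₂))) * phiS Δ *
    (c0 * A / (27 * (nm d : ℝ) ^ 2 * √(nm (m₁ * m₂))) : ℝ) *
      Sig L (xi0 A Δ (m₁ * m₂)) (m₁ * m₂)
/-- non-cubes -/
noncomputable def Hn (L A : ℝ) (d Δ m₁ m₂ : O) : ℂ :=
  ind (IsCoprime d Δ) * ∑ e ∈ pdiv Δ, mu e * (c0 * (A / nm (d ^ 2 * e)) / 9 : ℝ) *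
    ∑' k : O, ind (k ≠ 0 ∧ ¬Cube (k * w0 d Δ e)) * kt L (A / nm (d ^ 2 * e)) (w0 d Δ e) m₁ m₂ k
/-- the bilinear form of frequency `k` -/
noncomputable def Dk (L Y Z : ℝ) (γ : O → ℂ) (Δ w k : O) : ℂ :=
  ∑ m₁ ∈ qball Z, ∑ m₂ ∈ qball Z,
    ind (IsCoprime m₁ m₂) * (γ (Δ * m₁) * conj (γ (Δ * m₂))) * kt L Y w m₁ m₂ k
/-- the squares of the linear forms -/
noncomputable def Qf (B : ℝ) (β : O → ℂ) (Δ n : O) (u : ℝ) : ℝ :=
  ∑ f ∈ qball (16 * B), (nm f : ℝ) ^ (-1 / 2 : ℝ) * ‖lf B β (Δ * f) n u‖ ^ 2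
/-- the cut off of the dual sum -/
noncomputable def Kst (P A B : ℝ) (d Δ e : O) : ℝ :=
  P * B ^ 2 / (A / nm (d ^ 2 * e) * (nm Δ : ℝ) ^ 2)
open Classical in
/-- non-cube frequencies up to `K` -/
noncomputable def ncb (K : ℝ) (w : O) : Finset O := (ball K).filter fun k => k ≠ 0 ∧ ¬Cube (k * w)
/-- partial sums of the model form -/
noncomputable def Me (Z : ℝ) (γ : O → ℂ) (e : O) : ℂ :=
  ∑ b ∈ qball Z, ind (e ∣ b) * γ b * np b (-1 / 6)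
/-- truncated model form -/
noncomputable def Mo1 (E Z : ℝ) (γ : O → ℂ) (a : O) : ℂ :=
  ∑ e ∈ qball E, mu e * ind (e ∣ a) * Me Z γ e
/-- the cross term -/
noncomputable def Xc (A E Z : ℝ) (γ : O → ℂ) : ℂ :=
  ∑' a : O, (Gs 1 (nm a / A) * (nm a : ℝ) ^ (-1 / 6 : ℝ) : ℝ) * (Ga Z γ a * conj (Mo1 E Z γ a))
/-- the common range of the parameters -/
structure Rng (η X A B : ℝ) : Prop where
  lo : X ^ (0.33 : ℝ) ≤ B
  hi : B ≤ A * X ^ (η / 40)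
  p₁ : X / 100 ≤ A * B
  p₂ : A * B ≤ X

theorem ir_of {p : Prop} (h : p) : ir p = 1 := if_pos h

theorem ir_of_not {p : Prop} (h : ¬p) : ir p = 0 := if_neg h

theorem ir_nonneg (p : Prop) : 0 ≤ ir p := by unfold ir; split_ifs <;> norm_num

theorem ir_le_one (p : Prop) : ir p ≤ 1 := by unfold ir; split_ifs <;> norm_num

theorem ir_mono {p q : Prop} (h : p → q) : ir p ≤ ir q := by
  by_cases hp : p
  · rw [ir_of hp, ir_of (h hp)]
  · rw [ir_of_not hp]; exact ir_nonneg q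

theorem ofReal_ir (p : Prop) : (ir p : ℂ) = ind p := by
  by_cases hp : p
  · rw [ir_of hp, ind_of hp, Complex.ofReal_one]
  · rw [ir_of_not hp, ind_of_not hp, Complex.ofReal_zero]

theorem norm_ind (p : Prop) : ‖ind p‖ = ir p := by
  rw [← ofReal_ir, Complex.norm_real, Real.norm_of_nonneg (ir_nonneg p)]

theorem conj_ind (p : Prop) : conj (ind p) = ind p := by rw [← ofReal_ir, Complex.conj_ofReal]

theorem mem_qball {X : ℝ} {x : O} : x ∈ qball X ↔ Sq x ∧ (nm x : ℝ) ≤ X := by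
  classical
  rw [qball, Finset.mem_filter, mem_ball, and_comm]

theorem mem_ncb {K : ℝ} {w k : O} : k ∈ ncb K w ↔ (nm k : ℝ) ≤ K ∧ k ≠ 0 ∧ ¬Cube (k * w) := by
  classical
  rw [ncb, Finset.mem_filter, mem_ball]

theorem sq_one : Sq 1 := ⟨prim_one, squarefree_one⟩

theorem sq_ne {a : O} (h : Sq a) : a ≠ 0 := h.1.ne_zero

theorem nm_pos' {a : O} (h : a ≠ 0) : (0 : ℝ) < nm a := by exact_mod_cast nm_pos h

theorem sq_of_dvd {a e : O} (ha : Sq a) (he : Prim e) (h : e ∣ a) : Sq e :=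
  ⟨he, ha.2.squarefree_of_dvd h⟩

theorem sq_mul {a b : O} (ha : Sq a) (hb : Sq b) (h : IsCoprime a b) : Sq (a * b) :=
  ⟨ha.1.mul hb.1, squarefree_mul_iff.2 ⟨h.isRelPrime, ha.2, hb.2⟩⟩

theorem sq_coprime {a b : O} (h : Sq (a * b)) : IsCoprime a b :=
  (IsRelPrime.of_squarefree_mul h.2).isCoprime

theorem sq_left {a b : O} (h : Sq (a * b)) (hb : Prim b) : Sq a :=
  ⟨hb.of_mul (mul_comm a b ▸ h.1), h.2.of_mul_left⟩

theorem sq_right {a b : O} (h : Sq (a * b)) (ha : Prim a) : Sq b :=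
  ⟨ha.of_mul h.1, h.2.of_mul_right⟩

theorem sq_induction {P : O → Prop} (h1 : P 1)
    (hs : ∀ p n, Prime p → Sq p → Sq n → ¬p ∣ n → P n → P (p * n)) {n : O} (hn : Sq n) : P n := by
  refine Prim.induction (P := fun n => Sq n → P n) (fun _ => h1) (fun p n hp hp' hn' ih h => ?_)
    hn.1 hn
  have h2 : Sq n := ⟨hn', h.2.of_mul_right⟩
  exact hs p n hp ⟨hp', h.2.of_mul_left⟩ h2
    (fun h' => hp.not_isUnit (h.2 p (mul_dvd_mul_left p h'))) (ih h2)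

theorem pdiv_subset {Z : ℝ} {m : O} (h : m ∈ qball Z) : pdiv m ⊆ qball Z := by
  intro e he
  rw [mem_qball] at h ⊢
  rw [mem_pdiv (sq_ne h.1)] at he
  refine ⟨sq_of_dvd h.1 he.1 he.2, le_trans ?_ h.2⟩
  exact_mod_cast nm_le_of_dvd (sq_ne h.1) he.2

theorem Tri.sq {Δ m₁ m₂ : O} (h : Tri Δ m₁ m₂) : Sq (m₁ * m₂) := sq_mul h.h₁ h.h₂ h.cop

theorem Tri.copΔ {Δ m₁ m₂ : O} (h : Tri Δ m₁ m₂) : IsCoprime Δ (m₁ * m₂) :=
  (sq_coprime h.s₁).mul_right (sq_coprime h.s₂)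

theorem Tri.sq3 {Δ m₁ m₂ : O} (h : Tri Δ m₁ m₂) : Sq (Δ * (m₁ * m₂)) := sq_mul h.hΔ h.sq h.copΔ

theorem norm_phiS_le {D : O} (hD : Sq D) : ‖phiS D‖ ≤ 1 := by
  refine sq_induction (P := fun D => ‖phiS D‖ ≤ 1) ?_ ?_ hD
  · simp [phiS, psd_pdiv_one, mu_one]
  · intro p n hp hpS hn hpn ih
    rw [phiS_mul hpS.1 hn.1 ((Irreducible.coprime_iff_not_dvd hp.irreducible).2 hpn), norm_mul]
    refine mul_le_one₀ ?_ (norm_nonneg _) ih
    have h1 : (1 : O) ≠ p := fun e => hp.not_isUnit (e ▸ isUnit_one)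
    have h2 : (1 : ℝ) ≤ nm p := one_le_nm hp.ne_zero
    have h3 : phiS p = ((1 - 1 / (nm p : ℝ) : ℝ) : ℂ) := by
      rw [phiS, psd_pdiv_prime hp hpS.1, Finset.sum_pair h1, mu_one, mu_prime hp, psd_nm_one]
      push_cast
      ring
    have h4 : 1 / (nm p : ℝ) ≤ 1 := (div_le_one (by linarith)).2 h2
    have h5 : 0 ≤ 1 / (nm p : ℝ) := by positivity
    rw [h3, Complex.norm_real, Real.norm_eq_abs, abs_le]
    constructor <;> linarith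

theorem tau_mul {a b : O} (ha : Prim a) (hb : Prim b) (h : IsCoprime a b) :
    tau (a * b) = tau a * tau b := by
  simp only [tau, card_pdiv_mul ha hb h, Nat.cast_mul]

theorem gl_eq {n : O} (hn : Prim n) : gl n = conj (cub lam n) * gt3 n := by
  have h := g3_twist hn.ne_zero (coprime_lam hn) 1
  rw [one_mul] at h
  rw [gl, gt3, h, mul_div_assoc]

theorem norm_gl {n : O} (hn : Sq n) : ‖gl n‖ = 1 := by
  rw [gl_eq hn.1, norm_mul, Complex.norm_conj, norm_cub (coprime_lam hn.1), norm_gt3 hn.1 hn.2,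
    mul_one]

theorem gl_mul {a b : O} (ha : Prim a) (hb : Prim b) (h : IsCoprime a b) :
    gl (a * b) = gl a * gl b * conj (cub a b) := by
  rw [gl, gl, gl, g3_mul ha hb h, g3_twist hb.ne_zero h, G2.sqrt_nm_mul, Complex.ofReal_mul]
  ring

theorem np_ofReal (n : O) (x : ℝ) : np n x = (((nm n : ℝ) ^ x : ℝ) : ℂ) := by
  rw [np, Complex.ofReal_cpow (Nat.cast_nonneg _), Complex.ofReal_natCast]

theorem np_sixth (n : O) : np n (-1 / 6) = (((nm n : ℝ) ^ (-1 / 6 : ℝ) : ℝ) : ℂ) := by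
  rw [← np_ofReal]
  congr 1
  push_cast
  rfl

theorem norm_np {n : O} (hn : n ≠ 0) (w : ℂ) : ‖np n w‖ = (nm n : ℝ) ^ w.re :=
  Complex.norm_natCast_cpow_of_pos (nm_pos hn) w

theorem np_mul (a b : O) (w : ℂ) : np (a * b) w = np a w * np b w := by
  rw [np, np, np, nm_mul, Nat.cast_mul, Complex.natCast_mul_natCast_cpow]

theorem kst_pos : 0 < kst := by
  have := Real.Gamma_pos_of_pos (by norm_num : (0 : ℝ) < 2 / 3)
  unfold kst
  positivity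

theorem Gs_pos (L y : ℝ) : 0 < Gs L y := Real.exp_pos _

theorem Gs_le_one (L y : ℝ) : Gs L y ≤ 1 := Real.exp_le_one_iff.2 (neg_nonpos.2 (by positivity))

theorem Gs_le_Gs_one {L : ℝ} (hL : 1 ≤ L) (y : ℝ) : Gs L y ≤ Gs 1 y := by
  refine Real.exp_le_exp.2 (neg_le_neg (mul_le_mul_of_nonneg_right ?_ (sq_nonneg _)))
  exact pow_le_pow_left₀ zero_le_one hL 2

theorem supp_nt {B t : ℝ} {β : O → ℂ} (h : Supp 16 B β) : Supp 16 B fun b => β b * nt b t :=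
  fun b hb => h b (left_ne_zero_of_mul hb)

theorem norm_mul_nt (β : O → ℂ) (t : ℝ) (b : O) : ‖β b * nt b t‖ = ‖β b‖ := by
  rw [norm_mul, norm_nt, mul_one]

theorem supp_mem {B : ℝ} {β : O → ℂ} (h : Supp 16 B β) (b : O) (hb : β b ≠ 0) :
    b ∈ qball (16 * B) := mem_qball.2 ⟨(h b hb).1, (h b hb).2.2⟩

theorem rng_facts {η : ℝ} (h1 : η ≤ 1 / 100) : ∀ᶠ X : ℝ in atTop, 2 ≤ X ∧
    ∀ A B : ℝ, Rng η X A B → X ^ (0.49 : ℝ) ≤ A ∧ A ≤ X ^ (0.67 : ℝ) ∧ B ≤ X ^ (0.501 : ℝ) ∧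
      1 ≤ A ∧ 1 ≤ B := by
  filter_upwards [eventually_ge_atTop 2, ev_const 100 (by norm_num : (0 : ℝ) < 0.009)]
    with X hX h100
  refine ⟨hX, fun A B h => ?_⟩
  have hX1 : 1 ≤ X := by linarith
  have hX0 : 0 < X := by linarith
  have hB1 : 1 ≤ B := (Real.one_le_rpow hX1 (by norm_num)).trans h.lo
  have hB0 : 0 < B := by linarith
  have hA0 : 0 < A := by
    have h0 : 0 < A * B := (by positivity : 0 < X / 100).trans_le h.p₁
    exact (pos_iff_pos_of_mul_pos h0).2 hB0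
  have h2 : B ≤ X ^ (0.501 : ℝ) := by
    refine (pow_le_pow_iff_left₀ hB0.le (by positivity) two_ne_zero).1 ?_
    calc B ^ 2 ≤ A * X ^ (η / 40) * B := by rw [sq]; exact mul_le_mul_of_nonneg_right h.hi hB0.le
      _ = A * B * X ^ (η / 40) := by ring
      _ ≤ X ^ (1 : ℝ) * X ^ (0.002 : ℝ) := by
          rw [Real.rpow_one]
          exact mul_le_mul h.p₂ (Real.rpow_le_rpow_of_exponent_le hX1 (by linarith))
            (by positivity) hX0.le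
      _ = _ := by
          rw [← Real.rpow_add hX0, ← Real.rpow_natCast, ← Real.rpow_mul hX0.le]
          norm_num
  have h3 : X ^ (0.49 : ℝ) ≤ A := by
    refine le_of_mul_le_mul_right (le_trans ?_ h.p₁) hB0
    rw [le_div_iff₀ (by norm_num)]
    calc X ^ (0.49 : ℝ) * B * 100 ≤ X ^ (0.49 : ℝ) * X ^ (0.501 : ℝ) * X ^ (0.009 : ℝ) := by gcongr
      _ = X := by
          rw [← Real.rpow_add hX0, ← Real.rpow_add hX0]
          norm_num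
  refine ⟨h3, ?_, h2, (Real.one_le_rpow hX1 (by norm_num)).trans h3, hB1⟩
  refine le_of_mul_le_mul_right ?_ (Real.rpow_pos_of_pos hX0 (0.33 : ℝ))
  rw [← Real.rpow_add hX0, show (0.67 + 0.33 : ℝ) = 1 by norm_num, Real.rpow_one]
  exact (mul_le_mul_of_nonneg_left h.lo hA0.le).trans h.p₂

end Vale.Agent.P006.D
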