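import Vale.Agent.P006.DDefs

/-! D-Ft: the finite Fourier transform modulo `3 m₁ m₂` and the cancellation of the Gauss sums.
Plans. `ft_pair`: `sum_res_crt` (`x = q x₁ + 3 x₂`, `Prim.coprime_nine`), `eq_crt`; `Prim (q x₁ + 3 x₂) ↔ 3 ∣ x₁ - 1` (`q` primary), so the sum over `x₁ mod 3` is `eq k 3`
(`res_spec`, `eq_congr`; or `sum_res_ind`); the character only sees `3 x₂` (`cub_congr`, `cub_mul_left`); `ftc` with the roles of `m₁, m₂` exchanged; `nm 3 = 9`, `N q = √(N q)²`.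
`one_side`: `gl_mul`, `gl_eq`, `norm_gt3`, `3 = -λ²` (`lam_sq`, `cub_neg_left`), `conj_cub`, `cub_cube (coprime_lam _)`, and `z⁴ = z` for `z = cub x m`.
`eq_cube`: `b m³ ≡ m³ ≡ r mod 3` with `r = m.re + m.im` an integer (`dvd_iff_int`), `eq_congr`, and `eq r 3 = 1` (`eq_def`: the imaginary part vanishes). -/

namespace Vale.Agent.P006.D

open Vale.Agent.P026 Filter MeasureTheory
open scoped ComplexConjugate Real

theorem per_pair (m₁ m₂ : O) :
    Per (3 * (m₁ * m₂)) fun a => ind (Prim a) * (cub a m₂ * conj (cub a m₁)) := by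
  intro x y h
  have h3 : (3 : O) ∣ x - y := (dvd_mul_right _ _).trans h
  have h4 : m₁ * m₂ ∣ x - y := (dvd_mul_left _ _).trans h
  have h5 : Prim x ↔ Prim y :=
    ⟨fun a => a.of_dvd_sub dvd_rfl (dvd_sub_comm.1 h3), fun a => a.of_dvd_sub dvd_rfl h3⟩
  simp only [h5, cub_congr ((dvd_mul_right _ _).trans h4 : m₁ ∣ x - y),
    cub_congr ((dvd_mul_left _ _).trans h4 : m₂ ∣ x - y)]

theorem ft_pair {m₁ m₂ : O} (h₁ : Sq m₁) (h₂ : Sq m₂) (h : IsCoprime m₁ m₂) (k : O) :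
    ft (3 * (m₁ * m₂)) (fun a => ind (Prim a) * (cub a m₂ * conj (cub a m₁))) k =
      eq k 3 * (conj (cub 3 m₁) * conj (gt3 m₁) * cub k m₁ *
        conj (conj (cub 3 m₂) * conj (gt3 m₂) * cub k m₂)) / (9 * √(nm (m₁ * m₂)) : ℝ) := by
  have hq : Prim (m₁ * m₂) := h₁.1.mul h₂.1
  have h3 : (3 : O) ≠ 0 := by decide
  have hc : IsCoprime (3 : O) (m₁ * m₂) :=
    (hq.coprime_nine.of_isCoprime_of_dvd_right ⟨3, by norm_num⟩).symm
  have e1 : ∑ x ∈ res 3, ind ((3 : O) ∣ 1 - x) * eq (k * x) 3 = eq k 3 := by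
    rw [← one_mul (eq k 3), ← sum_res_ind h3 1, Finset.sum_mul]
    refine Finset.sum_congr rfl fun x _ => ?_
    by_cases hx : (3 : O) ∣ 1 - x
    · rw [eq_congr (x := k) (y := k * x) (by rw [← mul_one_sub]; exact hx.mul_left k)]
    · rw [ind_of_not hx, zero_mul, zero_mul]
  have e2 := ftc h₂ h₁ h.symm k
  rw [mul_comm m₂ m₁] at e2
  have e3 : ∀ x y : O, ind (Prim (m₁ * m₂ * x + 3 * y)) * (cub (m₁ * m₂ * x + 3 * y) m₂ *
      conj (cub (m₁ * m₂ * x + 3 * y) m₁)) * eq (k * (m₁ * m₂ * x + 3 * y)) (3 * (m₁ * m₂)) =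
      ind ((3 : O) ∣ 1 - x) * eq (k * x) 3 * (cub 3 m₂ * conj (cub 3 m₁) *
        (cub y m₂ * conj (cub y m₁) * eq (k * y) (m₁ * m₂))) := by
    intro x y
    have a1 : Prim (m₁ * m₂ * x + 3 * y) ↔ (3 : O) ∣ 1 - x := by
      obtain ⟨c, hc⟩ := hq
      have : m₁ * m₂ * x + 3 * y - 1 = -(1 - x) + 3 * (c * x + y) := by linear_combination x * hc
      rw [Prim, this, dvd_add_left (dvd_mul_right _ _), dvd_neg]
    rw [a1, show k * (m₁ * m₂ * x + 3 * y) = m₁ * m₂ * (k * x) + 3 * (k * y) by ring,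
      eq_crt h3 hq.ne_zero, cub_congr (a := m₁ * m₂ * x + 3 * y) (b := 3 * y) (n := m₁) ⟨m₂ * x, by ring⟩,
      cub_congr (a := m₁ * m₂ * x + 3 * y) (b := 3 * y) (n := m₂) ⟨m₁ * x, by ring⟩, cub_mul_left,
      cub_mul_left, map_mul]
    ring
  have e4 : (nm (3 * (m₁ * m₂)) : ℂ) = 9 * (√(nm (m₁ * m₂)) : ℝ) * (√(nm (m₁ * m₂)) : ℝ) := by
    rw [mul_assoc, ← Complex.ofReal_mul, Real.mul_self_sqrt (Nat.cast_nonneg _), nm_mul 3,
      show nm 3 = 9 by decide]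
    push_cast
    rfl
  have e5 := G2.sqrt_nm_ne hq.ne_zero
  rw [ft, sum_res_crt h3 hq.ne_zero hc fun x y hxy => congrArg₂ _ (per_pair m₁ m₂ x y hxy)
    (eq_congr (by rw [← mul_sub]; exact hxy.mul_left k))]
  simp only [e3, ← Finset.mul_sum, ← Finset.sum_mul]
  rw [e1, e2, e4, mul_comm (√(nm m₂ : ℝ)), ← G2.sqrt_nm_mul]
  simp only [map_mul, Complex.conj_conj, Complex.ofReal_mul, Complex.ofReal_ofNat]
  field_simp

theorem cub_pow_four {m : O} (hm : Prim m) (x : O) : cub x m ^ 4 = cub x m := by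
  by_cases h : IsCoprime x m
  · rw [pow_succ, cub_cube h, one_mul]
  · rw [cub_eq_zero hm.not_lam_dvd h, zero_pow (by norm_num)]

theorem one_side {Δ m : O} (hΔ : Prim Δ) (hm : Sq m) (h : IsCoprime Δ m) (d e k : O) :
    gl (Δ * m) * conj (cub (d ^ 2 * e) m) * (conj (cub 3 m) * conj (gt3 m) * cub k m) =
      gl Δ * cub (k * w0 d Δ e) m := by
  have a1 := cub_cube (coprime_lam hm.1)
  have a2 := conj_mul_of_norm (norm_gt3 hm.1 hm.2)
  have a3 := cub_pow_four hm.1 d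
  have a4 : cub 3 m = cub lam m ^ 2 := by rw [← cub_pow_left, lam_sq, cub_neg_left]
  rw [gl_mul hΔ hm.1 h, gl_eq hm.1, w0]
  simp only [a4, cub_mul_left, cub_pow_left, map_mul, map_pow, conj_cub]
  linear_combination gl Δ * cub k m * cub Δ m ^ 2 * cub e m ^ 2 * (a3 + cub d m ^ 4 * (a2 +
    conj (gt3 m) * gt3 m * (cub lam m ^ 3 + 1) * a1))

theorem cub_mul_conj {Δ : O} (hΔ : Prim Δ) (a : O) :
    conj (cub a Δ) * cub a Δ = ind (IsCoprime a Δ) := by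
  by_cases h : IsCoprime a Δ
  · rw [ind_of h, conj_mul_of_norm (norm_cub h)]
  · rw [ind_of_not h, cub_eq_zero hΔ.not_lam_dvd h, mul_zero]

theorem cub_zero_pair {m₁ m₂ : O} (h₁ : Prim m₁) (h₂ : Prim m₂) :
    cub 0 m₁ * conj (cub 0 m₂) = ind (m₁ = 1 ∧ m₂ = 1) := by
  have key : ∀ m : O, Prim m → m ≠ 1 → cub 0 m = 0 := fun m hm h =>
    cub_eq_zero hm.not_lam_dvd fun hc => h (hm.eq_one_of_isUnit (isCoprime_zero_left.1 hc))
  by_cases a1 : m₁ = 1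
  · by_cases a2 : m₂ = 1
    · rw [ind_of ⟨a1, a2⟩, a1, a2, cub_one_right, map_one, mul_one]
    · rw [ind_of_not fun h => a2 h.2, key _ h₂ a2, map_zero, mul_zero]
  · rw [ind_of_not fun h => a1 h.1, key _ h₁ a1, zero_mul]

theorem cub_cube_pair {m₁ m₂ : O} (h₁ : Prim m₁) (h₂ : Prim m₂) (n : O) :
    cub (n ^ 3) m₁ * conj (cub (n ^ 3) m₂) = ind (IsCoprime n (m₁ * m₂)) := by
  rw [cub_pow_left, cub_pow_left]
  by_cases a1 : IsCoprime n m₁
  · by_cases a2 : IsCoprime n m₂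
    · rw [ind_of (a1.mul_right a2), cub_cube a1, cub_cube a2, map_one, mul_one]
    · rw [ind_of_not fun h => a2 h.of_mul_right_right, cub_eq_zero h₂.not_lam_dvd a2]
      simp
  · rw [ind_of_not fun h => a1 h.of_mul_right_left, cub_eq_zero h₁.not_lam_dvd a1]
    simp

theorem eq_cube {b : O} (hb : Prim b) (m : O) : eq (b * m ^ 3) 3 = 1 := by
  obtain ⟨c, hc⟩ := hb
  have h1 : eq (b * m ^ 3) 3 = eq (m ^ 3) 3 := eq_congr ⟨c * m ^ 3, by linear_combination m ^ 3 * hc⟩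
  have h2 : ((m ^ 3 * star 3 : O)).im = 9 * (m.re ^ 2 * m.im - m.re * m.im ^ 2) := by
    rw [star_ofNat, show (3 : O) = ⟨3, 0⟩ from rfl]
    simp only [pow_succ, pow_zero, one_mul, QuadraticAlgebra.re_mul, QuadraticAlgebra.im_mul]
    ring
  rw [h1, eq_def (by decide), h2, show nm 3 = 9 by decide,
    ← Complex.exp_int_mul_two_pi_mul_I (m.re ^ 2 * m.im - m.re * m.im ^ 2)]
  congr 1
  push_cast
  ring

end Vale.Agent.P006.D
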