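import Vale.Agent.P006.DDefs

/-! D-Ker: the dual kernel `shp (Gm L)`.
Plans. `inv_Gm`: `GD.twist` with `w₀ = -a`, `mellinInv_Gm`.  `ct_Gm6`: `norm_Gm`, `√π e^{(17/6)²/4} ≤ 17` (`π < 3.15`, `(17/6)²/4 ≤ 2.01`, or bound `e^{2.01}` by `Real.exp_one_lt_d9`).
`shp_le`: `shp_line` with `σ = (n+1)/2`, `norm_mellinInv_le`, `norm_gam_half`, `norm_Gm` (real part of `1 - s` is `(1-n)/2`, `L ≥ 1`), `gauss_moment n (1/4)`.
`shp_rep`: unfold `shp`, `mellinInv_def`, `ω τ = (1/2π) gam (1/4+τ I) Gm L (3/4 - τ I)`, `norm_gam_le`; `shp_quarter` follows (`gauss_moment 0`).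
`shp_cube`: `ψ s = gam (s/3) Gm 1 (1 - s/3)/3`; `shp_line` with `σ = 2/3` and the substitution `t = 3 τ` (`integral_comp_div`/`Measure.integral_comp_mul_left`),
`(y³)^{-s/3} = y^{-s}`; bound by `norm_gam_one`, `norm_Gm`, `(1+|t|) e^{-t²/72} ≤ C`. -/

namespace Vale.Agent.P006.D

open Vale.Agent.P026 Filter MeasureTheory
open scoped ComplexConjugate Real

theorem dker_Gm {L r : ℝ} (hL : 1 ≤ L) {w : ℂ} (h : |w.re| ≤ r) :
    ‖Gm L w‖ ≤ √π * Real.exp (r ^ 2 / 4) / L * Real.exp (-(1 / 4 * w.im ^ 2 / L ^ 2)) := by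
  have hL0 : 0 < L := by linarith
  have h1 : w.re ^ 2 ≤ r ^ 2 := by
    rw [← sq_abs]
    exact pow_le_pow_left₀ (abs_nonneg _) h 2
  have h2 : w.re ^ 2 / (4 * L ^ 2) ≤ r ^ 2 / 4 :=
    div_le_div₀ (sq_nonneg _) h1 (by norm_num) (by nlinarith)
  rw [norm_Gm hL0, mul_div_right_comm, mul_assoc, ← Real.exp_add]
  refine mul_le_mul_of_nonneg_left (Real.exp_le_exp.2 ?_) (by positivity)
  have h3 : (w.re ^ 2 - w.im ^ 2) / (4 * L ^ 2) =
      w.re ^ 2 / (4 * L ^ 2) + -(1 / 4 * w.im ^ 2 / L ^ 2) := by ring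
  linarith

theorem dker_Gm17 {L : ℝ} (hL : 1 ≤ L) {w : ℂ} (h : |w.re| ≤ 3) :
    ‖Gm L w‖ ≤ 17 / L * Real.exp (-(1 / 4 * w.im ^ 2 / L ^ 2)) := by
  refine (dker_Gm hL h).trans (mul_le_mul_of_nonneg_right
    (div_le_div_of_nonneg_right ?_ (by linarith)) (Real.exp_pos _).le)
  have h4 : √π ≤ 1.7725 := Real.sqrt_le_iff.2 ⟨by norm_num, by linarith [Real.pi_lt_d4]⟩
  have h5 : Real.exp (3 ^ 2 / 4) ≤ 9.49 := by
    have := kgs_exp94
    norm_num at this ⊢
    exact this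
  have h6 := mul_le_mul h4 h5 (Real.exp_pos _).le (by norm_num)
  linarith

theorem dker_exp (t : ℝ) :
    Real.exp (-(1 / 4 * t ^ 2 / 1 ^ 2)) ≤ Real.exp (-(t ^ 2 / (8 * 1 ^ 2))) :=
  Real.exp_le_exp.2 (by nlinarith [sq_nonneg t])

theorem inv_Gm {y : ℝ} (hy : 0 < y) (a : ℝ) :
    mellinInv 2 (fun s => Gm 1 (s - a)) y = ((y ^ (-a) * Gs 1 y : ℝ) : ℂ) := by
  have h := (gd_Gm one_pos).twist 2 (-(a : ℂ)) hy
  simp only [← sub_eq_add_neg] at h
  rw [← h, mellinInv_Gm one_pos 2 hy, Complex.ofReal_mul, Complex.ofReal_cpow hy.le,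
    Complex.ofReal_neg]

theorem ct_Gm6 : CT 1 fun s => Gm 1 (s - (1 / 6 : ℝ)) / 17 := by
  refine ⟨((gd_Gm one_pos).1.comp (differentiable_id.sub_const _)).div_const _, fun w h1 h2 => ?_⟩
  have h := dker_Gm17 le_rfl (w := w - (1 / 6 : ℝ)) (by
    rw [Complex.sub_re, Complex.ofReal_re, abs_le]
    constructor <;> linarith)
  rw [Complex.sub_im, Complex.ofReal_im, sub_zero] at h
  rw [norm_div, Complex.norm_ofNat, div_le_iff₀ (by norm_num)]
  have := dker_exp w.im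
  linarith

theorem Gm3_le : ∃ M : ℝ, 0 < M ∧ ∀ w : ℂ, 3 / 5 ≤ w.re → w.re ≤ 2 →
    ‖Gm 1 (w - (1 / 3 : ℝ))‖ ≤ M * Real.exp (-(w.im ^ 2 / (8 * 1 ^ 2))) := by
  refine ⟨17, by norm_num, fun w h1 h2 => ?_⟩
  have h := dker_Gm17 le_rfl (w := w - (1 / 3 : ℝ)) (by
    rw [Complex.sub_re, Complex.ofReal_re, abs_le]
    constructor <;> linarith)
  rw [Complex.sub_im, Complex.ofReal_im, sub_zero] at h
  have := dker_exp w.im
  linarith

theorem norm_Gm_one {L : ℝ} (hL : 1 ≤ L) : ‖Gm L 1‖ ≤ 3 / L := by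
  have h := dker_Gm hL (w := 1) (r := 1) (by simp)
  have h4 : √π ≤ 1.7725 := Real.sqrt_le_iff.2 ⟨by norm_num, by linarith [Real.pi_lt_d4]⟩
  have h5 := Real.exp_bound_div_one_sub_of_interval (x := 1 ^ 2 / 4) (by norm_num) (by norm_num)
  simp only [Complex.one_im, ne_eq, OfNat.ofNat_ne_zero, not_false_eq_true, zero_pow, mul_zero,
    zero_div, neg_zero, Real.exp_zero, mul_one] at h
  refine h.trans (div_le_div_of_nonneg_right ?_ (by linarith))
  have h6 := mul_le_mul h4 h5 (Real.exp_pos _).le (by norm_num)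
  linarith

theorem shp_le (n : ℕ) : ∃ C : ℝ, 0 < C ∧ ∀ L ξ : ℝ, 1 ≤ L → 0 < ξ →
    ‖shp (Gm L) ξ‖ ≤ C * L ^ n * ξ ^ (-((n + 1) / 2 : ℝ)) := by
  obtain ⟨C, hC, hm⟩ := gauss_moment n (c := 1 / 4) (by norm_num)
  have hp := Real.pi_pos
  obtain ⟨K, hK⟩ : ∃ K : ℝ, K = (2 * n + 1) ^ n * (√π * Real.exp (((n + 1) / 2) ^ 2 / 4)) :=
    ⟨_, rfl⟩
  have hK0 : 0 < K := by rw [hK]; positivity
  refine ⟨K * C / (2 * π), by positivity, fun L ξ hL hξ => ?_⟩
  have hL0 : 0 < L := by linarith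
  have hn : (0 : ℝ) ≤ n := n.cast_nonneg
  rw [shp_line (gd_Gm hL0) (σ := (n + 1) / 2) (by positivity) hξ]
  refine (norm_mellinInv_le _ _ hξ).trans ?_
  obtain ⟨hi, hI⟩ := hm L hL
  have h1 : ∫ t : ℝ, ‖gam (((n + 1) / 2 : ℝ) + t * Complex.I) *
      Gm L (1 - (((n + 1) / 2 : ℝ) + t * Complex.I))‖ ≤
      ∫ t : ℝ, K / L * ((1 + |t|) ^ n * Real.exp (-(1 / 4 * t ^ 2 / L ^ 2))) := by
    refine integral_mono_of_nonneg (Eventually.of_forall fun t => norm_nonneg _) (hi.const_mul _)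
      (Eventually.of_forall fun t => ?_)
    have a1 := norm_gam_half n t
    have a2 := dker_Gm hL (w := 1 - (((n + 1) / 2 : ℝ) + t * Complex.I)) (r := (n + 1) / 2) (by
      simp only [Complex.sub_re, Complex.one_re, Complex.add_re, Complex.ofReal_re,
        Complex.mul_I_re, Complex.ofReal_im, neg_zero, add_zero]
      rw [abs_le]
      constructor <;> linarith)
    simp only [Complex.sub_im, Complex.one_im, Complex.add_im, Complex.ofReal_re,
      Complex.mul_I_im, Complex.ofReal_im, zero_add, zero_sub, neg_sq] at a2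
    have a3 : (2 * n + |t|) ^ n ≤ (2 * n + 1) ^ n * (1 + |t|) ^ n := by
      rw [← mul_pow]
      refine pow_le_pow_left₀ (by positivity) ?_ n
      nlinarith [abs_nonneg t]
    simp only [norm_mul]
    refine (mul_le_mul (a1.trans a3) a2 (norm_nonneg _) (by positivity)).trans_eq ?_
    rw [hK]
    ring
  rw [integral_const_mul] at h1
  refine (mul_le_mul_of_nonneg_left
    (h1.trans (mul_le_mul_of_nonneg_left hI (by positivity))) (by positivity)).trans_eq ?_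
  field_simp
  ring

theorem shp_rep : ∃ C : ℝ, 0 < C ∧ ∀ L : ℝ, 1 ≤ L → ∃ ω : ℝ → ℂ, Continuous ω ∧
    (∀ τ, ‖ω τ‖ ≤ C / L * Real.exp (-(1 / 4 * τ ^ 2 / L ^ 2))) ∧
    ∀ ξ : ℝ, 0 < ξ → shp (Gm L) ξ = ∫ τ : ℝ, ω τ * (ξ : ℂ) ^ (-((1 / 4 : ℝ) + τ * Complex.I)) := by
  obtain ⟨C, hC, hg⟩ := norm_gam_le (a := 1 / 4) (by norm_num)
  have hp := Real.pi_pos
  refine ⟨1 / (2 * π) * (C * 17), by positivity, fun L hL => ?_⟩
  have hL0 : 0 < L := by linarith
  refine ⟨fun τ => ((1 / (2 * π) : ℝ) : ℂ) * (gam ((1 / 4 : ℝ) + τ * Complex.I) *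
    Gm L (1 - ((1 / 4 : ℝ) + τ * Complex.I))), ?_, fun τ => ?_, fun ξ hξ => ?_⟩
  · refine continuous_const.mul (Continuous.mul ?_ ((gd_Gm hL0).1.continuous.comp (by fun_prop)))
    refine continuous_iff_continuousAt.2 fun τ => ?_
    refine ContinuousAt.comp (f := fun τ : ℝ => ((1 / 4 : ℝ) : ℂ) + τ * Complex.I)
      (kgam_diff ?_).continuousAt (by fun_prop)
    simp
  · have a1 := hg ((1 / 4 : ℝ) + τ * Complex.I) (by simp) (by simp; norm_num)
    have a2 := dker_Gm17 hL (w := 1 - ((1 / 4 : ℝ) + τ * Complex.I)) (by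
      simp only [Complex.sub_re, Complex.one_re, Complex.add_re, Complex.ofReal_re,
        Complex.mul_I_re, Complex.ofReal_im, neg_zero, add_zero]
      rw [abs_le]
      constructor <;> norm_num)
    simp only [Complex.sub_im, Complex.one_im, Complex.add_im, Complex.ofReal_re,
      Complex.mul_I_im, Complex.ofReal_im, zero_add, zero_sub, neg_sq] at a2
    rw [norm_mul, norm_mul, Complex.norm_real, Real.norm_of_nonneg (by positivity)]
    refine (mul_le_mul_of_nonneg_left (mul_le_mul a1 a2 (norm_nonneg _) hC.le)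
      (by positivity)).trans_eq ?_
    ring
  · rw [shp, mellinInv_def, ← integral_const_mul]
    refine integral_congr_ae (Eventually.of_forall fun τ => ?_)
    simp only
    ring

theorem shp_quarter : ∃ C : ℝ, 0 < C ∧ ∀ L ξ : ℝ, 1 ≤ L → 0 < ξ →
    ‖shp (Gm L) ξ‖ ≤ C * ξ ^ (-(1 / 4 : ℝ)) := by
  obtain ⟨C, hC, h⟩ := shp_rep
  obtain ⟨C', hC', hm⟩ := gauss_moment 0 (c := 1 / 4) (by norm_num)
  refine ⟨C * C', by positivity, fun L ξ hL hξ => ?_⟩
  have hL0 : 0 < L := by linarith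
  obtain ⟨ω, -, h2, h3⟩ := h L hL
  obtain ⟨hi, hI⟩ := hm L hL
  simp only [pow_zero, one_mul, zero_add, pow_one] at hi hI
  rw [h3 ξ hξ]
  refine (norm_integral_le_of_norm_le ((hi.const_mul (C / L)).mul_const (ξ ^ (-(1 / 4 : ℝ))))
    (Eventually.of_forall fun τ => ?_)).trans ?_
  · rw [norm_mul, kmel_norm _ _ hξ]
    exact mul_le_mul_of_nonneg_right (h2 τ) (by positivity)
  · rw [integral_mul_const, integral_const_mul]
    refine mul_le_mul_of_nonneg_right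
      ((mul_le_mul_of_nonneg_left hI (by positivity)).trans_eq ?_) (by positivity)
    field_simp

theorem shp_cube : ∃ (ψ : ℂ → ℂ) (M : ℝ), 0 < M ∧ DifferentiableOn ℂ ψ {s | 1 / 2 < s.re} ∧
    (∀ w : ℂ, 3 / 5 ≤ w.re → w.re ≤ 2 → ‖ψ w‖ ≤ M * Real.exp (-(w.im ^ 2 / (8 * 3 ^ 2)))) ∧
    ψ 1 = gam (1 / 3) * Gm 1 (2 / 3) / 3 ∧
    ∀ y : ℝ, 0 < y → shp (Gm 1) (y ^ 3) = mellinInv 2 ψ y := by
  obtain ⟨C, hC, hg⟩ := norm_gam_one (a := 1 / 5) (by norm_num)
  refine ⟨fun s => gam (s / 3) * Gm 1 (1 - s / 3) / 3, C * 17, by positivity, fun s hs => ?_,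
    fun w h1 h2 => ?_, by norm_num, fun y hy => ?_⟩
  · have hs' : 1 / 2 < s.re := hs
    refine DifferentiableAt.differentiableWithinAt (DifferentiableAt.div_const
      (DifferentiableAt.mul ?_ ?_) _)
    · refine DifferentiableAt.comp (f := fun s : ℂ => s / 3) s (kgam_diff ?_) (by fun_prop)
      rw [Complex.div_ofNat_re]
      linarith
    · exact DifferentiableAt.comp (f := fun s : ℂ => 1 - s / 3) s ((gd_Gm one_pos).1 _)
        (by fun_prop)
  · have a1 := hg (w / 3) (by rw [Complex.div_ofNat_re]; linarith)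
      (by rw [Complex.div_ofNat_re]; linarith)
    have a2 := dker_Gm17 le_rfl (w := 1 - w / 3) (by
      rw [Complex.sub_re, Complex.one_re, Complex.div_ofNat_re, abs_le]
      constructor <;> linarith)
    rw [Complex.sub_im, Complex.one_im, zero_sub, neg_sq, Complex.div_ofNat_im] at a2
    rw [Complex.div_ofNat_im] at a1
    have a3 : 1 + |w.im / 3| ≤ 3 * Real.exp (w.im ^ 2 / 72) := by
      have b1 := Real.add_one_le_exp (w.im ^ 2 / 72)
      have b2 : |w.im / 3| ^ 2 = w.im ^ 2 / 9 := by rw [sq_abs]; ring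
      nlinarith [sq_nonneg (|w.im / 3| - 4 / 3)]
    have a4 : Real.exp (w.im ^ 2 / 72) * Real.exp (-(1 / 4 * (w.im / 3) ^ 2 / 1 ^ 2)) =
        Real.exp (-(w.im ^ 2 / (8 * 3 ^ 2))) := by
      rw [← Real.exp_add]
      congr 1
      ring
    rw [norm_div, norm_mul, Complex.norm_ofNat, div_le_iff₀ (by norm_num), ← a4]
    refine (mul_le_mul (a1.trans (mul_le_mul_of_nonneg_left a3 hC.le)) a2 (norm_nonneg _)
      (by positivity)).trans_eq ?_
    ring
  · rw [shp_line (gd_Gm one_pos) (σ := 2 / 3) (by norm_num) (by positivity), mellinInv_def,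
      mellinInv_def]
    congr 1
    have h := Measure.integral_comp_div (fun t : ℝ => ((y ^ 3 : ℝ) : ℂ) ^
      (-((2 / 3 : ℝ) + t * Complex.I)) * (gam ((2 / 3 : ℝ) + t * Complex.I) *
        Gm 1 (1 - ((2 / 3 : ℝ) + t * Complex.I)))) 3
    have e : ∀ t : ℝ, (y : ℂ) ^ (-((2 : ℝ) + t * Complex.I)) *
        (gam (((2 : ℝ) + t * Complex.I) / 3) * Gm 1 (1 - ((2 : ℝ) + t * Complex.I) / 3) / 3) =
        ((y ^ 3 : ℝ) : ℂ) ^ (-((2 / 3 : ℝ) + (t / 3 : ℝ) * Complex.I)) *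
          (gam ((2 / 3 : ℝ) + (t / 3 : ℝ) * Complex.I) *
            Gm 1 (1 - ((2 / 3 : ℝ) + (t / 3 : ℝ) * Complex.I))) / 3 := by
      intro t
      have e1 : (((2 / 3 : ℝ) : ℂ) + (t / 3 : ℝ) * Complex.I) = ((2 : ℝ) + t * Complex.I) / 3 := by
        push_cast
        ring
      have e2 : (y : ℂ) ^ (-((2 : ℝ) + t * Complex.I)) =
          ((y ^ 3 : ℝ) : ℂ) ^ (-((((2 : ℝ) : ℂ) + t * Complex.I) / 3)) := by
        rw [kgs_cpow hy, kgs_cpow (by positivity), Real.log_pow]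
        congr 1
        push_cast
        ring
      rw [e1, e2]
      ring
    simp only [e]
    rw [integral_div, h, abs_of_pos (by norm_num), Complex.real_smul]
    push_cast
    ring

end Vale.Agent.P006.D
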