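import Vale.Agent.P006.DDefs

/-! D-Maj: a majorant of the squarefree indicator.
Plan. `lam a = ∑_{d ∈ qball D} μ d 1[d² ∣ a]` (real valued; `μ d = (moebius d : ℤ)`), majorant `lam a ^ 2`.  For `d₁, d₂ ∈ Sq` let `l d₁ d₂ = d₁ (d₂ / g)`, `g` the primary gcd (`exists_prim_gcd`):
it is `Sq`, of norm `≤ N d₁ N d₂`, divisible by `d₁, d₂`, and `d₁² ∣ a ∧ d₂² ∣ a ↔ l² ∣ a`.  `ν d = ∑_{(d₁, d₂) : l d₁ d₂ = d} μ d₁ μ d₂` (`Finset.sum_fiberwise_of_maps_to`), the fibre lies in `pdiv d ×ˢ pdiv d`.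
`|lam a| ≤ tau a`.  For `a` squarefree only `d = 1` counts.  Otherwise let `P` be a `Sq` element with `P² ∣ a` of maximal norm (or the product of the primary primes `p` with `p² ∣ a`);
`d² ∣ a ↔ d ∣ P` for `d ∈ Sq` (use `l d P`), `P ≠ 1`; if `N P ≤ D` then `lam a = ∑_{d ∈ pdiv P} μ d = 0` (`sum_mu_pdiv`). -/

namespace Vale.Agent.P006.D

open Vale.Agent.P026 Filter MeasureTheory
open scoped ComplexConjugate Real

theorem exists_lcm {d₁ d₂ : O} (h₁ : Sq d₁) (h₂ : Sq d₂) : ∃ l, Sq l ∧ d₁ ∣ l ∧ d₂ ∣ l ∧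
    l ∣ d₁ * d₂ ∧ ∀ a, d₁ ^ 2 ∣ a → d₂ ^ 2 ∣ a → l ^ 2 ∣ a := by
  obtain ⟨g, hg, g1, ⟨c, rfl⟩, g3⟩ := exists_prim_gcd d₂ h₁.1
  have hc : Sq c := sq_right h₂ hg
  have hcop : IsCoprime d₁ c := IsRelPrime.isCoprime fun e e1 e2 =>
    h₂.2 e (mul_dvd_mul (g3 e e1 (e2.mul_left g)) e2)
  refine ⟨d₁ * c, sq_mul h₁ hc hcop, dvd_mul_right _ _, mul_dvd_mul_right g1 c,
    mul_dvd_mul_left d₁ (dvd_mul_left c g), fun a a1 a2 => ?_⟩
  rw [mul_pow]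
  exact hcop.pow.mul_dvd a1 ((pow_dvd_pow_of_dvd (dvd_mul_left c g) 2).trans a2)

theorem exists_sqpart {a : O} (ha : Prim a) : ∃ P, Sq P ∧ (∀ d, Sq d → (d ^ 2 ∣ a ↔ d ∣ P)) ∧
    (P = 1 → Squarefree a) := by
  classical
  have hm : ∀ d, d ∈ (pdiv a).filter (fun d => Sq d ∧ d ^ 2 ∣ a) ↔ Sq d ∧ d ^ 2 ∣ a := fun d => by
    rw [Finset.mem_filter, mem_pdiv ha.ne_zero, and_iff_right_iff_imp]
    exact fun h => ⟨h.1.1, (dvd_pow_self d two_ne_zero).trans h.2⟩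
  obtain ⟨P, hP, hmax⟩ := Finset.exists_max_image _ nm ⟨1, (hm 1).2 ⟨sq_one, by simp⟩⟩
  rw [hm] at hP
  have key : ∀ d, Sq d → (d ^ 2 ∣ a ↔ d ∣ P) := by
    refine fun d hd => ⟨fun h => ?_, fun h => (pow_dvd_pow_of_dvd h 2).trans hP.2⟩
    obtain ⟨l, hl, l1, ⟨c, rfl⟩, -, l4⟩ := exists_lcm hd hP.1
    have h1 := hmax _ ((hm _).2 ⟨hl, l4 a h hP.2⟩)
    have h2 := nm_pos (sq_ne hP.1)
    have h3 := nm_pos (right_ne_zero_of_mul (sq_ne hl))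
    rw [nm_mul] at h1
    have h4 : IsUnit c := isUnit_iff_nm.2 (by nlinarith)
    exact h4.dvd_mul_right.1 l1
  refine ⟨P, hP.1, key, fun h x hx => ?_⟩
  obtain ⟨u, c, hu, hc, rfl⟩ := exists_prim (n := x) fun h' =>
    ha.not_lam_dvd (h'.trans ((dvd_mul_right x x).trans hx))
  have h1 : c * c ∣ a := (mul_dvd_mul (dvd_mul_left c u) (dvd_mul_left c u)).trans hx
  refine hu.mul (Prim.induction (P := fun c => c * c ∣ a → IsUnit c) (fun _ => isUnit_one)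
    (fun p n hp hp' _ _ h2 => ?_) hc h1)
  have h3 := (key p ⟨hp', hp.squarefree⟩).1
    (by rw [sq]; exact (mul_dvd_mul (dvd_mul_right p n) (dvd_mul_right p n)).trans h2)
  exact absurd (isUnit_of_dvd_one (h ▸ h3)) hp.not_isUnit

theorem exists_maj {D : ℝ} (hD : 1 ≤ D) : ∃ ν : O → ℝ, (∀ d, d ≠ 0 → |ν d| ≤ tau d ^ 2) ∧
    ∀ a, Prim a → 0 ≤ ∑ d ∈ qball (D ^ 2), ν d * ir (d ^ 2 ∣ a) ∧
      ∑ d ∈ qball (D ^ 2), ν d * ir (d ^ 2 ∣ a) ≤ tau a ^ 2 ∧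
      (Sq a → ∑ d ∈ qball (D ^ 2), ν d * ir (d ^ 2 ∣ a) = 1) ∧
      (¬Sq a → ∑ d ∈ qball (D ^ 2), ν d * ir (d ^ 2 ∣ a) ≠ 0 → ∃ d, D < nm d ∧ d ^ 2 ∣ a) := by
  classical
  have hl : ∀ p : O × O, ∃ l, Sq p.1 → Sq p.2 → Sq l ∧ p.1 ∣ l ∧ p.2 ∣ l ∧
      l ∣ p.1 * p.2 ∧ ∀ a, p.1 ^ 2 ∣ a → p.2 ^ 2 ∣ a → l ^ 2 ∣ a := fun p => by
    by_cases h : Sq p.1 ∧ Sq p.2
    · obtain ⟨l, hl⟩ := exists_lcm h.1 h.2
      exact ⟨l, fun _ _ => hl⟩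
    · exact ⟨0, fun h1 h2 => absurd ⟨h1, h2⟩ h⟩
  choose l hl using hl
  have hl' := fun p (hp : p ∈ qball D ×ˢ qball D) =>
    hl p (mem_qball.1 (Finset.mem_product.1 hp).1).1 (mem_qball.1 (Finset.mem_product.1 hp).2).1
  have hm : ∀ d, |(mu d).re| ≤ 1 := fun d => (Complex.abs_re_le_norm _).trans (norm_mu_le d)
  refine ⟨fun d => ∑ p ∈ (qball D ×ˢ qball D).filter (fun p => l p = d), (mu p.1).re * (mu p.2).re,
    fun d hd => ?_, fun a ha => ?_⟩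
  · refine (Finset.abs_sum_le_sum_abs _ _).trans ((Finset.sum_le_card_nsmul _ _ 1 fun p _ => ?_).trans ?_)
    · rw [abs_mul]
      exact mul_le_one₀ (hm _) (abs_nonneg _) (hm _)
    · rw [nsmul_eq_mul, mul_one, tau, sq, ← Nat.cast_mul, ← Finset.card_product, Nat.cast_le]
      refine Finset.card_le_card fun p hp => ?_
      obtain ⟨h1, rfl⟩ := Finset.mem_filter.1 hp
      obtain ⟨h2, h3⟩ := Finset.mem_product.1 h1
      exact Finset.mem_product.2 ⟨(mem_pdiv hd).2 ⟨(mem_qball.1 h2).1.1, (hl' p h1).2.1⟩,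
        (mem_pdiv hd).2 ⟨(mem_qball.1 h3).1.1, (hl' p h1).2.2.1⟩⟩
  have e1 : ∑ d ∈ qball (D ^ 2), (∑ p ∈ (qball D ×ˢ qball D).filter (fun p => l p = d),
      (mu p.1).re * (mu p.2).re) * ir (d ^ 2 ∣ a) =
      (∑ d ∈ (qball D).filter (fun d => d ^ 2 ∣ a), (mu d).re) ^ 2 := by
    have h1 : ∀ p ∈ qball D ×ˢ qball D, l p ∈ qball (D ^ 2) := fun p hp => by
      obtain ⟨h2, h3⟩ := Finset.mem_product.1 hp
      rw [mem_qball] at h2 h3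
      refine mem_qball.2 ⟨(hl' p hp).1, ?_⟩
      have h4 := nm_le_of_dvd (mul_ne_zero (sq_ne h2.1) (sq_ne h3.1)) (hl' p hp).2.2.2.1
      rw [nm_mul] at h4
      calc (nm (l p) : ℝ) ≤ nm p.1 * nm p.2 := by exact_mod_cast h4
        _ ≤ D * D := mul_le_mul h2.2 h3.2 (Nat.cast_nonneg _) (by linarith)
        _ = D ^ 2 := (sq D).symm
    rw [sq (∑ d ∈ _, _), Finset.sum_filter, Finset.sum_mul_sum, ← Finset.sum_product',
      ← Finset.sum_fiberwise_of_maps_to h1]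
    refine Finset.sum_congr rfl fun d _ => ?_
    rw [Finset.sum_mul]
    refine Finset.sum_congr rfl fun p hp => ?_
    obtain ⟨h2, rfl⟩ := Finset.mem_filter.1 hp
    obtain ⟨-, h3, h4, -, h5⟩ := hl' p h2
    by_cases h6 : l p ^ 2 ∣ a
    · rw [ir_of h6, mul_one, if_pos ((pow_dvd_pow_of_dvd h3 2).trans h6),
        if_pos ((pow_dvd_pow_of_dvd h4 2).trans h6)]
    · rw [ir_of_not h6, mul_zero]
      split_ifs with h7 h8
      · exact absurd (h5 a h7 h8) h6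
      all_goals simp
  simp only [e1]
  obtain ⟨P, hP, key, hP1⟩ := exists_sqpart ha
  have e2 : (nm P : ℝ) ≤ D → ∑ d ∈ (qball D).filter (fun d => d ^ 2 ∣ a), (mu d).re =
      (ind (P = 1)).re := fun h => by
    rw [← sum_mu_pdiv hP.1, Complex.re_sum]
    refine Finset.sum_congr (Finset.ext fun d => ?_) fun _ _ => rfl
    rw [Finset.mem_filter]
    refine ⟨fun h1 => (mem_pdiv (sq_ne hP)).2 ⟨(mem_qball.1 h1.1).1.1,
      (key d (mem_qball.1 h1.1).1).1 h1.2⟩, fun h1 => ?_⟩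
    have h2 := pdiv_subset (mem_qball.2 ⟨hP, h⟩) h1
    exact ⟨h2, (key d (mem_qball.1 h2).1).2 ((mem_pdiv (sq_ne hP)).1 h1).2⟩
  have hPa : P ^ 2 ∣ a := (key P hP).2 dvd_rfl
  refine ⟨sq_nonneg _, sq_le_sq.2 ?_, fun h => ?_, fun h h1 => ⟨P, not_le.1 fun h2 => h1 ?_, hPa⟩⟩
  · rw [abs_of_nonneg (tau_nonneg a)]
    refine (Finset.abs_sum_le_sum_abs _ _).trans
      ((Finset.sum_le_card_nsmul _ _ 1 fun p _ => hm p).trans ?_)
    rw [nsmul_eq_mul, mul_one, tau, Nat.cast_le]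
    refine Finset.card_le_card fun d hd => ?_
    obtain ⟨h1, h2⟩ := Finset.mem_filter.1 hd
    exact (mem_pdiv ha.ne_zero).2 ⟨(mem_qball.1 h1).1.1, (dvd_pow_self d two_ne_zero).trans h2⟩
  · have h1 : P = 1 := hP.1.eq_one_of_isUnit (h.2 P (by rwa [← sq]))
    rw [e2 (by simpa [h1] using hD), ind_of h1, Complex.one_re, one_pow]
  · rw [e2 h2, ind_of_not fun h3 => h ⟨ha, hP1 h3⟩, Complex.zero_re, sq, mul_zero]

end Vale.Agent.P006.D
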