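import Vale.Agent.P006.DFt
import Vale.Agent.P006.DLat

/-! D-Pair: Poisson summation for one pair.
Plan (cf. `ps1` in `P026/PSOne.lean`).  `cub (d² a) (Δ m) = cub (d² a) Δ cub (d² a) m` (`cub_mul_right`), `cub_mul_conj`, `IsCoprime (d² a) Δ ↔ IsCoprime d Δ ∧ IsCoprime a Δ`,
`ind_coprime`, finite sum out of the `tsum` (`summable_GsC`), `a = e h` (`Function.Injective.tsum_eq`, `Prim.of_mul`), `Gs L (N(d² e h)/A) = mellinInv 2 (Gm L) (N h / Y)`,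
`Y = A / N(d² e)`, for `h` primary (`mellinInv_Gm`); `mp` with `per_pair`, `gd_Gm`; `ft_pair`, `one_side` (twice, once conjugated), `gl Δ * conj (gl Δ) = 1`;
`k = 0`: `cub_zero_pair`; `phiS` is the sum over `e`.  `summable_kt`: `summable_shp`. -/

namespace Vale.Agent.P006.D

open Vale.Agent.P026 Filter MeasureTheory
open scoped ComplexConjugate Real

theorem summable_kt {L Y : ℝ} (hL : 0 < L) (hY : 0 < Y) (w : O) {m₁ m₂ : O} (h₁ : m₁ ≠ 0)
    (h₂ : m₂ ≠ 0) : Summable fun k : O => ind (k ≠ 0) * kt L Y w m₁ m₂ k := by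
  have hq := nm_pos' (mul_ne_zero h₁ h₂)
  have hc := c0_pos
  have hs := (summable_shp (gd_Gm hL) (a := c0 ^ 2 * Y / (9 * nm (m₁ * m₂)))
    (by positivity)).mul_left (√(nm (m₁ * m₂)))⁻¹
  refine Summable.of_norm_bounded hs fun k => ?_
  have e : c0 ^ 2 * Y * nm k / (9 * nm (m₁ * m₂)) = c0 ^ 2 * Y / (9 * nm (m₁ * m₂)) * nm k := by
    ring
  have h3 : ‖cub (k * w) m₁ * conj (cub (k * w) m₂)‖ ≤ 1 := by
    rw [norm_mul, Complex.norm_conj]
    exact mul_le_one₀ (norm_cub_le _ _) (norm_nonneg _) (norm_cub_le _ _)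
  rw [kt, e, norm_mul, norm_mul, norm_mul, norm_div, norm_mul, norm_eq, one_mul, Complex.norm_real,
    Real.norm_of_nonneg (Real.sqrt_nonneg _), mul_left_comm, div_eq_mul_inv]
  refine mul_le_mul_of_nonneg_right ?_ (by positivity)
  exact mul_le_of_le_one_left (by positivity) h3

/-- the finite Fourier transform with both Gauss sums -/
theorem dpair_ft {Δ m₁ m₂ : O} (T : Tri Δ m₁ m₂) (d e k : O) :
    gl (Δ * m₁) * conj (cub (d ^ 2 * e) m₁) * conj (gl (Δ * m₂) * conj (cub (d ^ 2 * e) m₂)) *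
      ft (3 * (m₁ * m₂)) (fun a => ind (Prim a) * (cub a m₂ * conj (cub a m₁))) k =
    eq k 3 * (cub (k * w0 d Δ e) m₁ * conj (cub (k * w0 d Δ e) m₂)) /
      (√(nm (m₁ * m₂)) : ℝ) / 9 := by
  have e1 := one_side T.hΔ.1 T.h₁ (sq_coprime T.s₁) d e k
  have e2 := congrArg conj (one_side T.hΔ.1 T.h₂ (sq_coprime T.s₂) d e k)
  have e3 : gl Δ * conj (gl Δ) = 1 := by
    rw [Complex.mul_conj, Complex.normSq_eq_norm_sq, norm_gl T.hΔ]
    simp
  rw [map_mul, map_mul (starRingEnd ℂ) (gl Δ)] at e2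
  rw [ft_pair T.h₁ T.h₂ T.cop, Complex.ofReal_mul, Complex.ofReal_ofNat]
  obtain ⟨u₁, hu₁⟩ : ∃ u, u = gl (Δ * m₁) * conj (cub (d ^ 2 * e) m₁) := ⟨_, rfl⟩
  obtain ⟨u₂, hu₂⟩ : ∃ u, u = conj (gl (Δ * m₂) * conj (cub (d ^ 2 * e) m₂)) := ⟨_, rfl⟩
  obtain ⟨v₁, hv₁⟩ : ∃ v, v = conj (cub 3 m₁) * conj (gt3 m₁) * cub k m₁ := ⟨_, rfl⟩
  obtain ⟨v₂, hv₂⟩ : ∃ v, v = conj (conj (cub 3 m₂) * conj (gt3 m₂) * cub k m₂) := ⟨_, rfl⟩
  rw [← hu₁, ← hv₁] at e1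
  rw [← hu₂, ← hv₂] at e2
  rw [← hu₁, ← hu₂, ← hv₁, ← hv₂]
  have e4 : u₁ * u₂ * (v₁ * v₂) = cub (k * w0 d Δ e) m₁ * conj (cub (k * w0 d Δ e) m₂) := by
    calc u₁ * u₂ * (v₁ * v₂) = u₁ * v₁ * (u₂ * v₂) := by ring
      _ = gl Δ * conj (gl Δ) * (cub (k * w0 d Δ e) m₁ * conj (cub (k * w0 d Δ e) m₂)) := by
          rw [e1, e2]
          ring
      _ = _ := by rw [e3, one_mul]
  rw [← e4]
  ring

/-- Poisson summation for one divisor `e` -/
theorem dpair_one (mp : MPStmt) {L A : ℝ} (hL : 1 ≤ L) (hA : 0 < A) {d Δ m₁ m₂ e : O}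
    (hd : Prim d) (T : Tri Δ m₁ m₂) (he : Prim e) :
    ∑' a : O, ind (Prim a) * (Gs L (nm (d ^ 2 * a) / A) : ℝ) * (ind (e ∣ a) *
      (gl (Δ * m₁) * conj (cub (d ^ 2 * a) m₁) * conj (gl (Δ * m₂) * conj (cub (d ^ 2 * a) m₂)))) =
    (c0 * (A / nm (d ^ 2 * e)) / 9 : ℝ) * (ind (m₁ = 1 ∧ m₂ = 1) * Gm L 1 +
      ∑' k : O, ind (k ≠ 0) * kt L (A / nm (d ^ 2 * e)) (w0 d Δ e) m₁ m₂ k) := by
  have hL0 : 0 < L := one_pos.trans_le hL
  have he0 := he.ne_zero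
  have hde := nm_pos' (mul_ne_zero (pow_ne_zero 2 hd.ne_zero) he0)
  have hY : 0 < A / nm (d ^ 2 * e) := div_pos hA hde
  have hinj : Function.Injective fun h : O => e * h := fun x y hxy => mul_left_cancel₀ he0 hxy
  have h3 : (3 : O) ≠ 0 := by decide
  have hP := mp (3 * (m₁ * m₂)) _ (Gm L) _ (mul_ne_zero h3 (sq_ne T.sq)) (per_pair m₁ m₂)
    (gd_Gm hL0) hY
  obtain ⟨G, hG⟩ : ∃ G, G = gl (Δ * m₁) * conj (cub (d ^ 2 * e) m₁) *
    conj (gl (Δ * m₂) * conj (cub (d ^ 2 * e) m₂)) := ⟨_, rfl⟩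
  have hft := fun k => dpair_ft T d e k
  simp only [← hG] at hft
  have e1 : ∑' a : O, ind (Prim a) * (Gs L (nm (d ^ 2 * a) / A) : ℝ) * (ind (e ∣ a) *
      (gl (Δ * m₁) * conj (cub (d ^ 2 * a) m₁) * conj (gl (Δ * m₂) * conj (cub (d ^ 2 * a) m₂)))) =
      G * ∑' h : O, ind (Prim h) * (cub h m₂ * conj (cub h m₁)) *
        mellinInv 2 (Gm L) (nm h / (A / nm (d ^ 2 * e))) := by
    rw [← hinj.tsum_eq, ← tsum_mul_left]
    · refine tsum_congr fun h => ?_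
      by_cases hh : Prim h
      · have hh0 := nm_pos' hh.ne_zero
        have e2 : (nm (d ^ 2 * (e * h)) : ℝ) / A = nm h / (A / nm (d ^ 2 * e)) := by
          rw [← mul_assoc, nm_mul]
          push_cast
          field_simp
        rw [ind_of (dvd_mul_right e h), ind_of hh, ind_of (he.mul hh), e2,
          mellinInv_Gm hL0 2 (div_pos hh0 hY), ← mul_assoc (d ^ 2), cub_mul_left _ h,
          cub_mul_left _ h, hG]
        simp only [map_mul, Complex.conj_conj]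
        ring
      · rw [ind_of_not hh, ind_of_not fun h' => hh (he.of_mul h')]
        simp
    · intro h hh
      by_contra hc
      refine hh ?_
      have : ¬e ∣ h := fun ⟨c, hc'⟩ => hc ⟨c, hc'.symm⟩
      simp [ind_of_not this]
  have e2 : G * ∑' k : O, ind (k ≠ 0) *
      ft (3 * (m₁ * m₂)) (fun a => ind (Prim a) * (cub a m₂ * conj (cub a m₁))) k *
        shp (Gm L) (c0 ^ 2 * (A / nm (d ^ 2 * e)) * nm k / nm (3 * (m₁ * m₂))) =
      (∑' k : O, ind (k ≠ 0) * kt L (A / nm (d ^ 2 * e)) (w0 d Δ e) m₁ m₂ k) / 9 := by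
    rw [← tsum_mul_left, ← tsum_div_const]
    refine tsum_congr fun k => ?_
    have e3 : (nm (3 * (m₁ * m₂)) : ℝ) = 9 * nm (m₁ * m₂) := by
      rw [nm_mul, show nm 3 = 9 by decide]
      push_cast
      rfl
    rw [kt, e3]
    linear_combination (ind (k ≠ 0) *
      shp (Gm L) (c0 ^ 2 * (A / nm (d ^ 2 * e)) * nm k / (9 * nm (m₁ * m₂)))) * hft k
  have e4 : G * ft (3 * (m₁ * m₂)) (fun a => ind (Prim a) * (cub a m₂ * conj (cub a m₁))) 0 =
      ind (m₁ = 1 ∧ m₂ = 1) / 9 := by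
    rw [hft 0, eq_zero, zero_mul, one_mul, cub_zero_pair T.h₁.1 T.h₂.1]
    by_cases h : m₁ = 1 ∧ m₂ = 1
    · rw [h.1, h.2, mul_one, psd_nm_one]
      simp
    · rw [ind_of_not h]
      simp
  rw [e1, hP]
  push_cast
  linear_combination (c0 * (A / nm (d ^ 2 * e)) : ℂ) * e2 +
    (c0 * (A / nm (d ^ 2 * e)) * Gm L 1 : ℂ) * e4

theorem Hu_eq (mp : MPStmt) {L A : ℝ} (hL : 1 ≤ L) (hA : 0 < A) {d Δ m₁ m₂ : O} (hd : Prim d)
    (T : Tri Δ m₁ m₂) : Hu L A d Δ m₁ m₂ = Hz L A d Δ m₁ m₂ +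
      ind (IsCoprime d Δ) * ∑ e ∈ pdiv Δ, mu e * (c0 * (A / nm (d ^ 2 * e)) / 9 : ℝ) *
        ∑' k : O, ind (k ≠ 0) * kt L (A / nm (d ^ 2 * e)) (w0 d Δ e) m₁ m₂ k := by
  have hΔ0 := sq_ne T.hΔ
  have hs : ∀ e : O, Summable fun a : O => ind (Prim a) * (Gs L (nm (d ^ 2 * a) / A) : ℝ) *
      (ind (e ∣ a) * (gl (Δ * m₁) * conj (cub (d ^ 2 * a) m₁) *
        conj (gl (Δ * m₂) * conj (cub (d ^ 2 * a) m₂)))) := fun e => by
    refine summable_GsC (M := 1) hL hA (pow_ne_zero 2 hd.ne_zero) (fun a => norm_ind_le _)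
      fun a => ?_
    simp only [norm_mul, Complex.norm_conj, norm_gl T.s₁, norm_gl T.s₂, one_mul]
    exact mul_le_one₀ (norm_ind_le _) (by positivity)
      (mul_le_one₀ (norm_cub_le _ _) (norm_nonneg _) (norm_cub_le _ _))
  have h := (hasSum_sum (s := pdiv Δ) fun e _ => (hs e).hasSum.mul_left (mu e)).mul_left
    (ind (IsCoprime d Δ))
  refine Eq.trans (tsum_congr fun a => ?_) (h.tsum_eq.trans ?_)
  · have e1 : ind (IsCoprime (d ^ 2 * a) Δ) =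
        ind (IsCoprime d Δ) * ∑ e ∈ pdiv Δ, mu e * ind (e ∣ a) := by
      rw [← ind_coprime T.hΔ.1, ← ind_and, IsCoprime.mul_left_iff,
        IsCoprime.pow_left_iff two_pos]
    have e2 := cub_mul_conj T.hΔ.1 (d ^ 2 * a)
    rw [e1] at e2
    have e3 : ∑ e ∈ pdiv Δ, mu e * (ind (Prim a) * (Gs L (nm (d ^ 2 * a) / A) : ℝ) *
        (ind (e ∣ a) * (gl (Δ * m₁) * conj (cub (d ^ 2 * a) m₁) *
          conj (gl (Δ * m₂) * conj (cub (d ^ 2 * a) m₂))))) =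
        (∑ e ∈ pdiv Δ, mu e * ind (e ∣ a)) * (ind (Prim a) * (Gs L (nm (d ^ 2 * a) / A) : ℝ) *
          (gl (Δ * m₁) * conj (cub (d ^ 2 * a) m₁) *
            conj (gl (Δ * m₂) * conj (cub (d ^ 2 * a) m₂)))) := by
      rw [Finset.sum_mul]
      exact Finset.sum_congr rfl fun e _ => by ring
    rw [e3, ← mul_assoc (ind (IsCoprime d Δ)), ← e2, cub_mul_right hΔ0 (sq_ne T.h₁),
      cub_mul_right hΔ0 (sq_ne T.h₂)]
    simp only [map_mul, Complex.conj_conj]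
    ring
  · rw [Finset.sum_congr rfl fun e he => by
      rw [dpair_one mp hL hA hd T ((mem_pdiv hΔ0).1 he).1], Hz, phiS]
    simp only [Finset.mul_sum, Finset.sum_mul, ← Finset.sum_add_distrib]
    refine Finset.sum_congr rfl fun e he => ?_
    rw [nm_mul, nm_pow]
    push_cast
    ring

end Vale.Agent.P006.D
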