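import Vale.Agent.P006.DKer
import Vale.Agent.P006.DLat

/-! D-Sig: the sum over cubes.
Plans. Put `x = ξ^{-1/3}`, so `ξ N m³ = (N m / x)³`.  `Sig_le`: `shp_quarter`, `shp_le 0`, `sum_min_le`, `tsum_of_norm_bounded`/`Real.tsum_le_of_sum_le` with `norm_tsum_le_tsum_norm`.
`Hc_le`: `c0 A / (27 √Nq) * xi0^{-1/3} = C A^{2/3} (NΔ² Nq)^{-1/6}` and `NΔ² Nq = N(Δ m₁) N(Δ m₂) ≥ B²` (take logarithms).
`Sig_asymp`: `shp_cube`, second part of `lc` with `T = 3`. -/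

namespace Vale.Agent.P006.D

open Vale.Agent.P026 Filter MeasureTheory
open scoped ComplexConjugate Real

theorem DSig_cube {ξ : ℝ} (hξ : 0 < ξ) (y : ℝ) : ξ * y ^ 3 = (y / ξ ^ (-1 / 3 : ℝ)) ^ 3 := by
  rw [div_pow, ← Real.rpow_natCast (ξ ^ (-1 / 3 : ℝ)), ← Real.rpow_mul hξ.le,
    show (-1 / 3 : ℝ) * (3 : ℕ) = -1 by norm_num, Real.rpow_neg_one, div_inv_eq_mul, mul_comm]

theorem DSig_tsum_le {f : O → ℂ} {c : ℝ} (h0 : f 0 = 0)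
    (h : ∀ s : Finset O, 0 ∉ s → ∑ m ∈ s, ‖f m‖ ≤ c) : ‖∑' m, f m‖ ≤ c := by
  classical
  have h1 : ∀ s : Finset O, ∑ m ∈ s, ‖f m‖ ≤ c := fun s => by
    rw [← Finset.sum_erase s (a := 0) (by rw [h0, norm_zero])]
    exact h _ (Finset.notMem_erase _ _)
  exact (norm_tsum_le_tsum_norm (summable_of_sum_le (fun _ => norm_nonneg _) h1)).trans
    (Real.tsum_le_of_sum_le (fun _ => norm_nonneg _) h1)

theorem DSig_shp : ∃ C : ℝ, 0 < C ∧ ∀ L y : ℝ, 1 ≤ L → 0 < y →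
    ‖shp (Gm L) (y ^ 3)‖ ≤ C * min (y ^ (-3 / 4 : ℝ)) (y ^ (-3 / 2 : ℝ)) := by
  obtain ⟨C₁, h₁, H₁⟩ := shp_quarter
  obtain ⟨C₂, h₂, H₂⟩ := shp_le 0
  refine ⟨max C₁ C₂, lt_max_of_lt_left h₁, fun L y hL hy => ?_⟩
  have a := H₁ L (y ^ 3) hL (pow_pos hy 3)
  have b := H₂ L (y ^ 3) hL (pow_pos hy 3)
  rw [← Real.rpow_natCast y, ← Real.rpow_mul hy.le] at a b
  rw [show ((3 : ℕ) : ℝ) * -(1 / 4) = -3 / 4 by norm_num] at a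
  rw [show ((3 : ℕ) : ℝ) * -((((0 : ℕ) : ℝ) + 1) / 2) = -3 / 2 by norm_num, pow_zero, mul_one] at b
  rw [mul_min_of_nonneg _ _ (le_max_of_le_left h₁.le), ← Real.rpow_natCast y]
  exact le_min (a.trans (by gcongr; exact le_max_left _ _))
    (b.trans (by gcongr; exact le_max_right _ _))

theorem Sig_le : ∃ C : ℝ, 0 < C ∧ ∀ (L ξ : ℝ) (q : O), 1 ≤ L → 0 < ξ →
    ‖Sig L ξ q‖ ≤ C * ξ ^ (-1 / 3 : ℝ) := by
  obtain ⟨C₁, h₁, H₁⟩ := DSig_shp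
  obtain ⟨C₂, h₂, H₂⟩ := sum_min_le
  refine ⟨C₁ * C₂, mul_pos h₁ h₂, fun L ξ q hL hξ => ?_⟩
  have hx : 0 < ξ ^ (-1 / 3 : ℝ) := Real.rpow_pos_of_pos hξ _
  refine DSig_tsum_le (by rw [ind_of_not fun h => h.1 rfl, zero_mul]) fun s hs => ?_
  rw [mul_assoc]
  refine le_trans ?_ (mul_le_mul_of_nonneg_left (H₂ _ s hx hs) h₁.le)
  rw [Finset.mul_sum]
  refine Finset.sum_le_sum fun m hm => ?_
  rw [norm_mul, DSig_cube hξ]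
  exact (mul_le_of_le_one_left (norm_nonneg _) (norm_ind_le _)).trans
    (H₁ L _ hL (div_pos (nm_pos' fun e => hs (e ▸ hm)) hx))

theorem DSig_num {κ A B D Q : ℝ} (hκ : 0 < κ) (hA : 0 < A) (hB : 0 < B) (hD : 0 < D) (hQ : 0 < Q)
    (h : B * B ≤ D * D * Q) :
    A / √Q * (κ * A * D / Q) ^ (-1 / 3 : ℝ) ≤
      κ ^ (-1 / 3 : ℝ) * A ^ (2 / 3 : ℝ) * B ^ (-1 / 3 : ℝ) := by
  have h1 := Real.log_le_log (by positivity) h
  rw [Real.log_mul hB.ne' hB.ne', Real.log_mul (by positivity) hQ.ne',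
    Real.log_mul hD.ne' hD.ne'] at h1
  refine (Real.log_le_log_iff (by positivity) (by positivity)).1 ?_
  rw [Real.log_mul (by positivity) (by positivity), Real.log_div hA.ne' (by positivity),
    Real.log_sqrt hQ.le, Real.log_rpow (by positivity), Real.log_div (by positivity) hQ.ne',
    Real.log_mul (by positivity) hD.ne', Real.log_mul hκ.ne' hA.ne',
    Real.log_mul (by positivity) (by positivity), Real.log_mul (by positivity) (by positivity),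
    Real.log_rpow hκ, Real.log_rpow hA, Real.log_rpow hB]
  linarith

theorem Hc_le : ∃ C : ℝ, 0 < C ∧ ∀ (L A B : ℝ) (Δ m₁ m₂ : O), 1 ≤ L → 0 < A → 0 < B →
    Tri Δ m₁ m₂ → B ≤ nm (Δ * m₁) → B ≤ nm (Δ * m₂) →
    ‖Hc L A 1 Δ m₁ m₂‖ ≤ C * A ^ (2 / 3 : ℝ) * B ^ (-1 / 3 : ℝ) := by
  obtain ⟨C, hC, H⟩ := Sig_le
  have hc := c0_pos
  refine ⟨c0 / 27 * C * (c0 ^ 2 / 9) ^ (-1 / 3 : ℝ), by positivity,
    fun L A B Δ m₁ m₂ hL hA hB T b₁ b₂ => ?_⟩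
  have hD := nm_pos' (sq_ne T.hΔ)
  have hQ := nm_pos' (sq_ne T.sq)
  have h1 : B * B ≤ nm Δ * nm Δ * nm (m₁ * m₂) := by
    refine (mul_le_mul b₁ b₂ hB.le (hB.le.trans b₁)).trans_eq ?_
    simp only [nm_mul]
    push_cast
    ring
  have h2 := DSig_num (by positivity : 0 < c0 ^ 2 / 9) hA hB hD hQ h1
  have h3 : xi0 A Δ (m₁ * m₂) = c0 ^ 2 / 9 * A * nm Δ / nm (m₁ * m₂) := by
    rw [xi0]
    field_simp
  have h4 := H L (xi0 A Δ (m₁ * m₂)) (m₁ * m₂) hL (by rw [h3]; positivity)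
  rw [Hc, ind_of isCoprime_one_left, one_mul, norm_mul, norm_mul, Complex.norm_real,
    Real.norm_of_nonneg (by positivity), nm_one, Nat.cast_one, one_pow, mul_one]
  calc _ ≤ 1 * (c0 * A / (27 * √(nm (m₁ * m₂)))) * (C * xi0 A Δ (m₁ * m₂) ^ (-1 / 3 : ℝ)) := by
        gcongr
        exact norm_phiS_le T.hΔ
    _ = c0 / 27 * C * (A / √(nm (m₁ * m₂)) *
          (c0 ^ 2 / 9 * A * nm Δ / nm (m₁ * m₂)) ^ (-1 / 3 : ℝ)) := by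
        rw [h3]
        ring
    _ ≤ c0 / 27 * C * ((c0 ^ 2 / 9) ^ (-1 / 3 : ℝ) * A ^ (2 / 3 : ℝ) * B ^ (-1 / 3 : ℝ)) := by
        gcongr
    _ = _ := by ring

theorem Sig_asymp (lc : LCStmt) : ∃ C : ℝ, 0 < C ∧ ∀ (ξ : ℝ) (q : O), 0 < ξ → Sq q →
    ‖Sig 1 ξ q - (c0 : ℝ) * phiS q * (gam (1 / 3) * Gm 1 (2 / 3) / 3) * (ξ ^ (-1 / 3 : ℝ) : ℝ)‖ ≤
      C * tau q * ξ ^ (-1 / 5 : ℝ) := by
  obtain ⟨C, hC, H⟩ := lc
  obtain ⟨ψ, M, hM, hd, hb, h1, hs⟩ := shp_cube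
  refine ⟨C * M * 3 ^ 2, by positivity, fun ξ q hξ hq => ?_⟩
  have hx : 0 < ξ ^ (-1 / 3 : ℝ) := Real.rpow_pos_of_pos hξ _
  have h2 := (H q ψ _ M 3 hq hx (by norm_num) hd hb).2
  have h3 : Sig 1 ξ q = ∑' n : O, ind (n ≠ 0 ∧ IsCoprime n q) *
      mellinInv 2 ψ (nm n / ξ ^ (-1 / 3 : ℝ)) := by
    refine tsum_congr fun n => ?_
    by_cases hn : n ≠ 0 ∧ IsCoprime n q
    · rw [DSig_cube hξ, hs _ (div_pos (nm_pos' hn.1) hx)]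
    · rw [ind_of_not hn, zero_mul, zero_mul]
  rw [← Real.rpow_mul hξ.le, show (-1 / 3 : ℝ) * (3 / 5) = -1 / 5 by norm_num] at h2
  rw [h3, ← h1]
  exact h2.trans_eq (by ring)

end Vale.Agent.P006.D
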