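import Vale.Agent.P006.DLat
import Vale.Agent.P006.DKer

/-! D-Sum: sums over pairs.
Plans. `reindex`: copy `sq_point` of `P026/PSSq.lean` (bijection `(Δ, m₁, m₂) ↦ (Δ m₁, Δ m₂)`; best prove a version for functions with values in any
`AddCommMonoid`, or use it also with `γ` replaced by `‖γ‖` and `H = 1`).  `tri_of`: `sq_right`, `mem_qball`.
`U_eq`, `V_eq`: `Complex.ofReal_tsum`, `‖z‖² = z * conj z` (`Complex.mul_conj'`), `Finset.sum_mul_sum`, `Summable.tsum_finsetSum` with `summable_GsC`, then `reindex`.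
`norm_PSum_le_nm`: drop the coprimality; `(∑_m ‖γ(Δ m)‖)² ≤ #{m : N m ≤ Z/NΔ} ∑_m ‖γ(Δ m)‖²` (`card_le_of_nm`, `sq_sum_le_card_mul_sum_sq`), then copy `psd_sum_mul_le`.
`norm_PSum_z`: only `m₁ = m₂ = 1` contributes; `norm_phiS_le`, `norm_Gm_one`. -/

namespace Vale.Agent.P006.D

open Vale.Agent.P026 Filter MeasureTheory
open scoped ComplexConjugate Real

variable {Z : ℝ} {γ : O → ℂ}

theorem dsum_dvd_iff {m1 m2 : O} (h : IsCoprime m1 m2) (g Δ : O) :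
    g ∣ Δ * m1 ∧ g ∣ Δ * m2 ↔ g ∣ Δ := by
  refine ⟨fun ⟨h1, h2⟩ => ?_, fun h1 => ⟨h1.mul_right _, h1.mul_right _⟩⟩
  obtain ⟨u, v, huv⟩ := h
  have : Δ = u * (Δ * m1) + v * (Δ * m2) := by linear_combination (-Δ) * huv
  rw [this]
  exact dvd_add (h1.mul_left _) (h2.mul_left _)

open Classical in
theorem dsum_reindex {M : Type*} [AddCommMonoid M] (G : O → O → M)
    (hG : ∀ b₁ b₂, G b₁ b₂ ≠ 0 → b₁ ∈ qball Z ∧ b₂ ∈ qball Z) :
    ∑ b₁ ∈ qball Z, ∑ b₂ ∈ qball Z, G b₁ b₂ = ∑ Δ ∈ qball Z, ∑ m₁ ∈ qball Z, ∑ m₂ ∈ qball Z,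
      if IsCoprime m₁ m₂ then G (Δ * m₁) (Δ * m₂) else 0 := by
  have hR : (∑ Δ ∈ qball Z, ∑ m₁ ∈ qball Z, ∑ m₂ ∈ qball Z,
      if IsCoprime m₁ m₂ then G (Δ * m₁) (Δ * m₂) else 0) =
      ∑ q ∈ (qball Z ×ˢ qball Z ×ˢ qball Z).filter
        (fun q => IsCoprime q.2.1 q.2.2 ∧ q.1 * q.2.1 ∈ qball Z ∧ q.1 * q.2.2 ∈ qball Z),
        G (q.1 * q.2.1) (q.1 * q.2.2) := by
    rw [Finset.sum_filter, Finset.sum_product]
    refine Finset.sum_congr rfl fun Δ _ => ?_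
    rw [Finset.sum_product]
    refine Finset.sum_congr rfl fun m1 _ => Finset.sum_congr rfl fun m2 _ => ?_
    by_cases h1 : IsCoprime m1 m2
    · by_cases h2 : G (Δ * m1) (Δ * m2) = 0
      · simp only [h2, ite_self]
      · rw [if_pos h1, if_pos ⟨h1, hG _ _ h2⟩]
    · rw [if_neg h1, if_neg fun h => h1 h.1]
  rw [hR, ← Finset.sum_product']
  symm
  refine Finset.sum_bij (fun q _ => (q.1 * q.2.1, q.1 * q.2.2)) ?_ ?_ ?_ fun _ _ => rfl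
  · intro q hq
    rw [Finset.mem_filter] at hq
    exact Finset.mem_product.2 ⟨hq.2.2.1, hq.2.2.2⟩
  · intro q hq r hr e
    rw [Finset.mem_filter, Finset.mem_product] at hq hr
    have pq := (mem_qball.1 hq.1.1).1.1
    have pr := (mem_qball.1 hr.1.1).1.1
    have e1 : q.1 * q.2.1 = r.1 * r.2.1 := congrArg Prod.fst e
    have e2 : q.1 * q.2.2 = r.1 * r.2.2 := congrArg Prod.snd e
    have d1 : q.1 ∣ r.1 :=
      (dsum_dvd_iff hr.2.1 _ _).1 ⟨e1 ▸ dvd_mul_right _ _, e2 ▸ dvd_mul_right _ _⟩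
    have d2 : r.1 ∣ q.1 :=
      (dsum_dvd_iff hq.2.1 _ _).1 ⟨e1 ▸ dvd_mul_right _ _, e2 ▸ dvd_mul_right _ _⟩
    have e3 : q.1 = r.1 := pq.eq_of_associated pr (associated_of_dvd_dvd d1 d2)
    rw [e3] at e1 e2
    exact Prod.ext e3 (Prod.ext (mul_left_cancel₀ pr.ne_zero e1) (mul_left_cancel₀ pr.ne_zero e2))
  · rintro ⟨n1, n2⟩ hp
    rw [Finset.mem_product] at hp
    obtain ⟨hp1, hp2⟩ := hp
    have s1 := (mem_qball.1 hp1).1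
    have s2 := (mem_qball.1 hp2).1
    obtain ⟨d, hd, ⟨m1, rfl⟩, ⟨m2, rfl⟩, hmax⟩ := exists_prim_gcd n2 s1.1
    have k1 : m1 ∈ qball Z := pdiv_subset hp1
      ((mem_pdiv s1.1.ne_zero).2 ⟨hd.of_mul s1.1, dvd_mul_left _ _⟩)
    have k2 : m2 ∈ qball Z := pdiv_subset hp2
      ((mem_pdiv s2.1.ne_zero).2 ⟨hd.of_mul s2.1, dvd_mul_left _ _⟩)
    have k3 : d ∈ qball Z := pdiv_subset hp1 ((mem_pdiv s1.1.ne_zero).2 ⟨hd, dvd_mul_right _ _⟩)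
    refine ⟨(d, m1, m2), ?_, rfl⟩
    rw [Finset.mem_filter, Finset.mem_product, Finset.mem_product]
    refine ⟨⟨k3, k1, k2⟩, ?_, hp1, hp2⟩
    refine IsRelPrime.isCoprime fun e h1 h2 => ?_
    have := hmax (d * e) (mul_dvd_mul_left d h1) (mul_dvd_mul_left d h2)
    exact isUnit_of_dvd_one ((mul_dvd_mul_iff_left hd.ne_zero).1 (by rwa [mul_one]))

theorem dsum_mul_le (G : O → ℝ) (hG : ∀ n, 0 ≤ G n) (hs : ∀ n, G n ≠ 0 → n ∈ qball Z) :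
    ∑ Δ ∈ qball Z, ∑ m ∈ qball Z, G (Δ * m) ≤ ∑ n ∈ qball Z, tau n * G n := by
  classical
  have h1 : ∀ Δ ∈ qball Z, ∑ m ∈ qball Z, G (Δ * m) ≤ ∑ n ∈ qball Z, if Δ ∣ n then G n else 0 := by
    intro Δ hΔ
    have h0 := sq_ne (mem_qball.1 hΔ).1
    rw [← Finset.sum_image (f := G) (g := fun m => Δ * m)
      (fun x _ y _ e => mul_left_cancel₀ h0 e), ← Finset.sum_filter, ← Finset.sum_filter_ne_zero]
    refine Finset.sum_le_sum_of_subset_of_nonneg (fun n hn => ?_) fun n _ _ => hG n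
    rw [Finset.mem_filter, Finset.mem_image] at hn
    obtain ⟨⟨m, _, rfl⟩, h2⟩ := hn
    exact Finset.mem_filter.2 ⟨hs _ h2, dvd_mul_right _ _⟩
  refine (Finset.sum_le_sum h1).trans ?_
  rw [Finset.sum_comm]
  refine Finset.sum_le_sum fun n hn => ?_
  rw [← Finset.sum_filter, Finset.sum_const, nsmul_eq_mul]
  refine mul_le_mul_of_nonneg_right ?_ (hG n)
  have : (qball Z).filter (· ∣ n) ⊆ pdiv n := fun e he => by
    rw [Finset.mem_filter] at he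
    exact (mem_pdiv (sq_ne (mem_qball.1 hn).1)).2 ⟨(mem_qball.1 he.1).1.1, he.2⟩
  rw [tau]
  exact_mod_cast Finset.card_le_card this

theorem reindex (hγ : ∀ b, γ b ≠ 0 → b ∈ qball Z) (H : O → O → ℂ) :
    ∑ b₁ ∈ qball Z, ∑ b₂ ∈ qball Z, γ b₁ * conj (γ b₂) * H b₁ b₂ =
      PSum Z γ fun Δ m₁ m₂ => H (Δ * m₁) (Δ * m₂) := by
  classical
  rw [dsum_reindex (Z := Z) (fun b₁ b₂ => γ b₁ * conj (γ b₂) * H b₁ b₂) fun b₁ b₂ h =>
    ⟨hγ _ (left_ne_zero_of_mul (left_ne_zero_of_mul h)),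
      hγ _ fun e => right_ne_zero_of_mul (left_ne_zero_of_mul h) (by rw [e, map_zero])⟩, PSum]
  refine Finset.sum_congr rfl fun Δ _ => Finset.sum_congr rfl fun m₁ _ =>
    Finset.sum_congr rfl fun m₂ _ => ?_
  split_ifs with hc
  · rw [ind_of hc, one_mul]
  · rw [ind_of_not hc, zero_mul, zero_mul]

theorem tri_of (hγ : ∀ b, γ b ≠ 0 → b ∈ qball Z) {Δ m₁ m₂ : O} (hΔ : Δ ∈ qball Z)
    (h : ind (IsCoprime m₁ m₂) * (γ (Δ * m₁) * conj (γ (Δ * m₂))) ≠ 0) :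
    Tri Δ m₁ m₂ ∧ γ (Δ * m₁) ≠ 0 ∧ γ (Δ * m₂) ≠ 0 := by
  have h0 : IsCoprime m₁ m₂ := by
    by_contra hc
    exact left_ne_zero_of_mul h (ind_of_not hc)
  have h1 : γ (Δ * m₁) ≠ 0 := left_ne_zero_of_mul (right_ne_zero_of_mul h)
  have h2 : γ (Δ * m₂) ≠ 0 := fun e =>
    right_ne_zero_of_mul (right_ne_zero_of_mul h) (by rw [e, map_zero])
  have s0 := (mem_qball.1 hΔ).1
  have s1 := (mem_qball.1 (hγ _ h1)).1
  have s2 := (mem_qball.1 (hγ _ h2)).1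
  exact ⟨⟨s0, sq_right s1 s0.1, sq_right s2 s0.1, h0, s1, s2⟩, h1, h2⟩

theorem PSum_congr (hγ : ∀ b, γ b ≠ 0 → b ∈ qball Z) {H H' : O → O → O → ℂ}
    (h : ∀ Δ m₁ m₂, Tri Δ m₁ m₂ → H Δ m₁ m₂ = H' Δ m₁ m₂) : PSum Z γ H = PSum Z γ H' := by
  refine Finset.sum_congr rfl fun Δ hΔ => Finset.sum_congr rfl fun m₁ _ =>
    Finset.sum_congr rfl fun m₂ _ => ?_
  by_cases h0 : ind (IsCoprime m₁ m₂) * (γ (Δ * m₁) * conj (γ (Δ * m₂))) = 0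
  · rw [h0, zero_mul, zero_mul]
  · rw [h Δ m₁ m₂ (tri_of hγ hΔ h0).1]

theorem PSum_add (H H' : O → O → O → ℂ) :
    PSum Z γ (fun Δ m₁ m₂ => H Δ m₁ m₂ + H' Δ m₁ m₂) = PSum Z γ H + PSum Z γ H' := by
  simp only [PSum, mul_add, Finset.sum_add_distrib]

theorem PSum_sub_mul (c : ℂ) (H H' : O → O → O → ℂ) :
    PSum Z γ (fun Δ m₁ m₂ => H Δ m₁ m₂ - c * H' Δ m₁ m₂) = PSum Z γ H - c * PSum Z γ H' := by
  simp only [PSum, Finset.mul_sum, ← Finset.sum_sub_distrib]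
  refine Finset.sum_congr rfl fun Δ _ => Finset.sum_congr rfl fun m₁ _ =>
    Finset.sum_congr rfl fun m₂ _ => ?_
  ring

theorem dsum_sq (hγ : ∀ b, γ b ≠ 0 → b ∈ qball Z) (w : O → ℝ) (X : O → O → ℂ)
    (hs : ∀ b₁ ∈ qball Z, ∀ b₂ ∈ qball Z,
      Summable fun a => (w a : ℂ) * (X a b₁ * conj (X a b₂))) :
    ((∑' a, w a * ‖∑ b ∈ qball Z, γ b * X a b‖ ^ 2 : ℝ) : ℂ) =
      PSum Z γ fun Δ m₁ m₂ => ∑' a, (w a : ℂ) * (X a (Δ * m₁) * conj (X a (Δ * m₂))) := by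
  rw [← reindex hγ fun b₁ b₂ => ∑' a, (w a : ℂ) * (X a b₁ * conj (X a b₂)), Complex.ofReal_tsum]
  have h := hasSum_sum fun b₁ h₁ => hasSum_sum fun b₂ h₂ =>
    (hs b₁ h₁ b₂ h₂).hasSum.mul_left (γ b₁ * conj (γ b₂))
  refine Eq.trans (tsum_congr fun a => ?_) h.tsum_eq
  rw [Complex.ofReal_mul, ← Complex.normSq_eq_norm_sq, ← Complex.mul_conj, map_sum,
    Finset.sum_mul_sum, Finset.mul_sum]
  refine Finset.sum_congr rfl fun b₁ _ => ?_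
  rw [Finset.mul_sum]
  refine Finset.sum_congr rfl fun b₂ _ => ?_
  rw [map_mul]
  ring

theorem U_eq (hγ : ∀ b, γ b ≠ 0 → b ∈ qball Z) {L A : ℝ} (hL : 1 ≤ L) (hA : 0 < A) {d : O}
    (hd : d ≠ 0) : (Ud L A Z γ d : ℂ) = PSum Z γ (Hu L A d) := by
  have hX : ∀ b ∈ qball Z, ∀ a, ‖gl b * conj (cub a b)‖ ≤ 1 := fun b hb a => by
    rw [norm_mul, norm_gl (mem_qball.1 hb).1, one_mul, Complex.norm_conj]
    exact norm_cub_le _ _
  have h := dsum_sq hγ (fun a => ir (Prim a) * Gs L (nm (d ^ 2 * a) / A))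
    (fun a b => gl b * conj (cub (d ^ 2 * a) b)) fun b₁ h₁ b₂ h₂ => by
      simp only [Complex.ofReal_mul, ofReal_ir]
      refine summable_GsC (M := 1) hL hA (pow_ne_zero 2 hd) (fun a => norm_ind_le _) fun a => ?_
      rw [norm_mul, Complex.norm_conj]
      exact mul_le_one₀ (hX _ h₁ _) (norm_nonneg _) (hX _ h₂ _)
  simp only [Complex.ofReal_mul, ofReal_ir] at h
  exact h

theorem V_eq (hγ : ∀ b, γ b ≠ 0 → b ∈ qball Z) {A : ℝ} (hA : 0 < A) {d : O} (hd : d ≠ 0) :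
    (Vd A Z γ d : ℂ) = PSum Z γ (Hv A d) := by
  have hX : ∀ b ∈ qball Z, ∀ a, ‖ind (IsCoprime a b) * np b (-1 / 6)‖ ≤ 1 := fun b _ a => by
    rw [norm_mul, np_sixth, Complex.norm_real, Real.norm_of_nonneg (by positivity)]
    exact mul_le_one₀ (norm_ind_le _) (by positivity) (nm_rpow_le_one _ (by norm_num))
  have h := dsum_sq hγ (fun a => ir (Prim a) * Gs 1 (nm (d ^ 2 * a) / A) *
      (nm (d ^ 2 * a) : ℝ) ^ (-1 / 3 : ℝ))
    (fun a b => ind (IsCoprime (d ^ 2 * a) b) * np b (-1 / 6)) fun b₁ h₁ b₂ h₂ => by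
      simp only [Complex.ofReal_mul, ofReal_ir, mul_assoc (_ * (Gs 1 _ : ℂ))]
      refine summable_GsC (M := 1) le_rfl hA (pow_ne_zero 2 hd) (fun a => norm_ind_le _)
        fun a => ?_
      rw [norm_mul, norm_mul, Complex.norm_conj, Complex.norm_real,
        Real.norm_of_nonneg (by positivity)]
      exact mul_le_one₀ (nm_rpow_le_one _ (by norm_num)) (by positivity)
        (mul_le_one₀ (hX _ h₁ _) (norm_nonneg _) (hX _ h₂ _))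
  simp only [Complex.ofReal_mul, ofReal_ir, mul_assoc (_ * (Gs 1 _ : ℂ)),
    mul_assoc (_ * Gs 1 _)] at h
  exact h

open Classical in
theorem dsum_norm_le (hγ : ∀ b, γ b ≠ 0 → b ∈ qball Z) {H : O → O → O → ℂ} {W : O → ℝ}
    (h : ∀ Δ m₁ m₂, Tri Δ m₁ m₂ → γ (Δ * m₁) ≠ 0 → γ (Δ * m₂) ≠ 0 → ‖H Δ m₁ m₂‖ ≤ W Δ) :
    ‖PSum Z γ H‖ ≤ ∑ Δ ∈ qball Z, ∑ m₁ ∈ qball Z, ∑ m₂ ∈ qball Z,
      if IsCoprime m₁ m₂ then W Δ * (‖γ (Δ * m₁)‖ * ‖γ (Δ * m₂)‖) else 0 := by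
  refine (norm_sum_le _ _).trans (Finset.sum_le_sum fun Δ hΔ => ?_)
  refine (norm_sum_le _ _).trans (Finset.sum_le_sum fun m₁ _ => ?_)
  refine (norm_sum_le _ _).trans (Finset.sum_le_sum fun m₂ _ => ?_)
  split_ifs with hc
  · by_cases h0 : ind (IsCoprime m₁ m₂) * (γ (Δ * m₁) * conj (γ (Δ * m₂))) = 0
    · have h1 := congrArg norm h0
      rw [ind_of hc, one_mul, norm_mul, Complex.norm_conj, norm_zero] at h1
      rw [h0, h1, zero_mul, norm_zero, mul_zero]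
    · obtain ⟨t1, t2, t3⟩ := tri_of hγ hΔ h0
      rw [ind_of hc, one_mul, norm_mul, norm_mul, Complex.norm_conj, mul_comm]
      exact mul_le_mul_of_nonneg_right (h Δ m₁ m₂ t1 t2 t3) (by positivity)
  · rw [ind_of_not hc, zero_mul, zero_mul, norm_zero]

theorem norm_PSum_le_const (hγ : ∀ b, γ b ≠ 0 → b ∈ qball Z) {H : O → O → O → ℂ} {M : ℝ}
    (hM : 0 ≤ M) (h : ∀ Δ m₁ m₂, Tri Δ m₁ m₂ → γ (Δ * m₁) ≠ 0 → γ (Δ * m₂) ≠ 0 → ‖H Δ m₁ m₂‖ ≤ M) :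
    ‖PSum Z γ H‖ ≤ M * (∑ b ∈ qball Z, ‖γ b‖) ^ 2 := by
  classical
  refine (dsum_norm_le hγ (W := fun _ => M) h).trans_eq ?_
  rw [← dsum_reindex (Z := Z) (fun b₁ b₂ => M * (‖γ b₁‖ * ‖γ b₂‖)) fun b₁ b₂ h =>
    ⟨hγ _ (norm_ne_zero_iff.1 (left_ne_zero_of_mul (right_ne_zero_of_mul h))),
      hγ _ (norm_ne_zero_iff.1 (right_ne_zero_of_mul (right_ne_zero_of_mul h)))⟩,
    sq, Finset.sum_mul_sum, Finset.mul_sum]
  simp only [Finset.mul_sum]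

theorem norm_PSum_le_nm : ∃ C : ℝ, 0 < C ∧ ∀ (Z M τ : ℝ) (γ : O → ℂ) (H : O → O → O → ℂ), 0 ≤ Z →
    0 ≤ M → (∀ b, γ b ≠ 0 → b ∈ qball Z) → (∀ b, γ b ≠ 0 → tau b ≤ τ) →
    (∀ Δ m₁ m₂, Tri Δ m₁ m₂ → γ (Δ * m₁) ≠ 0 → γ (Δ * m₂) ≠ 0 → ‖H Δ m₁ m₂‖ ≤ M * nm Δ) →
    ‖PSum Z γ H‖ ≤ C * M * Z * τ * ∑ b ∈ qball Z, ‖γ b‖ ^ 2 := by
  classical
  obtain ⟨C, hC, hc⟩ := card_le_of_nm
  refine ⟨C, hC, fun Z M τ γ H hZ hM hγ hτ h => ?_⟩
  refine (dsum_norm_le hγ (W := fun Δ => M * nm Δ) h).trans ?_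
  have key : ∀ Δ ∈ qball Z, (∑ m₁ ∈ qball Z, ∑ m₂ ∈ qball Z, if IsCoprime m₁ m₂ then
      M * nm Δ * (‖γ (Δ * m₁)‖ * ‖γ (Δ * m₂)‖) else 0) ≤
      C * M * Z * ∑ m ∈ qball Z, ‖γ (Δ * m)‖ ^ 2 := by
    intro Δ hΔ
    have h0 := nm_pos' (sq_ne (mem_qball.1 hΔ).1)
    have h1 : (∑ m₁ ∈ qball Z, ∑ m₂ ∈ qball Z, if IsCoprime m₁ m₂ then
        M * nm Δ * (‖γ (Δ * m₁)‖ * ‖γ (Δ * m₂)‖) else 0) ≤
        M * nm Δ * (∑ m ∈ qball Z, ‖γ (Δ * m)‖) ^ 2 := by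
      rw [sq, Finset.sum_mul_sum, Finset.mul_sum]
      refine Finset.sum_le_sum fun m₁ _ => ?_
      rw [Finset.mul_sum]
      refine Finset.sum_le_sum fun m₂ _ => ?_
      split_ifs
      · exact le_rfl
      · positivity
    have h2 := sq_sum_le_card_mul_sum_sq (s := (qball Z).filter fun m => ‖γ (Δ * m)‖ ≠ 0)
      (f := fun m => ‖γ (Δ * m)‖)
    rw [Finset.sum_filter_ne_zero] at h2
    have h3 := hc (Z / nm Δ) ((qball Z).filter fun m => ‖γ (Δ * m)‖ ≠ 0) (by positivity)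
      fun m hm => by
        obtain ⟨a1, a2⟩ := Finset.mem_filter.1 hm
        refine ⟨sq_ne (mem_qball.1 a1).1, ?_⟩
        have a3 := (mem_qball.1 (hγ _ (norm_ne_zero_iff.1 a2))).2
        rwa [nm_mul, Nat.cast_mul, ← le_div_iff₀' h0] at a3
    have h4 : ∑ m ∈ qball Z with ‖γ (Δ * m)‖ ≠ 0, ‖γ (Δ * m)‖ ^ 2 ≤
        ∑ m ∈ qball Z, ‖γ (Δ * m)‖ ^ 2 :=
      Finset.sum_le_sum_of_subset_of_nonneg (Finset.filter_subset _ _) fun _ _ _ => by positivity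
    refine h1.trans ((mul_le_mul_of_nonneg_left (h2.trans (mul_le_mul h3 h4
      (Finset.sum_nonneg fun _ _ => by positivity) (by positivity))) (by positivity)).trans_eq ?_)
    field_simp
  refine (Finset.sum_le_sum key).trans ?_
  rw [← Finset.mul_sum, mul_assoc (C * M * Z)]
  refine mul_le_mul_of_nonneg_left ?_ (by positivity)
  refine (dsum_mul_le (fun n => ‖γ n‖ ^ 2) (fun n => by positivity) fun n hn =>
    hγ n fun e => hn (by simp [e])).trans ?_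
  rw [Finset.mul_sum]
  refine Finset.sum_le_sum fun n _ => ?_
  by_cases e : γ n = 0
  · simp [e]
  · exact mul_le_mul_of_nonneg_right (hτ n e) (by positivity)

theorem norm_PSum_z {L A : ℝ} (hL : 1 ≤ L) (hA : 0 ≤ A) (d : O) :
    ‖PSum Z γ (Hz L A d)‖ ≤ 2 * (A / (L * (nm d : ℝ) ^ 2)) * ∑ b ∈ qball Z, ‖γ b‖ ^ 2 := by
  classical
  have hL0 : 0 < L := by linarith
  have hc := c0_pos
  have hc6 : c0 ≤ 6 := by
    have h3 : (1.7 : ℝ) ≤ √3 := Real.le_sqrt_of_sq_le (by norm_num)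
    rw [c0, div_le_iff₀ (by linarith)]
    linarith [Real.pi_lt_d2]
  rw [PSum, Finset.mul_sum]
  refine (norm_sum_le _ _).trans (Finset.sum_le_sum fun Δ hΔ => ?_)
  have hK : ‖ind (IsCoprime (1 : O) 1) * (γ (Δ * 1) * conj (γ (Δ * 1))) * Hz L A d Δ 1 1‖ ≤
      2 * (A / (L * (nm d : ℝ) ^ 2)) * ‖γ Δ‖ ^ 2 := by
    have a1 : ‖Hz L A d Δ 1 1‖ ≤ 2 * (A / (L * (nm d : ℝ) ^ 2)) := by
      rw [Hz, norm_mul, norm_mul, norm_mul, norm_mul, Complex.norm_real,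
        Real.norm_of_nonneg (by positivity)]
      have b1 := mul_le_one₀ (mul_le_one₀ (norm_ind_le (IsCoprime d Δ)) (norm_nonneg _)
        (norm_ind_le ((1 : O) = 1 ∧ (1 : O) = 1))) (norm_nonneg _)
        (norm_phiS_le (mem_qball.1 hΔ).1)
      refine (mul_le_mul (mul_le_of_le_one_left (by positivity) b1) (norm_Gm_one hL)
        (norm_nonneg _) (by positivity)).trans ?_
      calc c0 * A / (9 * (nm d : ℝ) ^ 2) * (3 / L) = c0 / 3 * (A / (L * (nm d : ℝ) ^ 2)) := by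
            ring
        _ ≤ _ := mul_le_mul_of_nonneg_right (by linarith) (by positivity)
    rw [ind_of isCoprime_one_left, one_mul, mul_one, norm_mul, norm_mul, Complex.norm_conj, ← sq,
      mul_comm]
    exact mul_le_mul_of_nonneg_right a1 (by positivity)
  have hz : ∀ m₁ m₂ : O, ¬(m₁ = 1 ∧ m₂ = 1) →
      ind (IsCoprime m₁ m₂) * (γ (Δ * m₁) * conj (γ (Δ * m₂))) * Hz L A d Δ m₁ m₂ = 0 := by
    intro m₁ m₂ h
    rw [Hz, ind_of_not h]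
    simp only [mul_zero, zero_mul]
  have h1 : (1 : O) ∈ qball Z := pdiv_subset hΔ
    ((mem_pdiv (sq_ne (mem_qball.1 hΔ).1)).2 ⟨prim_one, one_dvd _⟩)
  rw [Finset.sum_eq_single_of_mem 1 h1 fun m₁ _ hm =>
    Finset.sum_eq_zero fun m₂ _ => hz m₁ m₂ fun e => hm e.1,
    Finset.sum_eq_single_of_mem 1 h1 fun m₂ _ hm => hz 1 m₂ fun e => hm e.2]
  exact hK

end Vale.Agent.P006.D
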