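import Vale.Agent.P026.RecDefs
import Vale.Agent.P026.PSDefs

/-! # P006 (Patterson's first moment): shared definitions and interfaces.  See `notes/P006.md`. -/

namespace Vale.Agent.P006

open Vale.Agent.P026 Filter
open scoped ComplexConjugate Real

/-- primary and squarefree -/
def Sq (n : O) : Prop := Prim n ∧ Squarefree n
/-- `Sq` elements of norm at most `X` -/
noncomputable def qball (X : ℝ) : Finset O := open Classical in (ball X).filter Sq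
/-- primary prime -/
def PP (p : O) : Prop := Prime p ∧ Prim p
/-- primary primes of norm at most `X` -/
noncomputable def prb (X : ℝ) : Finset O := open Classical in (ball X).filter PP
/-- cubes -/
def Cube (k : O) : Prop := ∃ m : O, k = m ^ 3
/-- the constant `c_*` -/
noncomputable def kst : ℝ := (2 * π) ^ (2 / 3 : ℝ) / (3 * Real.Gamma (2 / 3))
/-- the normalised cubic Gauss sum of the problem -/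
noncomputable def gl (n : O) : ℂ := g3 lam n / (√(nm n) : ℝ)
/-- `N(n)^w` -/
noncomputable def np (n : O) (w : ℂ) : ℂ := (nm n : ℂ) ^ w
/-- Gauss sum on `Sq` -/
noncomputable def gq (n : O) : ℂ := ind (Sq n) * gl n
/-- Gauss sum minus model, on `Sq` -/
noncomputable def aq (n : O) : ℂ := ind (Sq n) * (gl n - kst * np n (-1 / 6))
/-- indicator of `x₁ < N n ≤ x₂` -/
noncomputable def win (x₁ x₂ : ℝ) (n : O) : ℂ := ind (x₁ < nm n ∧ (nm n : ℝ) ≤ x₂)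
/-- Dirichlet convolution on `Sq` -/
noncomputable def cv (f g : O → ℂ) (n : O) : ℂ := ind (Sq n) * ∑ d ∈ pdiv n, f d * g (n / d)
/-- the sum to be estimated, with coefficients `c` -/
noncomputable def S1 (x₁ x₂ : ℝ) (c : O → ℂ) : ℂ := ∑ n ∈ qball x₂, c n * aq n * win x₁ x₂ n
/-- theta coefficients: `gl c * √(N d)` at primary `n = c d³` -/
noncomputable def vth (n : O) : ℂ := conj (th0 n * cub lam n)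
/-- von Mangoldt function on primary primes -/
noncomputable def Lam (n : O) : ℂ := ind (PP n) * (Real.log (nm n) : ℝ)
/-- `μ^j` on `Sq` elements all of whose primes have norm in `(Y₁, Y₂]` -/
noncomputable def hf (j : ℕ) (Y₁ Y₂ : ℝ) (n : O) : ℂ :=
  ind (Sq n) * mu n ^ j * ind (∀ p, Prime p → p ∣ n → Y₁ < nm p ∧ (nm p : ℝ) ≤ Y₂)

/-! ## kernels -/

/-- Gaussian in `log y` -/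
noncomputable def Gs (L y : ℝ) : ℝ := Real.exp (-(L ^ 2 * Real.log y ^ 2))
/-- its Mellin transform -/
noncomputable def Gm (L : ℝ) (w : ℂ) : ℂ := (√π / L : ℝ) * Complex.exp (w ^ 2 / (4 * L ^ 2))
/-- smoothed indicator of `(x₁, x₂]` -/
noncomputable def Sm (T x₁ x₂ y : ℝ) : ℝ := T / √π * ∫ s in x₁..x₂, Gs T (y / s) / s
/-- entire, Gaussian decay in every strip -/
def GD (ϕ : ℂ → ℂ) : Prop :=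
  Differentiable ℂ ϕ ∧ ∀ a b : ℝ, ∃ C c : ℝ, 0 < c ∧ ∀ w : ℂ, a ≤ w.re → w.re ≤ b →
    ‖ϕ w‖ ≤ C * Real.exp (-(c * w.im ^ 2))
/-- entire, of width `T` and mass `O(1)` -/
def CT (T : ℝ) (ϕ : ℂ → ℂ) : Prop :=
  Differentiable ℂ ϕ ∧ ∀ w : ℂ, -2 ≤ w.re → w.re ≤ 3 →
    ‖ϕ w‖ ≤ 1 / T * Real.exp (-(w.im ^ 2 / (8 * T ^ 2)))
/-- gamma factor of the complex place -/
noncomputable def gam (s : ℂ) : ℂ := Complex.Gamma s / Complex.Gamma (1 - s)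
/-- the dual kernel -/
noncomputable def shp (ϕ : ℂ → ℂ) (ξ : ℝ) : ℂ := mellinInv (1 / 4) (fun s => gam s * ϕ (1 - s)) ξ
/-- finite Fourier transform -/
noncomputable def ft (q : O) (f : O → ℂ) (k : O) : ℂ := (∑ x ∈ res q, f x * eq (k * x) q) / nm q

/-- Poisson summation with Mellin kernels -/
def MPStmt : Prop :=
  ∀ (q : O) (f : O → ℂ) (ϕ : ℂ → ℂ) (Y : ℝ), q ≠ 0 → Per q f → GD ϕ → 0 < Y →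
    ∑' h : O, f h * mellinInv 2 ϕ (nm h / Y) = (c0 * Y : ℝ) * (ft q f 0 * ϕ 1 +
      ∑' k : O, ind (k ≠ 0) * ft q f k * shp ϕ (c0 ^ 2 * Y * nm k / nm q))

/-- lattice point counting with Mellin kernels -/
def LCStmt : Prop :=
  ∃ C : ℝ, 0 < C ∧ ∀ (q : O) (ψ : ℂ → ℂ) (x M T : ℝ), Sq q → 0 < x → 1 ≤ T →
    DifferentiableOn ℂ ψ {s | 1 / 2 < s.re} →
    (∀ w : ℂ, 3 / 5 ≤ w.re → w.re ≤ 2 → ‖ψ w‖ ≤ M * Real.exp (-(w.im ^ 2 / (8 * T ^ 2)))) →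
    ‖∑' n : O, ind (Prim n ∧ IsCoprime n q) * mellinInv 2 ψ (nm n / x) -
        (c0 / 9 : ℝ) * phiS q * ψ 1 * x‖ ≤ C * tau q * x ^ (3 / 5 : ℝ) * M * T ^ 2 ∧
    ‖∑' n : O, ind (n ≠ 0 ∧ IsCoprime n q) * mellinInv 2 ψ (nm n / x) -
        (c0 : ℝ) * phiS q * ψ 1 * x‖ ≤ C * tau q * x ^ (3 / 5 : ℝ) * M * T ^ 2

/-! ## large sieves -/

/-- sharp cubic large sieve -/
def LS1Stmt : Prop :=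
  ∀ ε : ℝ, 0 < ε → ∃ C : ℝ, 0 < C ∧ ∀ (M N : ℝ) (c : O → ℂ), 1 ≤ M → 1 ≤ N →
    ∑ m ∈ qball M, ‖∑ n ∈ qball N, c n * cub m n‖ ^ 2 ≤
      C * (M * N) ^ ε * (M + N + (M * N) ^ (2 / 3 : ℝ)) * ∑ n ∈ qball N, ‖c n‖ ^ 2

/-- all numerators -/
def LS2Stmt : Prop :=
  ∀ ε : ℝ, 0 < ε → ∃ C : ℝ, 0 < C ∧ ∀ (M N : ℝ) (c : O → ℂ), 1 ≤ M → 1 ≤ N →
    ∑ m ∈ ball M, ‖∑ n ∈ qball N, c n * cub m n‖ ^ 2 ≤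
      C * (M * N) ^ ε * (M ^ (1 / 3 : ℝ) * N + M + (M * N) ^ (2 / 3 : ℝ)) *
        ∑ n ∈ qball N, ‖c n‖ ^ 2

/-- dual of `LS2Stmt` -/
def LS3Stmt : Prop :=
  ∀ ε : ℝ, 0 < ε → ∃ C : ℝ, 0 < C ∧ ∀ (M N : ℝ) (a : O → ℂ), 1 ≤ M → 1 ≤ N →
    ∑ n ∈ qball N, ‖∑ m ∈ ball M, a m * cub m n‖ ^ 2 ≤
      C * (M * N) ^ ε * (M ^ (1 / 3 : ℝ) * N + M + (M * N) ^ (2 / 3 : ℝ)) *
        ∑ m ∈ ball M, ‖a m‖ ^ 2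

/-- sparse (Halász–Montgomery) form -/
def HMStmt : Prop :=
  ∀ ε : ℝ, 0 < ε → ∃ C : ℝ, 0 < C ∧ ∀ (M N : ℝ) (a : O → ℂ) (s : Finset O), 1 ≤ M → 1 ≤ N →
    s ⊆ qball N → ∑ n ∈ s, ‖∑ m ∈ ball M, a m * cub m n‖ ^ 2 ≤
      C * (M * N) ^ ε * (M + M ^ (1 / 6 : ℝ) * N ^ (2 / 3 : ℝ) * s.card +
        M ^ (5 / 6 : ℝ) * N ^ (1 / 3 : ℝ) + M ^ (1 / 6 : ℝ) * N ^ (4 / 3 : ℝ)) *
        ∑ m ∈ ball M, ‖a m‖ ^ 2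

open Classical in
/-- classical large sieve for the characters `χ_x conj χ_y` -/
def JLSStmt : Prop :=
  ∀ ε : ℝ, 0 < ε → ∃ C : ℝ, 0 < C ∧ ∀ (M N₁ N₂ : ℝ) (a : O → ℂ), 1 ≤ M → 1 ≤ N₁ → 1 ≤ N₂ →
    ∑ x ∈ qball N₁, ∑ y ∈ (qball N₂).filter (fun y => IsCoprime x y),
        ‖∑ m ∈ ball M, a m * (cub m x * conj (cub m y))‖ ^ 2 ≤
      C * (N₁ * N₂) ^ ε * (M + (N₁ * N₂) ^ 2) * ∑ m ∈ ball M, ‖a m‖ ^ 2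

/-! ## Siegel–Walfisz with a power saving -/

/-- prime sums -/
def PSStmt : Prop :=
  ∃ θ C : ℝ, 0 < θ ∧ 0 < C ∧ ∀ (Q u t : ℝ) (k : O), 2 ≤ Q → 1 ≤ u → |t| ≤ Q → k ≠ 0 →
    (nm k : ℝ) ≤ Q → ¬Cube k →
      ‖∑ p ∈ prb u, Lam p * cub k p * nt p t‖ ≤ C * u ^ (1 - θ) * Real.log Q

/-- prime number theorem -/
def PNTStmt : Prop :=
  ∃ θ C : ℝ, 0 < θ ∧ 0 < C ∧ ∀ u : ℝ, 1 ≤ u →
    |∑ p ∈ prb u, Real.log (nm p) - u| ≤ C * u ^ (1 - θ)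

/-- structured sums -/
def HSStmt : Prop :=
  ∃ θ : ℝ, 0 < θ ∧ ∀ ε : ℝ, 0 < ε → ∀ᶠ Q : ℝ in atTop, ∀ (u₁ u₂ t : ℝ) (k : O), 1 ≤ u₂ →
    u₂ ≤ Q → |t| ≤ Q → k ≠ 0 → (nm k : ℝ) ≤ Q → ¬Cube k →
      (∀ (j : ℕ) (Y₁ Y₂ : ℝ), ‖∑ n ∈ qball u₂, hf j Y₁ Y₂ n * win u₁ u₂ n * cub k n *
        np n (-1 / 4 + Complex.I * t)‖ ≤ Q ^ ε * u₂ ^ (3 / 4 - θ)) ∧
      ‖∑ n ∈ qball u₂, Lam n * win u₁ u₂ n * cub k n * np n (-1 / 4 + Complex.I * t)‖ ≤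
        Q ^ ε * u₂ ^ (3 / 4 - θ)

/-! ## Type I -/

/-- Voronoi for the cubic theta function -/
def V0Stmt : Prop :=
  ∀ ε : ℝ, 0 < ε → ∃ C : ℝ, 0 < C ∧ ∀ (r : O) (T x : ℝ) (ϕ : ℂ → ℂ), Sq r → 1 ≤ T → 1 ≤ x →
    CT T ϕ →
    ‖∑' n : O, vth n * conj (cub r n) * mellinInv 2 ϕ (nm n / x) -
        conj (gl r) * (kst * (c0 / 9) * (nm r : ℝ) ^ (-1 / 6 : ℝ) * x ^ (5 / 6 : ℝ) : ℝ) * phiS r *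
          ϕ (5 / 6)‖ ≤
      C * (x * nm r * T) ^ ε * (√x + √(nm r) * T ^ (3 / 2 : ℝ) + (x * nm r) ^ (1 / 4 : ℝ) * T)

/-- smooth Type I -/
def TCStmt : Prop :=
  ∀ᶠ X : ℝ in atTop, ∀ (T R : ℝ) (ϕ : ℂ → ℂ) (x : O → ℝ), 1 ≤ T → T ≤ X ^ (0.18 : ℝ) → 1 ≤ R →
    R * T ≤ X ^ (0.53 : ℝ) → CT T ϕ → (∀ r, X / 1000 ≤ x r ∧ x r ≤ 1000 * X) →
      ∑ r ∈ qball R, ‖∑' k : O, aq (r * k) * mellinInv 2 ϕ (nm (r * k) / x r)‖ ≤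
        X ^ (5 / 6 - 1 / 100 : ℝ)

/-- sharp Type I -/
def TIStmt : Prop :=
  ∀ᶠ X : ℝ in atTop, ∀ (x₁ x₂ : ℝ) (α : O → ℂ), X / 2 ≤ x₁ → x₂ ≤ X → (∀ r, ‖α r‖ ≤ 1) →
    (∀ r, α r ≠ 0 → (nm r : ℝ) ≤ X ^ (0.35 : ℝ)) →
      ‖S1 x₁ x₂ (cv α fun _ => 1)‖ ≤ X ^ (5 / 6 - 1 / 200 : ℝ)

/-! ## Type II -/

/-- support in `Sq ∩ (B, c B]` -/
def Supp (c B : ℝ) (β : O → ℂ) : Prop := ∀ b, β b ≠ 0 → Sq b ∧ B < nm b ∧ (nm b : ℝ) ≤ c * B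
/-- bounded by `M` -/
def Bd (M : ℝ) (β : O → ℂ) : Prop := ∀ b, ‖β b‖ ≤ M

/-- the linear form -/
noncomputable def lf (B : ℝ) (β : O → ℂ) (g k : O) (t : ℝ) : ℂ :=
  ∑ m ∈ qball (16 * B), β (g * m) * cub k m * np m (-1 / 4 + Complex.I * t)

/-- Siegel–Walfisz property -/
def SW (X B η : ℝ) (β : O → ℂ) : Prop :=
  ∀ (g k : O) (t : ℝ), Sq g → (nm g : ℝ) ≤ X ^ η → k ≠ 0 → (nm k : ℝ) ≤ X ^ 10 → ¬Cube k →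
    |t| ≤ X → ‖lf B β g k t‖ ≤ X ^ (-η) * B ^ (3 / 4 : ℝ)

open Classical in
/-- mean square over non-cubes -/
def NCH (X B K η : ℝ) (β : O → ℂ) : Prop :=
  ∀ (g w : O) (t K₁ : ℝ), Sq g → (nm g : ℝ) ≤ X ^ η → w ≠ 0 → (nm w : ℝ) ≤ X ^ η →
    |t| ≤ X ^ (0.18 : ℝ) → 1 ≤ K₁ → K₁ ≤ K →
      ∑ k ∈ (ball K₁).filter (fun k => k ≠ 0 ∧ ¬Cube (k * w)), ‖lf B β g (k * w) t‖ ^ 2 ≤
        X ^ (-η) * K₁ ^ (1 / 3 : ℝ) * B ^ (3 / 2 : ℝ)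

def NCaStmt : Prop :=
  ∀ η₁ η₃ : ℝ, 0 < η₁ → 0 < η₃ → ∃ η : ℝ, 0 < η ∧ ∀ᶠ X : ℝ in atTop, ∀ (B : ℝ) (β : O → ℂ),
    X ^ (0.3 : ℝ) ≤ B → B ≤ X → Supp 16 B β → Bd (X ^ η) β → SW X B η₁ β →
      NCH X B (B * X ^ (-η₃)) η β

def NCbStmt : Prop :=
  ∀ η₀ η₁ : ℝ, 0 < η₀ → 0 < η₁ → ∃ c η : ℝ, 0 < c ∧ 0 < η ∧ ∀ᶠ X : ℝ in atTop,
    ∀ (B₁ B₂ : ℝ) (β₁ β₂ : O → ℂ), X ^ η₀ ≤ B₁ → X ^ η₀ ≤ B₂ → X ^ (0.4 : ℝ) ≤ B₁ * B₂ →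
      B₁ * B₂ ≤ X ^ (0.6 : ℝ) → Supp 4 B₁ β₁ → Supp 4 B₂ β₂ → Bd (X ^ η) β₁ → Bd (X ^ η) β₂ →
      SW X (B₁ * B₂) η₁ (cv β₁ β₂) → NCH X (B₁ * B₂) (B₁ * B₂ * X ^ c) η (cv β₁ β₂)

def NCcStmt : Prop :=
  ∀ η₁ : ℝ, 0 < η₁ → ∃ c η : ℝ, 0 < c ∧ 0 < η ∧ ∀ᶠ X : ℝ in atTop,
    ∀ (B₁ B₂ : ℝ) (β₁ : O → ℂ), 1 / 4 ≤ B₁ → B₁ ≤ X ^ (0.01 : ℝ) → X ^ (0.45 : ℝ) ≤ B₁ * B₂ →
      B₁ * B₂ ≤ X ^ (0.55 : ℝ) → Supp 4 B₁ β₁ → Bd (X ^ η) β₁ →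
      SW X (B₁ * B₂) η₁ (cv β₁ (win B₂ (2 * B₂))) →
        NCH X (B₁ * B₂) (B₁ * B₂ * X ^ c) η (cv β₁ (win B₂ (2 * B₂)))

/-- dispersion estimate with cancellation of the main terms -/
def DAStmt : Prop :=
  ∀ η : ℝ, 0 < η → η ≤ 1 / 100 → ∃ η' C : ℝ, 0 < η' ∧ 0 < C ∧ ∀ᶠ X : ℝ in atTop,
    ∀ (A B τ t : ℝ) (β : O → ℂ) (s : Finset O), X ^ (0.33 : ℝ) ≤ B → B ≤ A * X ^ (η / 40) →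
      X / 100 ≤ A * B → A * B ≤ X → Supp 16 B β → Bd (X ^ η') β → (∀ b, β b ≠ 0 → tau b ≤ τ) →
      NCH X B (X ^ η * B ^ 2 / A) η β → |t| ≤ X ^ (0.179 : ℝ) →
        ∑ a ∈ s, Gs 1 (nm a / A) * ‖∑ b ∈ qball (16 * B), β b * nt b t * aq (a * b)‖ ^ 2 ≤
          C * τ ^ 4 * A * (1 + (B ^ 2 / A) ^ (1 / 5 : ℝ)) * ∑ b ∈ qball (16 * B), ‖β b‖ ^ 2 +
            X ^ (-η') * A ^ (2 / 3 : ℝ) * B ^ (5 / 3 : ℝ)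

/-- localised dispersion estimate -/
def DBStmt : Prop :=
  ∀ η : ℝ, 0 < η → η ≤ 1 / 100 → ∃ η' C : ℝ, 0 < η' ∧ 0 < C ∧ ∀ᶠ X : ℝ in atTop,
    ∀ (A B τ t L : ℝ) (β : O → ℂ) (s : Finset O), X ^ (0.33 : ℝ) ≤ B → B ≤ A * X ^ (η / 40) →
      X / 100 ≤ A * B → A * B ≤ X → Supp 16 B β → Bd (X ^ η') β → (∀ b, β b ≠ 0 → tau b ≤ τ) →
      NCH X B (X ^ η * B ^ 2 / A) η β → |t| ≤ X ^ (0.179 : ℝ) → 1 ≤ L → L ≤ X ^ η' →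
        ∑ a ∈ s, Gs L (nm a / A) * ‖∑ b ∈ qball (16 * B), β b * nt b t * gq (a * b)‖ ^ 2 ≤
          C * (A / L) * ∑ b ∈ qball (16 * B), ‖β b‖ ^ 2 +
            C * τ * A ^ (2 / 3 : ℝ) * B ^ (-1 / 3 : ℝ) * (∑ b ∈ qball (16 * B), ‖β b‖) ^ 2 +
            X ^ (-η') * A ^ (2 / 3 : ℝ) * B ^ (5 / 3 : ℝ)

/-- Type II with a power saving -/
def T2PStmt : Prop :=
  ∀ δ η : ℝ, 0 < δ → 0 < η → η ≤ 1 / 100 → ∃ η' : ℝ, 0 < η' ∧ ∀ᶠ X : ℝ in atTop,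
    ∀ (B x₁ x₂ : ℝ) (α β : O → ℂ), X ^ (1 / 3 + δ) ≤ B → B ^ 2 ≤ X ^ (1 + η / 40) → X / 2 ≤ x₁ →
      x₂ ≤ X → Supp 16 B β → Bd (X ^ η') α → Bd (X ^ η') β → NCH X B (X ^ η * B ^ 3 / X) η β →
        ‖S1 x₁ x₂ (cv α β)‖ ≤ X ^ (5 / 6 - η')

/-- Type II in the narrow range -/
def T2NStmt : Prop :=
  ∀ η τ : ℝ, 0 < η → ∃ C : ℝ, 0 < C ∧ ∀ᶠ X : ℝ in atTop,
    ∀ (B x₁ x₂ : ℝ) (α β : O → ℂ), X ^ (1 / 3 : ℝ) / 100 ≤ B → B ≤ X ^ (0.34 : ℝ) → X / 2 ≤ x₁ →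
      x₂ ≤ X → Supp 16 B β → Bd (Real.log X ^ 2) α → Bd (Real.log X ^ 2) β →
      (∀ b, β b ≠ 0 → tau b ≤ τ) → (∀ y₁ y₂ : ℝ, SW X B η fun b => β b * win y₁ y₂ b) →
        ‖S1 x₁ x₂ (cv α β)‖ ≤ C * Real.log (Real.log X) * √(∑ a ∈ qball (X / B), ‖α a‖ ^ 2) *
          √(∑ b ∈ qball (16 * B), ‖β b‖ ^ 2) * √(X / B) * (1 + (B ^ 3 / X) ^ (1 / 10 : ℝ)) +
          X ^ (5 / 6 : ℝ) / Real.log X ^ 10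

def TIIaStmt : Prop :=
  ∀ δ c η₁ : ℝ, 0 < δ → 0 < c → 0 < η₁ → ∃ η : ℝ, 0 < η ∧ ∀ᶠ X : ℝ in atTop,
    ∀ (B x₁ x₂ : ℝ) (α β : O → ℂ), X ^ (1 / 3 + δ) ≤ B → B ≤ X ^ (1 / 2 - c) → X / 2 ≤ x₁ →
      x₂ ≤ X → Supp 16 B β → Bd (X ^ η) α → Bd (X ^ η) β → SW X B η₁ β →
        ‖S1 x₁ x₂ (cv α β)‖ ≤ X ^ (5 / 6 - η)

def TIIbStmt : Prop :=
  ∀ η₀ η₁ : ℝ, 0 < η₀ → 0 < η₁ → ∃ c η : ℝ, 0 < c ∧ 0 < η ∧ ∀ᶠ X : ℝ in atTop,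
    ∀ (B₁ B₂ x₁ x₂ : ℝ) (α β₁ β₂ : O → ℂ), X ^ η₀ ≤ B₁ → X ^ η₀ ≤ B₂ →
      X ^ (0.4 : ℝ) ≤ B₁ * B₂ → B₁ * B₂ ≤ X ^ (1 / 2 + c) → X / 2 ≤ x₁ → x₂ ≤ X →
      Supp 4 B₁ β₁ → Supp 4 B₂ β₂ → Bd (X ^ η) α → Bd (X ^ η) β₁ → Bd (X ^ η) β₂ →
      SW X (B₁ * B₂) η₁ (cv β₁ β₂) → ‖S1 x₁ x₂ (cv α (cv β₁ β₂))‖ ≤ X ^ (5 / 6 - η)

def TIIcStmt : Prop :=
  ∀ η₁ : ℝ, 0 < η₁ → ∃ c η : ℝ, 0 < c ∧ 0 < η ∧ ∀ᶠ X : ℝ in atTop,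
    ∀ (B₁ B₂ x₁ x₂ : ℝ) (α β₁ : O → ℂ), 1 / 4 ≤ B₁ → B₁ ≤ X ^ (0.01 : ℝ) →
      X ^ (0.45 : ℝ) ≤ B₁ * B₂ → B₁ * B₂ ≤ X ^ (1 / 2 + c) → X / 2 ≤ x₁ → x₂ ≤ X →
      Supp 4 B₁ β₁ → Bd (X ^ η) α → Bd (X ^ η) β₁ →
      SW X (B₁ * B₂) η₁ (cv β₁ (win B₂ (2 * B₂))) →
        ‖S1 x₁ x₂ (cv α (cv β₁ (win B₂ (2 * B₂))))‖ ≤ X ^ (5 / 6 - η)

/-- the dyadic prime sum -/
def MainStmt : Prop :=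
  ∀ ε : ℝ, 0 < ε → ∀ᶠ X : ℝ in atTop, ‖S1 (X / 2) X Lam‖ ≤ ε * X ^ (5 / 6 : ℝ)

/-- Patterson's asymptotic over primary primes -/
def PatStmt : Prop :=
  Tendsto (fun X : ℝ => (∑ p ∈ prb X, gl p) / (X ^ (5 / 6 : ℝ) / Real.log X : ℝ)) atTop
    (nhds (6 / 5 * kst : ℝ))

end Vale.Agent.P006
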