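import Vale.Agent.P006.F2

/-! # P006 part F: the rational-prime form -/

namespace Vale.Agent.P006

open Vale.Agent.P026 Filter Finset
open scoped Real Topology

theorem f3_norm {p : O} (hp : PP p) : ‖gl p‖ = 1 :=
  G2.norm_div_sqrt hp.1.ne_zero (norm_g3_prime hp.1 hp.2
    (SymAux.not_dvd_of_prime hp.1 prime_lam hp.2.not_lam_dvd))

theorem f3_inert (X : ℝ) :
    ‖∑ p ∈ (prb X).filter fun p => ¬((nm p).Prime ∧ nm p % 3 = 1), gl p‖ ≤ √X + 1 := by
  have key : ∀ p ∈ (prb X).filter fun p => ¬((nm p).Prime ∧ nm p % 3 = 1),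
      PP p ∧ Associated p (Nat.sqrt (nm p)) ∧ (Nat.sqrt (nm p) : ℝ) ≤ √X := by
    intro p hp
    obtain ⟨h1, h2⟩ := mem_filter.1 hp
    obtain ⟨h3, h4⟩ := f1_mem.1 h1
    obtain ⟨l, hl, -, h5 | h5⟩ := nm_prime h3.1
    · exact absurd ⟨h5 ▸ hl, h3.2.nm_mod⟩ h2
    · rw [h5.1, Nat.sqrt_eq']
      refine ⟨h3, h5.2, Real.le_sqrt_of_sq_le ?_⟩
      rw [h5.1] at h4
      exact_mod_cast h4
  have h1 : ((prb X).filter fun p => ¬((nm p).Prime ∧ nm p % 3 = 1)).card ≤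
      (range (⌊√X⌋₊ + 1)).card := by
    refine card_le_card_of_injOn (fun p => Nat.sqrt (nm p)) (fun p hp => ?_) fun p hp q hq h => ?_
    · exact mem_coe.2 (mem_range.2 (Nat.lt_succ_of_le (Nat.le_floor (key p hp).2.2)))
    · have h2 : Nat.sqrt (nm p) = Nat.sqrt (nm q) := h
      exact (key p hp).1.2.eq_of_associated (key q hq).1.2
        ((key p hp).2.1.trans (h2 ▸ (key q hq).2.1.symm))
  refine (norm_sum_le _ _).trans ?_
  rw [sum_congr rfl fun p hp => f3_norm (key p hp).1, sum_const, nsmul_eq_mul, mul_one]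
  rw [card_range] at h1
  have h2 := Nat.floor_le (Real.sqrt_nonneg X)
  have h3 : (((prb X).filter fun p => ¬((nm p).Prime ∧ nm p % 3 = 1)).card : ℝ) ≤
      (⌊√X⌋₊ : ℝ) + 1 := by exact_mod_cast h1
  linarith

theorem f3_split {X : ℝ} (hX : 0 ≤ X) :
    ∑ p ∈ (range (⌊X⌋₊ + 1)).filter fun p => p.Prime ∧ p % 3 = 1,
        (∑ x ∈ range p, Complex.exp (2 * π * Complex.I * (x : ℂ) ^ 3 / p)) / (2 * (√p : ℝ)) =
      (∑ p ∈ prb X, gl p -
        ∑ p ∈ (prb X).filter fun p => ¬((nm p).Prime ∧ nm p % 3 = 1), gl p) / 2 := by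
  have h := fps_fc (fun k => if k.Prime ∧ k % 3 = 1 then 1 else 0) gl hX
  simp only [fps, ite_mul, one_mul, zero_mul] at h
  rw [← sum_filter, ← sum_filter] at h
  rw [← sum_filter_add_sum_filter_not (prb X) fun p => (nm p).Prime ∧ nm p % 3 = 1,
    add_sub_cancel_right, ← h, sum_div, Nat.range_succ_eq_Icc_zero]
  refine sum_congr rfl fun l hl => ?_
  rw [f2_fc (mem_filter.1 hl).2.1 (mem_filter.1 hl).2.2, div_div, mul_comm _ (2 : ℂ)]

/-- The rational-prime form of Patterson's asymptotic. -/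
theorem rat (h : PatStmt) :
    Tendsto (fun X : ℝ =>
      (∑ p ∈ (range (⌊X⌋₊ + 1)).filter fun p => p.Prime ∧ p % 3 = 1,
        (∑ x ∈ range p, Complex.exp (2 * π * Complex.I * (x : ℂ) ^ 3 / p)) / (2 * (√p : ℝ))) /
        (X ^ (5 / 6 : ℝ) / Real.log X : ℝ)) atTop
      (𝓝 (((2 * π) ^ (2 / 3 : ℝ) / (5 * Real.Gamma (2 / 3)) : ℝ) : ℂ)) := by
  have h1 : Tendsto (fun X : ℝ =>
      (∑ p ∈ (prb X).filter fun p => ¬((nm p).Prime ∧ nm p % 3 = 1), gl p) /
        (X ^ (5 / 6 : ℝ) / Real.log X : ℝ)) atTop (𝓝 0) := by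
    have b1 : Tendsto (fun X : ℝ => 2 * (Real.log X / X ^ (1 / 3 : ℝ))) atTop (𝓝 0) := by
      simpa using
        (isLittleO_log_rpow_atTop (by norm_num : (0 : ℝ) < 1 / 3)).tendsto_div_nhds_zero.const_mul 2
    refine squeeze_zero_norm' ?_ b1
    filter_upwards [eventually_gt_atTop 1] with X hX
    have x0 : 0 < X := by linarith
    have l0 := Real.log_pos hX
    have e : X ^ (5 / 6 : ℝ) = X ^ (1 / 3 : ℝ) * √X := by
      rw [Real.sqrt_eq_rpow, ← Real.rpow_add x0]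
      norm_num
    have p1 : 0 < X ^ (1 / 3 : ℝ) := by positivity
    have p2 : 1 ≤ √X := Real.one_le_sqrt.2 hX.le
    rw [norm_div, Complex.norm_real, Real.norm_of_nonneg (by positivity),
      div_le_iff₀ (by positivity), e]
    refine (f3_inert X).trans (le_trans (by linarith : _ ≤ 2 * √X) (le_of_eq ?_))
    field_simp
  have h2 := (Tendsto.sub h h1).div_const 2
  have e : (((6 / 5 * kst : ℝ) : ℂ) - 0) / 2 =
      (((2 * π) ^ (2 / 3 : ℝ) / (5 * Real.Gamma (2 / 3)) : ℝ) : ℂ) := by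
    have : (2 * π) ^ (2 / 3 : ℝ) / (5 * Real.Gamma (2 / 3)) = 6 / 5 * kst / 2 := by
      rw [kst]
      ring
    rw [this, sub_zero, Complex.ofReal_div _ 2, Complex.ofReal_ofNat]
  rw [e] at h2
  refine h2.congr' ?_
  filter_upwards [eventually_ge_atTop 0] with X hX
  rw [f3_split hX, ← sub_div, div_right_comm]

/-- The same, as an asymptotic equivalence. -/
theorem rat_equiv (h : PatStmt) :
    Asymptotics.IsEquivalent atTop
      (fun X : ℝ => ∑ p ∈ (range (⌊X⌋₊ + 1)).filter fun p => p.Prime ∧ p % 3 = 1,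
        (∑ x ∈ range p, Complex.exp (2 * π * Complex.I * (x : ℂ) ^ 3 / p)) / (2 * (√p : ℝ)))
      fun X : ℝ => (((2 * π) ^ (2 / 3 : ℝ) / (5 * Real.Gamma (2 / 3)) *
        (X ^ (5 / 6 : ℝ) / Real.log X) : ℝ) : ℂ) := by
  have c0 : (0 : ℝ) < (2 * π) ^ (2 / 3 : ℝ) / (5 * Real.Gamma (2 / 3)) := by
    have := Real.Gamma_pos_of_pos (by norm_num : (0 : ℝ) < 2 / 3)
    positivity
  have c1 : (((2 * π) ^ (2 / 3 : ℝ) / (5 * Real.Gamma (2 / 3)) : ℝ) : ℂ) ≠ 0 := by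
    exact_mod_cast c0.ne'
  refine Asymptotics.isEquivalent_of_tendsto_one ?_
  have h1 := (rat h).div_const (((2 * π) ^ (2 / 3 : ℝ) / (5 * Real.Gamma (2 / 3)) : ℝ) : ℂ)
  rw [div_self c1] at h1
  refine h1.congr fun X => ?_
  rw [Pi.div_apply, Complex.ofReal_mul, div_div]
  exact congrArg _ (mul_comm _ _)

end Vale.Agent.P006
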