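import Mathlib

/-! # P006 part F: summation by parts (pure analysis) -/

namespace Vale.Agent.P006

open Filter Finset MeasureTheory
open scoped Topology

/-- summatory function -/
noncomputable def fps (c : ℕ → ℂ) (x : ℝ) : ℂ := ∑ k ∈ Icc 0 ⌊x⌋₊, c k

theorem fab_bdd (c : ℕ → ℂ) (x0 : ℝ) : ∃ K, 0 ≤ K ∧ ∀ x ≤ x0, ‖fps c x‖ ≤ K :=
  ⟨∑ k ∈ Icc 0 ⌊x0⌋₊, ‖c k‖, sum_nonneg fun _ _ => norm_nonneg _, fun _ hx =>
    (norm_sum_le _ _).trans (sum_le_sum_of_subset_of_nonneg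
      (Icc_subset_Icc_right (Nat.floor_mono hx)) fun _ _ _ => norm_nonneg _)⟩

theorem fab_half {x : ℝ} (hx : 0 ≤ x) : (x / 2) ^ (5 / 6 : ℝ) ≤ 2 / 3 * x ^ (5 / 6 : ℝ) := by
  have h1 : (3 / 2 : ℝ) ≤ 2 ^ (5 / 6 : ℝ) := by
    refine le_of_pow_le_pow_left₀ (n := 6) (by norm_num) (by positivity) ?_
    rw [← Real.rpow_natCast ((2 : ℝ) ^ (5 / 6 : ℝ)), ← Real.rpow_mul (by norm_num)]
    norm_num
  rw [Real.div_rpow hx (by norm_num), div_le_iff₀ (by positivity)]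
  have h2 : 0 ≤ x ^ (5 / 6 : ℝ) := by positivity
  nlinarith

theorem fab_dyadic {A : ℝ → ℂ} (hb : ∀ x0, ∃ K, 0 ≤ K ∧ ∀ x ≤ x0, ‖A x‖ ≤ K)
    (h : ∀ ε : ℝ, 0 < ε → ∀ᶠ x : ℝ in atTop, ‖A x - A (x / 2)‖ ≤ ε * x ^ (5 / 6 : ℝ)) :
    Tendsto (fun x : ℝ => A x / (x ^ (5 / 6 : ℝ) : ℝ)) atTop (𝓝 0) := by
  rw [NormedAddGroup.tendsto_nhds_zero]
  intro ε hε
  obtain ⟨x0, h0⟩ := eventually_atTop.1 (h (ε / 8) (by positivity))
  obtain ⟨K, hK0, hK⟩ := hb (max x0 1)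
  have key : ∀ n : ℕ, ∀ x : ℝ, 0 ≤ x → x ≤ 2 ^ n * max x0 1 →
      ‖A x‖ ≤ K + 3 * (ε / 8) * x ^ (5 / 6 : ℝ) := by
    intro n
    induction n with
    | zero =>
      intro x hx h1
      rw [pow_zero, one_mul] at h1
      exact (hK x h1).trans (le_add_of_nonneg_right (by positivity))
    | succ n ih =>
      intro x hx h1
      by_cases h2 : x ≤ max x0 1
      · exact (hK x h2).trans (le_add_of_nonneg_right (by positivity))
      · have h3 := h0 x ((le_max_left _ _).trans (not_le.1 h2).le)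
        have h4 := ih (x / 2) (by positivity) (by rw [pow_succ] at h1; linarith)
        have h5 := mul_le_mul_of_nonneg_left (fab_half hx) (by positivity : 0 ≤ 3 * (ε / 8))
        have h6 := norm_le_norm_sub_add (A x) (A (x / 2))
        linarith
  filter_upwards [eventually_gt_atTop 0, (tendsto_rpow_atTop (by norm_num : (0 : ℝ) < 5 / 6)).eventually
    (eventually_gt_atTop (2 * K / ε))] with x hx h1
  obtain ⟨n, hn⟩ := pow_unbounded_of_one_lt x (by norm_num : (1 : ℝ) < 2)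
  have h2 := key n x hx.le (hn.le.trans (le_mul_of_one_le_right (by positivity) (le_max_right _ _)))
  have h3 : 0 < x ^ (5 / 6 : ℝ) := by positivity
  rw [norm_div, Complex.norm_real, Real.norm_of_nonneg h3.le, div_lt_iff₀ h3]
  rw [div_lt_iff₀ hε] at h1
  nlinarith

theorem fab_abel (c : ℕ → ℂ) (h0 : c 0 = 0) (h1 : c 1 = 0) {f f' : ℝ → ℝ}
    (hf : ∀ t, 2 ≤ t → HasDerivAt f (f' t) t) (hc : ContinuousOn f' (Set.Ici 2)) {b : ℝ}
    (hb : 2 ≤ b) : IntervalIntegrable (fun t => (f' t : ℂ) * fps c t) volume 2 b ∧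
      fps (fun k => (f k : ℂ) * c k) b = f b * fps c b - ∫ t in (2 : ℝ)..b, (f' t : ℂ) * fps c t := by
  have h2 : IntegrableOn (fun t => (f' t : ℂ)) (Set.Icc 2 b) :=
    (Complex.continuous_ofReal.comp_continuousOn
      (hc.mono Set.Icc_subset_Ici_self)).integrableOn_Icc
  have h3 : ∀ t, 2 ≤ t → deriv (fun t => (f t : ℂ)) t = f' t := fun t ht =>
    (hf t ht).ofReal_comp.deriv
  refine ⟨(intervalIntegrable_iff_integrableOn_Icc_of_le hb).2
    (integrableOn_mul_sum_Icc c (by norm_num) h2), ?_⟩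
  have h4 := sum_mul_eq_sub_integral_mul₁ c (f := fun t => (f t : ℂ)) h0 h1 b
    (fun t ht => (hf t ht.1).ofReal_comp.differentiableAt)
    (h2.congr_fun (fun t ht => (h3 t ht.1).symm) measurableSet_Icc)
  rw [intervalIntegral.integral_of_le hb]
  refine h4.trans (congrArg _ (setIntegral_congr_fun measurableSet_Ioc fun t ht => ?_))
  simp only [h3 t ht.1.le]
  rfl

theorem fab_int {g : ℝ → ℂ} {x a b M1 M2 : ℝ} (hx : 2 ≤ x) (ha : 0 < a) (hb : 0 < b)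
    (h1 : 0 ≤ M1) (h2 : 0 ≤ M2)
    (h : ∀ t, 2 ≤ t → t ≤ x → ‖g t‖ ≤ M1 * t ^ (a - 1) + M2 * t ^ (b - 1)) :
    ‖∫ t in (2 : ℝ)..x, g t‖ ≤ M1 * (x ^ a / a) + M2 * (x ^ b / b) := by
  have i1 : IntervalIntegrable (fun t : ℝ => M1 * t ^ (a - 1)) volume 2 x :=
    (intervalIntegral.intervalIntegrable_rpow' (by linarith)).const_mul _
  have i2 : IntervalIntegrable (fun t : ℝ => M2 * t ^ (b - 1)) volume 2 x :=
    (intervalIntegral.intervalIntegrable_rpow' (by linarith)).const_mul _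
  refine (intervalIntegral.norm_integral_le_of_norm_le hx
    (Eventually.of_forall fun t ht => h t ht.1.le ht.2) (i1.add i2)).trans ?_
  rw [intervalIntegral.integral_add i1 i2, intervalIntegral.integral_const_mul,
    intervalIntegral.integral_const_mul, integral_rpow (Or.inl (by linarith)),
    integral_rpow (Or.inl (by linarith)), sub_add_cancel, sub_add_cancel]
  gcongr
  · exact sub_le_self _ (by positivity)
  · exact sub_le_self _ (by positivity)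

theorem fab_glob (c : ℕ → ℂ) {L : ℂ}
    (h : Tendsto (fun x : ℝ => fps c x / (x ^ (5 / 6 : ℝ) : ℝ)) atTop (𝓝 L)) :
    ∃ M, 0 ≤ M ∧ ∀ t : ℝ, 2 ≤ t → ‖fps c t‖ ≤ M * t ^ (5 / 6 : ℝ) := by
  obtain ⟨x0, h0⟩ := eventually_atTop.1 (h.norm.eventually (gt_mem_nhds (lt_add_one ‖L‖)))
  obtain ⟨K, hK0, hK⟩ := fab_bdd c x0
  refine ⟨‖L‖ + 1 + K, by positivity, fun t ht => ?_⟩
  have h1 : 1 ≤ t ^ (5 / 6 : ℝ) := Real.one_le_rpow (by linarith) (by norm_num)
  have h2 := norm_nonneg L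
  rcases le_total t x0 with h3 | h3
  · have := hK t h3
    nlinarith
  · have h4 := h0 t h3
    rw [norm_div, Complex.norm_real, Real.norm_of_nonneg (by linarith),
      div_lt_iff₀ (by linarith)] at h4
    nlinarith

theorem fab_ptw {t x : ℝ} (ht : 2 ≤ t) (hx : t ≤ x) :
    t⁻¹ / Real.log t ^ 2 * t ^ (5 / 6 : ℝ) ≤ 4 / Real.log x ^ 2 * t ^ (5 / 6 - 1 : ℝ) +
      x ^ (1 / 4 : ℝ) / Real.log 2 ^ 2 * t ^ (1 / 3 - 1 : ℝ) := by
  have t0 : 0 < t := by linarith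
  have l2 : 0 < Real.log 2 := Real.log_pos (by norm_num)
  have lt : Real.log 2 ≤ Real.log t := Real.log_le_log (by norm_num) ht
  have lx : Real.log t ≤ Real.log x := Real.log_le_log t0 hx
  have x0 : 0 < x := by linarith
  have e1 : t⁻¹ / Real.log t ^ 2 * t ^ (5 / 6 : ℝ) = 1 / Real.log t ^ 2 * t ^ (5 / 6 - 1 : ℝ) := by
    rw [Real.rpow_sub_one t0.ne']
    ring
  rw [e1]
  rcases le_total x (t ^ 2) with h | h
  · refine le_add_of_le_of_nonneg (mul_le_mul_of_nonneg_right ?_ (by positivity)) (by positivity)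
    have h1 : Real.log x ≤ 2 * Real.log t := by
      have := Real.log_le_log x0 h
      rwa [Real.log_pow] at this
    rw [div_le_div_iff₀ (pow_pos (by linarith) 2) (pow_pos (by linarith) 2)]
    nlinarith
  · refine le_add_of_nonneg_of_le (by positivity) ?_
    have e2 : t ^ (5 / 6 - 1 : ℝ) = (t ^ 2) ^ (1 / 4 : ℝ) * t ^ (1 / 3 - 1 : ℝ) := by
      rw [← Real.rpow_natCast t 2, ← Real.rpow_mul t0.le, ← Real.rpow_add t0]
      norm_num
    rw [e2, ← mul_assoc, one_div_mul_eq_div]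
    gcongr

theorem fab_log (c : ℕ → ℂ) (h0 : c 0 = 0) (h1 : c 1 = 0) {L : ℂ}
    (h : Tendsto (fun x : ℝ => fps c x / (x ^ (5 / 6 : ℝ) : ℝ)) atTop (𝓝 L)) :
    Tendsto (fun x : ℝ => fps (fun k => ((Real.log k)⁻¹ : ℝ) * c k) x /
      (x ^ (5 / 6 : ℝ) / Real.log x : ℝ)) atTop (𝓝 L) := by
  obtain ⟨M, hM0, hM⟩ := fab_glob c h
  have l2 : 0 < Real.log 2 := Real.log_pos (by norm_num)
  have lp : ∀ t : ℝ, 2 ≤ t → 0 < Real.log t := fun t ht => Real.log_pos (by linarith)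
  have hf : ∀ t : ℝ, 2 ≤ t → HasDerivAt (fun t => (Real.log t)⁻¹) (-t⁻¹ / Real.log t ^ 2) t :=
    fun t ht => (Real.hasDerivAt_log (by linarith)).inv (lp t ht).ne'
  have hc : ContinuousOn (fun t : ℝ => -t⁻¹ / Real.log t ^ 2) (Set.Ici 2) := fun t ht => by
    have h2 : t ≠ 0 := by have : (2 : ℝ) ≤ t := ht; linarith
    exact (((continuousAt_inv₀ h2).neg).div ((Real.continuousAt_log h2).pow 2)
      (pow_pos (lp t ht) 2).ne').continuousWithinAt
  have h2 : Tendsto (fun x : ℝ => (∫ t in (2 : ℝ)..x, ((-t⁻¹ / Real.log t ^ 2 : ℝ) : ℂ) * fps c t) /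
      (x ^ (5 / 6 : ℝ) / Real.log x : ℝ)) atTop (𝓝 0) := by
    have b1 : Tendsto (fun x : ℝ => 24 / 5 * M * (Real.log x)⁻¹ +
        3 * M / Real.log 2 ^ 2 * (Real.log x / x ^ (1 / 4 : ℝ))) atTop (𝓝 0) := by
      have := (Real.tendsto_log_atTop.inv_tendsto_atTop.const_mul (24 / 5 * M)).add
        ((isLittleO_log_rpow_atTop (by norm_num : (0 : ℝ) < 1 / 4)).tendsto_div_nhds_zero.const_mul
          (3 * M / Real.log 2 ^ 2))
      simpa using this
    refine squeeze_zero_norm' ?_ b1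
    filter_upwards [eventually_ge_atTop 2] with x hx
    have x0 : 0 < x := by linarith
    have lx := lp x hx
    have h3 := fab_int (g := fun t => ((-t⁻¹ / Real.log t ^ 2 : ℝ) : ℂ) * fps c t) (a := 5 / 6)
      (b := 1 / 3) (M1 := M * (4 / Real.log x ^ 2)) (M2 := M * (x ^ (1 / 4 : ℝ) / Real.log 2 ^ 2))
      hx (by norm_num) (by norm_num) (by positivity) (by positivity) fun t ht htx => by
        have t0 : 0 < t := by linarith
        have lt := lp t ht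
        rw [norm_mul, Complex.norm_real, neg_div, norm_neg, Real.norm_of_nonneg (by positivity)]
        have h4 := mul_le_mul_of_nonneg_left (hM t ht)
          (by positivity : 0 ≤ t⁻¹ / Real.log t ^ 2)
        have h5 := mul_le_mul_of_nonneg_left (fab_ptw ht htx) hM0
        linarith
    rw [norm_div, Complex.norm_real, Real.norm_of_nonneg (by positivity),
      div_le_iff₀ (by positivity)]
    refine h3.trans (le_of_eq ?_)
    have e : x ^ (5 / 6 : ℝ) = x ^ (1 / 4 : ℝ) * x ^ (1 / 4 : ℝ) * x ^ (1 / 3 : ℝ) := by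
      rw [← Real.rpow_add x0, ← Real.rpow_add x0]
      norm_num
    have : 0 < x ^ (1 / 4 : ℝ) := by positivity
    rw [e]
    field_simp
    ring
  have h3 := h.sub h2
  rw [sub_zero] at h3
  refine h3.congr' ?_
  filter_upwards [eventually_ge_atTop 2] with x hx
  have x0 : 0 < x := by linarith
  have e1 : ((Real.log x : ℝ) : ℂ) ≠ 0 := by exact_mod_cast (lp x hx).ne'
  have e2 : ((x ^ (5 / 6 : ℝ) : ℝ) : ℂ) ≠ 0 := by
    have : 0 < x ^ (5 / 6 : ℝ) := by positivity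
    exact_mod_cast this.ne'
  rw [(fab_abel c h0 h1 hf hc hx).2, Complex.ofReal_div, Complex.ofReal_inv]
  field_simp

theorem fab_pow (c : ℕ → ℂ) (h0 : c 0 = 0) (h1 : c 1 = 0) {θ C : ℝ} (hθ : 0 < θ) (hC : 0 ≤ C)
    (h : ∀ u : ℝ, 1 ≤ u → ‖fps c u - u‖ ≤ C * u ^ (1 - θ)) :
    Tendsto (fun x : ℝ => fps (fun k => ((k : ℝ) ^ (-1 / 6 : ℝ) : ℝ) * c k) x /
      (x ^ (5 / 6 : ℝ) : ℝ)) atTop (𝓝 (6 / 5)) := by
  wlog h2 : θ ≤ 1 / 2 generalizing θ
  · refine this (θ := 1 / 2) (by norm_num) (fun u hu => (h u hu).trans ?_) le_rfl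
    exact mul_le_mul_of_nonneg_left (Real.rpow_le_rpow_of_exponent_le hu (by linarith)) hC
  have hf : ∀ t : ℝ, 2 ≤ t →
      HasDerivAt (fun t : ℝ => t ^ (-1 / 6 : ℝ)) (-1 / 6 * t ^ (-1 / 6 - 1 : ℝ)) t :=
    fun t ht => Real.hasDerivAt_rpow_const (Or.inl (by linarith))
  have hc : ContinuousOn (fun t : ℝ => -1 / 6 * t ^ (-1 / 6 - 1 : ℝ)) (Set.Ici 2) := fun t ht => by
    have h2 : t ≠ 0 := by have : (2 : ℝ) ≤ t := ht; linarith
    exact ((Real.continuousAt_rpow_const t _ (Or.inl h2)).const_mul _).continuousWithinAt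
  rw [tendsto_iff_norm_sub_tendsto_zero]
  have b1 : Tendsto (fun x : ℝ => (2 * C + 1) * x ^ (-θ)) atTop (𝓝 0) := by
    simpa using (tendsto_rpow_neg_atTop hθ).const_mul (2 * C + 1)
  refine squeeze_zero' (Eventually.of_forall fun _ => norm_nonneg _) ?_ b1
  filter_upwards [eventually_ge_atTop 2] with x hx
  have x0 : 0 < x := by linarith
  obtain ⟨i1, h3⟩ := fab_abel c h0 h1 hf hc hx
  have i2 : IntervalIntegrable (fun t : ℝ => ((-1 / 6 * t ^ (-1 / 6 : ℝ) : ℝ) : ℂ)) volume 2 x :=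
    have i3 : IntervalIntegrable (fun t : ℝ => -1 / 6 * t ^ (-1 / 6 : ℝ)) volume 2 x :=
      (intervalIntegral.intervalIntegrable_rpow' (by norm_num)).const_mul _
    ⟨i3.1.ofReal, i3.2.ofReal⟩
  have h4 : ∫ t in (2 : ℝ)..x, ((-1 / 6 * t ^ (-1 / 6 : ℝ) : ℝ) : ℂ) =
      ((-1 / 5 * (x ^ (5 / 6 : ℝ) - 2 ^ (5 / 6 : ℝ)) : ℝ) : ℂ) := by
    rw [intervalIntegral.integral_ofReal, intervalIntegral.integral_const_mul,
      integral_rpow (Or.inl (by norm_num)), show (-1 / 6 + 1 : ℝ) = 5 / 6 by norm_num]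
    congr 1
    ring
  have h5 := fab_int (g := fun t => ((-1 / 6 * t ^ (-1 / 6 - 1 : ℝ) : ℝ) : ℂ) * fps c t -
      ((-1 / 6 * t ^ (-1 / 6 : ℝ) : ℝ) : ℂ)) (a := 5 / 6 - θ) (b := 1) (M1 := C / 6) (M2 := 0)
    hx (by linarith) one_pos (by positivity) le_rfl fun t ht _ => by
      have t0 : 0 < t := by linarith
      have e : -1 / 6 * t ^ (-1 / 6 : ℝ) = -1 / 6 * t ^ (-1 / 6 - 1 : ℝ) * t := by
        rw [Real.rpow_sub_one t0.ne']
        field_simp
      rw [e, Complex.ofReal_mul _ t, ← mul_sub, norm_mul, Complex.norm_real, norm_mul,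
        Real.norm_of_nonneg (by positivity : 0 ≤ t ^ (-1 / 6 - 1 : ℝ)), zero_mul, add_zero,
        show (5 / 6 - θ - 1 : ℝ) = -1 / 6 - 1 + (1 - θ) by ring, Real.rpow_add t0]
      have h6 := mul_le_mul_of_nonneg_left (h t (by linarith))
        (by positivity : 0 ≤ 1 / 6 * t ^ (-1 / 6 - 1 : ℝ))
      norm_num at h6 ⊢
      linarith
  rw [intervalIntegral.integral_sub i1 i2, h4, zero_mul, add_zero] at h5
  have p1 : 0 < x ^ (5 / 6 : ℝ) := by positivity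
  have e1 : x ^ (5 / 6 : ℝ) = x ^ (-1 / 6 : ℝ) * x := by
    rw [← Real.rpow_add_one x0.ne']
    norm_num
  have e2 : x ^ (5 / 6 - θ) = x ^ (-θ) * x ^ (5 / 6 : ℝ) := by
    rw [← Real.rpow_add x0]
    congr 1
    ring
  have e3 : x ^ (-1 / 6 : ℝ) * x ^ (1 - θ) = x ^ (5 / 6 - θ) := by
    rw [← Real.rpow_add x0]
    congr 1
    ring
  have p2 : 1 ≤ x ^ (5 / 6 - θ) := Real.one_le_rpow (by linarith) (by linarith)
  have p3 : (2 : ℝ) ^ (5 / 6 : ℝ) ≤ 2 := by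
    have := Real.rpow_le_rpow_of_exponent_le (by norm_num : (1 : ℝ) ≤ 2) (by norm_num : (5 / 6 : ℝ) ≤ 1)
    rwa [Real.rpow_one] at this
  have p4 : x ^ (5 / 6 - θ) / (5 / 6 - θ) ≤ 3 * x ^ (5 / 6 - θ) := by
    rw [div_le_iff₀ (by linarith)]
    nlinarith
  have h6 := mul_le_mul_of_nonneg_left (h x (by linarith))
    (by positivity : 0 ≤ x ^ (-1 / 6 : ℝ))
  rw [mul_left_comm, e3] at h6
  have e4 : ((x ^ (5 / 6 : ℝ) : ℝ) : ℂ) ≠ 0 := by exact_mod_cast p1.ne'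
  rw [h3, div_sub' e4, norm_div, Complex.norm_real, Real.norm_of_nonneg p1.le, div_le_iff₀ p1,
    mul_assoc, ← e2]
  generalize ∫ t in (2 : ℝ)..x, ((-1 / 6 * t ^ (-1 / 6 - 1 : ℝ) : ℝ) : ℂ) * fps c t = J at h5 ⊢
  have e5 : ((x ^ (-1 / 6 : ℝ) : ℝ) : ℂ) * fps c x - J - ((x ^ (5 / 6 : ℝ) : ℝ) : ℂ) * (6 / 5) =
      ((x ^ (-1 / 6 : ℝ) : ℝ) : ℂ) * (fps c x - x) -
        (J - ((-1 / 5 * (x ^ (5 / 6 : ℝ) - 2 ^ (5 / 6 : ℝ)) : ℝ) : ℂ)) -
        ((1 / 5 * 2 ^ (5 / 6 : ℝ) : ℝ) : ℂ) := by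
    rw [e1]
    push_cast
    ring
  rw [e5]
  refine (norm_sub_le _ _).trans ((add_le_add_left (norm_sub_le _ _) _).trans ?_)
  rw [norm_mul, Complex.norm_real, Complex.norm_real, Real.norm_of_nonneg (by positivity),
    Real.norm_of_nonneg (by positivity)]
  have h7 := mul_le_mul_of_nonneg_left p4 (by positivity : 0 ≤ C / 6)
  nlinarith

end Vale.Agent.P006
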