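import Vale.Agent.P006.Defs
import Vale.Agent.P006.FAb

/-! # P006 part F1: from the dyadic prime sum to the asymptotic over primary primes -/

namespace Vale.Agent.P006

open Vale.Agent.P026 Filter Finset
open scoped Topology

theorem f1_mem {X : ℝ} {p : O} : p ∈ prb X ↔ PP p ∧ (nm p : ℝ) ≤ X := by
  classical
  rw [prb, mem_filter, mem_ball, and_comm]

theorem f1_memq {X : ℝ} {p : O} : p ∈ qball X ↔ Sq p ∧ (nm p : ℝ) ≤ X := by
  classical
  rw [qball, mem_filter, mem_ball, and_comm]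

theorem f1_sq {p : O} (h : PP p) : Sq p := ⟨h.2, h.1.squarefree⟩

/-- the contribution of the primes of norm `k` -/
noncomputable def fc (w : O → ℂ) (k : ℕ) : ℂ := ∑ p ∈ (prb k).filter fun p => nm p = k, w p

theorem fc_small (w : O → ℂ) {k : ℕ} (hk : k < 2) : fc w k = 0 :=
  sum_eq_zero fun p hp => by
    have h1 := SymAux.two_le_nm (f1_mem.1 (mem_filter.1 hp).1).1.1
    have h2 := (mem_filter.1 hp).2
    omega

theorem fps_fc (f : ℕ → ℂ) (w : O → ℂ) {x : ℝ} (hx : 0 ≤ x) :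
    fps (fun k => f k * fc w k) x = ∑ p ∈ prb x, f (nm p) * w p := by
  rw [← sum_fiberwise_of_maps_to (s := prb x) (t := Icc 0 ⌊x⌋₊) (g := nm) fun p hp =>
    mem_Icc.2 ⟨Nat.zero_le _, Nat.le_floor (f1_mem.1 hp).2⟩]
  refine sum_congr rfl fun k hk => ?_
  have h1 : (k : ℝ) ≤ x := (Nat.le_floor_iff hx).1 (mem_Icc.1 hk).2
  change f k * fc w k = _
  rw [fc, mul_sum]
  refine sum_congr ?_ fun p hp => by rw [(mem_filter.1 hp).2]
  ext p
  simp only [mem_filter, f1_mem]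
  constructor
  · rintro ⟨⟨h2, h3⟩, h4⟩
    exact ⟨⟨h2, h3.trans h1⟩, h4⟩
  · rintro ⟨⟨h2, -⟩, h4⟩
    exact ⟨⟨h2, by rw [h4]⟩, h4⟩

theorem fps_fc' (w : O → ℂ) {x : ℝ} (hx : 0 ≤ x) : fps (fc w) x = ∑ p ∈ prb x, w p := by
  simpa using fps_fc (fun _ => 1) w hx

/-- the weight of the dyadic sum -/
noncomputable def fw (p : O) : ℂ := (Real.log (nm p) : ℝ) * (gl p - kst * np p (-1 / 6))

theorem f1_S1 {x : ℝ} (hx : 0 ≤ x) :
    S1 (x / 2) x Lam = fps (fc fw) x - fps (fc fw) (x / 2) := by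
  classical
  have h1 : prb (x / 2) = (prb x).filter fun p => (nm p : ℝ) ≤ x / 2 := by
    ext p
    simp only [mem_filter, f1_mem]
    exact ⟨fun h => ⟨⟨h.1, by linarith [h.2]⟩, h.2⟩, fun h => ⟨h.1.1, h.2⟩⟩
  rw [fps_fc' _ hx, fps_fc' _ (by positivity), h1,
    ← sum_filter_add_sum_filter_not (prb x) fun p => (nm p : ℝ) ≤ x / 2, add_sub_cancel_left, S1]
  symm
  refine sum_subset_zero_on_sdiff (fun p hp => ?_) (fun p hp => ?_) fun p hp => ?_
  · have h2 := f1_mem.1 (mem_filter.1 hp).1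
    exact f1_memq.2 ⟨f1_sq h2.1, h2.2⟩
  · obtain ⟨h2, h3⟩ := mem_sdiff.1 hp
    by_cases h4 : PP p
    · rw [win, ind_of_not, mul_zero]
      exact fun h5 => h3 (mem_filter.2 ⟨f1_mem.2 ⟨h4, h5.2⟩, not_le.2 h5.1⟩)
    · rw [Lam, ind_of_not h4, zero_mul, zero_mul, zero_mul]
  · obtain ⟨h2, h3⟩ := mem_filter.1 hp
    have h4 := f1_mem.1 h2
    rw [Lam, aq, win, ind_of h4.1, ind_of (f1_sq h4.1), ind_of ⟨not_le.1 h3, h4.2⟩, fw]
    ring

theorem f1_A (h : MainStmt) :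
    Tendsto (fun x : ℝ => fps (fc fw) x / (x ^ (5 / 6 : ℝ) : ℝ)) atTop (𝓝 0) := by
  refine fab_dyadic (fab_bdd _) fun ε hε => ?_
  filter_upwards [h ε hε, eventually_ge_atTop 0] with x h1 hx
  rwa [← f1_S1 hx]

theorem f1_B (h : PNTStmt) :
    Tendsto (fun x : ℝ => fps (fun k => ((k : ℝ) ^ (-1 / 6 : ℝ) : ℝ) *
      fc (fun p => (Real.log (nm p) : ℝ)) k) x / (x ^ (5 / 6 : ℝ) : ℝ)) atTop (𝓝 (6 / 5)) := by
  obtain ⟨θ, C, hθ, hC, h⟩ := h
  refine fab_pow _ (fc_small _ (by norm_num)) (fc_small _ (by norm_num)) hθ hC.le fun u hu => ?_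
  rw [fps_fc' _ (by linarith), ← Complex.ofReal_sum, ← Complex.ofReal_sub, Complex.norm_real]
  exact h u hu

theorem pat (hM : MainStmt) (hP : PNTStmt) : PatStmt := by
  have h1 := (f1_A hM).add ((f1_B hP).const_mul (kst : ℂ))
  have h2 : Tendsto (fun x : ℝ => fps (fc fun p => (Real.log (nm p) : ℝ) * gl p) x /
      (x ^ (5 / 6 : ℝ) : ℝ)) atTop (𝓝 ((6 / 5 * kst : ℝ) : ℂ)) := by
    rw [show ((6 / 5 * kst : ℝ) : ℂ) = 0 + kst * (6 / 5) by push_cast; ring]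
    refine h1.congr' ?_
    filter_upwards [eventually_ge_atTop 0] with x hx
    rw [fps_fc' _ hx, fps_fc' _ hx, fps_fc (fun k => ((k : ℝ) ^ (-1 / 6 : ℝ) : ℝ)) _ hx,
      ← mul_div_assoc, ← add_div, mul_sum, ← sum_add_distrib]
    congr 1
    refine sum_congr rfl fun p _ => ?_
    have e : np p (-1 / 6) = (((nm p : ℝ) ^ (-1 / 6 : ℝ) : ℝ) : ℂ) := by
      rw [Complex.ofReal_cpow (by positivity), np]
      push_cast
      rfl
    rw [fw, e]
    ring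
  refine (fab_log _ (fc_small _ (by norm_num)) (fc_small _ (by norm_num)) h2).congr' ?_
  filter_upwards [eventually_ge_atTop 0] with x hx
  rw [fps_fc (fun k => ((Real.log k)⁻¹ : ℝ)) _ hx]
  congr 1
  refine sum_congr rfl fun p hp => ?_
  have h3 : (2 : ℝ) ≤ nm p := by exact_mod_cast SymAux.two_le_nm (f1_mem.1 hp).1.1
  have h4 : ((Real.log (nm p) : ℝ) : ℂ) ≠ 0 := by
    exact_mod_cast (Real.log_pos (by linarith)).ne'
  rw [Complex.ofReal_inv, inv_mul_cancel_left₀ h4]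

end Vale.Agent.P006
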