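import Vale.Agent.P006.F1

/-! # P006 part F2: Kummer sums are sums of two conjugate cubic Gauss sums -/

namespace Vale.Agent.P006

open Vale.Agent.P026 Finset
open scoped ComplexConjugate Real

theorem f2_field {K : Type*} [Field K] [Fintype K] {ζ : K} (hζ : IsPrimitiveRoot ζ 3) (χ : K → ℂ)
    (h0 : χ 0 = 0) (h1 : ∀ c, c ≠ 0 → χ (c ^ 3) = 1)
    (h2 : ∀ y, y ≠ 0 → (¬∃ c, c ^ 3 = y) → 1 + χ y + χ y ^ 2 = 0) (F : K → ℂ) :
    ∑ x, F (x ^ 3) = ∑ y, (1 + χ y + χ y ^ 2) * F y := by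
  classical
  rw [← sum_fiberwise' univ (fun x : K => x ^ 3) F]
  refine sum_congr rfl fun y _ => ?_
  rw [sum_const, nsmul_eq_mul]
  congr 1
  by_cases hy : y = 0
  · have : (univ.filter fun x : K => x ^ 3 = y) = {0} := by
      ext x
      simp [hy]
    rw [this, hy, h0]
    simp
  · have : (univ.filter fun x : K => x ^ 3 = y) = (Polynomial.nthRoots 3 y).toFinset := by
      ext x
      simp
    rw [this, Multiset.toFinset_card_of_nodup (hζ.nthRoots_nodup hy), hζ.card_nthRoots]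
    split_ifs with h
    · obtain ⟨c, rfl⟩ := h
      rw [h1 c fun hc => hy (by rw [hc]; simp)]
      norm_num
    · rw [h2 y hy h, Nat.cast_zero]

theorem f2_cube {K : Type*} [Field K] [Fintype K] {m : ℕ} (hm : Fintype.card K = 3 * m + 1)
    {y : K} (hy : y ≠ 0) (h : y ^ m = 1) : ∃ c, c ^ 3 = y := by
  classical
  obtain ⟨g, hg⟩ := IsCyclic.exists_monoid_generator (α := Kˣ)
  obtain ⟨k, hk⟩ := hg (Units.mk0 y hy)
  have h1 : orderOf g = 3 * m := by
    rw [orderOf_eq_card_of_forall_mem_powers hg, Nat.card_eq_fintype_card, Fintype.card_units, hm]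
    rfl
  have h2 : 1 < Fintype.card K := Fintype.one_lt_card
  have h3 : g ^ (k * m) = 1 := by
    have hk' : g ^ k = Units.mk0 y hy := hk
    rw [pow_mul, hk']
    exact Units.ext (by simpa using h)
  have h4 := orderOf_dvd_of_pow_eq_one h3
  rw [h1] at h4
  obtain ⟨j, rfl⟩ := Nat.dvd_of_mul_dvd_mul_right (by omega) h4
  refine ⟨(g ^ j : Kˣ), ?_⟩
  have hk' : g ^ (3 * j) = Units.mk0 y hy := hk
  rw [← Units.val_pow_eq_pow_val, ← pow_mul, mul_comm, hk', Units.val_mk0]

theorem f2_res_cube {p : O} (hp : PP p) {f : O → ℂ} (hf : Per p f) :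
    ∑ x ∈ res p, f (x ^ 3) = ∑ y ∈ res p, (1 + cub y p + cub y p ^ 2) * f y := by
  have : Fact (Prime p) := ⟨hp.1⟩
  have : Fact (Nat.Prime 3) := ⟨Nat.prime_three⟩
  have hl := hp.2.not_lam_dvd
  have hζ : IsPrimitiveRoot (red p om) 3 := by
    have h1 : orderOf (red p om) = 3 := by
      refine orderOf_eq_prime (by rw [← map_pow, om_cube, map_one]) fun h => ?_
      rw [← map_one (red p), red_eq_iff] at h
      exact absurd (SymAux.eq_of_cases hp.1 hl (by simp) (by simp) h) (by decide)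
    exact h1 ▸ IsPrimitiveRoot.orderOf _
  have hc : ∀ a, cub (red p a).out p = cub a p := fun a => cub_congr (dvd_out_sub p a)
  have hF : ∀ a, f (red p a).out = f a := fun a => hf _ _ (dvd_out_sub p a)
  have hm : Fintype.card (Fq p) = 3 * ((nm p - 1) / 3) + 1 := by
    have := hp.2.nm_mod
    rw [card_Fq]
    omega
  have h := f2_field hζ (fun y : Fq p => cub y.out p) ?_ ?_ ?_ fun y => f y.out
  · rw [← sum_res_quot, ← sum_res_quot] at h
    refine Eq.trans (sum_congr rfl fun x _ => ?_) (h.trans (sum_congr rfl fun x _ => ?_))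
    · rw [← hF, map_pow]
    · rw [hc, hF]
  · rw [← map_zero (red p), hc]
    exact cub_eq_zero_of_dvd hp.1 hp.2 (dvd_zero p)
  · intro c hc0
    obtain ⟨a, rfl⟩ := Ideal.Quotient.mk_surjective c
    rw [← map_pow, hc, cub_pow_left]
    exact cub_cube (coprime_of_not_dvd hp.1 fun h => hc0 (red_eq_zero.2 h))
  · intro y hy hn
    obtain ⟨a, rfl⟩ := Ideal.Quotient.mk_surjective y
    rw [hc]
    have h1 := cub_cube (coprime_of_not_dvd hp.1 fun h => hy (red_eq_zero.2 h))
    have h2 : cub a p - 1 ≠ 0 := fun h => by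
      refine hn (f2_cube hm hy ?_)
      have h3 : cubP a p = 1 := toC_injective (by
        rw [← cub_prime hp.1, map_one]
        exact sub_eq_zero.1 h)
      have h4 := cubP_dvd hp.1 hl a
      rw [h3] at h4
      rw [← map_pow, ← map_one (red p)]
      exact red_eq_iff.2 h4
    refine mul_left_cancel₀ h2 ?_
    linear_combination h1

section split

variable {p : O} {l : ℕ}

theorem f2_inj (hl : l.Prime) (hn : nm p = l) {i j : ℕ} (hi : i < l) (hj : j < l)
    (h : p ∣ (i : O) - j) : i = j := by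
  have h1 : p ∣ (((i : ℤ) - j : ℤ) : O) := by
    push_cast
    exact h
  have h2 := nm_dvd h1
  rw [hn, nm_intCast] at h2
  have h3 := Nat.eq_zero_of_dvd_of_lt (hl.dvd_of_dvd_pow h2) (by omega)
  omega

theorem f2_res (hp : Prime p) (hl : l.Prime) (hn : nm p = l) {f : O → ℂ} (hf : Per p f) :
    ∑ x ∈ res p, f x = ∑ n ∈ range l, f n := by
  have : Fact (Prime p) := ⟨hp⟩
  refine sum_res_eq hp.ne_zero hf _ (fun n : ℕ => (n : O)) fun x => ?_
  have h1 : Function.Bijective fun i : Fin l => red p (i : ℕ) :=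
    (Fintype.bijective_iff_injective_and_card _).2
      ⟨fun i j h => Fin.ext (f2_inj hl hn i.2 j.2 (red_eq_iff.1 h)), by
        rw [card_Fq, hn, Fintype.card_fin]⟩
  obtain ⟨i, hi⟩ := h1.2 (red p x)
  refine ⟨i, ⟨mem_range.2 i.2, red_eq_iff.1 hi.symm⟩, fun j hj => ?_⟩
  refine f2_inj hl hn (mem_range.1 hj.1) i.2 (red_eq_iff.1 ?_)
  exact (red_eq_iff.2 hj.2).symm.trans hi.symm

theorem f2_ne (hl : l.Prime) (hn : nm p = l) : star p ≠ p := by
  intro h
  have h1 := congrArg QuadraticAlgebra.im h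
  simp only [QuadraticAlgebra.im_star] at h1
  have h2 : p.im = 0 := by omega
  have h3 : l = p.re.natAbs * p.re.natAbs := by
    rw [← hn, nm, h2, ← Int.natAbs_mul]
    congr 1
    ring
  exact hl.not_isSquare ⟨_, h3⟩

theorem f2_star (hp : PP p) : PP (star p) := ⟨prime_star hp.1, hp.2.star⟩

theorem f2_nu (hp : PP p) (hl : l.Prime) (hn : nm p = l) :
    ∃ ν : O, ¬p ∣ ν ∧ g3 ν p = g3 lam p ∧
      ∀ n : ℕ, eq (ν * n) p = Complex.exp (2 * π * Complex.I * n / l) := by
  have h0 := hp.1.ne_zero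
  have e0 : p * star p = (l : O) := by rw [mul_star_self, hn]
  have e1 : ((2 * p.re - p.im : ℤ) : O) = p + star p := by
    ext
    · change 2 * p.re - p.im = p.re + (p.re + -1 * p.im)
      ring
    · change 0 = p.im + -p.im
      ring
  have h1 : ¬(l : ℤ) ∣ 2 * p.re - p.im := fun h => by
    have h2 : (l : O) ∣ p + star p := by
      rw [← e1]
      exact_mod_cast Int.cast_dvd_cast (α := O) _ _ h
    have h3 : p ∣ star p := (dvd_add_right dvd_rfl).1 ((e0 ▸ dvd_mul_right p (star p)).trans h2)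
    exact f2_ne hl hn (prim_eq_of_dvd hp.1 hp.2 (f2_star hp).1 (f2_star hp).2 h3).symm
  obtain ⟨a, u, hau⟩ := ((Nat.prime_iff_prime_int.1 hl).coprime_iff_not_dvd).2 h1
  have e2 : (a : O) * (p * star p) + u * (p + star p) = 1 := by
    rw [e0, ← e1]
    exact_mod_cast congrArg (Int.cast : ℤ → O) hau
  have h2 : IsCoprime (u : O) p := ⟨p + star p, a * star p, by linear_combination e2⟩
  have h3 : cub u p = 1 := by
    have h4 : cub (u * star p) p = cub 1 p :=
      cub_congr ⟨-(a * star p + u), by linear_combination e2⟩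
    rwa [cub_mul_left, recip_conj hp.1 hp.2 (f2_ne hl hn), mul_one, cub_one_left] at h4
  refine ⟨lam * u, fun h => ?_, by rw [g3_twist h0 h2, h3, map_one, one_mul], fun n => ?_⟩
  · exact not_coprime_of_dvd hp.1 h ((coprime_lam hp.2).mul_left h2)
  · have e3 : (lam * u * n * star p).im = n + -(a * n) * l := by
      have e4 : (lam * u * n * star p).im = u * (2 * p.re - p.im) * n := by
        simp [lam]
        ring
      rw [e4]
      linear_combination (n : ℤ) * hau
    have l0 : (l : ℂ) ≠ 0 := by exact_mod_cast hl.ne_zero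
    rw [eq_def h0, e3, hn, ← mul_one (Complex.exp (2 * π * Complex.I * n / l)),
      ← Complex.exp_int_mul_two_pi_mul_I (-(a * n)), ← Complex.exp_add]
    congr 1
    push_cast
    field_simp

theorem f2_g3 (hp : PP p) (hl : l.Prime) (hn : nm p = l) :
    g3 lam p = ∑ n ∈ range l, cub n p * Complex.exp (2 * π * Complex.I * n / l) := by
  obtain ⟨ν, -, h1, h2⟩ := f2_nu hp hl hn
  rw [← h1, g3, f2_res hp.1 hl hn ((per_cub p).mul_eq ν)]
  exact sum_congr rfl fun n _ => by rw [h2]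

theorem f2_S (hp : PP p) (hl : l.Prime) (hn : nm p = l) :
    ∑ x ∈ range l, Complex.exp (2 * π * Complex.I * (x : ℂ) ^ 3 / l) =
      g3 lam p + g3 lam (star p) := by
  obtain ⟨ν, h0, h1, h2⟩ := f2_nu hp hl hn
  have hper : Per p fun y => eq (ν * y) p := fun x y h =>
    eq_congr (by rw [← mul_sub]; exact h.mul_left ν)
  have h3 := f2_res_cube hp hper
  have h4 : Per p fun x => eq (ν * x ^ 3) p := fun x y h => hper _ _ (SymAux.pow_congr h 3)
  have h5 : Per p fun y => cub y p ^ 2 * eq (ν * y) p :=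
    Per.mul_eq (fun x y h => by rw [cub_congr h]) ν
  simp only [add_mul, one_mul, sum_add_distrib] at h3
  rw [sum_eq hp.1.ne_zero, ind_of_not h0, zero_mul, zero_add, f2_res hp.1 hl hn h4,
    f2_res hp.1 hl hn h5] at h3
  rw [← h1, f2_g3 (f2_star hp) hl (by rw [nm_star, hn])]
  refine Eq.trans (sum_congr rfl fun x _ => ?_) (h3.trans (congrArg _ (sum_congr rfl fun n _ => ?_)))
  · rw [← Nat.cast_pow x 3, ← Nat.cast_pow x 3, h2]
  · rw [h2, ← conj_cub, ← cub_star, star_natCast]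

theorem f2_exists (hl : l.Prime) (h3 : l % 3 = 1) : ∃ p, PP p ∧ nm p = l := by
  have : Fact l.Prime := ⟨hl⟩
  have : Fact (Nat.Prime 3) := ⟨Nat.prime_three⟩
  have h2 := hl.two_le
  obtain ⟨g, hg⟩ := exists_prime_orderOf_dvd_card (G := (ZMod l)ˣ) 3 (by
    rw [ZMod.card_units]
    omega)
  obtain ⟨x, hx⟩ := ZMod.intCast_surjective (g : ZMod l)
  have h4 : (g : ZMod l) ^ 3 = 1 := by
    rw [← Units.val_pow_eq_pow_val, ← hg, pow_orderOf_eq_one, Units.val_one]
  have h5 : (g : ZMod l) - 1 ≠ 0 := fun h => by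
    rw [Units.ext (sub_eq_zero.1 h : (g : ZMod l) = (1 : (ZMod l)ˣ)), orderOf_one] at hg
    omega
  have h6 : (l : ℤ) ∣ x ^ 2 + x + 1 := by
    rw [← ZMod.intCast_zmod_eq_zero_iff_dvd]
    push_cast
    rw [hx]
    refine mul_left_cancel₀ h5 ?_
    linear_combination h4
  have h7 : ¬Prime (l : O) := fun h => by
    have e : (⟨x, -1⟩ : O) * ⟨x + 1, 1⟩ = ((x ^ 2 + x + 1 : ℤ) : O) := by
      ext
      · rw [QuadraticAlgebra.re_intCast, QuadraticAlgebra.re_mul]
        push_cast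
        ring
      · rw [QuadraticAlgebra.im_intCast, QuadraticAlgebra.im_mul]
        ring
    have h8 : ((l : ℤ) : O) ∣ (⟨x, -1⟩ : O) * ⟨x + 1, 1⟩ := e ▸ Int.cast_dvd_cast _ _ h6
    rw [Int.cast_natCast] at h8
    rcases h.dvd_or_dvd h8 with h9 | h9 <;> rw [← Int.cast_natCast, dvd_iff_int] at h9
    · have := Int.le_of_dvd one_pos (dvd_neg.1 h9.2)
      omega
    · have := Int.le_of_dvd one_pos h9.2
      omega
  have l0 : (l : O) ≠ 0 := by exact_mod_cast hl.ne_zero
  have l1 : ¬IsUnit (l : O) := fun h => by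
    rw [isUnit_iff_nm, nm_natCast] at h
    nlinarith
  obtain ⟨q, hq, hql⟩ := WfDvdMonoid.exists_irreducible_factor l1 l0
  obtain ⟨l', hl', -, h8⟩ := nm_prime hq.prime
  have h9 := nm_dvd hql
  rw [nm_natCast] at h9
  have h10 : l' = l := by
    refine (Nat.prime_dvd_prime_iff_eq hl' hl).1 (hl'.dvd_of_dvd_pow (n := 2) ?_)
    rcases h8 with h8 | h8
    · rwa [h8] at h9
    · exact (dvd_pow_self l' two_ne_zero).trans (h8.1 ▸ h9)
  subst h10
  rcases h8 with h8 | h8
  · obtain ⟨u, c, hu, hc, rfl⟩ := exists_prim (n := q) fun h => by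
      have := nm_dvd h
      rw [nm_lam, h8] at this
      omega
    rw [nm_mul, isUnit_iff_nm.1 hu, one_mul] at h8
    exact ⟨c, ⟨(irreducible_of_nm_prime (h8 ▸ hl)).prime, hc⟩, h8⟩
  · exact absurd (h8.2.prime hq.prime) h7

theorem f2_fc (hl : l.Prime) (h3 : l % 3 = 1) :
    fc gl l = (∑ x ∈ range l, Complex.exp (2 * π * Complex.I * (x : ℂ) ^ 3 / l)) / (√l : ℝ) := by
  classical
  obtain ⟨p, hp, hn⟩ := f2_exists hl h3
  have h1 : ((prb l).filter fun q => nm q = l) = {star p, p} := by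
    ext q
    rw [mem_filter, f1_mem, mem_insert, mem_singleton]
    constructor
    · rintro ⟨⟨h2, -⟩, h4⟩
      have h5 : q ∣ p * star p := by
        rw [mul_star_self, hn, ← h4, ← mul_star_self]
        exact dvd_mul_right _ _
      rcases h2.1.dvd_or_dvd h5 with h6 | h6
      · exact Or.inr (prim_eq_of_dvd h2.1 h2.2 hp.1 hp.2 h6)
      · exact Or.inl (prim_eq_of_dvd h2.1 h2.2 (f2_star hp).1 (f2_star hp).2 h6)
    · rintro (rfl | rfl)
      · exact ⟨⟨f2_star hp, by rw [nm_star, hn]⟩, by rw [nm_star, hn]⟩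
      · exact ⟨⟨hp, by rw [hn]⟩, hn⟩
  rw [fc, h1, sum_pair (f2_ne hl hn), f2_S hp hl hn, gl, gl, nm_star, hn, add_div, add_comm]

end split

end Vale.Agent.P006
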