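import Vale.Agent.P006.IDefs

/-! I2 (TASK): asymptotics of the model sum.
* `i_musq`: write `c = l ^ 2 * a`, `a` squarefree (`exists_sq_mul_sqf`), `l` primary up to a unit (`exists_prim`); for squarefree `δ`,
  `δ ^ 2 ∣ c ↔ δ ∣ l` (`Squarefree.dvd_of_squarefree_of_mul_dvd_mul_right`, `Squarefree.dvd_pow_iff_dvd`), else `mu δ = 0`; `sum_mu_pdiv`.
* `i_twist`: unfold both sides (`mellinInv_def`): the left side is `y ^ (-1/6) * mellinInv (11/6) ϕ y`; then `mellinInv_shift` with `CT.dec`.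
* `i_sieve`: `H (δ, c) = ind (Prim δ ∧ δ ^ 2 ∣ c) * mu δ * ind (Prim c) * F c` is summable on `O × O` (`summable_prod_of_nonneg` for the norm, with
  `c` first: finitely many `δ`, total `≤ tau c ‖F c‖ ≤ C N c ^ (-3/2)`); `Summable.tsum_comm`; `Function.Injective.tsum_eq` for `c ↦ δ ^ 2 * c`.
* `i_model`: `np c (-1/6) * mellinInv 2 ϕ (N c / y) = y ^ (-1/6) * mellinInv 2 ψ (N c / y)`, `ψ s = ϕ (s - 1/6)`.  For every primary `δ` use `LC` (first
  form, `q = r`, `x = y / N δ ^ 2`, `M = 1 / T`; `ψ 1 = ϕ (5/6)`): error `C tau r (y / N δ ^ 2) ^ (3/5) T`, summable in `δ` (`sum_rpow_le_const`);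
  the main terms are `c0 / 9 * phiS r * ϕ (5/6) * y * mu δ ind (..) / N δ ^ 2`, and those with `N δ > D` total `≤ C y / D` (`sum_rpow_tail`,
  `Sq.norm_phiS`, `‖ϕ (5/6)‖ ≤ 1`; `Summable.sum_add_tsum_compl` or `tsum_of_norm_bounded`).  `-1/6 + 3/5 = 13/30`. -/

namespace Vale.Agent.P006

open Vale.Agent.P026 Filter
open scoped ComplexConjugate Real

theorem i_musq {c : O} (hc : Prim c) :
    ∑ δ ∈ pdiv c, mu δ * ind (δ ^ 2 ∣ c) = ind (Squarefree c) := by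
  obtain ⟨a, l, hk, ha⟩ := exists_sq_mul_sqf hc.ne_zero
  have hlc : l ∣ c := ⟨l * a, by rw [← hk]; ring⟩
  obtain ⟨u, m, hu, hm, rfl⟩ := exists_prim fun h => hc.not_lam_dvd (h.trans hlc)
  have hm2 : m ^ 2 ∣ c := ⟨u ^ 2 * a, by rw [← hk]; ring⟩
  have hsub : pdiv m ⊆ pdiv c := fun e he =>
    (mem_pdiv hc.ne_zero).2 ⟨((mem_pdiv hm.ne_zero).1 he).1,
      ((mem_pdiv hm.ne_zero).1 he).2.trans ((dvd_mul_left m u).trans hlc)⟩
  have e1 : ∑ δ ∈ pdiv c, mu δ * ind (δ ^ 2 ∣ c) = ∑ δ ∈ pdiv m, mu δ := by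
    rw [← Finset.sum_subset hsub]
    · refine Finset.sum_congr rfl fun e he => ?_
      rw [ind_of ((pow_dvd_pow_of_dvd ((mem_pdiv hm.ne_zero).1 he).2 2).trans hm2), mul_one]
    · intro e he hne
      by_cases hs : Squarefree e
      · rw [ind_of_not, mul_zero]
        intro hd
        refine hne ((mem_pdiv hm.ne_zero).2 ⟨((mem_pdiv hc.ne_zero).1 he).1, ?_⟩)
        have h1 : e * e ∣ a * (u * m) ^ 2 := by rw [← sq, mul_comm, hk]; exact hd
        have h2 := (hs.dvd_pow_iff_dvd two_ne_zero).1 (ha.dvd_of_squarefree_of_mul_dvd_mul_right h1)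
        exact (hu.dvd_mul_left).1 h2
      · rw [mu_eq_zero hs, zero_mul]
  rw [e1, sum_mu_pdiv hm]
  congr 1
  refine propext ⟨fun h => ?_, fun h => hm.eq_one_of_isUnit (h m (by rw [← sq]; exact hm2))⟩
  rw [← hk, h, mul_one]
  exact (associated_unit_mul_left a _ (hu.pow 2)).squarefree_iff.2 ha

theorem i_twist {T y : ℝ} {ϕ : ℂ → ℂ} (hT : 0 < T) (h : CT T ϕ) (hy : 0 < y) :
    mellinInv 2 (fun s => ϕ (s - 1 / 6)) y = (y ^ (-1 / 6 : ℝ) : ℝ) * mellinInv 2 ϕ y := by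
  rw [mellinInv_shift (σ := 2) (σ' := 11 / 6) (h.dec hT) (h.holS _ _) (by norm_num) (by norm_num)
    (by norm_num) (by norm_num) hy, mellinInv_def, mellinInv_def, mul_left_comm,
    ← MeasureTheory.integral_const_mul ((y ^ (-1 / 6 : ℝ) : ℝ) : ℂ)]
  congr 2
  ext t
  have hy' : (y : ℂ) ≠ 0 := by exact_mod_cast hy.ne'
  have e1 : (((2 : ℝ) : ℂ) + t * Complex.I) - 1 / 6 = ((11 / 6 : ℝ) : ℂ) + t * Complex.I := by
    push_cast; ring
  have e2 : -(((2 : ℝ) : ℂ) + t * Complex.I) =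
      ((-1 / 6 : ℝ) : ℂ) + -(((11 / 6 : ℝ) : ℂ) + t * Complex.I) := by
    push_cast; ring
  rw [e1, e2, Complex.cpow_add _ _ hy', Complex.ofReal_cpow hy.le, mul_assoc]

theorem i_sieve {F : O → ℂ} {A : ℝ} (hF : ∀ n, ‖F n‖ ≤ A * (nm n : ℝ) ^ (-2 : ℝ)) :
    HasSum (fun δ : O => ind (Prim δ) * mu δ * ∑' c : O, ind (Prim c) * F (δ ^ 2 * c))
      (∑' c : O, ind (Sq c) * F c) := by
  have hA : 0 ≤ A := by simpa using (norm_nonneg _).trans (hF 1)
  set H : O → O → ℂ := fun δ c => ind (Prim δ ∧ δ ^ 2 ∣ c ∧ Prim c) * (mu δ * F c) with hH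
  have hs := summable_rpow (σ := 4 / 3) (by norm_num)
  have hsum : Summable (Function.uncurry H) := by
    refine Summable.of_norm_bounded (g := fun p : O × O =>
      (A * (nm p.1 : ℝ) ^ (-(4 / 3) : ℝ)) * (nm p.2 : ℝ) ^ (-(4 / 3) : ℝ))
      ((hs.mul_left A).mul_of_nonneg hs (fun _ => by positivity) fun _ => by positivity) ?_
    rintro ⟨δ, c⟩
    simp only [Function.uncurry, hH]
    by_cases hp : Prim δ ∧ δ ^ 2 ∣ c ∧ Prim c
    · have h1 : (0 : ℝ) < nm δ := by exact_mod_cast nm_pos hp.1.ne_zero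
      have h2 : (0 : ℝ) < nm c := by exact_mod_cast nm_pos hp.2.2.ne_zero
      have h3 : (nm δ : ℝ) ^ 2 ≤ nm c := by
        have := nm_le_of_dvd hp.2.2.ne_zero hp.2.1
        rw [nm_pow] at this
        exact_mod_cast this
      have h4 : (nm c : ℝ) ^ (-(2 / 3) : ℝ) ≤ (nm δ : ℝ) ^ (-(4 / 3) : ℝ) := by
        refine (Real.rpow_le_rpow_of_nonpos (by positivity) h3 (by norm_num)).trans (le_of_eq ?_)
        rw [← Real.rpow_two, ← Real.rpow_mul h1.le]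
        norm_num
      have h5 : (nm c : ℝ) ^ (-2 : ℝ) =
          (nm c : ℝ) ^ (-(2 / 3) : ℝ) * (nm c : ℝ) ^ (-(4 / 3) : ℝ) := by
        rw [← Real.rpow_add h2]; norm_num
      rw [ind_of hp, one_mul, norm_mul]
      calc ‖mu δ‖ * ‖F c‖ ≤ 1 * (A * (nm c : ℝ) ^ (-2 : ℝ)) :=
            mul_le_mul (norm_mu_le δ) (hF c) (norm_nonneg _) zero_le_one
        _ = A * (nm c : ℝ) ^ (-(2 / 3) : ℝ) * (nm c : ℝ) ^ (-(4 / 3) : ℝ) := by rw [h5]; ring
        _ ≤ _ := by gcongr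
    · rw [ind_of_not hp, zero_mul, norm_zero]; positivity
  have e1 : ∀ δ : O, ind (Prim δ) * mu δ * ∑' c : O, ind (Prim c) * F (δ ^ 2 * c) =
      ∑' c, H δ c := by
    intro δ
    by_cases hp : Prim δ
    · have hi : Function.Injective fun c : O => δ ^ 2 * c :=
        mul_right_injective₀ (pow_ne_zero 2 hp.ne_zero)
      rw [← hi.tsum_eq (f := H δ), ← tsum_mul_left]
      · refine tsum_congr fun c => ?_
        have : (Prim δ ∧ δ ^ 2 ∣ δ ^ 2 * c ∧ Prim (δ ^ 2 * c)) ↔ Prim c :=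
          ⟨fun h => (hp.pow 2).of_mul h.2.2, fun h => ⟨hp, dvd_mul_right _ _, (hp.pow 2).mul h⟩⟩
        simp only [hH, this, ind_of hp]
        ring
      · intro c hc
        by_contra hn
        refine hc ?_
        simp only [hH]
        rw [ind_of_not, zero_mul]
        rintro ⟨-, ⟨d, hd⟩, -⟩
        exact hn ⟨d, hd.symm⟩
    · have : ∀ c, H δ c = 0 := fun c => by
        simp only [hH]
        rw [ind_of_not fun h => hp h.1, zero_mul]
      simp only [this, ind_of_not hp, zero_mul, tsum_zero]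
  have e2 : ∀ c : O, ind (Sq c) * F c = ∑' δ, H δ c := by
    intro c
    by_cases hc : Prim c
    · rw [tsum_eq_sum (s := pdiv c)]
      · have : Sq c ↔ Squarefree c := ⟨fun h => h.2, fun h => ⟨hc, h⟩⟩
        rw [this, ← i_musq hc, Finset.sum_mul]
        refine Finset.sum_congr rfl fun δ hδ => ?_
        have h2 : (Prim δ ∧ δ ^ 2 ∣ c ∧ Prim c) ↔ δ ^ 2 ∣ c :=
          ⟨fun h => h.2.1, fun h => ⟨((mem_pdiv hc.ne_zero).1 hδ).1, h, hc⟩⟩
        simp only [hH, h2]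
        ring
      · intro δ hδ
        simp only [hH]
        rw [ind_of_not, zero_mul]
        exact fun h => hδ ((mem_pdiv hc.ne_zero).2 ⟨h.1, (dvd_pow_self δ two_ne_zero).trans h.2.1⟩)
    · have : ∀ δ, H δ c = 0 := fun δ => by
        simp only [hH]
        rw [ind_of_not fun h => hc h.2.2, zero_mul]
      simp only [this, ind_of_not fun h : Sq c => hc h.1, zero_mul, tsum_zero]
  simp only [e1, e2]
  rw [hsum.tsum_comm]
  exact hsum.prod.hasSum

theorem isq_norm_le {f : O → ℂ} {a : ℂ} {B : ℝ} (h : HasSum f a)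
    (hB : ∀ s : Finset O, ∑ n ∈ s, ‖f n‖ ≤ B) : ‖a‖ ≤ B :=
  le_of_tendsto' (Filter.Tendsto.norm h) fun s => (norm_sum_le _ _).trans (hB s)

theorem isq_np (n : O) : np n (-1 / 6) = ((nm n : ℝ) ^ (-1 / 6 : ℝ) : ℝ) := by
  rw [← np_real]; push_cast; rfl

theorem isq_np_le (n : O) : ‖np n (-1 / 6)‖ ≤ 1 := by
  rw [isq_np, Complex.norm_real, Real.norm_of_nonneg (by positivity)]
  rcases eq_or_ne n 0 with rfl | hn
  · rw [nm_zero, Nat.cast_zero, Real.zero_rpow (by norm_num)]; exact zero_le_one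
  · exact Real.rpow_le_one_of_one_le_of_nonpos (one_le_nm hn) (by norm_num)

theorem isq_term {T y : ℝ} {ϕ : ℂ → ℂ} (hT : 0 < T) (h : CT T ϕ) (hy : 0 < y) (r : O) {δ : O}
    (hδ : Prim δ) (c : O) :
    ind (Prim c) * (ind (IsCoprime (δ ^ 2 * c) r) * np (δ ^ 2 * c) (-1 / 6) *
      mellinInv 2 ϕ (nm (δ ^ 2 * c) / y)) =
    ind (IsCoprime δ r) * (y ^ (-1 / 6 : ℝ) : ℝ) * (ind (Prim c ∧ IsCoprime c r) *
      mellinInv 2 (fun s => ϕ (s - 1 / 6)) (nm c / (y / (nm δ : ℝ) ^ 2))) := by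
  by_cases hc : Prim c
  · have h1 : (0 : ℝ) < nm δ := by exact_mod_cast nm_pos hδ.ne_zero
    have h2 : (0 : ℝ) < nm (δ ^ 2 * c) := by exact_mod_cast nm_pos ((hδ.pow 2).mul hc).ne_zero
    have e1 : (nm c : ℝ) / (y / (nm δ : ℝ) ^ 2) = nm (δ ^ 2 * c) / y := by
      rw [nm_mul, nm_pow]; push_cast; field_simp
    have e2 : IsCoprime (δ ^ 2 * c) r ↔ IsCoprime δ r ∧ IsCoprime c r := by
      rw [IsCoprime.mul_left_iff, IsCoprime.pow_left_iff two_pos]
    have e3 : (nm (δ ^ 2 * c) : ℝ) ^ (-1 / 6 : ℝ) =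
        y ^ (-1 / 6 : ℝ) * ((nm (δ ^ 2 * c) : ℝ) / y) ^ (-1 / 6 : ℝ) := by
      rw [← Real.mul_rpow hy.le (by positivity), mul_div_cancel₀ _ hy.ne']
    rw [e1, i_twist hT h (by positivity), e2, ind_and, ind_and, isq_np, e3]
    push_cast; ring
  · rw [ind_of_not hc, ind_of_not fun h : Prim c ∧ IsCoprime c r => hc h.1]
    ring

theorem i_model (hLC : LCStmt) : ∃ C : ℝ, 0 < C ∧ ∀ (r : O) (T y D : ℝ) (ϕ : ℂ → ℂ), Sq r → 1 ≤ T →
    0 < y → 1 ≤ D → CT T ϕ →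
      ‖iM r ϕ y - (c0 / 9 * y ^ (5 / 6 : ℝ) : ℝ) * phiS r * ϕ (5 / 6) * iSS r D‖ ≤
        C * (tau r * y ^ (13 / 30 : ℝ) * T + y ^ (5 / 6 : ℝ) / D) := by
  classical
  obtain ⟨C₁, hC₁, hL⟩ := hLC
  obtain ⟨C₂, hC₂, h2⟩ := sum_rpow_le_const (σ := 6 / 5) (by norm_num)
  obtain ⟨C₃, hC₃, h3⟩ := sum_rpow_tail (σ := 2) (by norm_num)
  have hc0 := c0_pos
  refine ⟨C₁ * C₂ + c0 / 9 * C₃, by positivity, fun r T y D ϕ hr hT hy hD h => ?_⟩
  have hT0 : 0 < T := by linarith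
  have hτ := tau_nonneg r
  set ψ : ℂ → ℂ := fun s => ϕ (s - 1 / 6) with hψ
  set K : ℂ := (c0 / 9 * y ^ (5 / 6 : ℝ) : ℝ) * phiS r * ϕ (5 / 6) with hK
  have hϕ : ‖ϕ (5 / 6)‖ ≤ 1 := by
    have := h.2 (5 / 6) (by norm_num) (by norm_num)
    refine this.trans (mul_le_one₀ (div_le_one_of_le₀ hT hT0.le) (Real.exp_pos _).le ?_)
    rw [Real.exp_le_one_iff, neg_nonpos]; positivity
  have hKn : ‖K‖ ≤ c0 / 9 * y ^ (5 / 6 : ℝ) := by
    rw [hK, mul_assoc, norm_mul, Complex.norm_real, Real.norm_of_nonneg (by positivity), norm_mul]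
    exact mul_le_of_le_one_right (by positivity) (mul_le_one₀ hr.norm_phiS (norm_nonneg _) hϕ)
  have hS := i_sieve (F := fun c => ind (IsCoprime c r) * np c (-1 / 6) * mellinInv 2 ϕ (nm c / y))
    (i_norm_le hT0 h hy (a := fun c => ind (IsCoprime c r) * np c (-1 / 6)) (A := 1) fun c => by
      rw [norm_mul]; exact mul_le_one₀ (norm_ind_le _) (norm_nonneg _) (isq_np_le c))
  have e0 : ∑' c : O, ind (Sq c) * (ind (IsCoprime c r) * np c (-1 / 6) *
      mellinInv 2 ϕ (nm c / y)) = iM r ϕ y :=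
    tsum_congr fun c => by rw [ind_and]; ring
  rw [e0] at hS
  have hM : HasSum (fun δ : O => K * (if δ ∈ pball D then
      mu δ * ind (IsCoprime δ r) / (nm δ : ℂ) ^ 2 else 0)) (K * iSS r D) := by
    refine HasSum.mul_left K ?_
    have := hasSum_sum_of_ne_finset_zero (L := SummationFilter.unconditional O) (s := pball D)
      (f := fun δ : O => if δ ∈ pball D then mu δ * ind (IsCoprime δ r) / (nm δ : ℂ) ^ 2 else 0)
      fun δ hδ => if_neg hδ
    rwa [Finset.sum_congr rfl fun δ hδ => if_pos hδ] at this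
  have hψ1 : ψ 1 = ϕ (5 / 6) := by simp only [hψ]; norm_num
  have hd : DifferentiableOn ℂ ψ {s | 1 / 2 < s.re} :=
    (h.1.comp (differentiable_id.sub_const _)).differentiableOn
  have hb : ∀ w : ℂ, 3 / 5 ≤ w.re → w.re ≤ 2 →
      ‖ψ w‖ ≤ 1 / T * Real.exp (-(w.im ^ 2 / (8 * T ^ 2))) := by
    intro w h1 h2
    have a1 : (w - 1 / 6).re = w.re - 1 / 6 := by simp
    have a2 : (w - 1 / 6).im = w.im := by simp
    have := h.2 (w - 1 / 6) (by rw [a1]; linarith) (by rw [a1]; linarith)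
    rwa [a2] at this
  set E : ℝ := tau r * y ^ (13 / 30 : ℝ) * T with hE
  have hE0 : 0 ≤ E := by positivity
  have key : ∀ δ : O, ‖ind (Prim δ) * mu δ * ∑' c : O, ind (Prim c) *
      (ind (IsCoprime (δ ^ 2 * c) r) * np (δ ^ 2 * c) (-1 / 6) *
        mellinInv 2 ϕ (nm (δ ^ 2 * c) / y)) - K * (if δ ∈ pball D then
      mu δ * ind (IsCoprime δ r) / (nm δ : ℂ) ^ 2 else 0)‖ ≤
      C₁ * E * (nm δ : ℝ) ^ (-(6 / 5) : ℝ) +
        c0 / 9 * y ^ (5 / 6 : ℝ) * (if D < nm δ then (nm δ : ℝ) ^ (-2 : ℝ) else 0) := by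
    intro δ
    have p0 : 0 ≤ (if D < nm δ then (nm δ : ℝ) ^ (-2 : ℝ) else 0) := by
      split_ifs <;> positivity
    by_cases hδ : Prim δ
    swap
    · rw [ind_of_not hδ, if_neg fun hm => hδ (mem_pball.1 hm).1, zero_mul, zero_mul, mul_zero,
        sub_zero, norm_zero]
      positivity
    have h1 : (0 : ℝ) < nm δ := by exact_mod_cast nm_pos hδ.ne_zero
    have h1c : (nm δ : ℂ) ≠ 0 := KBasic_nm_ne hδ.ne_zero
    have hx : 0 < y / (nm δ : ℝ) ^ 2 := by positivity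
    have hl := (hL r ψ _ (1 / T) T hr hx hT hd hb).1
    simp only [isq_term hT0 h hy r hδ]
    rw [tsum_mul_left, ind_of hδ, one_mul]
    rw [hψ1] at hl
    set S := ∑' c : O, ind (Prim c ∧ IsCoprime c r) *
      mellinInv 2 ψ (nm c / (y / (nm δ : ℝ) ^ 2)) with hSd
    set m : ℂ := mu δ * ind (IsCoprime δ r) with hm
    have hmn : ‖m‖ ≤ 1 := by
      rw [hm, norm_mul]; exact mul_le_one₀ (norm_mu_le _) (norm_nonneg _) (norm_ind_le _)
    have y1 : y ^ (5 / 6 : ℝ) = y ^ (-1 / 6 : ℝ) * y := by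
      rw [← Real.rpow_add_one hy.ne']; norm_num
    have e : mu δ * (ind (IsCoprime δ r) * (y ^ (-1 / 6 : ℝ) : ℝ) * S) -
        K * (if δ ∈ pball D then m / (nm δ : ℂ) ^ 2 else 0) =
        m * ((y ^ (-1 / 6 : ℝ) : ℝ) * (S - (c0 / 9 : ℝ) * phiS r * ϕ (5 / 6) *
          (y / (nm δ : ℝ) ^ 2 : ℝ))) +
        K * (if δ ∈ pball D then 0 else m / (nm δ : ℂ) ^ 2) := by
      rw [hK, hm, y1]
      split_ifs <;> push_cast <;> ring
    rw [e]
    refine (norm_add_le _ _).trans (add_le_add ?_ ?_)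
    · rw [norm_mul m, norm_mul ((y ^ (-1 / 6 : ℝ) : ℝ) : ℂ), Complex.norm_real,
        Real.norm_of_nonneg (by positivity)]
      refine (mul_le_of_le_one_left (by positivity) hmn).trans
        ((mul_le_mul_of_nonneg_left hl (by positivity)).trans (le_of_eq ?_))
      have y2 : y ^ (13 / 30 : ℝ) = y ^ (-1 / 6 : ℝ) * y ^ (3 / 5 : ℝ) := by
        rw [← Real.rpow_add hy]; norm_num
      have y3 : ((nm δ : ℝ) ^ 2) ^ (3 / 5 : ℝ) = ((nm δ : ℝ) ^ (-(6 / 5) : ℝ))⁻¹ := by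
        rw [← Real.rpow_two, ← Real.rpow_mul h1.le, Real.rpow_neg h1.le, inv_inv]; norm_num
      rw [hE, Real.div_rpow hy.le (by positivity), y2, y3]
      field_simp
    · rw [norm_mul]
      refine mul_le_mul hKn ?_ (norm_nonneg _) (by positivity)
      by_cases hm' : δ ∈ pball D
      · rw [if_pos hm', norm_zero]; exact p0
      · have : D < nm δ := not_le.1 fun hh => hm' (mem_pball.2 ⟨hδ, hh⟩)
        rw [if_neg hm', if_pos this, norm_div, norm_pow, Complex.norm_natCast,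
          Real.rpow_neg h1.le, Real.rpow_two, ← one_div]
        gcongr
  refine isq_norm_le (hS.sub hM) fun s => (Finset.sum_le_sum fun δ _ => key δ).trans ?_
  rw [Finset.sum_add_distrib, ← Finset.mul_sum, ← Finset.mul_sum, ← Finset.sum_filter]
  have b1 := h2 s
  have b2 := h3 D (s.filter fun δ => D < nm δ) (by linarith) fun n hn => (Finset.mem_filter.1 hn).2
  have d1 : D ^ (1 - 2 : ℝ) = 1 / D := by
    rw [show (1 - 2 : ℝ) = -1 by norm_num, Real.rpow_neg_one, one_div]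
  rw [d1] at b2
  have hY : 0 ≤ y ^ (5 / 6 : ℝ) / D := by positivity
  calc _ ≤ C₁ * E * C₂ + c0 / 9 * y ^ (5 / 6 : ℝ) * (C₃ * (1 / D)) := by gcongr
    _ = C₁ * C₂ * E + c0 / 9 * C₃ * (y ^ (5 / 6 : ℝ) / D) := by ring
    _ ≤ _ := by
      have q1 : 0 ≤ C₁ * C₂ * (y ^ (5 / 6 : ℝ) / D) := by positivity
      have q2 : 0 ≤ c0 / 9 * C₃ * E := by positivity
      nlinarith

end Vale.Agent.P006
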