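import Vale.Agent.P006.ICube
import Vale.Agent.P006.ISq

/-! I5: the Type I sum for one modulus. -/

namespace Vale.Agent.P006

open Vale.Agent.P026 Filter
open scoped ComplexConjugate Real

theorem i_split {T x : ℝ} {ϕ : ℂ → ℂ} {r : O} (hr : Sq r) (hT : 0 < T) (h : CT T ϕ) (hx : 0 < x) :
    ∑' k : O, aq (r * k) * mellinInv 2 ϕ (nm (r * k) / x) =
      gl r * iG r ϕ (x / nm r) - kst * np r (-1 / 6) * iM r ϕ (x / nm r) := by
  have h0 : (0 : ℝ) < nm r := one_pos.trans_le hr.one_le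
  have hy : 0 < x / nm r := div_pos hx h0
  unfold iG iM
  rw [← tsum_mul_left, ← tsum_mul_left, ← Summable.tsum_sub
    ((i_summ hT h hy (i_gq_le r)).mul_left _) ((i_summ hT h hy (i_model_le r)).mul_left _)]
  refine tsum_congr fun k => ?_
  have e : (nm (r * k) : ℝ) / x = nm k / (x / nm r) := by
    rw [nm_mul]; push_cast; field_simp
  rw [e]
  by_cases hk : Sq (r * k)
  · have hk' := (hk.right hr.1).2
    have hc := hk.coprime
    rw [aq, ind_of hk, gq, ind_of hk', ind_of (p := Sq k ∧ IsCoprime k r) ⟨hk', hc.symm⟩,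
      gl_mul hr.1 hk'.1 hc, np_mul hr.ne_zero hk'.ne_zero]
    ring
  · rw [aq_eq_zero hk]
    by_cases hk' : Sq k
    · have hc : ¬IsCoprime r k := fun hc => hk (hr.mul hk' hc)
      rw [cub_eq_zero hk'.1.not_lam_dvd hc, ind_of_not (p := Sq k ∧ IsCoprime k r) fun h => hc h.2.symm]
      simp
    · rw [gq, ind_of_not hk', ind_of_not (p := Sq k ∧ IsCoprime k r) fun h => hk' h.1]
      simp

theorem iOne_main {m y : ℝ} (hm : 0 < m) (hy : 0 ≤ y) :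
    √m * (y / m ^ 3) ^ (5 / 6 : ℝ) = y ^ (5 / 6 : ℝ) / m ^ 2 := by
  rw [Real.div_rpow hy (by positivity), ← Real.rpow_natCast m 3, ← Real.rpow_mul hm.le,
    Real.sqrt_eq_rpow, ← Real.rpow_two, mul_div_assoc', div_eq_div_iff (by positivity) (by positivity),
    mul_right_comm, ← Real.rpow_add hm, mul_comm]
  norm_num

theorem iOne_err {m n x T D ε : ℝ} (hm : 1 ≤ m) (hmD : m ≤ D) (hn : 0 < n) (hx : 0 ≤ x) (hT : 0 ≤ T)
    (hε : 0 ≤ ε) : √m * ((x / n / m ^ 3 * n * T) ^ ε *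
      (√(x / n / m ^ 3) + √n * T ^ (3 / 2 : ℝ) + (x / n / m ^ 3 * n) ^ (1 / 4 : ℝ) * T)) ≤
      (x * T) ^ ε * (√(x / n) + √D * √n * T ^ (3 / 2 : ℝ) + x ^ (1 / 4 : ℝ) * T) := by
  have hm0 : 0 < m := by linarith
  have e : x / n / m ^ 3 * n = x / m ^ 3 := by field_simp
  have h3 : 1 ≤ m ^ 3 := one_le_pow₀ hm
  have h1 : (x / m ^ 3 * T) ^ ε ≤ (x * T) ^ ε := by
    gcongr
    exact div_le_self hx h3
  have h2 : √m * √(x / n / m ^ 3) ≤ √(x / n) := by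
    rw [← Real.sqrt_mul hm0.le]
    refine Real.sqrt_le_sqrt ?_
    rw [mul_div_assoc', div_le_iff₀ (by positivity), mul_comm]
    exact mul_le_mul_of_nonneg_left (le_self_pow₀ hm three_ne_zero) (by positivity)
  have h4 : √m * (x / m ^ 3) ^ (1 / 4 : ℝ) ≤ x ^ (1 / 4 : ℝ) := by
    rw [Real.div_rpow hx (by positivity), ← Real.rpow_natCast m 3, ← Real.rpow_mul hm0.le,
      Real.sqrt_eq_rpow, mul_div_assoc', div_le_iff₀ (by positivity), mul_comm]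
    exact mul_le_mul_of_nonneg_left (Real.rpow_le_rpow_of_exponent_le hm (by norm_num))
      (by positivity)
  have h5 : √m ≤ √D := Real.sqrt_le_sqrt hmD
  rw [e, mul_left_comm]
  refine mul_le_mul h1 ?_ (by positivity) (by positivity)
  have h6 : √m * (√n * T ^ (3 / 2 : ℝ)) ≤ √D * (√n * T ^ (3 / 2 : ℝ)) := by gcongr
  have h7 : √m * (x / m ^ 3) ^ (1 / 4 : ℝ) * T ≤ x ^ (1 / 4 : ℝ) * T := by gcongr
  linarith

theorem iOne_vor (hV : V0Stmt) {ε : ℝ} (hε : 0 < ε) : ∃ C : ℝ, 0 < C ∧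
    ∀ (r : O) (T x D : ℝ) (ϕ : ℂ → ℂ), Sq r → 1 ≤ T → 1 ≤ D → nm r * D ^ 3 ≤ x → CT T ϕ →
      ‖gl r * ∑ δ ∈ pball D, mu δ * ind (IsCoprime δ r) * (√(nm δ) : ℝ) *
          iS r ϕ (x / nm r / (nm δ : ℝ) ^ 3) - kst * np r (-1 / 6) *
          ((c0 / 9 * (x / nm r) ^ (5 / 6 : ℝ) : ℝ) * phiS r * ϕ (5 / 6) * iSS r D)‖ ≤
        C * (x * T) ^ ε * (D * √(x / nm r) + D ^ (3 / 2 : ℝ) * √(nm r) * T ^ (3 / 2 : ℝ) +
          D * x ^ (1 / 4 : ℝ) * T) := by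
  obtain ⟨C, hC, hV⟩ := hV ε hε
  obtain ⟨C', hC', hcard⟩ := card_le_of_nm
  refine ⟨C' * C, by positivity, fun r T x D ϕ hr hT hD hx h => ?_⟩
  have h0 : (0 : ℝ) < nm r := one_pos.trans_le hr.one_le
  have hx0 : 0 < x := lt_of_lt_of_le (by positivity) hx
  have hg : gl r * conj (gl r) = 1 := by rw [mul_comm, conj_mul_of_norm (norm_gl hr)]
  have hnp : np r (-1 / 6) = ((nm r : ℝ) ^ (-1 / 6 : ℝ) : ℝ) := by
    rw [← np_real]; norm_num
  rw [iSS, Finset.mul_sum, Finset.mul_sum, Finset.mul_sum, ← Finset.sum_sub_distrib]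
  refine (norm_sum_le _ _).trans ((Finset.sum_le_card_nsmul _ _ (C * ((x * T) ^ ε *
    (√(x / nm r) + √D * √(nm r) * T ^ (3 / 2 : ℝ) + x ^ (1 / 4 : ℝ) * T))) fun δ hδ => ?_).trans ?_)
  · rw [mem_pball] at hδ
    have hm : (1 : ℝ) ≤ nm δ := one_le_nm hδ.1.ne_zero
    have hm0 : (0 : ℝ) < nm δ := by linarith
    have h1 : 1 ≤ x / nm r / (nm δ : ℝ) ^ 3 := by
      rw [div_div, one_le_div (by positivity)]
      exact le_trans (by gcongr; exact hδ.2) hx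
    have h2 := hV r T _ ϕ hr hT h1 h
    have h3 : (((x / nm r) ^ (5 / 6 : ℝ) : ℝ) : ℂ) / (nm δ : ℂ) ^ 2 =
        (√(nm δ) : ℝ) * ((x / nm r / (nm δ : ℝ) ^ 3) ^ (5 / 6 : ℝ) : ℝ) := by
      rw [← Complex.ofReal_mul, iOne_main hm0 (by positivity)]
      push_cast; rfl
    have e : gl r * (mu δ * ind (IsCoprime δ r) * (√(nm δ) : ℝ) *
        iS r ϕ (x / nm r / (nm δ : ℝ) ^ 3)) - kst * np r (-1 / 6) *
        ((c0 / 9 * (x / nm r) ^ (5 / 6 : ℝ) : ℝ) * phiS r * ϕ (5 / 6) *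
          (mu δ * ind (IsCoprime δ r) / (nm δ : ℂ) ^ 2)) =
        gl r * mu δ * ind (IsCoprime δ r) * ((√(nm δ) : ℝ) * (iS r ϕ (x / nm r / (nm δ : ℝ) ^ 3) -
          conj (gl r) * (kst * (c0 / 9) * (nm r : ℝ) ^ (-1 / 6 : ℝ) *
            (x / nm r / (nm δ : ℝ) ^ 3) ^ (5 / 6 : ℝ) : ℝ) * phiS r * ϕ (5 / 6))) := by
      rw [hnp]
      simp only [Complex.ofReal_mul]
      linear_combination (-(kst : ℂ) * ((nm r : ℝ) ^ (-1 / 6 : ℝ) : ℝ) * ((c0 / 9 : ℝ) : ℂ) * phiS r *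
        ϕ (5 / 6) * mu δ * ind (IsCoprime δ r)) * h3 + ((kst : ℂ) * ((nm r : ℝ) ^ (-1 / 6 : ℝ) : ℝ) *
        ((c0 / 9 : ℝ) : ℂ) * phiS r * ϕ (5 / 6) * mu δ * ind (IsCoprime δ r) * (√(nm δ) : ℝ) *
        ((x / nm r / (nm δ : ℝ) ^ 3) ^ (5 / 6 : ℝ) : ℝ)) * hg
    rw [e, norm_mul]
    have h4 : ‖gl r * mu δ * ind (IsCoprime δ r)‖ ≤ 1 := by
      rw [norm_mul, norm_mul, norm_gl hr, one_mul]
      exact mul_le_one₀ (norm_mu_le δ) (norm_nonneg _) (norm_ind_le _)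
    refine (mul_le_of_le_one_left (norm_nonneg _) h4).trans ?_
    rw [norm_mul, Complex.norm_real, Real.norm_of_nonneg (Real.sqrt_nonneg _)]
    refine (mul_le_mul_of_nonneg_left h2 (Real.sqrt_nonneg _)).trans ?_
    rw [mul_assoc C, mul_left_comm]
    exact mul_le_mul_of_nonneg_left (iOne_err hm hδ.2 h0 hx0.le (by linarith) hε.le) hC.le
  · have h1 := hcard D (pball D) (by linarith) fun n hn =>
      ⟨(mem_pball.1 hn).1.ne_zero, (mem_pball.1 hn).2⟩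
    have h2 : D ^ (3 / 2 : ℝ) = D * √D := by
      rw [Real.sqrt_eq_rpow, ← Real.rpow_one_add' (by linarith) (by norm_num)]; norm_num
    rw [nsmul_eq_mul, h2]
    refine (mul_le_mul_of_nonneg_right h1 (by positivity)).trans (le_of_eq ?_)
    ring

theorem i_one (hV : V0Stmt) (hLC : LCStmt) {ε : ℝ} (hε : 0 < ε) : ∃ C : ℝ, 0 < C ∧
    ∀ (r : O) (T x D : ℝ) (ϕ : ℂ → ℂ), Sq r → 1 ≤ T → 1 ≤ D → nm r * D ^ 3 ≤ x → CT T ϕ →
      ‖∑' k : O, aq (r * k) * mellinInv 2 ϕ (nm (r * k) / x)‖ ≤ iTail r ϕ (x / nm r) D +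
        C * (x * T) ^ ε * (D * √(x / nm r) + D ^ (3 / 2 : ℝ) * √(nm r) * T ^ (3 / 2 : ℝ) +
          D * x ^ (1 / 4 : ℝ) * T + (nm r : ℝ) ^ (-1 / 6 : ℝ) *
            (√(x / nm r) * T + (x / nm r) ^ (5 / 6 : ℝ) / D)) := by
  obtain ⟨C₁, hC₁, h1⟩ := iOne_vor hV hε
  obtain ⟨C₂, hC₂, h2⟩ := i_model hLC
  obtain ⟨C₃, hC₃, h3⟩ := tau_pow_le 1 hε
  have hk := kst_pos
  refine ⟨C₁ + kst * C₂ * (C₃ + 1), by positivity, fun r T x D ϕ hr hT hD hx h => ?_⟩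
  have hn := hr.one_le
  have h0 : (0 : ℝ) < nm r := one_pos.trans_le hn
  have hnx : (nm r : ℝ) ≤ x := le_trans (le_mul_of_one_le_right h0.le (one_le_pow₀ hD)) hx
  have hx0 : 0 < x := h0.trans_le hnx
  have hy : 1 ≤ x / nm r := (one_le_div h0).2 hnx
  have hT0 : 0 < T := by linarith
  have a1 := i_cube hT0 h (one_pos.trans_le hy) hD r
  have a2 := h1 r T x D ϕ hr hT hD hx h
  have a3 := h2 r T _ D ϕ hr hT (one_pos.trans_le hy) hD h
  rw [i_split hr hT0 h hx0]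
  set A := ∑ δ ∈ pball D, mu δ * ind (IsCoprime δ r) * (√(nm δ) : ℝ) *
    iS r ϕ (x / nm r / (nm δ : ℝ) ^ 3)
  set B := ((c0 / 9 * (x / nm r) ^ (5 / 6 : ℝ) : ℝ) : ℂ) * phiS r * ϕ (5 / 6) * iSS r D
  have e : gl r * iG r ϕ (x / nm r) - kst * np r (-1 / 6) * iM r ϕ (x / nm r) =
      gl r * (iG r ϕ (x / nm r) - A) + (gl r * A - kst * np r (-1 / 6) * B) -
        kst * np r (-1 / 6) * (iM r ϕ (x / nm r) - B) := by ring
  have b1 : ‖gl r * (iG r ϕ (x / nm r) - A)‖ ≤ iTail r ϕ (x / nm r) D := by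
    rwa [norm_mul, norm_gl hr, one_mul]
  have hxT : 1 ≤ x * T := one_le_mul_of_one_le_of_one_le (hn.trans hnx) hT
  have c1 : 1 ≤ (x * T) ^ ε := Real.one_le_rpow hxT hε.le
  have c2 : tau r ≤ C₃ * (x * T) ^ ε := by
    have := h3 r hr.ne_zero
    rw [pow_one] at this
    refine this.trans ?_
    gcongr
    exact hnx.trans (le_mul_of_one_le_right hx0.le hT)
  have c3 : (x / nm r) ^ (13 / 30 : ℝ) ≤ √(x / nm r) := by
    rw [Real.sqrt_eq_rpow]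
    exact Real.rpow_le_rpow_of_exponent_le hy (by norm_num)
  have b2 : ‖kst * np r (-1 / 6) * (iM r ϕ (x / nm r) - B)‖ ≤ kst * C₂ * (C₃ + 1) * (x * T) ^ ε *
      ((nm r : ℝ) ^ (-1 / 6 : ℝ) * (√(x / nm r) * T + (x / nm r) ^ (5 / 6 : ℝ) / D)) := by
    rw [norm_mul, norm_mul, Complex.norm_real, Real.norm_of_nonneg hk.le, norm_np hr.ne_zero,
      show (-1 / 6 : ℂ).re = (-1 / 6 : ℝ) by norm_num]
    have d1 : tau r * (x / nm r) ^ (13 / 30 : ℝ) * T ≤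
        (C₃ + 1) * (x * T) ^ ε * (√(x / nm r) * T) := by
      rw [mul_assoc]
      have := tau_nonneg r
      gcongr
      nlinarith
    have d2 : (x / nm r) ^ (5 / 6 : ℝ) / D ≤ (C₃ + 1) * (x * T) ^ ε * ((x / nm r) ^ (5 / 6 : ℝ) / D) :=
      le_mul_of_one_le_left (by positivity) (by nlinarith)
    refine (mul_le_mul_of_nonneg_left (a3.trans (mul_le_mul_of_nonneg_left (add_le_add d1 d2) hC₂.le))
      (by positivity)).trans (le_of_eq ?_)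
    ring
  rw [e]
  refine (norm_sub_le _ _).trans ((add_le_add (norm_add_le _ _) le_rfl).trans ?_)
  have p1 : 0 ≤ C₁ * (x * T) ^ ε * ((nm r : ℝ) ^ (-1 / 6 : ℝ) *
      (√(x / nm r) * T + (x / nm r) ^ (5 / 6 : ℝ) / D)) := by positivity
  have p2 : 0 ≤ kst * C₂ * (C₃ + 1) * (x * T) ^ ε * (D * √(x / nm r) +
      D ^ (3 / 2 : ℝ) * √(nm r) * T ^ (3 / 2 : ℝ) + D * x ^ (1 / 4 : ℝ) * T) := by positivity
  linarith

end Vale.Agent.P006
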