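import Vale.Agent.P006.ISm

/-! I7 (TASK): `TI` from `TC`.
* `ti_of_tc`: if `x₂ ≤ x₁` the sum is `0`.  Else `T = 2 ^ J`, `X ^ 0.175 / 2 < T ≤ X ^ 0.175` (`exists_nat_pow_near`), `R = X ^ 0.35`.
  `S1 = ∑ r ∈ qball R, α r * ∑' k, aq (r k) win (r k)` (`S1_cv`, `tsum_eq_sum`).  Replacing `win` by `Sm T x₁ x₂` costs at most
  `(1 + kst) ∑' n, tau n (Gs T (N n / x₁) + Gs T (N n / x₂))` (`Sm_sub_win`; for finite sets of `k`, `(r, k) ↦ (r k, r)` is injective with `r ∈ pdiv (r k)`).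
  By `i_pieces` the smooth sum is a combination of `2 J + 1` sums bounded by `TC` (constant `x r`; summability by `i_summ` with `y = x / N r`);
  `J ≤ log X`, `ev_log`, `ev_const`; `0.827 < 5/6 - 1/200`. -/

namespace Vale.Agent.P006

open Vale.Agent.P026 Filter
open scoped ComplexConjugate Real

/-- the smooth inner sum -/
noncomputable def itiP (r : O) (ϕ : ℂ → ℂ) (x : ℝ) : ℂ :=
  ∑' k : O, aq (r * k) * mellinInv 2 ϕ (nm (r * k) / x)

theorem iti_hasSum {T x : ℝ} {ϕ : ℂ → ℂ} (hT : 0 < T) (h : CT T ϕ) (hx : 0 < x) {r : O}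
    (hr : r ≠ 0) : HasSum (fun k : O => aq (r * k) * mellinInv 2 ϕ (nm (r * k) / x)) (itiP r ϕ x) := by
  have h0 : (0 : ℝ) < nm r := by exact_mod_cast nm_pos hr
  have h1 := i_summ hT h (y := x / nm r) (by positivity) (a := fun k => aq (r * k))
    fun k => norm_aq_le _
  refine (h1.congr fun k => ?_).hasSum
  rw [nm_mul, Nat.cast_mul, show (nm k : ℝ) / (x / nm r) = nm r * nm k / x by field_simp]

theorem iti_fiber {H : O → ℝ} (hH : ∀ n, 0 ≤ H n) (h0 : H 0 = 0) (R : ℝ) (K : Finset O) :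
    ∃ s : Finset O, ∑ k ∈ K, ∑ r ∈ qball R, H (r * k) ≤ ∑ n ∈ s, tau n * H n := by
  classical
  refine ⟨(K ×ˢ qball R).image fun p => p.2 * p.1, ?_⟩
  rw [← Finset.sum_product' (f := fun k r => H (r * k)),
    Finset.sum_comp H fun p : O × O => p.2 * p.1]
  refine Finset.sum_le_sum fun n _ => ?_
  rw [nsmul_eq_mul]
  rcases eq_or_ne n 0 with rfl | hn
  · rw [h0, mul_zero, mul_zero]
  · refine mul_le_mul_of_nonneg_right ?_ (hH n)
    unfold tau
    refine Nat.cast_le.2 (Finset.card_le_card_of_injOn Prod.snd (fun p hp => ?_) fun p hp q hq h => ?_)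
    · obtain ⟨h1, h2⟩ := Finset.mem_filter.1 (Finset.mem_coe.1 hp)
      exact Finset.mem_coe.2 ((mem_pdiv hn).2
        ⟨(mem_qball.1 (Finset.mem_product.1 h1).2).1.1, Dvd.intro _ h2⟩)
    · obtain ⟨h1, h2⟩ := Finset.mem_filter.1 (Finset.mem_coe.1 hp)
      obtain ⟨-, h3⟩ := Finset.mem_filter.1 (Finset.mem_coe.1 hq)
      have h4 : p.2 ≠ 0 := (mem_qball.1 (Finset.mem_product.1 h1).2).1.ne_zero
      refine Prod.ext (mul_left_cancel₀ h4 ?_) h
      rw [h2, h, h3]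

theorem iti_sharp {X R x₁ x₂ : ℝ} (h2 : x₂ ≤ X) (hR : R ≤ X) {α : O → ℂ}
    (hα : ∀ r, α r ≠ 0 → (nm r : ℝ) ≤ R) :
    HasSum (fun k : O => ∑ r ∈ qball R, α r * (aq (r * k) * win x₁ x₂ (r * k)))
      (S1 x₁ x₂ (cv α fun _ => 1)) := by
  rw [S1_cv x₁ x₂ h2, ← Finset.sum_subset (qball_mono hR)]
  · refine hasSum_sum fun r hr => ?_
    have h3 : ∑ b ∈ qball X, α r * 1 * aq (r * b) * win x₁ x₂ (r * b) =
        ∑ b ∈ qball X, α r * (aq (r * b) * win x₁ x₂ (r * b)) :=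
      Finset.sum_congr rfl fun b _ => by ring
    rw [h3]
    refine hasSum_sum_of_ne_finset_zero fun k hk => ?_
    have hr' := (mem_qball.1 hr).1
    by_cases h4 : Sq (r * k)
    · have h5 : win x₁ x₂ (r * k) = 0 := ind_of_not fun h6 =>
        hk (kcv_mem_qball h4 (h6.2.trans h2) (h4.right hr'.1).2.1 (Dvd.intro_left _ rfl))
      rw [h5, mul_zero, mul_zero]
    · rw [aq_eq_zero h4, zero_mul, mul_zero]
  · intro r hr hr'
    have h3 : α r = 0 := by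
      by_contra h4
      exact hr' (mem_qball.2 ⟨(mem_qball.1 hr).1, hα r h4⟩)
    exact Finset.sum_eq_zero fun b _ => by rw [h3]; ring

theorem iti_err {T x₁ x₂ R E : ℝ} (hT : 0 < T) (h1 : 0 < x₁) (h2 : x₁ ≤ x₂) {α : O → ℂ}
    (hα : ∀ r, ‖α r‖ ≤ 1) (e1 : ∀ s : Finset O, ∑ n ∈ s, tau n * Gs T (nm n / x₁) ≤ E)
    (e2 : ∀ s : Finset O, ∑ n ∈ s, tau n * Gs T (nm n / x₂) ≤ E) (K : Finset O) :
    ‖∑ k ∈ K, (∑ r ∈ qball R, α r * (aq (r * k) * win x₁ x₂ (r * k)) -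
      ∑ r ∈ qball R, α r * (aq (r * k) * (Sm T x₁ x₂ (nm (r * k)) : ℝ)))‖ ≤ (1 + kst) * (2 * E) := by
  have hk := kst_pos
  have haq : aq 0 = 0 := aq_eq_zero fun h => h.ne_zero rfl
  obtain ⟨s, hs⟩ := iti_fiber (H := fun n => ‖aq n‖ * ‖(Sm T x₁ x₂ (nm n) : ℂ) - win x₁ x₂ n‖)
    (fun n => by positivity) (by simp only [haq, norm_zero, zero_mul]) R K
  refine (norm_sum_le _ _).trans (le_trans (Finset.sum_le_sum fun k _ => ?_) (hs.trans ?_))
  · rw [← Finset.sum_sub_distrib]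
    refine (norm_sum_le _ _).trans (Finset.sum_le_sum fun r _ => ?_)
    rw [← mul_sub, ← mul_sub, norm_mul, norm_mul, norm_sub_rev]
    exact mul_le_of_le_one_left (by positivity) (hα r)
  · have h3 : ∀ n ∈ s, tau n * (‖aq n‖ * ‖(Sm T x₁ x₂ (nm n) : ℂ) - win x₁ x₂ n‖) ≤
        (1 + kst) * (tau n * Gs T (nm n / x₁) + tau n * Gs T (nm n / x₂)) := by
      intro n _
      have h4 := tau_nonneg n
      rw [← mul_add, mul_left_comm (1 + kst)]
      refine mul_le_mul_of_nonneg_left ?_ h4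
      rcases eq_or_ne n 0 with rfl | hn
      · rw [haq, norm_zero, zero_mul]
        exact mul_nonneg (by linarith) (add_nonneg (Gs_pos _ _).le (Gs_pos _ _).le)
      · exact mul_le_mul (norm_aq_le n) (Sm_sub_win hT h1 h2 hn) (norm_nonneg _) (by linarith)
    refine (Finset.sum_le_sum h3).trans ?_
    rw [← Finset.mul_sum, Finset.sum_add_distrib]
    exact mul_le_mul_of_nonneg_left (by linarith [e1 s, e2 s]) (by linarith)

theorem iti_num {X J : ℝ} (hX : 1 ≤ X) (hJ : J ≤ Real.log X) (h1 : 6 * (1 + kst) ≤ X ^ (0.001 : ℝ))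
    (h2 : 900000 ≤ X ^ (0.001 : ℝ)) (h3 : 600 * Real.log X ^ 1 ≤ X ^ (0.001 : ℝ)) :
    (1 + kst) * (2 * X ^ (0.827 : ℝ)) + (300000 + 200 * J) * X ^ (5 / 6 - 1 / 100 : ℝ) ≤
      X ^ (5 / 6 - 1 / 200 : ℝ) := by
  have hX0 : 0 < X := by linarith
  have a1 : X ^ (0.001 : ℝ) * X ^ (0.827 : ℝ) ≤ X ^ (5 / 6 - 1 / 200 : ℝ) := by
    rw [← Real.rpow_add hX0]
    exact Real.rpow_le_rpow_of_exponent_le hX (by norm_num)
  have a2 : X ^ (0.001 : ℝ) * X ^ (5 / 6 - 1 / 100 : ℝ) ≤ X ^ (5 / 6 - 1 / 200 : ℝ) := by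
    rw [← Real.rpow_add hX0]
    exact Real.rpow_le_rpow_of_exponent_le hX (by norm_num)
  have a3 : 0 ≤ X ^ (0.827 : ℝ) := by positivity
  have a4 : 0 ≤ X ^ (5 / 6 - 1 / 100 : ℝ) := by positivity
  rw [pow_one] at h3
  have a5 := mul_le_mul_of_nonneg_right h1 a3
  have a6 := mul_le_mul_of_nonneg_right
    (show 3 * (300000 + 200 * J) ≤ 2 * X ^ (0.001 : ℝ) by linarith) a4
  linarith

theorem ti_of_tc (h : TCStmt) : TIStmt := by
  filter_upwards [h, i_gs, eventually_ge_atTop (1 : ℝ), ev_const (6 * (1 + kst)) (ε := 0.001) (by norm_num),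
    ev_const 900000 (ε := 0.001) (by norm_num), ev_log 600 1 (ε := 0.001) (by norm_num)]
    with X hTC hgs hX n1 n2 n3 x₁ x₂ α h1 h2 hα hαR
  have hX0 : 0 < X := by linarith
  rcases lt_or_ge x₂ x₁ with h12 | h12
  · have h0 : S1 x₁ x₂ (cv α fun _ => 1) = 0 := Finset.sum_eq_zero fun n _ => by
      have h3 : win x₁ x₂ n = 0 := ind_of_not fun h4 => by linarith [h4.1, h4.2]
      rw [h3, mul_zero]
    rw [h0, norm_zero]
    positivity
  have hx1 : 0 < x₁ := by linarith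
  have hx2 : 0 < x₂ := by linarith
  have hp : ∀ a b : ℝ, a ≤ b → X ^ a ≤ X ^ b := fun a b hab =>
    Real.rpow_le_rpow_of_exponent_le hX hab
  have hone : ∀ a : ℝ, 0 ≤ a → 1 ≤ X ^ a := fun a ha => Real.one_le_rpow hX ha
  obtain ⟨J, hJ1, hJ2⟩ := exists_nat_pow_near (hone 0.175 (by norm_num)) (one_lt_two (α := ℝ))
  obtain ⟨ψ₀, ψ, c0', cj, hSm⟩ := i_pieces hx1 h12 (by linarith)
  have hJ : (J : ℝ) ≤ Real.log X := by
    have h3 := Real.log_le_log (by positivity) hJ1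
    rw [Real.log_pow, Real.log_rpow hX0] at h3
    have h4 := Real.log_two_gt_d9
    have h5 := Real.log_nonneg hX
    have h6 : (0 : ℝ) ≤ J := Nat.cast_nonneg J
    nlinarith
  have hR : X ^ (0.35 : ℝ) ≤ X := (hp 0.35 1 (by norm_num)).trans (Real.rpow_one X).le
  have tc : ∀ (T x : ℝ) (ϕ : ℂ → ℂ), 1 ≤ T → T ≤ X ^ (0.175 : ℝ) → CT T ϕ → X / 2 ≤ x → x ≤ X →
      ∑ r ∈ qball (X ^ (0.35 : ℝ)), ‖itiP r ϕ x‖ ≤ X ^ (5 / 6 - 1 / 100 : ℝ) := by
    intro T x ϕ a1 a2 a3 a4 a5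
    refine hTC T _ ϕ (fun _ => x) a1 (a2.trans (hp _ _ (by norm_num))) (hone _ (by norm_num)) ?_ a3
      fun _ => ⟨by linarith, by linarith⟩
    refine (mul_le_mul_of_nonneg_left a2 (by positivity)).trans ?_
    rw [← Real.rpow_add hX0]
    exact hp _ _ (by norm_num)
  have hsm : ∀ r ∈ qball (X ^ (0.35 : ℝ)),
      HasSum (fun k : O => α r * (aq (r * k) * (Sm (2 ^ J) x₁ x₂ (nm (r * k)) : ℝ)))
        (α r * (300000 * itiP r ψ₀ x₂ +
          100 * ∑ j ∈ Finset.range J, (itiP r (ψ j) x₂ - itiP r (ψ j) x₁))) := by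
    intro r hr
    have hr0 := (mem_qball.1 hr).1.ne_zero
    have a1 := ((iti_hasSum one_pos c0' hx2 hr0).mul_left 300000).add
      ((hasSum_sum (s := Finset.range J) fun j _ => (iti_hasSum (by positivity) (cj j) hx2 hr0).sub
        (iti_hasSum (by positivity) (cj j) hx1 hr0)).mul_left 100)
    refine HasSum.mul_left _ ?_
    have a2 : (fun k : O => aq (r * k) * (Sm (2 ^ J) x₁ x₂ (nm (r * k)) : ℝ)) = fun k : O =>
        300000 * (aq (r * k) * mellinInv 2 ψ₀ (nm (r * k) / x₂)) +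
          100 * ∑ j ∈ Finset.range J, (aq (r * k) * mellinInv 2 (ψ j) (nm (r * k) / x₂) -
            aq (r * k) * mellinInv 2 (ψ j) (nm (r * k) / x₁)) := by
      funext k
      by_cases hk : Sq (r * k)
      · rw [hSm J _ (lt_of_lt_of_le one_pos hk.one_le)]
        simp only [← mul_sub, ← Finset.mul_sum]
        ring
      · simp only [aq_eq_zero hk, zero_mul, mul_zero, sub_self, Finset.sum_const_zero, add_zero]
    rw [a2]
    exact a1
  have hD := (iti_sharp (x₁ := x₁) h2 hR hαR).sub (hasSum_sum hsm)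
  have hE := le_of_tendsto' (Tendsto.norm hD) (iti_err (R := X ^ (0.35 : ℝ)) (by positivity) hx1 h12 hα
    (fun s => hgs (2 ^ J) x₁ s (by rw [pow_succ] at hJ2; linarith) h1 (h12.trans h2))
    (fun s => hgs (2 ^ J) x₂ s (by rw [pow_succ] at hJ2; linarith) (h1.trans h12) h2))
  refine le_trans ?_ (iti_num hX hJ n1 n2 n3)
  refine (norm_le_norm_sub_add _ _).trans (add_le_add hE ?_)
  refine (norm_sum_le _ _).trans ?_
  have b1 : ∀ r ∈ qball (X ^ (0.35 : ℝ)), ‖α r * (300000 * itiP r ψ₀ x₂ +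
      100 * ∑ j ∈ Finset.range J, (itiP r (ψ j) x₂ - itiP r (ψ j) x₁))‖ ≤
      300000 * ‖itiP r ψ₀ x₂‖ +
        100 * ∑ j ∈ Finset.range J, (‖itiP r (ψ j) x₂‖ + ‖itiP r (ψ j) x₁‖) := by
    intro r _
    rw [norm_mul]
    refine (mul_le_of_le_one_left (norm_nonneg _) (hα r)).trans ((norm_add_le _ _).trans ?_)
    rw [norm_mul, norm_mul, Complex.norm_ofNat, Complex.norm_ofNat]
    refine add_le_add le_rfl (mul_le_mul_of_nonneg_left ((norm_sum_le _ _).trans ?_) (by norm_num))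
    exact Finset.sum_le_sum fun j _ => norm_sub_le _ _
  refine (Finset.sum_le_sum b1).trans ?_
  rw [Finset.sum_add_distrib, ← Finset.mul_sum, ← Finset.mul_sum, Finset.sum_comm]
  have b2 := tc 1 x₂ ψ₀ le_rfl (hone _ (by norm_num)) c0' (h1.trans h12) h2
  have b3 : ∑ j ∈ Finset.range J, ∑ r ∈ qball (X ^ (0.35 : ℝ)),
      (‖itiP r (ψ j) x₂‖ + ‖itiP r (ψ j) x₁‖) ≤ J * (2 * X ^ (5 / 6 - 1 / 100 : ℝ)) := by
    refine (Finset.sum_le_card_nsmul _ _ _ fun j hj => ?_).trans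
      (by rw [Finset.card_range, nsmul_eq_mul])
    have c1 : (1 : ℝ) ≤ 2 ^ (j + 1) := one_le_pow₀ one_le_two
    have c2 : (2 : ℝ) ^ (j + 1) ≤ X ^ (0.175 : ℝ) :=
      (pow_le_pow_right₀ one_le_two (Finset.mem_range.1 hj)).trans hJ1
    rw [Finset.sum_add_distrib]
    linarith [tc _ x₂ _ c1 c2 (cj j) (h1.trans h12) h2, tc _ x₁ _ c1 c2 (cj j) h1 (h12.trans h2)]
  linarith

end Vale.Agent.P006
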