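import Vale.Agent.P006.ITail
import Vale.Agent.P006.IOne
import Vale.Agent.P006.ITI

/-! Part I: the Type I estimates. -/

namespace Vale.Agent.P006

open Vale.Agent.P026 Filter
open scoped ComplexConjugate Real

theorem i_num1 {X ρ d : ℝ} (hX : 1 ≤ X) (h1 : ρ ≤ 0.53) (h2 : 0.014 ≤ d)
    (h3 : 0.014 + (1 / 9 - ρ / 3) ≤ d) :
    (X ^ (ρ + 0.0005) * X ^ (1 - ρ + 0.0005)) ^ (0.0005 : ℝ) *
      (X ^ (ρ + 0.0005) * √(X ^ (1 - ρ + 0.0005)) +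
        √(X ^ (ρ + 0.0005)) * X ^ (1 - ρ + 0.0005) * (X ^ d) ^ (-3 / 2 : ℝ) +
        (X ^ (ρ + 0.0005) * X ^ (1 - ρ + 0.0005)) ^ (5 / 6 : ℝ) / X ^ d) ≤ 3 * X ^ (0.822 : ℝ) := by
  have hX0 : 0 < X := by linarith
  have hp : ∀ a : ℝ, a ≤ 0.822 → X ^ a ≤ X ^ (0.822 : ℝ) := fun a h =>
    Real.rpow_le_rpow_of_exponent_le hX h
  simp only [mul_add, Real.sqrt_eq_rpow, ← Real.rpow_sub hX0, ← Real.rpow_mul hX0.le,
    ← Real.rpow_add hX0]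
  refine (add_le_add (add_le_add (hp _ ?_) (hp _ ?_)) (hp _ ?_)).trans (le_of_eq (by ring)) <;>
    linarith

theorem i_num2 {X ρ τ d : ℝ} (hX : 1 ≤ X) (h0 : τ ≤ 0.18) (h0' : 0 ≤ τ) (h1 : ρ + τ ≤ 0.53)
    (h2 : 0.014 ≤ d) (h3 : d = 0.014 ∨ d = 0.014 + (1 / 9 - ρ / 3) ∧ ρ ≤ 1 / 3) :
    X ^ (ρ + 0.0005) * ((X ^ (1.0005 : ℝ) * X ^ τ) ^ (0.0005 : ℝ) *
      (X ^ d * √(X ^ (1 - ρ + 0.0005)) +
        (X ^ d) ^ (3 / 2 : ℝ) * √(X ^ (ρ + 0.0005)) * (X ^ τ) ^ (3 / 2 : ℝ) +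
        X ^ d * (X ^ (1.0005 : ℝ)) ^ (1 / 4 : ℝ) * X ^ τ + (X ^ ρ) ^ (-1 / 6 : ℝ) *
          (√(X ^ (1 - ρ + 0.0005)) * X ^ τ + (X ^ (1 - ρ + 0.0005)) ^ (5 / 6 : ℝ) / X ^ d))) ≤
      5 * X ^ (0.822 : ℝ) := by
  have hX0 : 0 < X := by linarith
  have hp : ∀ a : ℝ, a ≤ 0.822 → X ^ a ≤ X ^ (0.822 : ℝ) := fun a h =>
    Real.rpow_le_rpow_of_exponent_le hX h
  simp only [mul_add, Real.sqrt_eq_rpow, ← Real.rpow_sub hX0, ← Real.rpow_mul hX0.le,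
    ← Real.rpow_add hX0]
  refine (add_le_add (add_le_add (add_le_add (hp _ ?_) (hp _ ?_)) (hp _ ?_))
    (add_le_add (hp _ ?_) (hp _ ?_))).trans (le_of_eq (by ring)) <;>
    rcases h3 with h3 | ⟨h3, h4⟩ <;> linarith

theorem i_blk (hV : V0Stmt) (hLS : LS1Stmt) (hLC : LCStmt) : ∃ C : ℝ, 0 < C ∧
    ∀ᶠ X : ℝ in atTop, ∀ (T R : ℝ) (ϕ : ℂ → ℂ) (x : O → ℝ) (s : Finset O), 1 ≤ T →
      T ≤ X ^ (0.18 : ℝ) → 1 ≤ R → R * T ≤ X ^ (0.53 : ℝ) → CT T ϕ →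
      (∀ r, X / 1000 ≤ x r ∧ x r ≤ 1000 * X) → (∀ r ∈ s, Sq r ∧ R ≤ nm r ∧ (nm r : ℝ) ≤ 2 * R) →
        ∑ r ∈ s, ‖∑' k : O, aq (r * k) * mellinInv 2 ϕ (nm (r * k) / x r)‖ ≤
          C * X ^ (0.822 : ℝ) := by
  obtain ⟨C₁, hC₁, h1⟩ := i_tail hLS (η := 0.0005) (by norm_num) (by norm_num)
  obtain ⟨C₂, hC₂, h2⟩ := i_one hV hLC (ε := 0.0005) (by norm_num)
  obtain ⟨C₃, hC₃, h3⟩ := card_le_of_nm
  refine ⟨C₁ * 3 + C₃ * C₂ * 5, by positivity, ?_⟩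
  filter_upwards [ev_const 1000 (ε := 0.0005) (by norm_num), eventually_gt_atTop 1] with X hc hX
  intro T R ϕ x s hT hT' hR hRT h hx hs
  have hX0 : 0 < X := by linarith
  obtain ⟨τ, rfl⟩ : ∃ τ, T = X ^ τ := ⟨_, (Real.rpow_logb hX0 hX.ne' (by linarith)).symm⟩
  obtain ⟨ρ, rfl⟩ : ∃ ρ, R = X ^ ρ := ⟨_, (Real.rpow_logb hX0 hX.ne' (by linarith)).symm⟩
  have hτ0 : 0 ≤ τ := by rwa [← Real.rpow_le_rpow_left_iff hX, Real.rpow_zero]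
  have hρ0 : 0 ≤ ρ := by rwa [← Real.rpow_le_rpow_left_iff hX, Real.rpow_zero]
  rw [Real.rpow_le_rpow_left_iff hX] at hT'
  rw [← Real.rpow_add hX0, Real.rpow_le_rpow_left_iff hX] at hRT
  obtain ⟨d, d1, d2, d3⟩ : ∃ d : ℝ, 0.014 ≤ d ∧ 0.014 + (1 / 9 - ρ / 3) ≤ d ∧
      (d = 0.014 ∨ d = 0.014 + (1 / 9 - ρ / 3) ∧ ρ ≤ 1 / 3) := by
    rcases le_total ρ (1 / 3) with h | h
    · exact ⟨_, by linarith, le_rfl, Or.inr ⟨rfl, h⟩⟩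
    · exact ⟨_, le_rfl, by linarith, Or.inl rfl⟩
  have hD : 1 ≤ X ^ d := Real.one_le_rpow hX.le (by linarith)
  have k1 : ∀ r ∈ s, (nm r : ℝ) ≤ X ^ (ρ + 0.0005) := fun r hr => by
    rw [Real.rpow_add hX0]
    nlinarith [(hs r hr).2.2]
  have k2 : ∀ r, x r ≤ X ^ (1.0005 : ℝ) := fun r => by
    rw [show (1.0005 : ℝ) = 1 + 0.0005 by norm_num, Real.rpow_add hX0, Real.rpow_one]
    nlinarith [(hx r).2]
  have k0 : ∀ r, 0 < x r := fun r => lt_of_lt_of_le (by positivity) (hx r).1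
  have k3 : ∀ r ∈ s, 0 < x r / nm r ∧ x r / nm r ≤ X ^ (1 - ρ + 0.0005) := fun r hr => by
    have := k0 r
    have := (hs r hr).1.one_le
    refine ⟨by positivity, ?_⟩
    rw [show 1 - ρ + 0.0005 = 1.0005 - ρ by ring, Real.rpow_sub hX0]
    exact div_le_div₀ (by positivity) (k2 r) (by positivity) (hs r hr).2.1
  have k4 : ∀ r ∈ s, nm r * (X ^ d) ^ 3 ≤ x r := fun r hr => by
    refine le_trans ?_ (hx r).1
    rw [le_div_iff₀ (by norm_num)]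
    calc nm r * (X ^ d) ^ 3 * 1000 ≤ X ^ (ρ + 0.0005) * (X ^ d) ^ 3 * X ^ (0.0005 : ℝ) := by
          gcongr; exact k1 r hr
      _ = X ^ (ρ + 0.0005 + d * 3 + 0.0005) := by
          rw [← Real.rpow_natCast, ← Real.rpow_mul hX0.le, ← Real.rpow_add hX0, ← Real.rpow_add hX0]
          norm_num
      _ ≤ X ^ (1 : ℝ) := Real.rpow_le_rpow_of_exponent_le hX.le (by
          rcases d3 with d3 | ⟨d3, -⟩ <;> linarith)
      _ = X := Real.rpow_one X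
  have a1 := h1 _ _ _ _ ϕ (fun r => x r / nm r) s (by positivity)
    (Real.one_le_rpow hX.le (by linarith)) (by positivity) hD h
    (fun r hr => mem_qball.2 ⟨(hs r hr).1, k1 r hr⟩) k3
  have a2 := h3 _ s (by positivity) fun r hr => ⟨(hs r hr).1.ne_zero, k1 r hr⟩
  have a3 := i_num1 hX.le (by linarith) d1 d2
  have a4 := i_num2 hX.le hT' hτ0 hRT d1 d3
  refine (Finset.sum_le_sum fun r hr => h2 r _ _ _ ϕ (hs r hr).1 hT hD (k4 r hr) h).trans ?_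
  rw [Finset.sum_add_distrib, add_mul]
  refine add_le_add (a1.trans ?_) ((Finset.sum_le_card_nsmul _ _ (C₂ * ((X ^ (1.0005 : ℝ) * X ^ τ) ^
    (0.0005 : ℝ) * (X ^ d * √(X ^ (1 - ρ + 0.0005)) +
        (X ^ d) ^ (3 / 2 : ℝ) * √(X ^ (ρ + 0.0005)) * (X ^ τ) ^ (3 / 2 : ℝ) +
        X ^ d * (X ^ (1.0005 : ℝ)) ^ (1 / 4 : ℝ) * X ^ τ + (X ^ ρ) ^ (-1 / 6 : ℝ) *
          (√(X ^ (1 - ρ + 0.0005)) * X ^ τ + (X ^ (1 - ρ + 0.0005)) ^ (5 / 6 : ℝ) / X ^ d))))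
    fun r hr => ?_).trans ?_)
  · rw [mul_assoc C₁, mul_assoc C₁]
    exact mul_le_mul_of_nonneg_left a3 hC₁.le
  · have b1 := k0 r
    have b2 := (k3 r hr).1
    have b3 : (nm r : ℝ) ^ (-1 / 6 : ℝ) ≤ (X ^ ρ) ^ (-1 / 6 : ℝ) :=
      Real.rpow_le_rpow_of_nonpos (by positivity) (hs r hr).2.1 (by norm_num)
    rw [mul_assoc]
    gcongr
    exacts [k2 r, (k3 r hr).2, k1 r hr, k2 r, (k3 r hr).2, (k3 r hr).2]
  · rw [nsmul_eq_mul]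
    refine (mul_le_mul_of_nonneg_right a2 (by positivity)).trans ?_
    rw [mul_mul_mul_comm, mul_assoc (C₃ * C₂)]
    exact mul_le_mul_of_nonneg_left a4 (by positivity)

theorem tc (hV : V0Stmt) (hLS : LS1Stmt) (hLC : LCStmt) : TCStmt := by
  obtain ⟨C, hC, h⟩ := i_blk hV hLS hLC
  filter_upwards [h, ev_log (3 * C) 1 (ε := 0.001) (by norm_num), eventually_ge_atTop 3]
    with X h hl hX T R ϕ x hT hT' hR hRT hϕ hx
  have hX0 : 0 < X := by linarith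
  have hRX : R ≤ X := by
    have : X ^ (0.53 : ℝ) ≤ X ^ (1 : ℝ) := Real.rpow_le_rpow_of_exponent_le (by linarith) (by norm_num)
    rw [Real.rpow_one] at this
    nlinarith
  have hlog : 1 ≤ Real.log X := by
    rw [Real.le_log_iff_exp_le hX0]
    linarith [Real.exp_one_lt_d9]
  have hJ : (Nat.log 2 ⌊R⌋₊ : ℝ) ≤ 2 * Real.log X := by
    have h1 := Real.log_le_log (by positivity) ((pow_log_floor_le hR).trans hRX)
    rw [Real.log_pow] at h1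
    nlinarith [Real.log_two_gt_d9, (Nat.cast_nonneg (Nat.log 2 ⌊R⌋₊) : (0 : ℝ) ≤ _)]
  rw [← Finset.sum_fiberwise_of_maps_to (g := fun r => Nat.log 2 (nm r))
    fun r hr => log_mem_range (qball_subset R hr)]
  refine (Finset.sum_le_card_nsmul _ _ (C * X ^ (0.822 : ℝ)) fun j hj => ?_).trans ?_
  · have h2 : (2 : ℝ) ^ j ≤ R := le_trans (pow_le_pow_right₀ one_le_two
      (Nat.lt_succ_iff.1 (Finset.mem_range.1 hj))) (pow_log_floor_le hR)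
    refine h T (2 ^ j) ϕ x _ hT hT' (one_le_pow₀ one_le_two) (le_trans (by gcongr) hRT) hϕ hx
      fun r hr => ?_
    rw [Finset.mem_filter, mem_qball] at hr
    have h3 := Nat.pow_log_le_self 2 (nm_pos hr.1.1.ne_zero).ne'
    have h4 := (Nat.lt_pow_succ_log_self one_lt_two (nm r)).le
    rw [hr.2] at h3 h4
    rw [← pow_succ']
    exact ⟨hr.1.1, by exact_mod_cast h3, by exact_mod_cast h4⟩
  · rw [Finset.card_range, nsmul_eq_mul]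
    push_cast
    calc _ ≤ 3 * Real.log X * (C * X ^ (0.822 : ℝ)) := by gcongr; linarith
      _ = 3 * C * Real.log X ^ 1 * X ^ (0.822 : ℝ) := by ring
      _ ≤ X ^ (0.001 : ℝ) * X ^ (0.822 : ℝ) := by gcongr
      _ ≤ _ := by
        rw [← Real.rpow_add hX0]
        exact Real.rpow_le_rpow_of_exponent_le (by linarith) (by norm_num)

theorem ti (hV : V0Stmt) (hLS : LS1Stmt) (hLC : LCStmt) : TIStmt := ti_of_tc (tc hV hLS hLC)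

end Vale.Agent.P006
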