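import Vale.Agent.P006.IDefs

/-! I1 (TASK): cube inversion for absolutely convergent sums.
Put `a d = ind (Prim d ∧ IsCoprime d r) * √(N d) * iG r ϕ (y / N d ^ 3)`; `‖a d‖ ≤ K y² N d ^ (-11/2)` by `norm_iG_le`.
* `iTail_summable`: `tau d ≤ C N d` (`tau_pow_le 1`), `norm_iG_le`, `summable_rpow`.
* `iS_eq`: the map `(d, c) ↦ c * d ^ 3` is injective on `{(d, c) | Prim d ∧ Sq c}` (`cube_decomp_unique`) and its range contains the support of
  `vth` (`vth_ne_zero`, `vth_eq`); `cub r (c * d ^ 3) = cub r c * ind (IsCoprime d r)` (`cub_mul_right`, `cub_pow_right`, `cub_cube`,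
  `cub_eq_zero`); `N (c d³) / y = N c / (y / N d ^ 3)`.  The double series on `O × O` is dominated by `y² N d ^ (-11/2) N c ^ (-2)` (`i_ker`,
  `Summable.mul_of_nonneg`); `tsum_eq_tsum_of_ne_zero_bij` (or `Function.Injective.tsum_eq` on the subtype), `Summable.tsum_prod`.
* `i_cube`: for `δ ∈ pball D`, by `iS_eq` at `y / N δ ^ 3` and `Function.Injective.tsum_eq` for `d ↦ δ * d`,
  `ind (IsCoprime δ r) √(N δ) iS r ϕ (y / N δ ^ 3) = ∑' d, ind (δ ∣ d) * a d` (`Prim.mul`, `Prim.of_mul`, `IsCoprime.mul_left_iff`).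
  Multiply by `mu δ`, sum over `δ` (`Summable.tsum_finsetSum`): the coefficient of `a d` is `bet D d` for primary `d`, which is `ind (d = 1)` if
  `N d ≤ D` (`sum_mu_pdiv`; see `cube_inv` in `P026/RecCube`), and `a 1 = iG r ϕ y`; `norm_bet_le`, `tsum_of_norm_bounded`. -/

namespace Vale.Agent.P006

open Vale.Agent.P026 Filter
open scoped ComplexConjugate Real

variable {T y D : ℝ} {ϕ : ℂ → ℂ}

/-- the terms of the cube expansion -/
noncomputable def iCa (r : O) (ϕ : ℂ → ℂ) (y : ℝ) (d : O) : ℂ :=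
  ind (Prim d ∧ IsCoprime d r) * (√(nm d) : ℝ) * iG r ϕ (y / (nm d : ℝ) ^ 3)

theorem iCube_pow {n : ℝ} (hn : 1 ≤ n) (y : ℝ) :
    n * √n * (y / n ^ 3) ^ 2 ≤ y ^ 2 * n ^ (-2 : ℝ) := by
  have h0 : 0 < n := by linarith
  have h1 : √n ≤ n := Real.sqrt_le_iff.2 ⟨h0.le, by nlinarith⟩
  rw [Real.rpow_neg h0.le, Real.rpow_two]
  calc n * √n * (y / n ^ 3) ^ 2 ≤ n * n * (y / n ^ 3) ^ 2 := by gcongr
    _ = y ^ 2 * (n ^ 2)⁻¹ / n ^ 2 := by field_simp
    _ ≤ _ := div_le_self (by positivity) (one_le_pow₀ hn)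

theorem iCube_pow' {n : ℝ} (hn : 1 ≤ n) (y : ℝ) : √n * (y / n ^ 3) ^ 2 ≤ y ^ 2 * n ^ (-2 : ℝ) := by
  refine le_trans ?_ (iCube_pow hn y)
  rw [mul_assoc]
  exact le_mul_of_one_le_left (by positivity) hn

theorem iTail_summable (hT : 0 < T) (h : CT T ϕ) (hy : 0 < y) (r : O) (D : ℝ) :
    Summable fun d : O => iw D d * ‖iG r ϕ (y / (nm d : ℝ) ^ 3)‖ := by
  obtain ⟨C, hC, hτ⟩ := tau_pow_le 1 one_pos
  have hK : 0 ≤ ∑' n : O, (nm n : ℝ) ^ (-2 : ℝ) := tsum_nonneg fun n => by positivity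
  refine Summable.of_nonneg_of_le (fun d => mul_nonneg (iw_nonneg D d) (norm_nonneg _)) (fun d => ?_)
    ((summable_rpow one_lt_two).mul_left (C * (∑' n : O, (nm n : ℝ) ^ (-2 : ℝ)) * y ^ 2))
  unfold iw
  split_ifs with hd
  · have h1 := one_le_nm hd.1.ne_zero
    have h2 := hτ d hd.1.ne_zero
    rw [pow_one, Real.rpow_one] at h2
    calc _ ≤ C * nm d * √(nm d) * ((y / (nm d : ℝ) ^ 3) ^ 2 * ∑' n : O, (nm n : ℝ) ^ (-2 : ℝ)) := by
          gcongr
          exact norm_iG_le hT h (by positivity) r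
      _ = C * (∑' n : O, (nm n : ℝ) ^ (-2 : ℝ)) * (nm d * √(nm d) * (y / (nm d : ℝ) ^ 3) ^ 2) := by
          ring
      _ ≤ _ := by
          rw [mul_assoc _ (y ^ 2)]
          exact mul_le_mul_of_nonneg_left (iCube_pow h1 y) (by positivity)
  · rw [zero_mul]; positivity

theorem iCa_summable (hT : 0 < T) (h : CT T ϕ) (hy : 0 < y) (r : O) : Summable (iCa r ϕ y) := by
  have hK : 0 ≤ ∑' n : O, (nm n : ℝ) ^ (-2 : ℝ) := tsum_nonneg fun n => by positivity
  refine Summable.of_norm_bounded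
    ((summable_rpow one_lt_two).mul_left ((∑' n : O, (nm n : ℝ) ^ (-2 : ℝ)) * y ^ 2)) fun d => ?_
  unfold iCa
  by_cases hd : Prim d ∧ IsCoprime d r
  · have h1 := one_le_nm hd.1.ne_zero
    rw [ind_of hd, one_mul, norm_mul, Complex.norm_real, Real.norm_of_nonneg (Real.sqrt_nonneg _)]
    calc _ ≤ √(nm d) * ((y / (nm d : ℝ) ^ 3) ^ 2 * ∑' n : O, (nm n : ℝ) ^ (-2 : ℝ)) := by
          gcongr
          exact norm_iG_le hT h (by positivity) r
      _ = (∑' n : O, (nm n : ℝ) ^ (-2 : ℝ)) * (√(nm d) * (y / (nm d : ℝ) ^ 3) ^ 2) := by ring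
      _ ≤ _ := by
          rw [mul_assoc _ (y ^ 2)]
          exact mul_le_mul_of_nonneg_left (iCube_pow' h1 y) hK
  · rw [ind_of_not hd, zero_mul, zero_mul, norm_zero]; positivity

theorem iCube_term {c d : O} (hc : Sq c) (hd : Prim d) (r : O) (ϕ : ℂ → ℂ) (y : ℝ) :
    vth (c * d ^ 3) * conj (cub r (c * d ^ 3)) * mellinInv 2 ϕ (nm (c * d ^ 3) / y) =
      ind (Prim d ∧ IsCoprime d r) * (√(nm d) : ℝ) *
        (gq c * conj (cub r c) * mellinInv 2 ϕ (nm c / (y / (nm d : ℝ) ^ 3))) := by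
  have e : (nm (c * d ^ 3) : ℝ) / y = nm c / (y / (nm d : ℝ) ^ 3) := by
    rw [nm_mul, nm_pow, div_div_eq_mul_div]; push_cast; rfl
  rw [e, vth_eq hc hd, cub_mul_right hc.ne_zero (pow_ne_zero 3 hd.ne_zero),
    cub_pow_right hd.ne_zero, gq, ind_of hc]
  by_cases h : IsCoprime d r
  · rw [cub_cube h.symm, ind_of (p := Prim d ∧ IsCoprime d r) ⟨hd, h⟩]; simp only [mul_one]; ring
  · rw [cub_eq_zero hd.not_lam_dvd fun h' => h h'.symm,
      ind_of_not (p := Prim d ∧ IsCoprime d r) fun h' => h h'.2]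
    simp

theorem iS_eq (hT : 0 < T) (h : CT T ϕ) (hy : 0 < y) (r : O) : iS r ϕ y =
    ∑' d : O, ind (Prim d ∧ IsCoprime d r) * (√(nm d) : ℝ) * iG r ϕ (y / (nm d : ℝ) ^ 3) := by
  obtain ⟨H, hH⟩ : ∃ H : O × O → ℂ, ∀ p, H p = ind (Prim p.1 ∧ IsCoprime p.1 r) * (√(nm p.1) : ℝ) *
      (gq p.2 * conj (cub r p.2) * mellinInv 2 ϕ (nm p.2 / (y / (nm p.1 : ℝ) ^ 3))) := ⟨_, fun _ => rfl⟩
  have hs : Summable H := by
    refine Summable.of_norm_bounded (Summable.mul_of_nonneg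
      ((summable_rpow one_lt_two).mul_left (y ^ 2)) (summable_rpow one_lt_two)
      (fun _ => by positivity) fun _ => by positivity) fun p => ?_
    rw [hH]
    by_cases hd : Prim p.1 ∧ IsCoprime p.1 r
    · have h1 := one_le_nm hd.1.ne_zero
      have h2 := i_norm_le hT h (y := y / (nm p.1 : ℝ) ^ 3) (by positivity) (i_gq_le r) p.2
      rw [ind_of hd, one_mul, norm_mul, Complex.norm_real, Real.norm_of_nonneg (Real.sqrt_nonneg _)]
      refine (mul_le_mul_of_nonneg_left h2 (Real.sqrt_nonneg _)).trans ?_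
      rw [one_mul, ← mul_assoc]
      exact mul_le_mul_of_nonneg_right (iCube_pow' h1 y) (by positivity)
    · rw [ind_of_not hd, zero_mul, zero_mul, norm_zero]; positivity
  have hne : ∀ p, H p ≠ 0 → Prim p.1 ∧ Sq p.2 := fun p hp => by
    rw [hH] at hp
    constructor
    · by_contra h1
      exact hp (by simp [ind_of_not (p := Prim p.1 ∧ IsCoprime p.1 r) fun h' => h1 h'.1])
    · by_contra h1
      exact hp (by simp [gq, ind_of_not h1])
  have e1 : iS r ϕ y = ∑' p, H p := by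
    refine tsum_eq_tsum_of_ne_zero_bij (fun p => p.1.2 * p.1.1 ^ 3) (fun p q e => ?_)
      (fun n hn => ?_) fun p => ?_
    · obtain ⟨a1, a2⟩ := hne _ p.2
      obtain ⟨b1, b2⟩ := hne _ q.2
      obtain ⟨c1, c2⟩ := cube_decomp_unique a2.1 a2.2 a1 b2.1 b2.2 b1 e
      exact Subtype.ext (Prod.ext c2 c1)
    · obtain ⟨c, d, hc, hd, rfl⟩ := vth_ne_zero (left_ne_zero_of_mul (left_ne_zero_of_mul hn))
      refine ⟨⟨(d, c), ?_⟩, rfl⟩
      rw [Function.mem_support, hH, ← iCube_term hc hd]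
      exact hn
    · obtain ⟨a1, a2⟩ := hne _ p.2
      rw [hH, iCube_term a2 a1]
  rw [e1, hs.tsum_prod]
  refine tsum_congr fun d => ?_
  simp only [hH]
  rw [tsum_mul_left, iG]

theorem iCube_dvd (hT : 0 < T) (h : CT T ϕ) (hy : 0 < y) (r : O) {δ : O} (hδ : Prim δ) :
    ind (IsCoprime δ r) * (√(nm δ) : ℝ) * iS r ϕ (y / (nm δ : ℝ) ^ 3) =
      ∑' d, ind (δ ∣ d) * iCa r ϕ y d := by
  have h1 := one_le_nm hδ.ne_zero
  rw [iS_eq hT h (by positivity), ← tsum_mul_left,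
    ← (mul_right_injective₀ hδ.ne_zero).tsum_eq (f := fun d => ind (δ ∣ d) * iCa r ϕ y d)]
  · refine tsum_congr fun d => ?_
    have e : ind (Prim (δ * d) ∧ IsCoprime (δ * d) r) =
        ind (IsCoprime δ r) * ind (Prim d ∧ IsCoprime d r) := by
      rw [← ind_and, IsCoprime.mul_left_iff]
      congr 1
      exact propext ⟨fun h => ⟨h.2.1, hδ.of_mul h.1, h.2.2⟩, fun h => ⟨hδ.mul h.2.1, h.1, h.2.2⟩⟩
    rw [ind_of (dvd_mul_right δ d), iCa, e, G2.sqrt_nm_mul, nm_mul, div_div]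
    push_cast
    rw [mul_pow]
    ring
  · intro d hd
    by_contra h2
    exact hd (by simp [ind_of_not (p := δ ∣ d) fun ⟨c, hc⟩ => h2 ⟨c, hc.symm⟩])

theorem iCube_bet {d : O} (hd : Prim d) (D : ℝ) :
    ∑ δ ∈ pball D, mu δ * ind (δ ∣ d) = bet D d := by
  classical
  rw [bet, ← Finset.sum_filter_add_sum_filter_not _ (· ∣ d),
    Finset.sum_eq_zero (s := (pball D).filter fun δ => ¬δ ∣ d) fun δ hδ => by
      rw [ind_of_not (Finset.mem_filter.1 hδ).2, mul_zero], add_zero]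
  refine Finset.sum_congr ?_ fun δ hδ => ?_
  · ext δ
    simp only [Finset.mem_filter, mem_pball, mem_pdiv hd.ne_zero]
    tauto
  · rw [ind_of ((mem_pdiv hd.ne_zero).1 (Finset.mem_filter.1 hδ).1).2, mul_one]

theorem i_cube (hT : 0 < T) (h : CT T ϕ) (hy : 0 < y) (hD : 1 ≤ D) (r : O) :
    ‖iG r ϕ y - ∑ δ ∈ pball D, mu δ * ind (IsCoprime δ r) * (√(nm δ) : ℝ) *
      iS r ϕ (y / (nm δ : ℝ) ^ 3)‖ ≤ iTail r ϕ y D := by
  have hs := iCa_summable hT h hy r
  have hb : ∀ a : O → ℂ, (∀ d, ‖a d‖ ≤ 1) → Summable fun d => a d * iCa r ϕ y d := fun a ha =>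
    Summable.of_norm_bounded hs.norm fun d => by
      rw [norm_mul]; exact mul_le_of_le_one_left (norm_nonneg _) (ha d)
  have hb' : ∀ δ, Summable fun d => mu δ * ind (δ ∣ d) * iCa r ϕ y d := fun δ =>
    hb _ fun d => by
      rw [norm_mul]; exact mul_le_one₀ (norm_mu_le δ) (norm_nonneg _) (norm_ind_le _)
  have e1 : ∑ δ ∈ pball D, mu δ * ind (IsCoprime δ r) * (√(nm δ) : ℝ) *
      iS r ϕ (y / (nm δ : ℝ) ^ 3) = ∑' d, ∑ δ ∈ pball D, mu δ * ind (δ ∣ d) * iCa r ϕ y d := by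
    rw [Summable.tsum_finsetSum fun δ _ => hb' δ]
    refine Finset.sum_congr rfl fun δ hδ => ?_
    simp only [mul_assoc (mu δ)]
    rw [iCube_dvd hT h hy r (mem_pball.1 hδ).1, tsum_mul_left]
  have e2 : iG r ϕ y = ∑' d, ind (d = 1) * iCa r ϕ y d := by
    rw [tsum_eq_single 1 fun d hd => by rw [ind_of_not hd, zero_mul], ind_of rfl, iCa,
      ind_of (p := Prim 1 ∧ IsCoprime 1 r) ⟨prim_one, isCoprime_one_left⟩, psd_nm_one]
    simp
  rw [e1, e2, ← Summable.tsum_sub (hb _ fun d => norm_ind_le _)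
    (summable_sum fun δ _ => hb' δ)]
  refine tsum_of_norm_bounded (iTail_summable hT h hy r D).hasSum fun d => ?_
  rw [← Finset.sum_mul, ← sub_mul]
  by_cases hd : Prim d
  · rw [iCube_bet hd]
    by_cases h1 : D < nm d
    · have h2 : d ≠ 1 := by
        rintro rfl
        rw [psd_nm_one, Nat.cast_one] at h1
        linarith
      rw [ind_of_not h2, zero_sub, iw, if_pos ⟨hd, h1⟩, iCa, norm_mul, norm_mul, norm_mul, norm_neg,
        Complex.norm_real, Real.norm_of_nonneg (Real.sqrt_nonneg _), mul_assoc (tau d)]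
      refine mul_le_mul (norm_bet_le D d) ?_ (by positivity) (tau_nonneg d)
      rw [mul_assoc]
      exact mul_le_of_le_one_left (by positivity) (norm_ind_le _)
    · rw [bet, Finset.filter_true_of_mem fun e he => le_trans (by
        exact_mod_cast nm_le_of_dvd hd.ne_zero ((mem_pdiv hd.ne_zero).1 he).2) (not_lt.1 h1),
        sum_mu_pdiv hd, sub_self, zero_mul, norm_zero]
      exact mul_nonneg (iw_nonneg D d) (norm_nonneg _)
  · rw [iCa, ind_of_not (p := Prim d ∧ IsCoprime d r) fun h' => hd h'.1, zero_mul, zero_mul, mul_zero,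
      norm_zero]
    exact mul_nonneg (iw_nonneg D d) (norm_nonneg _)

end Vale.Agent.P006
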