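import Vale.Agent.P006.KCv
import Vale.Agent.P006.KGs
import Vale.Agent.P026.RecCube

/-! Part I (Type I sums): definitions and the trivial bounds.  Overview in `notes/P006.md`, section I. -/

namespace Vale.Agent.P006

open Vale.Agent.P026 Filter
open scoped ComplexConjugate Real

/-- twisted sum of Gauss sums -/
noncomputable def iG (r : O) (ϕ : ℂ → ℂ) (y : ℝ) : ℂ :=
  ∑' c : O, gq c * conj (cub r c) * mellinInv 2 ϕ (nm c / y)
/-- twisted theta sum -/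
noncomputable def iS (r : O) (ϕ : ℂ → ℂ) (y : ℝ) : ℂ :=
  ∑' n : O, vth n * conj (cub r n) * mellinInv 2 ϕ (nm n / y)
/-- the model sum -/
noncomputable def iM (r : O) (ϕ : ℂ → ℂ) (y : ℝ) : ℂ :=
  ∑' c : O, ind (Sq c ∧ IsCoprime c r) * np c (-1 / 6) * mellinInv 2 ϕ (nm c / y)
/-- weight of the tail -/
noncomputable def iw (D : ℝ) (d : O) : ℝ :=
  open Classical in if Prim d ∧ D < nm d then tau d * √(nm d) else 0
/-- tail of the cube inversion -/
noncomputable def iTail (r : O) (ϕ : ℂ → ℂ) (y D : ℝ) : ℝ :=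
  ∑' d : O, iw D d * ‖iG r ϕ (y / (nm d : ℝ) ^ 3)‖
/-- truncated singular series -/
noncomputable def iSS (r : O) (D : ℝ) : ℂ :=
  ∑ δ ∈ pball D, mu δ * ind (IsCoprime δ r) / (nm δ : ℂ) ^ 2

variable {T y : ℝ} {ϕ : ℂ → ℂ}

theorem iw_nonneg (D : ℝ) (d : O) : 0 ≤ iw D d := by
  unfold iw
  split_ifs
  · exact mul_nonneg (tau_nonneg d) (Real.sqrt_nonneg _)
  · exact le_rfl

theorem iTail_nonneg (r : O) (ϕ : ℂ → ℂ) (y D : ℝ) : 0 ≤ iTail r ϕ y D :=
  tsum_nonneg fun d => mul_nonneg (iw_nonneg D d) (norm_nonneg _)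

theorem i_ker (hT : 0 < T) (h : CT T ϕ) (hy : 0 < y) (n : O) :
    ‖mellinInv 2 ϕ (nm n / y)‖ ≤ y ^ 2 * (nm n : ℝ) ^ (-2 : ℝ) := by
  rcases eq_or_ne n 0 with rfl | hn
  · rw [nm_eq_zero.2 rfl, Nat.cast_zero, zero_div, mellinInv_zero two_ne_zero, norm_zero]
    positivity
  · have h0 : (0 : ℝ) < nm n := by exact_mod_cast nm_pos hn
    refine (h.norm_le hT (σ := 2) (by norm_num) (by norm_num) (by positivity)).trans (le_of_eq ?_)
    rw [Real.div_rpow h0.le hy.le, Real.rpow_neg hy.le, Real.rpow_two, div_inv_eq_mul, mul_comm]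

theorem i_norm_le (hT : 0 < T) (h : CT T ϕ) (hy : 0 < y) {a : O → ℂ} {A : ℝ} (ha : ∀ n, ‖a n‖ ≤ A)
    (n : O) : ‖a n * mellinInv 2 ϕ (nm n / y)‖ ≤ A * y ^ 2 * (nm n : ℝ) ^ (-2 : ℝ) := by
  rw [norm_mul, mul_assoc]
  exact mul_le_mul (ha n) (i_ker hT h hy n) (norm_nonneg _) ((norm_nonneg _).trans (ha n))

theorem i_summ (hT : 0 < T) (h : CT T ϕ) (hy : 0 < y) {a : O → ℂ} {A : ℝ} (ha : ∀ n, ‖a n‖ ≤ A) :
    Summable fun n : O => a n * mellinInv 2 ϕ (nm n / y) :=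
  Summable.of_norm_bounded ((summable_rpow one_lt_two).mul_left _) (i_norm_le hT h hy ha)

theorem i_gq_le (r c : O) : ‖gq c * conj (cub r c)‖ ≤ 1 := by
  rw [norm_mul, Complex.norm_conj]
  exact mul_le_one₀ (norm_gq_le c) (norm_nonneg _) (norm_cub_le r c)

theorem i_model_le (r c : O) : ‖ind (Sq c ∧ IsCoprime c r) * np c (-1 / 6)‖ ≤ 1 := by
  by_cases h : Sq c ∧ IsCoprime c r
  · rw [ind_of h, one_mul, norm_np h.1.ne_zero]
    exact Real.rpow_le_one_of_one_le_of_nonpos h.1.one_le (by norm_num)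
  · rw [ind_of_not h, zero_mul, norm_zero]; exact zero_le_one

theorem norm_iG_le (hT : 0 < T) (h : CT T ϕ) (hy : 0 < y) (r : O) :
    ‖iG r ϕ y‖ ≤ y ^ 2 * ∑' n : O, (nm n : ℝ) ^ (-2 : ℝ) := by
  rw [← tsum_mul_left]
  refine tsum_of_norm_bounded ((summable_rpow one_lt_two).mul_left _).hasSum fun n => ?_
  simpa only [one_mul] using i_norm_le hT h hy (i_gq_le r) n

end Vale.Agent.P006
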