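import Vale.Agent.P006.IDefs

/-! I3 (TASK): the large sieve applied to `iG`.
* `i_ls_blk`: move the line to `σ` (`mellinInv_shift`, `CT.dec`), `sum_mellinInv`; `(N c / y r) ^ (-(σ+it)) = (y r) ^ (σ+it) * np c (-(σ+it))`; so the
  `r`-th term is at most `Y ^ σ / (2π) * ∫ ‖ϕ (σ+it)‖ * ‖∑ c ∈ u, a t c * cub r c‖ dt` with `a t c = conj (gq c * np c (-(σ+it)))` (conjugate the sum),
  `‖a t c‖ ≤ N ^ (-σ)`.  Sum over `r` inside the integral, Cauchy-Schwarz (`sq_sum_le_card_mul_sum_sq`, `card_le_of_nm`), `LS1` with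
  `ε = η`, `M = R`, `N = 2 N` and coefficients `ind (c ∈ u) * a t c`; `CT.integral_norm`; `√(a + b + c) ≤ √a + √b + √c`.
* `i_ls`: blocks `u j = {c ∈ qball (2 ^ (j+1)) | 2 ^ j ≤ N c < 2 ^ (j+1)}` (`Nat.log 2 (nm c) = j`).  With `N = 2 ^ j` take `σ = 0` if `N ≤ Y`, else `σ = 2`:
  `(Y / N) ^ σ ≤ (Y / N) ^ a` for every `a ∈ [0, 2]`; use `a = 1/2 + η`, `1 + η`, `5/6 + η` on the three terms and `i_ls_blk` with `η / 2`: block `j` costs
  `C 2 ^ (-j η / 2) (R Y) ^ η (..)`, a geometric series.  Finally `iG` is the limit of the sums over `ball (2 ^ J)` (`i_summ`, `HasSum.comp`-type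
  argument with `tendsto_atTop_finset_of_monotone`, `le_of_tendsto'`; `Finset.sum_fiberwise_of_maps_to`, `gq c = 0` off `Sq`). -/

namespace Vale.Agent.P006

open Vale.Agent.P026 Filter
open scoped ComplexConjugate Real

theorem ils_pt (hLS : LS1Stmt) {η : ℝ} (hη : 0 < η) : ∃ C : ℝ, 0 < C ∧
    ∀ (R N A : ℝ) (a : O → ℂ) (s u : Finset O), 1 ≤ R → 1 ≤ N → 0 ≤ A → s ⊆ qball R →
      u ⊆ qball (2 * N) → (∀ c ∈ u, ‖a c‖ ≤ A) → ∑ r ∈ s, ‖∑ c ∈ u, a c * cub r c‖ ≤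
        C * A * (R * N) ^ η * (R * √N + √R * N + (R * N) ^ (5 / 6 : ℝ)) := by
  classical
  obtain ⟨C, hC, h⟩ := hLS η hη
  obtain ⟨C₀, hC₀, h₀⟩ := card_le_of_nm
  refine ⟨2 * C₀ * √(C * 2 ^ η), by positivity, fun R N A a s u hR hN hA hs hu ha => ?_⟩
  have hc : ∀ {Z : ℝ} {v : Finset O}, 0 ≤ Z → v ⊆ qball Z → (v.card : ℝ) ≤ C₀ * Z := fun hZ hv =>
    h₀ _ _ hZ fun n hn => ⟨(mem_qball.1 (hv hn)).1.ne_zero, (mem_qball.1 (hv hn)).2⟩
  have h1 := h R (2 * N) (fun c => if c ∈ u then a c else 0) hR (by linarith)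
  have e1 : ∀ r, ∑ n ∈ qball (2 * N), (if n ∈ u then a n else 0) * cub r n =
      ∑ c ∈ u, a c * cub r c := fun r => by
    simp only [ite_mul, zero_mul]
    rw [Finset.sum_ite_mem, Finset.inter_eq_right.2 hu]
  have e2 : ∑ n ∈ qball (2 * N), ‖if n ∈ u then a n else 0‖ ^ 2 ≤ C₀ * (2 * N) * A ^ 2 := by
    refine (Finset.sum_le_card_nsmul _ _ (A ^ 2) fun n _ => ?_).trans ?_
    · split_ifs with hn
      · exact pow_le_pow_left₀ (norm_nonneg _) (ha n hn) 2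
      · rw [norm_zero]; exact pow_le_pow_left₀ le_rfl hA 2
    · rw [nsmul_eq_mul]
      exact mul_le_mul_of_nonneg_right (hc (by linarith) le_rfl) (sq_nonneg _)
  simp only [e1] at h1
  have hRN : 1 ≤ R * N := one_le_mul_of_one_le_of_one_le hR hN
  have h2 : (R * (2 * N)) ^ η ≤ 2 ^ η * ((R * N) ^ η) ^ 2 := by
    rw [mul_left_comm, Real.mul_rpow (by norm_num) (by positivity)]
    exact mul_le_mul_of_nonneg_left (le_self_pow₀ (Real.one_le_rpow hRN hη.le) two_ne_zero)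
      (by positivity)
  have h3 : R * N * (R * (2 * N)) ^ (2 / 3 : ℝ) ≤ 2 * ((R * N) ^ (5 / 6 : ℝ)) ^ 2 := by
    rw [mul_left_comm R 2, Real.mul_rpow (by norm_num) (by positivity), mul_left_comm,
      ← Real.rpow_natCast, ← Real.rpow_mul (by positivity), ← Real.rpow_one_add' (by positivity)
        (by norm_num)]
    refine mul_le_mul ?_ (le_of_eq (by norm_num)) (by positivity) (by norm_num)
    exact (Real.rpow_le_rpow_of_exponent_le one_le_two (by norm_num : (2 / 3 : ℝ) ≤ 1)).trans_eq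
      (Real.rpow_one 2)
  have h4 : R * N * (R + 2 * N + (R * (2 * N)) ^ (2 / 3 : ℝ)) ≤
      2 * (R * √N + √R * N + (R * N) ^ (5 / 6 : ℝ)) ^ 2 := by
    have a1 : (R * √N) ^ 2 = R * N * R := by rw [mul_pow, Real.sq_sqrt (by linarith)]; ring
    have a2 : (√R * N) ^ 2 = R * N * N := by rw [mul_pow, Real.sq_sqrt (by linarith)]; ring
    have a3 : 0 ≤ R * √N := by positivity
    have a4 : 0 ≤ √R * N := by positivity
    have a5 : 0 ≤ (R * N) ^ (5 / 6 : ℝ) := by positivity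
    nlinarith [mul_nonneg a3 a4, mul_nonneg a3 a5, mul_nonneg a4 a5, sq_nonneg (R * √N)]
  refine le_of_sq_le_sq (sq_sum_le_card_mul_sum_sq.trans ?_) (by positivity)
  have h5 := (Finset.sum_le_sum_of_subset_of_nonneg hs fun _ _ _ => sq_nonneg _).trans h1
  calc _ ≤ C₀ * R * (C * (2 ^ η * ((R * N) ^ η) ^ 2) * (R + 2 * N + (R * (2 * N)) ^ (2 / 3 : ℝ)) *
        (C₀ * (2 * N) * A ^ 2)) := by
        refine mul_le_mul (hc (by linarith) hs) (h5.trans ?_)
          (Finset.sum_nonneg fun _ _ => sq_nonneg _) (by positivity)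
        gcongr
    _ = 2 * C₀ ^ 2 * (C * 2 ^ η) * A ^ 2 * ((R * N) ^ η) ^ 2 *
        (R * N * (R + 2 * N + (R * (2 * N)) ^ (2 / 3 : ℝ))) := by ring
    _ ≤ 2 * C₀ ^ 2 * (C * 2 ^ η) * A ^ 2 * ((R * N) ^ η) ^ 2 *
        (2 * (R * √N + √R * N + (R * N) ^ (5 / 6 : ℝ)) ^ 2) := by gcongr
    _ = _ := by
        simp only [mul_pow, Real.sq_sqrt (by positivity : 0 ≤ C * 2 ^ η)]
        ring

theorem i_ls_blk (hLS : LS1Stmt) {η : ℝ} (hη : 0 < η) : ∃ C : ℝ, 0 < C ∧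
    ∀ (T R Y N σ : ℝ) (ϕ : ℂ → ℂ) (y : O → ℝ) (s u : Finset O), 0 < T → 1 ≤ R → 0 < Y → 1 ≤ N →
      0 ≤ σ → σ ≤ 2 → CT T ϕ → s ⊆ qball R → (∀ r ∈ s, 0 < y r ∧ y r ≤ Y) → u ⊆ qball (2 * N) →
      (∀ c ∈ u, N ≤ nm c) →
        ∑ r ∈ s, ‖∑ c ∈ u, gq c * conj (cub r c) * mellinInv 2 ϕ (nm c / y r)‖ ≤
          C * (Y / N) ^ σ * (R * N) ^ η * (R * √N + √R * N + (R * N) ^ (5 / 6 : ℝ)) := by
  obtain ⟨C, hC, h⟩ := ils_pt hLS hη
  refine ⟨C, hC, fun T R Y N σ ϕ y s u hT hR hY hN h0 h2 hϕ hs hy hu hN' => ?_⟩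
  set K := C * (Y / N) ^ σ * (R * N) ^ η * (R * √N + √R * N + (R * N) ^ (5 / 6 : ℝ)) with hK
  have hd : Dec σ σ ϕ := (hϕ.dec hT).mono (by linarith) (by linarith)
  have hc : ∀ c ∈ u, c ≠ 0 := fun c hc => (mem_qball.1 (hu hc)).1.ne_zero
  have hp : ∀ r ∈ s, ∀ c ∈ u, 0 < (nm c : ℝ) / y r := fun r hr c hc =>
    div_pos (by linarith [hN' c hc]) (hy r hr).1
  set F : O → ℝ → ℂ := fun r t => ϕ (σ + t * Complex.I) * ∑ c ∈ u, gq c * conj (cub r c) *
    ((nm c / y r : ℝ) : ℂ) ^ (-(σ + t * Complex.I)) with hF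
  have hi : ∀ r ∈ s, MeasureTheory.Integrable (F r) := fun r hr => by
    simp only [hF, Finset.mul_sum]
    exact MeasureTheory.integrable_finsetSum _ fun c hc =>
      kmel_int _ (fun _ => hp r hr c hc) hd (hϕ.holS _ _)
  have e1 : ∀ r ∈ s, ‖∑ c ∈ u, gq c * conj (cub r c) * mellinInv 2 ϕ (nm c / y r)‖ ≤
      1 / (2 * π) * ∫ t, ‖F r t‖ := fun r hr => by
    rw [Finset.sum_congr rfl fun c hc => by
      rw [mellinInv_shift (σ' := σ) (hϕ.dec hT) (hϕ.holS _ _) (by norm_num) (by norm_num)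
        (by linarith) (by linarith) (hp r hr c hc)],
      sum_mellinInv u _ _ (hp r hr) hd (hϕ.holS _ _), norm_mul, Complex.norm_real,
      Real.norm_of_nonneg (by positivity)]
    exact mul_le_mul_of_nonneg_left (MeasureTheory.norm_integral_le_integral_norm _) (by positivity)
  have e2 : ∀ t, ∑ r ∈ s, ‖F r t‖ ≤ ‖ϕ (σ + t * Complex.I)‖ * K := fun t => by
    have a1 := h R N (N ^ (-σ)) (fun c => conj (gq c * np c (-(σ + t * Complex.I)))) s u hR hN
      (by positivity) hs hu fun c hcu => by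
        rw [Complex.norm_conj, norm_mul, norm_np (hc c hcu)]
        refine (mul_le_of_le_one_left (by positivity) (norm_gq_le c)).trans ?_
        rw [show (-((σ : ℂ) + t * Complex.I)).re = -σ by simp]
        exact Real.rpow_le_rpow_of_nonpos (by linarith) (hN' c hcu) (by linarith)
    have a2 : ∀ r ∈ s, ‖F r t‖ ≤ ‖ϕ (σ + t * Complex.I)‖ * (Y ^ σ *
        ‖∑ c ∈ u, conj (gq c * np c (-(σ + t * Complex.I))) * cub r c‖) := fun r hr => by
      have b1 : ∑ c ∈ u, gq c * conj (cub r c) * ((nm c / y r : ℝ) : ℂ) ^ (-(σ + t * Complex.I)) =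
          (((y r)⁻¹ : ℝ) : ℂ) ^ (-(σ + t * Complex.I)) *
            conj (∑ c ∈ u, conj (gq c * np c (-(σ + t * Complex.I))) * cub r c) := by
        rw [map_sum, Finset.mul_sum]
        refine Finset.sum_congr rfl fun c _ => ?_
        rw [div_eq_mul_inv, Complex.ofReal_mul, Complex.mul_cpow_ofReal_nonneg (Nat.cast_nonneg _)
          (inv_pos.2 (hy r hr).1).le, map_mul, Complex.conj_conj, np, Complex.ofReal_natCast]
        ring
      rw [hF, norm_mul, b1, norm_mul, Complex.norm_conj, kmel_norm _ _ (inv_pos.2 (hy r hr).1),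
        Real.inv_rpow (hy r hr).1.le, Real.rpow_neg (hy r hr).1.le, inv_inv]
      gcongr
      exacts [(hy r hr).1.le, (hy r hr).2]
    refine (Finset.sum_le_sum a2).trans ?_
    rw [← Finset.mul_sum, ← Finset.mul_sum]
    refine mul_le_mul_of_nonneg_left ((mul_le_mul_of_nonneg_left a1 (by positivity)).trans_eq ?_)
      (norm_nonneg _)
    rw [hK, Real.div_rpow hY.le (by linarith), Real.rpow_neg (by linarith)]
    ring
  refine (Finset.sum_le_sum e1).trans ?_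
  rw [← Finset.mul_sum, ← MeasureTheory.integral_finsetSum _ fun r hr => (hi r hr).norm]
  have e3 := MeasureTheory.integral_mono (MeasureTheory.integrable_finsetSum _ fun r hr =>
    (hi r hr).norm) ((hd.integrable (hϕ.holS _ _) le_rfl le_rfl).norm.mul_const K) e2
  rw [MeasureTheory.integral_mul_const] at e3
  have hK0 : 0 ≤ K := by positivity
  have e4 := mul_le_mul_of_nonneg_right (hϕ.integral_norm (σ := σ) hT (by linarith) (by linarith)) hK0
  rw [one_div, inv_mul_le_iff₀ (by positivity)]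
  nlinarith [Real.pi_gt_three]

theorem ils_num {η R Y N σ b : ℝ} (hη : 0 < η) (hR : 1 ≤ R) (hY : 0 < Y) (hN : 0 < N)
    (h : (Y / N) ^ σ ≤ (Y / N) ^ (b + η)) :
    (Y / N) ^ σ * (R * N) ^ (η / 2) * N ^ b ≤ (R * Y) ^ η * Y ^ b * N ^ (-(η / 2)) := by
  have h1 : R ^ (η / 2) ≤ R ^ η := Real.rpow_le_rpow_of_exponent_le hR (by linarith)
  rw [Real.mul_rpow (by linarith) hN.le, Real.mul_rpow (by linarith) hY.le]
  calc _ ≤ (Y / N) ^ (b + η) * (R ^ η * N ^ (η / 2)) * N ^ b := by gcongr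
    _ = R ^ η * Y ^ η * Y ^ b * (N ^ (η / 2) * N ^ b / N ^ (b + η)) := by
        rw [Real.div_rpow hY.le hN.le, Real.rpow_add hY]; ring
    _ = _ := by
        rw [← Real.rpow_add hN, ← Real.rpow_sub hN]
        congr 2
        ring

theorem i_ls (hLS : LS1Stmt) {η : ℝ} (hη : 0 < η) (hη1 : η ≤ 1) : ∃ C : ℝ, 0 < C ∧
    ∀ (T R Y : ℝ) (ϕ : ℂ → ℂ) (y : O → ℝ) (s : Finset O), 0 < T → 1 ≤ R → 0 < Y → CT T ϕ →
      s ⊆ qball R → (∀ r ∈ s, 0 < y r ∧ y r ≤ Y) →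
        ∑ r ∈ s, ‖iG r ϕ (y r)‖ ≤
          C * (R * Y) ^ η * (R * √Y + √R * Y + (R * Y) ^ (5 / 6 : ℝ)) := by
  classical
  obtain ⟨C, hC, h⟩ := i_ls_blk hLS (half_pos hη)
  set q : ℝ := 2 ^ (-(η / 2)) with hq
  have hq0 : 0 ≤ q := by positivity
  have hq1 : q < 1 := Real.rpow_lt_one_of_one_lt_of_neg one_lt_two (by linarith)
  refine ⟨C * (1 - q)⁻¹, mul_pos hC (inv_pos.2 (by linarith)),
    fun T R Y ϕ y s hT hR hY hϕ hs hy => ?_⟩
  set B := (R * Y) ^ η * (R * √Y + √R * Y + (R * Y) ^ (5 / 6 : ℝ)) with hB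
  have hB0 : 0 ≤ B := by positivity
  have blk : ∀ (j : ℕ) (u : Finset O), (∀ c ∈ u, Sq c ∧ Nat.log 2 (nm c) = j) →
      ∑ r ∈ s, ‖∑ c ∈ u, gq c * conj (cub r c) * mellinInv 2 ϕ (nm c / y r)‖ ≤ C * B * q ^ j := by
    intro j u hu
    have hN : (1 : ℝ) ≤ 2 ^ j := one_le_pow₀ one_le_two
    obtain ⟨σ, h0, h2, hσ⟩ : ∃ σ : ℝ, 0 ≤ σ ∧ σ ≤ 2 ∧ ∀ a : ℝ, 0 ≤ a → a ≤ 2 →
        (Y / 2 ^ j) ^ σ ≤ (Y / 2 ^ j) ^ a := by
      rcases le_total 1 (Y / 2 ^ j) with h1 | h1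
      · exact ⟨0, le_rfl, zero_le_two, fun a a0 _ => Real.rpow_le_rpow_of_exponent_le h1 a0⟩
      · exact ⟨2, zero_le_two, le_rfl, fun a _ a2 =>
          Real.rpow_le_rpow_of_exponent_ge (by positivity) h1 a2⟩
    refine (h T R Y (2 ^ j) σ ϕ y s u hT hR hY hN h0 h2 hϕ hs hy (fun c hc => ?_)
      fun c hc => ?_).trans ?_
    · have := Nat.lt_pow_succ_log_self one_lt_two (nm c)
      rw [(hu c hc).2, Nat.pow_succ'] at this
      exact mem_qball.2 ⟨(hu c hc).1, by exact_mod_cast this.le⟩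
    · have := Nat.pow_log_le_self 2 (nm_pos (hu c hc).1.ne_zero).ne'
      rw [(hu c hc).2] at this
      exact_mod_cast this
    · have e : q ^ j = ((2 : ℝ) ^ j) ^ (-(η / 2)) := by
        rw [hq, ← Real.rpow_natCast, ← Real.rpow_natCast, ← Real.rpow_mul zero_le_two,
          ← Real.rpow_mul zero_le_two, mul_comm]
      rw [e]
      generalize (2 : ℝ) ^ j = N at *
      have hN0 : 0 < N := by linarith
      have a1 := ils_num hη hR hY hN0 (hσ (1 / 2 + η) (by linarith) (by linarith))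
      have a2 := ils_num hη hR hY hN0 (hσ (1 + η) (by linarith) (by linarith))
      have a3 := ils_num hη hR hY hN0 (hσ (5 / 6 + η) (by linarith) (by linarith))
      rw [← Real.sqrt_eq_rpow, ← Real.sqrt_eq_rpow] at a1
      rw [Real.rpow_one, Real.rpow_one] at a2
      have hR0 : 0 ≤ R := by linarith
      have a4 := add_le_add (add_le_add (mul_le_mul_of_nonneg_left a1 hR0)
        (mul_le_mul_of_nonneg_left a2 (Real.sqrt_nonneg R)))
        (mul_le_mul_of_nonneg_left a3 (Real.rpow_nonneg hR0 (5 / 6)))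
      refine le_trans (le_of_eq ?_) ((mul_le_mul_of_nonneg_left a4 hC.le).trans_eq ?_)
      · rw [Real.mul_rpow hR0 hN0.le (z := 5 / 6)]; ring
      · rw [hB, Real.mul_rpow hR0 hY.le (z := 5 / 6)]; ring
  have fin : ∀ v : Finset O, ∑ r ∈ s,
      ‖∑ c ∈ v, gq c * conj (cub r c) * mellinInv 2 ϕ (nm c / y r)‖ ≤ C * B * (1 - q)⁻¹ := by
    intro v
    have e : ∀ r, ∑ c ∈ v, gq c * conj (cub r c) * mellinInv 2 ϕ (nm c / y r) =
        ∑ j ∈ (v.filter Sq).image fun c => Nat.log 2 (nm c),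
          ∑ c ∈ (v.filter Sq).filter fun c => Nat.log 2 (nm c) = j,
            gq c * conj (cub r c) * mellinInv 2 ϕ (nm c / y r) := fun r => by
      rw [Finset.sum_fiberwise_of_maps_to fun c hc => Finset.mem_image_of_mem _ hc]
      refine (Finset.sum_filter_of_ne fun c _ hc => ?_).symm
      by_contra hn
      exact hc (by rw [gq, ind_of_not hn, zero_mul, zero_mul, zero_mul])
    simp only [e]
    refine (Finset.sum_le_sum fun r _ => norm_sum_le _ _).trans ?_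
    rw [Finset.sum_comm]
    refine (Finset.sum_le_sum fun j _ => blk j _ fun c hc => ⟨(Finset.mem_filter.1
      (Finset.mem_filter.1 hc).1).2, (Finset.mem_filter.1 hc).2⟩).trans ?_
    rw [← Finset.mul_sum]
    exact mul_le_mul_of_nonneg_left (sum_le_hasSum _ (fun _ _ => by positivity)
      (hasSum_geometric_of_lt_one hq0 hq1)) (by positivity)
  refine (le_of_tendsto' (tendsto_finsetSum s fun r hr => Tendsto.norm
    (i_summ hT hϕ (hy r hr).1 (i_gq_le r)).hasSum) fin).trans_eq ?_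
  rw [hB]; ring

end Vale.Agent.P006
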