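import Vale.Agent.P006.IDefs

/-! I6 (TASK): removing the sharp cutoff.
* `i_gs`: `L = X ^ 0.0005`.  Terms with `|log (N n / x)| ≤ L / T` have `x (1 - L/T) ≤ N n ≤ x (1 + 2 L / T)`: at most `C (3 x L / T + √x + 1)` of them
  (`card_annulus`), each `≤ X ^ 0.0005` (`ev_tau 2`, `Gs_le_one`).  For the others `T² u² ≥ L² / 2 + u² / 2 ≥ L² / 2 + 3 u - 9/2` (`u = log (N n / x)`),
  so `Gs ≤ exp (-L²/2) e^{9/2} x³ N n ^ (-3)`, `tau n ≤ C N n`, `sum_rpow_le_const`, `ev_exp`.  (`tau 0 = 0`.)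
* `i_pieces`: `ψ₀ w = x₂ ^ (-w) * Pm 1 x₁ x₂ w / 300000` (`norm_Pm_le`, `gd_Pm`), `ψ j w = Rm (2 * 2 ^ j) (2 ^ j) w / 100` (`ct_Rm`); induction on `J` with
  `mellinInv_Pm`, `Pm_sub`, `mellinInv_scale` and linearity of the integral (`mellinInv_def`, `Dec.integrable_cpow`, `GD.cpow_mul`). -/

namespace Vale.Agent.P006

open Vale.Agent.P026 Filter
open scoped ComplexConjugate Real

theorem ISm_tau_zero : tau 0 = 0 := by
  classical
  rw [tau, Nat.cast_eq_zero, Finset.card_eq_zero, Finset.eq_empty_iff_forall_notMem]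
  intro e he
  simp only [pdiv, Finset.mem_filter] at he
  obtain ⟨he, h⟩ := he
  rw [mem_ball, nm_zero, Nat.cast_le, Nat.le_zero, nm_eq_zero] at he
  exact h.1.ne_zero he

theorem ISm_far {T L x N : ℝ} (hT : 1 ≤ T) (hL : 0 < L) (hLT : L / T ≤ 1 / 2) (hx : 0 < x)
    (hN : 0 < N) (h : ¬(x - x * (L / T) < N ∧ N ≤ x - x * (L / T) + 3 * x * (L / T))) :
    Gs T (N / x) ≤ Real.exp (-(1 / 2 * L ^ 2)) * Real.exp (9 / 2) * x ^ 3 / N ^ 3 := by
  have hT0 : 0 < T := zero_lt_one.trans_le hT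
  obtain ⟨δ, hδ⟩ : ∃ δ, δ = L / T := ⟨_, rfl⟩
  obtain ⟨u, hu⟩ : ∃ u, u = Real.log (N / x) := ⟨_, rfl⟩
  have hδ0 : 0 < δ := hδ ▸ div_pos hL hT0
  have eL : L = T * δ := by rw [hδ, mul_div_cancel₀ _ hT0.ne']
  rw [← hδ] at h hLT
  have h1 : δ ^ 2 ≤ u ^ 2 := by
    rcases not_and_or.1 h with h | h
    · have h2 := Real.log_le_sub_one_of_pos (div_pos hN hx)
      have h3 : N / x ≤ 1 - δ := by
        rw [div_le_iff₀ hx]
        linarith [not_lt.1 h]
      rw [← hu] at h2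
      nlinarith
    · have h2 := Real.one_sub_inv_le_log_of_pos (div_pos hN hx)
      have h3 : (N / x)⁻¹ ≤ 1 - δ := by
        rw [inv_div, div_le_iff₀ hN]
        have h4 : 0 ≤ x * δ * (1 - 2 * δ) := mul_nonneg (by positivity) (by linarith)
        nlinarith [mul_le_mul_of_nonneg_left (not_le.1 h).le (by linarith : 0 ≤ 1 - δ)]
      rw [← hu] at h2
      nlinarith
  have h2 : L ^ 2 ≤ T ^ 2 * u ^ 2 := by
    rw [eL, mul_pow]
    exact mul_le_mul_of_nonneg_left h1 (sq_nonneg _)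
  have h3 : u ^ 2 ≤ T ^ 2 * u ^ 2 := le_mul_of_one_le_left (sq_nonneg _) (one_le_pow₀ hT)
  have h4 : x ^ 3 / N ^ 3 = Real.exp (-(3 * u)) := by
    rw [Real.exp_neg, show 3 * u = (3 : ℕ) * u by norm_num, Real.exp_nat_mul, hu,
      Real.exp_log (div_pos hN hx), div_pow, inv_div]
  rw [Gs, ← hu, mul_div_assoc, h4, ← Real.exp_add, ← Real.exp_add, Real.exp_le_exp]
  nlinarith [sq_nonneg (u - 3)]

theorem i_gs : ∀ᶠ X : ℝ in atTop, ∀ (T x : ℝ) (s : Finset O), X ^ (0.175 : ℝ) / 2 ≤ T → X / 2 ≤ x →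
    x ≤ X → ∑ n ∈ s, tau n * Gs T (nm n / x) ≤ X ^ (0.827 : ℝ) := by
  classical
  obtain ⟨C₁, hC₁, h₁⟩ := card_annulus
  obtain ⟨C₂, hC₂, h₂⟩ := tau_pow_le 1 one_pos
  obtain ⟨C₃, hC₃, h₃⟩ := sum_rpow_le_const one_lt_two
  filter_upwards [eventually_ge_atTop 2, ev_tau 2 (by norm_num : (0 : ℝ) < 0.0005),
    ev_exp 3 (by norm_num : (0 : ℝ) < 1 / 2) (by norm_num : (0 : ℝ) < 0.001),
    ev_const (16 * C₁) (by norm_num : (0 : ℝ) < 0.001),
    ev_const (2 * (C₂ * Real.exp (9 / 2) * C₃)) (by norm_num : (0 : ℝ) < 0.827),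
    ev_const 4 (by norm_num : (0 : ℝ) < 0.1745)] with X hX hτ hE hA hB hC T x s hT hx hx'
  have hX0 : 0 < X := by linarith
  have hX1 : 1 ≤ X := by linarith
  have hx0 : 0 < x := by linarith
  obtain ⟨L, hL⟩ : ∃ L, L = X ^ (0.0005 : ℝ) := ⟨_, rfl⟩
  have hL1 : 1 ≤ L := hL ▸ Real.one_le_rpow hX1 (by norm_num)
  have e1 : X ^ (0.175 : ℝ) = L * X ^ (0.1745 : ℝ) := by
    rw [hL, ← Real.rpow_add hX0]
    norm_num
  have hT1 : 2 * L ≤ T := by nlinarith
  have hT0 : 0 < T := by linarith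
  have hLT : L / T ≤ 1 / 2 := by
    rw [div_le_iff₀ hT0]
    linarith
  have hδ0 : 0 < L / T := by positivity
  have hxδ : x * (L / T) ≤ 2 * X ^ (0.8255 : ℝ) := by
    have e2 : X = X ^ (0.8255 : ℝ) * X ^ (0.1745 : ℝ) := by
      rw [← Real.rpow_add hX0]
      norm_num
    have p1 : 0 < X ^ (0.8255 : ℝ) := by positivity
    rw [← mul_div_assoc, div_le_iff₀ hT0]
    calc x * L ≤ X ^ (0.8255 : ℝ) * X ^ (0.1745 : ℝ) * L :=
          mul_le_mul_of_nonneg_right (hx'.trans_eq e2) (by linarith)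
      _ = 2 * X ^ (0.8255 : ℝ) * (X ^ (0.175 : ℝ) / 2) := by rw [e1]; ring
      _ ≤ _ := mul_le_mul_of_nonneg_left hT (by positivity)
  have hy0 : x / 2 ≤ x - x * (L / T) := by nlinarith
  rw [← Finset.sum_filter_add_sum_filter_not s fun n =>
    x - x * (L / T) < nm n ∧ (nm n : ℝ) ≤ x - x * (L / T) + 3 * x * (L / T)]
  have a1 : ∑ n ∈ s.filter fun n => x - x * (L / T) < nm n ∧
      (nm n : ℝ) ≤ x - x * (L / T) + 3 * x * (L / T), tau n * Gs T (nm n / x) ≤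
      X ^ (0.827 : ℝ) / 2 := by
    refine (Finset.sum_le_card_nsmul _ _ L fun n hn => ?_).trans ?_
    · have hn := (Finset.mem_filter.1 hn).2
      have hn0 : n ≠ 0 := by
        rintro rfl
        rw [nm_zero, Nat.cast_zero] at hn
        linarith [hn.1]
      refine (mul_le_of_le_one_right (tau_nonneg n) (Gs_le_one _ _)).trans ?_
      rw [hL]
      refine hτ n hn0 (hn.2.trans ?_)
      rw [Real.rpow_two]
      nlinarith
    · have b1 := h₁ (x - x * (L / T)) (3 * x * (L / T)) (by linarith) (by positivity)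
      have b2 : √(x - x * (L / T)) ≤ X ^ (0.8255 : ℝ) := by
        refine (Real.sqrt_le_sqrt (by nlinarith : _ ≤ X)).trans ?_
        rw [Real.sqrt_eq_rpow]
        exact Real.rpow_le_rpow_of_exponent_le hX1 (by norm_num)
      have b3 : 1 ≤ X ^ (0.8255 : ℝ) := Real.one_le_rpow hX1 (by norm_num)
      have b4 : X ^ (0.827 : ℝ) = X ^ (0.001 : ℝ) * (X ^ (0.8255 : ℝ) * L) := by
        rw [hL, ← Real.rpow_add hX0, ← Real.rpow_add hX0]
        norm_num
      have b5 : ((s.filter fun n => x - x * (L / T) < nm n ∧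
          (nm n : ℝ) ≤ x - x * (L / T) + 3 * x * (L / T)).card : ℝ) ≤
          C₁ * (8 * X ^ (0.8255 : ℝ)) := by
        refine le_trans (Nat.cast_le.2 (Finset.card_le_card fun n hn => ?_))
          (b1.trans (mul_le_mul_of_nonneg_left (by linarith) hC₁.le))
        have hn := (Finset.mem_filter.1 hn).2
        exact Finset.mem_filter.2 ⟨mem_ball.2 hn.2, hn.1⟩
      rw [nsmul_eq_mul, b4]
      refine (mul_le_mul_of_nonneg_right b5 (by linarith)).trans ?_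
      nlinarith [mul_le_mul_of_nonneg_right hA (by positivity : 0 ≤ X ^ (0.8255 : ℝ) * L)]
  have a2 : ∑ n ∈ s.filter fun n => ¬(x - x * (L / T) < nm n ∧
      (nm n : ℝ) ≤ x - x * (L / T) + 3 * x * (L / T)), tau n * Gs T (nm n / x) ≤
      X ^ (0.827 : ℝ) / 2 := by
    have b1 : Real.exp (-(1 / 2 * L ^ 2)) * x ^ 3 ≤ 1 := by
      have e2 : L ^ 2 = X ^ (0.001 : ℝ) := by
        rw [hL, sq, ← Real.rpow_add hX0]
        norm_num
      have e3 : X ^ (-3 : ℝ) * X ^ 3 = 1 := by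
        rw [← Real.rpow_natCast, ← Real.rpow_add hX0]
        norm_num
      rw [e2]
      exact (mul_le_mul hE (pow_le_pow_left₀ hx0.le hx' 3) (by positivity) (by positivity)).trans_eq
        e3
    refine (Finset.sum_le_sum (g := fun n => C₂ * Real.exp (9 / 2) * (nm n : ℝ) ^ (-2 : ℝ))
      fun n hn => ?_).trans ?_
    · rcases eq_or_ne n 0 with rfl | hn0
      · rw [ISm_tau_zero, zero_mul]
        positivity
      have hN : (0 : ℝ) < nm n := by exact_mod_cast nm_pos hn0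
      have b2 := h₂ n hn0
      rw [pow_one, Real.rpow_one] at b2
      refine (mul_le_mul b2 (ISm_far (by linarith) (by linarith) hLT hx0 hN
        (Finset.mem_filter.1 hn).2) (Gs_pos _ _).le (by positivity)).trans ?_
      rw [Real.rpow_neg hN.le, Real.rpow_two]
      refine le_of_eq_of_le ?_ (mul_le_of_le_one_right (by positivity) b1)
      field_simp
    · rw [← Finset.mul_sum]
      refine (mul_le_mul_of_nonneg_left (h₃ _) (by positivity)).trans ?_
      linarith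
  linarith

theorem ISm_const (σ : ℝ) (c : ℂ) (f : ℂ → ℂ) (y : ℝ) :
    mellinInv σ (fun w => c * f w) y = c * mellinInv σ f y := by
  rw [mellinInv_def, mellinInv_def, mul_left_comm, ← MeasureTheory.integral_const_mul c]
  simp_rw [mul_left_comm c]

theorem ISm_lin {f g h : ℂ → ℂ} (hf : GD f) (hg : GD g) (hh : GD h) (σ : ℝ) {y : ℝ} (hy : 0 < y) :
    mellinInv σ (fun w => f w + g w - h w) y =
      mellinInv σ f y + mellinInv σ g y - mellinInv σ h y := by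
  have i := fun {k : ℂ → ℂ} (hk : GD k) =>
    (hk.dec σ σ).integrable_cpow (hk.holS σ σ) le_rfl le_rfl hy
  simp_rw [mellinInv_def, mul_sub, mul_add]
  rw [MeasureTheory.integral_sub (MeasureTheory.Integrable.fun_add (i hf) (i hg)) (i hh),
    MeasureTheory.integral_add (i hf) (i hg), mul_sub, mul_add]

theorem i_pieces {x₁ x₂ : ℝ} (h1 : 0 < x₁) (h2 : x₁ ≤ x₂) (h3 : x₂ ≤ 2 * x₁) :
    ∃ (ψ₀ : ℂ → ℂ) (ψ : ℕ → ℂ → ℂ), CT 1 ψ₀ ∧ (∀ j, CT (2 ^ (j + 1)) (ψ j)) ∧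
      ∀ (J : ℕ) (y : ℝ), 0 < y → (Sm (2 ^ J) x₁ x₂ y : ℂ) = 300000 * mellinInv 2 ψ₀ (y / x₂) +
        100 * ∑ j ∈ Finset.range J, (mellinInv 2 (ψ j) (y / x₂) - mellinInv 2 (ψ j) (y / x₁)) := by
  have h0 : 0 < x₂ := h1.trans_le h2
  have hc : (x₂ : ℂ) ≠ 0 := by exact_mod_cast h0.ne'
  refine ⟨fun w => (x₂ : ℂ) ^ (-w) * Pm 1 x₁ x₂ w / 300000, fun j w => Rm (2 * 2 ^ j) (2 ^ j) w / 100,
    ⟨?_, fun w hw hw' => ?_⟩, fun j => ?_, fun J y hy => ?_⟩
  · exact ((differentiable_id.neg.const_cpow (Or.inl hc)).mul (gd_Pm one_pos h1 h0).1).div_const _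
  · have h4 := norm_Pm_le le_rfl h1 h2 (by linarith) (w := w) (abs_le.2 ⟨by linarith, hw'⟩)
    have h5 : Real.exp (-(w.im ^ 2 / (4 * 1 ^ 2))) ≤ Real.exp (-(w.im ^ 2 / (8 * 1 ^ 2))) :=
      Real.exp_le_exp.2 (by nlinarith [sq_nonneg w.im])
    have h6 : 0 < x₂ ^ w.re := by positivity
    rw [norm_div, norm_mul, Complex.norm_cpow_eq_rpow_re_of_pos h0, Complex.neg_re,
      Real.rpow_neg h0.le, Complex.norm_ofNat, div_le_iff₀ (by norm_num), inv_mul_le_iff₀ h6]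
    refine h4.trans ((mul_le_mul (div_le_self (by positivity)
      (le_add_of_nonneg_right (abs_nonneg _))) h5 (by positivity) (by positivity)).trans_eq ?_)
    ring
  · rw [pow_succ']
    exact ct_Rm (one_le_pow₀ one_le_two)
  · induction J with
    | zero =>
      rw [pow_zero, Finset.sum_range_zero, mul_zero, add_zero, mellinInv_scale _ _ h0 hy,
        ← ISm_const, ← mellinInv_Pm one_pos h1 h0 2 hy]
      congr 1
      funext w
      have h4 : (x₂ : ℂ) ^ w ≠ 0 := fun h => hc ((Complex.cpow_eq_zero_iff _ _).1 h).1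
      rw [Complex.cpow_neg]
      field_simp
    | succ J ih =>
      have p1 : (0 : ℝ) < 2 ^ J := by positivity
      have p2 : (0 : ℝ) < 2 * 2 ^ J := by positivity
      have e : ∀ x : ℝ, 0 < x → mellinInv 2 (fun w => (x : ℂ) ^ w * Rm (2 * 2 ^ J) (2 ^ J) w) y =
          100 * mellinInv 2 (fun w => Rm (2 * 2 ^ J) (2 ^ J) w / 100) (y / x) := fun x hx => by
        rw [mellinInv_scale _ _ hx hy, ← ISm_const]
        congr 1
        funext w
        ring
      rw [Finset.sum_range_succ, mul_add, ← add_assoc, ← ih, pow_succ', ← mellinInv_Pm p2 h1 h0 2 hy,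
        funext (Pm_sub p2 p1 h1 h0), ISm_lin (gd_Pm p1 h1 h0) ((gd_Rm p2 p1).cpow_mul h0)
          ((gd_Rm p2 p1).cpow_mul h1) 2 hy, mellinInv_Pm p1 h1 h0 2 hy, e _ h0, e _ h1]
      ring

end Vale.Agent.P006
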