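import Vale.Agent.P006.ICube
import Vale.Agent.P006.ILS

/-! I4 (TASK): the tail of the cube inversion on average.
Exchange the sums (`iTail_summable`, `Summable.tsum_finsetSum`), bound finite subsums (`Real.tsum_le_of_sum_le`).  For primary `d` with `D < N d = n`
use `i_ls` with `y r / n ^ 3 ≤ Y / n ^ 3` and `tau d ≤ C n ^ η` (`tau_pow_le 1`): the powers of `n` are `η + 1/2 - 3 η - 3/2 = -1 - 2 η`
(`sum_rpow_le_const`), `≤ -5/2` and `≤ -2` (`sum_rpow_tail`). -/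

namespace Vale.Agent.P006

open Vale.Agent.P026 Filter
open scoped ComplexConjugate Real

theorem ITail_pt {η n R Y : ℝ} (hη : 0 < η) (hn : 1 ≤ n) (hR : 0 < R) (hY : 0 < Y) :
    n ^ η * √n * ((R * (Y / n ^ 3)) ^ η *
      (R * √(Y / n ^ 3) + √R * (Y / n ^ 3) + (R * (Y / n ^ 3)) ^ (5 / 6 : ℝ))) ≤
    (R * Y) ^ η * (R * √Y * n ^ (-(1 + 2 * η)) + √R * Y * n ^ (-(5 / 2 : ℝ)) +
      (R * Y) ^ (5 / 6 : ℝ) * n ^ (-(2 : ℝ))) := by
  have h0 : 0 < n := zero_lt_one.trans_le hn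
  have e0 : Y / n ^ 3 = Y * n ^ (-3 : ℝ) := by
    rw [Real.rpow_neg h0.le, div_eq_mul_inv, ← Real.rpow_natCast]
    norm_num
  have e1 : ∀ a : ℝ, (R * (Y * n ^ (-3 : ℝ))) ^ a = (R * Y) ^ a * n ^ (-3 * a) := fun a => by
    rw [← mul_assoc, Real.mul_rpow (by positivity) (by positivity), ← Real.rpow_mul h0.le]
  have e2 : √(Y * n ^ (-3 : ℝ)) = √Y * n ^ (-3 * (1 / 2) : ℝ) := by
    rw [Real.sqrt_mul hY.le, Real.sqrt_eq_rpow (n ^ _), ← Real.rpow_mul h0.le]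
  have e3 : ∀ a b : ℝ, η + 1 / 2 + -3 * η + a ≤ b →
      n ^ η * n ^ (1 / 2 : ℝ) * n ^ (-3 * η) * n ^ a ≤ n ^ b := fun a b h => by
    rw [← Real.rpow_add h0, ← Real.rpow_add h0, ← Real.rpow_add h0]
    exact Real.rpow_le_rpow_of_exponent_le hn h
  have h1 := mul_le_mul_of_nonneg_left (e3 (-3 * (1 / 2)) (-(1 + 2 * η)) (by linarith))
    (by positivity : 0 ≤ R * √Y)
  have h2 := mul_le_mul_of_nonneg_left (e3 (-3) (-(5 / 2)) (by linarith))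
    (by positivity : 0 ≤ √R * Y)
  have h3 := mul_le_mul_of_nonneg_left (e3 (-3 * (5 / 6)) (-2) (by linarith))
    (by positivity : 0 ≤ (R * Y) ^ (5 / 6 : ℝ))
  rw [e0, e1, e1, e2, Real.sqrt_eq_rpow n]
  refine le_of_eq_of_le ?_ (mul_le_mul_of_nonneg_left (add_le_add (add_le_add h1 h2) h3)
    (by positivity : 0 ≤ (R * Y) ^ η))
  ring

theorem i_tail (hLS : LS1Stmt) {η : ℝ} (hη : 0 < η) (hη1 : η ≤ 1) : ∃ C : ℝ, 0 < C ∧
    ∀ (T R Y D : ℝ) (ϕ : ℂ → ℂ) (y : O → ℝ) (s : Finset O), 0 < T → 1 ≤ R → 0 < Y → 1 ≤ D → CT T ϕ →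
      s ⊆ qball R → (∀ r ∈ s, 0 < y r ∧ y r ≤ Y) →
        ∑ r ∈ s, iTail r ϕ (y r) D ≤
          C * (R * Y) ^ η * (R * √Y + √R * Y * D ^ (-3 / 2 : ℝ) + (R * Y) ^ (5 / 6 : ℝ) / D) := by
  classical
  obtain ⟨C₀, hC₀, h₀⟩ := i_ls hLS hη hη1
  obtain ⟨Cτ, hCτ, hτ⟩ := tau_pow_le 1 hη
  obtain ⟨C₁, hC₁, h₁⟩ := sum_rpow_le_const (σ := 1 + 2 * η) (by linarith)
  obtain ⟨C₂, hC₂, h₂⟩ := sum_rpow_tail (σ := 5 / 2) (by norm_num)
  obtain ⟨C₃, hC₃, h₃⟩ := sum_rpow_tail (σ := 2) (by norm_num)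
  refine ⟨Cτ * C₀ * (C₁ + C₂ + C₃), by positivity, ?_⟩
  intro T R Y D ϕ y s hT hR hY hD hϕ hs hy
  have hR0 : 0 < R := zero_lt_one.trans_le hR
  have hD0 : 0 < D := zero_lt_one.trans_le hD
  unfold iTail
  rw [← Summable.tsum_finsetSum fun r hr => iTail_summable hT hϕ (hy r hr).1 r D]
  refine Real.tsum_le_of_sum_le (fun d => Finset.sum_nonneg fun r _ =>
    mul_nonneg (iw_nonneg D d) (norm_nonneg _)) fun u => ?_
  have key : ∀ d ∈ u.filter fun d => Prim d ∧ D < nm d,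
      ∑ r ∈ s, iw D d * ‖iG r ϕ (y r / (nm d : ℝ) ^ 3)‖ ≤ Cτ * C₀ * (R * Y) ^ η *
        (R * √Y * (nm d : ℝ) ^ (-(1 + 2 * η)) + √R * Y * (nm d : ℝ) ^ (-(5 / 2 : ℝ)) +
          (R * Y) ^ (5 / 6 : ℝ) * (nm d : ℝ) ^ (-(2 : ℝ))) := by
    intro d hd
    have hd := (Finset.mem_filter.1 hd).2
    have hn : (1 : ℝ) ≤ nm d := hD.trans hd.2.le
    have hn0 : (0 : ℝ) < nm d := zero_lt_one.trans_le hn
    have h4 := h₀ T R (Y / (nm d : ℝ) ^ 3) ϕ (fun r => y r / (nm d : ℝ) ^ 3) s hT hR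
      (by positivity) hϕ hs fun r hr => ⟨div_pos (hy r hr).1 (by positivity),
        div_le_div_of_nonneg_right (hy r hr).2 (by positivity)⟩
    have h5 : iw D d ≤ Cτ * (nm d : ℝ) ^ η * √(nm d) := by
      rw [iw, if_pos hd]
      exact mul_le_mul_of_nonneg_right (by simpa using hτ d hd.1.ne_zero) (Real.sqrt_nonneg _)
    rw [← Finset.mul_sum]
    refine (mul_le_mul h5 h4 (Finset.sum_nonneg fun _ _ => norm_nonneg _) (by positivity)).trans ?_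
    refine le_of_eq_of_le ?_ ((mul_le_mul_of_nonneg_left (ITail_pt hη hn hR0 hY)
      (by positivity : 0 ≤ Cτ * C₀)).trans_eq ?_) <;> ring
  rw [← Finset.sum_filter_of_ne (p := fun d => Prim d ∧ D < nm d) fun d _ h => by
    by_contra hd
    exact h (by simp [iw, hd])]
  refine (Finset.sum_le_sum key).trans ?_
  have g₁ := h₁ (u.filter fun d => Prim d ∧ D < nm d)
  have g₂ := h₂ D (u.filter fun d => Prim d ∧ D < nm d) hD0 fun d hd =>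
    (Finset.mem_filter.1 hd).2.2
  have g₃ := h₃ D (u.filter fun d => Prim d ∧ D < nm d) hD0 fun d hd =>
    (Finset.mem_filter.1 hd).2.2
  rw [show (1 - 5 / 2 : ℝ) = -3 / 2 by norm_num] at g₂
  rw [show (1 - 2 : ℝ) = -1 by norm_num, Real.rpow_neg_one] at g₃
  rw [← Finset.mul_sum, Finset.sum_add_distrib, Finset.sum_add_distrib, ← Finset.mul_sum,
    ← Finset.mul_sum, ← Finset.mul_sum, mul_right_comm _ (C₁ + C₂ + C₃), mul_assoc _ (C₁ + C₂ + C₃)]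
  refine mul_le_mul_of_nonneg_left ?_ (by positivity)
  have a₁ : 0 ≤ R * √Y := by positivity
  have a₂ : 0 ≤ √R * Y := by positivity
  have a₃ : 0 ≤ (R * Y) ^ (5 / 6 : ℝ) := by positivity
  have b₂ : 0 ≤ √R * Y * D ^ (-3 / 2 : ℝ) := by positivity
  have b₃ : 0 ≤ (R * Y) ^ (5 / 6 : ℝ) * D⁻¹ := by positivity
  rw [div_eq_mul_inv _ D]
  nlinarith [mul_le_mul_of_nonneg_left g₁ a₁, mul_le_mul_of_nonneg_left g₂ a₂,
    mul_le_mul_of_nonneg_left g₃ a₃, mul_nonneg hC₁.le b₂, mul_nonneg hC₁.le b₃,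
    mul_nonneg hC₂.le a₁, mul_nonneg hC₂.le b₃, mul_nonneg hC₃.le a₁, mul_nonneg hC₃.le b₂]

end Vale.Agent.P006
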