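import Vale.Agent.P006.Defs
import Vale.Agent.P026.Cubic

/-! K1: basic facts on `Sq`, `gl`, `cv`, `S1`, and growth helpers.
Plans: `Sq` lemmas as the `IsS` ones in `P026/Basic`; `gl_mul` from `g3_mul`, `g3_twist`; `gs_cub` by `Prim.induction`-type
induction over primes (`gs_prime`, `gs_crt`, `cub_recip`), as `gs_sex`; `ftc` from `gs_crt`, `gs_cub`, `cub_recip`;
`sum_cv` by the bijection `(n, d) ↦ (d, n / d)`; `kst_sq` from `Real.Gamma_mul_Gamma_one_sub (1/3)`. -/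

namespace Vale.Agent.P006

open Vale.Agent.P026 Filter
open scoped ComplexConjugate Real

theorem mem_qball {X : ℝ} {n : O} : n ∈ qball X ↔ Sq n ∧ (nm n : ℝ) ≤ X := by
  classical
  rw [qball, Finset.mem_filter, mem_ball, and_comm]
theorem mem_prb {X : ℝ} {p : O} : p ∈ prb X ↔ PP p ∧ (nm p : ℝ) ≤ X := by
  classical
  rw [prb, Finset.mem_filter, mem_ball, and_comm]
theorem qball_mono {X Y : ℝ} (h : X ≤ Y) : qball X ⊆ qball Y := fun _ hn =>
  mem_qball.2 ⟨(mem_qball.1 hn).1, (mem_qball.1 hn).2.trans h⟩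
theorem qball_subset (X : ℝ) : qball X ⊆ ball X := fun _ hn => mem_ball.2 (mem_qball.1 hn).2
theorem sq_one : Sq 1 := ⟨prim_one, squarefree_one⟩
theorem Sq.ne_zero {n : O} (h : Sq n) : n ≠ 0 := h.1.ne_zero
theorem Sq.one_le {n : O} (h : Sq n) : (1 : ℝ) ≤ nm n := one_le_nm h.ne_zero
theorem PP.sq {p : O} (h : PP p) : Sq p := ⟨h.2, h.1.squarefree⟩
theorem Sq.mul {a b : O} (ha : Sq a) (hb : Sq b) (h : IsCoprime a b) : Sq (a * b) :=
  ⟨ha.1.mul hb.1, squarefree_mul_iff.2 ⟨h.isRelPrime, ha.2, hb.2⟩⟩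
theorem Sq.of_dvd {a e : O} (ha : Sq a) (he : Prim e) (h : e ∣ a) : Sq e :=
  ⟨he, ha.2.squarefree_of_dvd h⟩
theorem Sq.coprime {a b : O} (h : Sq (a * b)) : IsCoprime a b :=
  (squarefree_mul_iff.1 h.2).1.isCoprime
theorem Sq.right {a b : O} (h : Sq (a * b)) (ha : Prim a) : Sq a ∧ Sq b :=
  ⟨⟨ha, h.2.of_mul_left⟩, ⟨ha.of_mul h.1, h.2.of_mul_right⟩⟩
theorem Sq.div {n d : O} (h : Sq n) (hd : d ∈ pdiv n) : Sq d ∧ Sq (n / d) ∧ d * (n / d) = n := by
  obtain ⟨h1, h2⟩ := (mem_pdiv h.ne_zero).1 hd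
  have h3 : d * (n / d) = n := EuclideanDomain.mul_div_cancel' h1.ne_zero h2
  have h4 := Sq.right (h3.symm ▸ h : Sq (d * (n / d))) h1
  exact ⟨h4.1, h4.2, h3⟩
theorem Sq.induction {P : O → Prop} (h1 : P 1)
    (hs : ∀ p n, PP p → Sq n → ¬p ∣ n → P n → P (p * n)) {n : O} (hn : Sq n) : P n := by
  refine Prim.induction (P := fun n => Sq n → P n) (fun _ => h1) (fun p n hp hp' hn' ih h => ?_)
    hn.1 hn
  have h2 : Sq n := ⟨hn', h.2.of_mul_right⟩
  exact hs p n ⟨hp, hp'⟩ h2 (fun h' => hp.not_isUnit (h.2 p (mul_dvd_mul_left p h'))) (ih h2)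
theorem Sq.norm_phiS {q : O} (h : Sq q) : ‖phiS q‖ ≤ 1 := by
  refine Sq.induction (P := fun D => ‖phiS D‖ ≤ 1) ?_ ?_ h
  · simp [phiS, psd_pdiv_one, mu_one]
  · rintro p n ⟨hp, hpS⟩ hn hpn ih
    rw [phiS_mul hpS hn.1 ((Irreducible.coprime_iff_not_dvd hp.irreducible).2 hpn), norm_mul]
    refine mul_le_one₀ ?_ (norm_nonneg _) ih
    have h1 : (1 : O) ≠ p := fun e => hp.not_isUnit (e ▸ isUnit_one)
    have h2 : (1 : ℝ) ≤ nm p := one_le_nm hp.ne_zero
    have h3 : phiS p = ((1 - 1 / (nm p : ℝ) : ℝ) : ℂ) := by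
      rw [phiS, psd_pdiv_prime hp hpS, Finset.sum_pair h1, mu_one, mu_prime hp, psd_nm_one]
      push_cast
      ring
    have h4 : 1 / (nm p : ℝ) ≤ 1 := (div_le_one (by linarith)).2 h2
    have h5 : 0 ≤ 1 / (nm p : ℝ) := by positivity
    rw [h3, Complex.norm_real, Real.norm_eq_abs, abs_le]
    constructor <;> linarith
theorem one_le_tau {n : O} (h : n ≠ 0) : 1 ≤ tau n := by
  have : 1 ≤ (pdiv n).card := Finset.card_pos.2 ⟨1, (mem_pdiv h).2 ⟨prim_one, one_dvd _⟩⟩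
  rw [tau]
  exact_mod_cast this
theorem Sq.tau_mul {a b : O} (h : Sq (a * b)) (ha : Prim a) : tau (a * b) = tau a * tau b := by
  rw [tau, tau, tau, card_pdiv_mul ha (ha.of_mul h.1) h.coprime, Nat.cast_mul]

theorem KBasic_nm_ne {a : O} (ha : a ≠ 0) : (nm a : ℂ) ≠ 0 := by
  exact_mod_cast (nm_pos ha).ne'

theorem np_mul {a b : O} (ha : a ≠ 0) (hb : b ≠ 0) (w : ℂ) :
    np (a * b) w = np a w * np b w := by
  have _ := ha
  have _ := hb
  rw [np, np, np, nm_mul, Nat.cast_mul, Complex.natCast_mul_natCast_cpow]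
theorem np_add {a : O} (ha : a ≠ 0) (w w' : ℂ) : np a (w + w') = np a w * np a w' :=
  Complex.cpow_add _ _ (KBasic_nm_ne ha)
theorem norm_np {a : O} (ha : a ≠ 0) (w : ℂ) : ‖np a w‖ = (nm a : ℝ) ^ w.re :=
  Complex.norm_natCast_cpow_of_pos (nm_pos ha) w
theorem np_real (a : O) (x : ℝ) : np a x = ((nm a : ℝ) ^ x : ℝ) := by
  rw [np, Complex.ofReal_cpow (Nat.cast_nonneg _), Complex.ofReal_natCast]
theorem np_I {a : O} (ha : a ≠ 0) (t : ℝ) : np a (Complex.I * t) = nt a t := by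
  rw [np, nt, Complex.cpow_def_of_ne_zero (KBasic_nm_ne ha), Complex.natCast_log, mul_comm]
theorem conj_np (a : O) (w : ℂ) : conj (np a w) = np a (conj w) := by
  rw [np, np, Complex.cpow_conj _ _ (by rw [Complex.natCast_arg]; exact Real.pi_ne_zero.symm),
    Complex.conj_natCast]
theorem norm_win_le (x₁ x₂ : ℝ) (n : O) : ‖win x₁ x₂ n‖ ≤ 1 := norm_ind_le _

theorem kst_pos : 0 < kst := by
  have := Real.Gamma_pos_of_pos (s := 2 / 3) (by norm_num)
  unfold kst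
  positivity
theorem KBasic_cube (x : ℝ) (hx : 0 ≤ x) (a : ℝ) : (x ^ a) ^ 3 = x ^ (3 * a) := by
  rw [← Real.rpow_natCast, ← Real.rpow_mul hx, mul_comm]
  norm_num
theorem kst_sq : kst ^ 2 = c0 ^ (1 / 3 : ℝ) * 9 ^ (-2 / 3 : ℝ) * Real.Gamma (1 / 3) / Real.Gamma (2 / 3) := by
  have hG := Real.Gamma_pos_of_pos (s := 2 / 3) (by norm_num)
  have h3 : √3 * √3 = 3 := Real.mul_self_sqrt (by norm_num)
  have h30 : (0 : ℝ) < √3 := by positivity
  have hπ := Real.pi_pos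
  have h1 : Real.Gamma (1 / 3) = c0 / Real.Gamma (2 / 3) := by
    have := Real.Gamma_mul_Gamma_one_sub (1 / 3)
    rw [show (1 : ℝ) - 1 / 3 = 2 / 3 by norm_num, show π * (1 / 3) = π / 3 by ring,
      Real.sin_pi_div_three] at this
    rw [eq_div_iff hG.ne', this, c0]
    field_simp
  have hc := c0_pos
  have h2 : ((2 * π) ^ (2 / 3 : ℝ)) ^ 2 / 9 = c0 ^ (1 / 3 : ℝ) * 9 ^ (-2 / 3 : ℝ) * c0 := by
    refine (pow_left_inj₀ (by positivity) (by positivity) three_ne_zero).1 ?_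
    rw [div_pow, ← pow_mul, mul_comm 2 3, pow_mul, mul_pow, mul_pow, KBasic_cube _ (by positivity),
      KBasic_cube _ hc.le, KBasic_cube _ (by norm_num), show (3 : ℝ) * (2 / 3) = (2 : ℕ) by norm_num,
      show (3 : ℝ) * (1 / 3) = 1 by norm_num, show (3 : ℝ) * (-2 / 3) = -((2 : ℕ) : ℝ) by norm_num,
      Real.rpow_neg (by norm_num), Real.rpow_natCast, Real.rpow_natCast, Real.rpow_one, c0]
    have h4 : √3 ^ 4 = (9 : ℝ) := by
      rw [show √3 ^ 4 = (√3 * √3) * (√3 * √3) by ring, h3]; norm_num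
    field_simp
    rw [h4]
  rw [h1, kst, div_pow, mul_pow, mul_div_assoc', ← h2]
  field_simp
  norm_num
theorem gl_eq {n : O} (h : Prim n) : gl n = conj (cub lam n) * gt3 n := by
  rw [gl, gt3, ← mul_div_assoc, ← g3_twist h.ne_zero (coprime_lam h), one_mul]
theorem norm_gl {n : O} (h : Sq n) : ‖gl n‖ = 1 := by
  rw [gl_eq h.1, norm_mul, Complex.norm_conj, norm_cub (coprime_lam h.1), norm_gt3 h.1 h.2, one_mul]
theorem gl_mul {a b : O} (ha : Prim a) (hb : Prim b) (h : IsCoprime a b) :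
    gl (a * b) = gl a * gl b * conj (cub a b) := by
  rw [gl, gl, gl, g3_mul ha hb h, g3_twist hb.ne_zero h, G2.sqrt_nm_mul, Complex.ofReal_mul]
  ring
theorem vth_eq {c d : O} (hc : Sq c) (hd : Prim d) : vth (c * d ^ 3) = gl c * (√(nm d) : ℝ) := by
  rw [vth, th0_eq hc.1 hc.2 hd, cub_mul_right hc.ne_zero (pow_ne_zero 3 hd.ne_zero),
    cub_pow_right hd.ne_zero, cub_cube (coprime_lam hd), gl_eq hc.1]
  simp only [map_mul, Complex.conj_conj, Complex.conj_ofReal, mul_one]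
  ring
theorem vth_ne_zero {n : O} (h : vth n ≠ 0) : ∃ c d, Sq c ∧ Prim d ∧ n = c * d ^ 3 := by
  obtain ⟨c, d, h1, h2, h3, h4⟩ := th0_ne_zero (n := n) fun e => h (by simp [vth, e])
  exact ⟨c, d, ⟨h1, h2⟩, h3, h4⟩
theorem norm_gq_le (n : O) : ‖gq n‖ ≤ 1 := by
  by_cases h : Sq n
  · rw [gq, ind_of h, one_mul, norm_gl h]
  · rw [gq, ind_of_not h, zero_mul, norm_zero]
    exact zero_le_one
theorem norm_aq_le (n : O) : ‖aq n‖ ≤ 1 + kst := by
  have hk := kst_pos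
  by_cases h : Sq n
  · rw [aq, ind_of h, one_mul]
    refine (norm_sub_le _ _).trans ?_
    rw [norm_gl h, norm_mul, Complex.norm_real, Real.norm_of_nonneg hk.le, norm_np h.ne_zero]
    have h1 : (nm n : ℝ) ^ (-1 / 6 : ℂ).re ≤ 1 :=
      Real.rpow_le_one_of_one_le_of_nonpos h.one_le (by norm_num)
    nlinarith
  · rw [aq, ind_of_not h, zero_mul, norm_zero]
    linarith
theorem aq_eq_zero {n : O} (h : ¬Sq n) : aq n = 0 := by
  rw [aq, ind_of_not h, zero_mul]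
theorem aq_eq (n : O) : aq n = gq n - kst * (ind (Sq n) * np n (-1 / 6)) := by
  rw [aq, gq]
  ring
theorem gs_cub {n : O} (hn : Sq n) (ν : O) :
    ∑ x ∈ res n, cub x n * eq (ν * x) n = conj (cub ν n) * gt3 n * (√(nm n) : ℝ) := by
  refine Sq.induction (P := fun n => ∑ x ∈ res n, cub x n * eq (ν * x) n =
    conj (cub ν n) * gt3 n * (√(nm n) : ℝ)) ?_ ?_ hn
  · have := g3_one ν
    rw [g3] at this
    beta_reduce
    rw [this, gt3, g3_one]
    simp
  · rintro p n ⟨hp, hp'⟩ hn hd ih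
    have hc := (G2.coprime_of_not_dvd hp hd).symm
    have hn0 := hn.ne_zero
    have h2 := gs_crt hp.ne_zero hn0 hc (G2.cub_per p) (G2.cub_per n)
      (fun a b => cub_mul_left a b p) (fun a b => cub_mul_left a b n) ν
    obtain ⟨a, ha, ha'⟩ := exists_cub_ne_one hp hp'.not_lam_dvd
    have h3 := (gs_prime hp (G2.cub_per p) (fun a b => cub_mul_left a b p)
      (cub_eq_zero_of_dvd hp hp' (dvd_zero p))
      (fun _ h => norm_cub (G2.coprime_of_not_dvd hp h))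
      ⟨a, G2.not_dvd_of_coprime hp ha, ha'⟩).1 ν
    have h1 : ∑ x ∈ res p, cub x p * eq x p = gt3 p * (√(nm p) : ℝ) := by
      rw [gt3, div_mul_cancel₀ _ (G2.sqrt_nm_ne hp.ne_zero), g3]
      simp only [one_mul]
    simp only [cub_mul_right hp.ne_zero hn0, h2, ih, h3, G2.gt3_crt hp.ne_zero hn0 hc,
      G2.sqrt_nm_mul, Complex.ofReal_mul, map_mul, h1]
    ring
theorem ftc {m₁ m₂ : O} (h₁ : Sq m₁) (h₂ : Sq m₂) (h : IsCoprime m₁ m₂) (k : O) :
    ∑ x ∈ res (m₁ * m₂), cub x m₁ * conj (cub x m₂) * eq (k * x) (m₁ * m₂) =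
      (√(nm m₁) * √(nm m₂) : ℝ) * gt3 m₁ * conj (gt3 m₂) * conj (cub k m₁) * cub k m₂ := by
  have a1 := gs_crt h₁.ne_zero h₂.ne_zero h (f := fun x => cub x m₁)
    (g := fun x => conj (cub x m₂)) (G2.cub_per m₁) (fun x y e => congrArg conj (cub_congr e))
    (fun a b => cub_mul_left a b m₁) (fun a b => by rw [cub_mul_left, map_mul]) k
  have a2 := congrArg conj (gs_cub h₂ (-k))
  rw [map_sum, cub_neg_left] at a2
  have a3 : ∑ x ∈ res m₂, conj (cub x m₂) * eq (k * x) m₂ =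
      ∑ x ∈ res m₂, conj (cub x m₂ * eq (-k * x) m₂) :=
    Finset.sum_congr rfl fun x _ => by rw [map_mul, conj_eq, neg_mul, neg_neg]
  have a4 : conj (cub m₁ m₂) * cub m₁ m₂ = 1 := conj_mul_of_norm (norm_cub h)
  rw [a1, a3, a2, gs_cub h₁, cub_recip h₂.1 h₁.1, mul_comm (cub m₁ m₂), a4]
  simp only [map_mul, Complex.conj_conj, Complex.conj_ofReal, Complex.ofReal_mul]
  ring

end Vale.Agent.P006
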