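import Vale.Agent.P006.KBasic

/-! K2: the convolution `cv`, the sum `S1`, growth helpers.
Plans: `sum_cv` by the bijection `(n, d) ↦ (d, n / d)`; `cv_assoc` through sums over triples (or `Finset.sum_sigma'` bijection
`(d, e) ↦ (e, d / e)`); `ev_tau` from `card_pdiv_le`; `card_annulus` from `card_ball`. -/

namespace Vale.Agent.P006

open Vale.Agent.P026 Filter
open scoped ComplexConjugate Real

theorem kcv_mem_qball {n e : O} {X : ℝ} (hn : Sq n) (hX : (nm n : ℝ) ≤ X) (he : Prim e)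
    (h : e ∣ n) : e ∈ qball X :=
  mem_qball.2 ⟨hn.of_dvd he h, le_trans (by exact_mod_cast nm_le_of_dvd hn.ne_zero h) hX⟩

theorem kcv_pair {n : O} (hn : Sq n) {X : ℝ} (hX : (nm n : ℝ) ≤ X) (G : O → O → ℂ) :
    ∑ d ∈ pdiv n, G d (n / d) = ∑ a ∈ qball X, ∑ b ∈ qball X, ind (a * b = n) * G a b := by
  have hsub : pdiv n ⊆ qball X := fun d hd =>
    kcv_mem_qball hn hX ((mem_pdiv hn.ne_zero).1 hd).1 ((mem_pdiv hn.ne_zero).1 hd).2
  rw [← Finset.sum_subset hsub]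
  · refine Finset.sum_congr rfl fun a ha => ?_
    obtain ⟨h1, h2, h3⟩ := hn.div ha
    rw [Finset.sum_eq_single (n / a), ind_of h3, one_mul]
    · intro b _ hb
      rw [ind_of_not, zero_mul]
      intro h
      exact hb (mul_left_cancel₀ h1.ne_zero (h.trans h3.symm))
    · intro h
      exact absurd (kcv_mem_qball hn hX h2.1 (Dvd.intro_left a h3)) h
  · intro a ha hna
    refine Finset.sum_eq_zero fun b _ => ?_
    rw [ind_of_not, zero_mul]
    intro h
    exact hna ((mem_pdiv hn.ne_zero).2 ⟨(mem_qball.1 ha).1.1, Dvd.intro b h⟩)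

theorem kcv_eq {n : O} (hn : Sq n) {X : ℝ} (hX : (nm n : ℝ) ≤ X) (f g : O → ℂ) :
    cv f g n = ∑ a ∈ qball X, ∑ b ∈ qball X, ind (a * b = n) * (f a * g b) := by
  unfold cv
  rw [ind_of hn, one_mul]
  exact kcv_pair hn hX fun a b => f a * g b

theorem kcv_collapse {n m c : O} {X : ℝ} (hn : Sq n) (hX : (nm n : ℝ) ≤ X) (hm : Prim m) (z : ℂ) :
    ∑ d ∈ qball X, ind (d * c = n) * (ind (m = d) * z) = ind (m * c = n) * z := by
  by_cases h : m * c = n
  · rw [Finset.sum_eq_single m, ind_of (rfl : m = m), one_mul]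
    · intro d _ hd
      rw [ind_of_not (Ne.symm hd), zero_mul, mul_zero]
    · intro h'
      exact absurd (kcv_mem_qball hn hX hm (Dvd.intro c h)) h'
  · rw [ind_of_not h, zero_mul]
    refine Finset.sum_eq_zero fun d _ => ?_
    by_cases hd : m = d
    · rw [← hd, ind_of_not h, zero_mul]
    · rw [ind_of_not hd, zero_mul, mul_zero]

theorem kcv_triple {n : O} (hn : Sq n) (f g h : O → ℂ) :
    cv (cv f g) h n = ∑ c ∈ qball (nm n), ∑ a ∈ qball (nm n), ∑ b ∈ qball (nm n),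
      ind (a * b * c = n) * (f a * g b * h c) := by
  rw [kcv_eq hn le_rfl, Finset.sum_comm]
  refine Finset.sum_congr rfl fun c _ => ?_
  have h1 : ∀ d ∈ qball (nm n : ℝ), ind (d * c = n) * (cv f g d * h c) =
      ∑ a ∈ qball (nm n), ∑ b ∈ qball (nm n),
        ind (d * c = n) * (ind (a * b = d) * (f a * g b * h c)) := by
    intro d hd
    rw [kcv_eq (mem_qball.1 hd).1 (mem_qball.1 hd).2, Finset.sum_mul, Finset.mul_sum]
    refine Finset.sum_congr rfl fun a _ => ?_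
    rw [Finset.sum_mul, Finset.mul_sum]
    refine Finset.sum_congr rfl fun b _ => ?_
    ring
  rw [Finset.sum_congr rfl h1, Finset.sum_comm]
  refine Finset.sum_congr rfl fun a ha => ?_
  rw [Finset.sum_comm]
  refine Finset.sum_congr rfl fun b hb => ?_
  exact kcv_collapse hn le_rfl ((mem_qball.1 ha).1.1.mul (mem_qball.1 hb).1.1) _

theorem cv_eq_zero {f g : O → ℂ} {n : O} (h : ¬Sq n) : cv f g n = 0 := by
  unfold cv
  rw [ind_of_not h, zero_mul]
theorem cv_congr {f f' g g' : O → ℂ} (hf : ∀ n, Sq n → f n = f' n) (hg : ∀ n, Sq n → g n = g' n) :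
    cv f g = cv f' g' := by
  funext n
  by_cases hn : Sq n
  · unfold cv
    refine congrArg _ (Finset.sum_congr rfl fun d hd => ?_)
    rw [hf d (hn.div hd).1, hg _ (hn.div hd).2.1]
  · rw [cv_eq_zero hn, cv_eq_zero hn]
theorem cv_comm (f g : O → ℂ) : cv f g = cv g f := by
  funext n
  by_cases hn : Sq n
  · rw [kcv_eq hn le_rfl, kcv_eq hn le_rfl, Finset.sum_comm]
    refine Finset.sum_congr rfl fun a _ => Finset.sum_congr rfl fun b _ => ?_
    rw [mul_comm b a, mul_comm (f b)]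
  · rw [cv_eq_zero hn, cv_eq_zero hn]
theorem cv_assoc (f g h : O → ℂ) : cv (cv f g) h = cv f (cv g h) := by
  rw [cv_comm f (cv g h)]
  funext n
  by_cases hn : Sq n
  · rw [kcv_triple hn, kcv_triple hn, Finset.sum_comm]
    refine Finset.sum_congr rfl fun a _ => ?_
    rw [Finset.sum_comm]
    refine Finset.sum_congr rfl fun b _ => Finset.sum_congr rfl fun c _ => ?_
    rw [show a * b * c = b * c * a by ring, show f a * g b * h c = g b * h c * f a by ring]
  · rw [cv_eq_zero hn, cv_eq_zero hn]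
theorem cv_add (f g g' : O → ℂ) : cv f (fun n => g n + g' n) = fun n => cv f g n + cv f g' n := by
  funext n
  unfold cv
  simp only [mul_add, Finset.sum_add_distrib]
theorem cv_sub (f g g' : O → ℂ) : cv f (fun n => g n - g' n) = fun n => cv f g n - cv f g' n := by
  funext n
  unfold cv
  simp only [mul_sub, Finset.sum_sub_distrib]
theorem cv_smul (a : ℂ) (f g : O → ℂ) : cv f (fun n => a * g n) = fun n => a * cv f g n := by
  funext n
  unfold cv
  rw [mul_left_comm, Finset.mul_sum _ _ a]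
  refine congrArg _ (Finset.sum_congr rfl fun d _ => ?_)
  ring
theorem cv_sum {ι : Type*} (s : Finset ι) (f : O → ℂ) (g : ι → O → ℂ) :
    cv f (fun n => ∑ i ∈ s, g i n) = fun n => ∑ i ∈ s, cv f (g i) n := by
  funext n
  unfold cv
  rw [← Finset.mul_sum, Finset.sum_comm]
  refine congrArg _ (Finset.sum_congr rfl fun d _ => ?_)
  rw [Finset.mul_sum]
theorem cv_delta (f : O → ℂ) (n : O) : cv f (fun m => ind (m = 1)) n = ind (Sq n) * f n := by
  by_cases hn : Sq n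
  · unfold cv
    have hnn : n ∈ pdiv n := (mem_pdiv hn.ne_zero).2 ⟨hn.1, dvd_rfl⟩
    rw [Finset.sum_eq_single n]
    · have h3 := (hn.div hnn).2.2
      have h4 : n / n = 1 := mul_left_cancel₀ hn.ne_zero (h3.trans (mul_one n).symm)
      beta_reduce
      rw [ind_of h4, mul_one]
    · intro d hd hdn
      beta_reduce
      rw [ind_of_not, mul_zero]
      intro h
      have h3 := (hn.div hd).2.2
      rw [h, mul_one] at h3
      exact hdn h3
    · intro h; exact absurd hnn h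
  · rw [cv_eq_zero hn, ind_of_not hn, zero_mul]
theorem mul_cv {h : O → ℂ} (hh : ∀ a b, Sq a → Sq b → IsCoprime a b → h (a * b) = h a * h b)
    (f g : O → ℂ) (n : O) : h n * cv f g n = cv (fun m => h m * f m) (fun m => h m * g m) n := by
  by_cases hn : Sq n
  · unfold cv
    rw [mul_left_comm, Finset.mul_sum]
    refine congrArg _ (Finset.sum_congr rfl fun d hd => ?_)
    obtain ⟨h1, h2, h3⟩ := hn.div hd
    have h4 := hh d (n / d) h1 h2 (Sq.coprime (by rw [h3]; exact hn))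
    rw [h3] at h4
    rw [h4]; ring
  · rw [cv_eq_zero hn, cv_eq_zero hn, mul_zero]
theorem norm_cv_le {M M' : ℝ} {f g : O → ℂ} (hf : Bd M f) (hg : Bd M' g) (n : O) :
    ‖cv f g n‖ ≤ tau n * (M * M') := by
  have hM : 0 ≤ M := le_trans (norm_nonneg _) (hf 0)
  have hM' : 0 ≤ M' := le_trans (norm_nonneg _) (hg 0)
  unfold cv tau
  rw [norm_mul]
  refine le_trans (mul_le_of_le_one_left (norm_nonneg _) (norm_ind_le _)) ?_
  refine le_trans (norm_sum_le _ _) ?_
  rw [← nsmul_eq_mul]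
  refine Finset.sum_le_card_nsmul _ _ _ fun d _ => ?_
  rw [norm_mul]
  exact mul_le_mul (hf _) (hg _) (norm_nonneg _) hM
theorem cv_ne_zero {f g : O → ℂ} {n : O} (h : cv f g n ≠ 0) :
    Sq n ∧ ∃ a b, Sq a ∧ Sq b ∧ n = a * b ∧ f a ≠ 0 ∧ g b ≠ 0 := by
  have hn : Sq n := by
    by_contra hn
    exact h (cv_eq_zero hn)
  refine ⟨hn, ?_⟩
  unfold cv at h
  obtain ⟨d, hd, h1⟩ := Finset.exists_ne_zero_of_sum_ne_zero (right_ne_zero_of_mul h)
  obtain ⟨h2, h3, h4⟩ := hn.div hd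
  exact ⟨d, n / d, h2, h3, h4.symm, left_ne_zero_of_mul h1, right_ne_zero_of_mul h1⟩
theorem Supp.cv {c c' B B' : ℝ} {f g : O → ℂ} (hB : 0 ≤ B) (hB' : 0 ≤ B') (hf : Supp c B f)
    (hg : Supp c' B' g) : Supp (c * c') (B * B') (cv f g) := by
  intro n hn
  obtain ⟨h1, a, b, -, -, rfl, ha, hb⟩ := cv_ne_zero hn
  obtain ⟨-, h2, h3⟩ := hf a ha
  obtain ⟨-, h4, h5⟩ := hg b hb
  refine ⟨h1, ?_, ?_⟩
  · rw [nm_mul, Nat.cast_mul]
    exact mul_lt_mul'' h2 h4 hB hB'
  · rw [nm_mul, Nat.cast_mul, show c * c' * (B * B') = c * B * (c' * B') by ring]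
    exact mul_le_mul h3 h5 (Nat.cast_nonneg _) (le_trans (Nat.cast_nonneg _) h3)
theorem sum_cv (X : ℝ) (f g F : O → ℂ) : ∑ n ∈ qball X, cv f g n * F n =
    ∑ a ∈ qball X, ∑ b ∈ qball X, ind (Sq (a * b) ∧ (nm (a * b) : ℝ) ≤ X) * (f a * g b * F (a * b)) := by
  have h1 : ∀ n ∈ qball X, cv f g n * F n =
      ∑ a ∈ qball X, ∑ b ∈ qball X, ind (a * b = n) * (f a * g b * F n) := by
    intro n hn
    rw [kcv_eq (mem_qball.1 hn).1 (mem_qball.1 hn).2, Finset.sum_mul]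
    refine Finset.sum_congr rfl fun a _ => ?_
    rw [Finset.sum_mul]
    refine Finset.sum_congr rfl fun b _ => ?_
    ring
  rw [Finset.sum_congr rfl h1, Finset.sum_comm]
  refine Finset.sum_congr rfl fun a _ => ?_
  rw [Finset.sum_comm]
  refine Finset.sum_congr rfl fun b _ => ?_
  by_cases h : Sq (a * b) ∧ (nm (a * b) : ℝ) ≤ X
  · rw [Finset.sum_eq_single (a * b), ind_of h, ind_of rfl]
    · intro n _ hn
      rw [ind_of_not (Ne.symm hn), zero_mul]
    · intro h'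
      exact absurd (mem_qball.2 h) h'
  · rw [ind_of_not h, zero_mul]
    refine Finset.sum_eq_zero fun n hn => ?_
    rw [ind_of_not, zero_mul]
    rintro rfl
    exact h (mem_qball.1 hn)
theorem S1_cv (x₁ x₂ : ℝ) {X : ℝ} (h : x₂ ≤ X) (f g : O → ℂ) : S1 x₁ x₂ (cv f g) =
    ∑ a ∈ qball X, ∑ b ∈ qball X, f a * g b * aq (a * b) * win x₁ x₂ (a * b) := by
  have h1 : S1 x₁ x₂ (cv f g) = ∑ n ∈ qball X, cv f g n * (aq n * win x₁ x₂ n) := by
    unfold S1
    rw [← Finset.sum_subset (qball_mono h)]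
    · exact Finset.sum_congr rfl fun n _ => mul_assoc _ _ _
    · intro n hn hn'
      have h2 : win x₁ x₂ n = 0 :=
        ind_of_not fun h3 => hn' (mem_qball.2 ⟨(mem_qball.1 hn).1, h3.2⟩)
      rw [h2, mul_zero, mul_zero]
  rw [h1, sum_cv]
  refine Finset.sum_congr rfl fun a _ => Finset.sum_congr rfl fun b _ => ?_
  by_cases h2 : Sq (a * b) ∧ (nm (a * b) : ℝ) ≤ X
  · rw [ind_of h2]; ring
  · rw [ind_of_not h2, zero_mul]
    by_cases h3 : Sq (a * b)
    · have h4 : win x₁ x₂ (a * b) = 0 := ind_of_not fun h5 => h2 ⟨h3, h5.2.trans h⟩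
      rw [h4, mul_zero]
    · rw [aq_eq_zero h3, mul_zero, zero_mul]
theorem S1_congr {x₁ x₂ : ℝ} {c c' : O → ℂ}
    (h : ∀ n, Sq n → x₁ < nm n → (nm n : ℝ) ≤ x₂ → c n = c' n) : S1 x₁ x₂ c = S1 x₁ x₂ c' := by
  unfold S1
  refine Finset.sum_congr rfl fun n hn => ?_
  by_cases h1 : x₁ < nm n
  · rw [h n (mem_qball.1 hn).1 h1 (mem_qball.1 hn).2]
  · have h2 : win x₁ x₂ n = 0 := ind_of_not fun h3 => h1 h3.1
    rw [h2, mul_zero, mul_zero]
theorem S1_add (x₁ x₂ : ℝ) (c c' : O → ℂ) :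
    S1 x₁ x₂ (fun n => c n + c' n) = S1 x₁ x₂ c + S1 x₁ x₂ c' := by
  unfold S1
  simp only [add_mul, Finset.sum_add_distrib]
theorem S1_sub (x₁ x₂ : ℝ) (c c' : O → ℂ) :
    S1 x₁ x₂ (fun n => c n - c' n) = S1 x₁ x₂ c - S1 x₁ x₂ c' := by
  unfold S1
  simp only [sub_mul, Finset.sum_sub_distrib]
theorem S1_smul (x₁ x₂ : ℝ) (a : ℂ) (c : O → ℂ) : S1 x₁ x₂ (fun n => a * c n) = a * S1 x₁ x₂ c := by
  unfold S1
  rw [Finset.mul_sum]
  refine Finset.sum_congr rfl fun n _ => ?_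
  ring
theorem S1_sum {ι : Type*} (s : Finset ι) (x₁ x₂ : ℝ) (c : ι → O → ℂ) :
    S1 x₁ x₂ (fun n => ∑ i ∈ s, c i n) = ∑ i ∈ s, S1 x₁ x₂ (c i) := by
  unfold S1
  rw [Finset.sum_comm]
  refine Finset.sum_congr rfl fun n _ => ?_
  rw [Finset.sum_mul, Finset.sum_mul]

theorem ev_const (C : ℝ) {ε : ℝ} (hε : 0 < ε) : ∀ᶠ X : ℝ in atTop, C ≤ X ^ ε := by
  exact (tendsto_rpow_atTop hε).eventually_ge_atTop C
theorem ev_log (C : ℝ) (k : ℕ) {ε : ℝ} (hε : 0 < ε) :
    ∀ᶠ X : ℝ in atTop, C * Real.log X ^ k ≤ X ^ ε := by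
  have h := (isLittleO_log_rpow_rpow_atTop (k : ℝ) hε).bound
    (show (0 : ℝ) < 1 / (|C| + 1) by positivity)
  filter_upwards [h, eventually_ge_atTop (1 : ℝ)] with X h1 hX
  have h2 : 0 ≤ Real.log X := Real.log_nonneg hX
  have h3 : 0 ≤ X ^ ε := by positivity
  rw [Real.rpow_natCast, Real.norm_of_nonneg (by positivity), Real.norm_of_nonneg h3] at h1
  have h4 : 0 < |C| + 1 := by positivity
  calc C * Real.log X ^ k ≤ (|C| + 1) * Real.log X ^ k :=
        mul_le_mul_of_nonneg_right (by linarith [le_abs_self C]) (by positivity)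
    _ ≤ (|C| + 1) * (1 / (|C| + 1) * X ^ ε) := mul_le_mul_of_nonneg_left h1 h4.le
    _ = X ^ ε := by field_simp
theorem ev_tau (A : ℝ) {ε : ℝ} (hε : 0 < ε) :
    ∀ᶠ X : ℝ in atTop, ∀ n : O, n ≠ 0 → (nm n : ℝ) ≤ X ^ A → tau n ≤ X ^ ε := by
  have h4 : 0 < |A| + 1 := by positivity
  obtain ⟨C, hC, h⟩ := card_pdiv_le (ε / 2 / (|A| + 1)) (by positivity)
  filter_upwards [ev_const C (half_pos hε), eventually_ge_atTop (1 : ℝ)] with X h1 hX n hn h2
  have hX0 : 0 < X := by linarith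
  have h3 : (nm n : ℝ) ^ (ε / 2 / (|A| + 1)) ≤ X ^ (ε / 2) := by
    refine le_trans (Real.rpow_le_rpow (Nat.cast_nonneg _) h2 (by positivity)) ?_
    rw [← Real.rpow_mul hX0.le]
    refine Real.rpow_le_rpow_of_exponent_le hX ?_
    rw [← mul_div_assoc, div_le_iff₀ h4]
    nlinarith [le_abs_self A]
  calc tau n ≤ C * (nm n : ℝ) ^ (ε / 2 / (|A| + 1)) := h n hn
    _ ≤ X ^ (ε / 2) * X ^ (ε / 2) := mul_le_mul h1 h3 (by positivity) (by positivity)
    _ = X ^ ε := by rw [← Real.rpow_add hX0, add_halves]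
theorem ev_exp (A : ℝ) {c δ : ℝ} (hc : 0 < c) (hδ : 0 < δ) :
    ∀ᶠ X : ℝ in atTop, Real.exp (-(c * X ^ δ)) ≤ X ^ (-A) := by
  filter_upwards [ev_log (A / c) 1 hδ, eventually_gt_atTop (0 : ℝ)] with X h1 hX
  rw [Real.rpow_def_of_pos hX (-A)]
  refine Real.exp_le_exp.2 ?_
  rw [pow_one, div_mul_eq_mul_div, div_le_iff₀ hc] at h1
  linarith
theorem ev_exp_log (A : ℝ) {c : ℝ} (hc : 0 < c) :
    ∀ᶠ X : ℝ in atTop, Real.exp (-(c * Real.log X ^ 2)) ≤ X ^ (-A) := by
  filter_upwards [Real.tendsto_log_atTop.eventually_ge_atTop (A / c), eventually_ge_atTop (1 : ℝ)]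
    with X h1 hX
  rw [Real.rpow_def_of_pos (by linarith) (-A)]
  refine Real.exp_le_exp.2 ?_
  rw [div_le_iff₀ hc] at h1
  have h2 : 0 ≤ Real.log X := Real.log_nonneg hX
  nlinarith
open Classical in
theorem card_annulus : ∃ C : ℝ, 0 < C ∧ ∀ y H : ℝ, 0 ≤ y → 0 ≤ H →
    (((ball (y + H)).filter fun n => y < (nm n : ℝ)).card : ℝ) ≤ C * (H + √y + 1) := by
  obtain ⟨C, hC, h⟩ := card_ball
  have hc := c0_pos
  refine ⟨c0 + 3 * C, by positivity, fun y H hy hH => ?_⟩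
  have h1 := abs_le.1 (h (y + H) (by positivity))
  have h2 := abs_le.1 (h y hy)
  have h3 := Finset.card_filter_add_card_filter_not (s := ball (y + H)) fun n => y < (nm n : ℝ)
  have h4 : (ball (y + H)).filter (fun n => ¬ y < (nm n : ℝ)) = ball y := by
    ext n
    rw [Finset.mem_filter, mem_ball, mem_ball, not_lt]
    exact ⟨fun h => h.2, fun h => ⟨by linarith, h⟩⟩
  rw [h4] at h3
  have h5 : (((ball (y + H)).filter fun n => y < (nm n : ℝ)).card : ℝ) + (ball y).card =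
      (ball (y + H)).card := by exact_mod_cast h3
  have h6 : √(y + H) ≤ √y + (1 + H) := by
    have hs := Real.sqrt_nonneg y
    rw [Real.sqrt_le_left (by positivity)]
    nlinarith [Real.sq_sqrt hy]
  have h7 := Real.sqrt_nonneg y
  have h8 : C * √(y + H) ≤ C * (√y + (1 + H)) := mul_le_mul_of_nonneg_left h6 hC.le
  nlinarith [mul_nonneg hc.le h7, mul_nonneg hC.le h7, mul_nonneg hC.le hH]

end Vale.Agent.P006
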