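import Vale.Agent.P006.KBasic
import Vale.Agent.P026.Zeta
import Vale.Agent.P026.ThCZ

/-! K7: continuation of Dirichlet series over `O` from a bound on partial sums.
Plans: `card_pball`: `ball u = {0} ∪ units·primary ∪ λ·(ball (u/3) \ 0)`, so `6 #pball u = #ball u - #ball (u/3)`; `card_ball`.
`dir_cont`: `∑ a n N^{-s} = s ∫_1^∞ A(u) u^{-s-1} du` for `Re s > 1` (`N^{-s} = s ∫_N^∞ u^{-s-1}`, Fubini), `A = ρ u + E`,
`F s = ρ s + (s-1) s ∫_1^∞ E(u) u^{-s-1} du`; holomorphy by `differentiableOn_integral_of_bound` (P026/ThCRes) or `mellin_differentiableAt_of_isBigO_rpow`. -/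

namespace Vale.Agent.P006

open Vale.Agent.P026 Filter MeasureTheory
open scoped ComplexConjugate Real

/-- the six units -/
def kzU : Finset O := {1, -1, om, -om, om ^ 2, -om ^ 2}

theorem kzeta_mem {u : O} : u ∈ kzU ↔ IsUnit u := by
  simp only [kzU, Finset.mem_insert, Finset.mem_singleton, isUnit_iff]

theorem kzeta_ind (n : O) : ind (¬lam ∣ n) = ∑ u ∈ kzU, ind (Prim (u * n)) := by
  by_cases h : lam ∣ n
  · rw [ind_of_not (not_not.2 h)]
    exact (Finset.sum_eq_zero fun u _ => ind_of_not fun h' => h'.not_lam_dvd (h.mul_left u)).symm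
  obtain ⟨v, c, hv, hc, rfl⟩ := exists_prim h
  obtain ⟨w, hw⟩ := hv.exists_left_inv
  rw [ind_of h, Finset.sum_eq_single_of_mem w (kzeta_mem.2 (IsUnit.of_mul_eq_one _ hw)),
    ← mul_assoc, hw, one_mul, ind_of hc]
  refine fun u hu hne => ind_of_not fun h' => hne ?_
  rw [← mul_assoc, mul_comm] at h'
  have := (hc.of_mul h').eq_one_of_isUnit ((kzeta_mem.1 hu).mul hv)
  exact mul_right_cancel₀ hv.ne_zero (this.trans hw.symm)

theorem kzeta_dvd {e : O} (he : e ≠ 0) (g : O → ℂ) :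
    ∑' n, ind (e ∣ n) * g n = ∑' n, g (e * n) := by
  rw [← (mul_right_injective₀ he).tsum_eq]
  · exact tsum_congr fun n => by rw [ind_of (dvd_mul_right _ _), one_mul]
  · intro n hn
    by_contra h
    exact left_ne_zero_of_mul hn (ind_of_not fun ⟨c, hc⟩ => h ⟨c, hc.symm⟩)

theorem kzeta_summable {g : O → ℂ} (hg : Summable fun n => ‖g n‖) (p : O → Prop) :
    Summable fun n => ind (p n) * g n :=
  .of_norm_bounded hg fun n => by
    rw [norm_mul]; exact mul_le_of_le_one_left (norm_nonneg _) (norm_ind_le _)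

theorem kzeta_split {g : O → ℂ} (hg : Summable fun n => ‖g n‖)
    (hu : ∀ u n, IsUnit u → g (u * n) = g n) :
    ∑' n, g n = ∑' n, g (lam * n) + 6 * ∑' n, ind (Prim n) * g n := by
  have h1 : ∀ u ∈ kzU, ∑' n, ind (Prim (u * n)) * g n = ∑' n, ind (Prim n) * g n := by
    intro u h
    have h2 := kzeta_mem.1 h
    rw [← (Units.mulLeft h2.unit).tsum_eq fun n => ind (Prim n) * g n]
    exact tsum_congr fun n => by simp [hu u n h2]
  have h2 : ∑' n, ind (¬lam ∣ n) * g n = 6 * ∑' n, ind (Prim n) * g n := by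
    simp only [kzeta_ind, Finset.sum_mul]
    rw [Summable.tsum_finsetSum fun u _ => kzeta_summable hg _, Finset.sum_congr rfl h1,
      Finset.sum_const, show kzU.card = 6 by decide, nsmul_eq_mul, Nat.cast_ofNat]
  rw [← kzeta_dvd prime_lam.ne_zero, ← h2,
    ← (kzeta_summable hg _).tsum_add (kzeta_summable hg _)]
  refine tsum_congr fun n => ?_
  by_cases h : lam ∣ n
  · rw [ind_of h, ind_of_not (not_not.2 h)]; ring
  · rw [ind_of h, ind_of_not h]; ring

theorem kzeta_nm_unit {u : O} (hu : IsUnit u) (n : O) : nm (u * n) = nm n := by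
  rw [nm_mul, isUnit_iff_nm.1 hu, one_mul]

theorem kzeta_tsum_ball (f : O → ℂ) (u : ℝ) :
    ∑' n, f n * ind ((nm n : ℝ) ≤ u) = ∑ n ∈ ball u, f n := by
  rw [tsum_eq_sum (s := ball u) fun n hn => by rw [ind_of_not (mt mem_ball.2 hn), mul_zero]]
  exact Finset.sum_congr rfl fun n hn => by rw [ind_of (mem_ball.1 hn), mul_one]

theorem kzeta_sum_prim (u : ℝ) : ∑ n ∈ ball u, ind (Prim n) = (pball u).card := by
  classical
  simp only [ind, pball]
  rw [Finset.sum_boole]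

theorem kzeta_card (u : ℝ) :
    ((ball u).card : ℝ) = (ball (u / 3)).card + 6 * (pball u).card := by
  have h1 : ∀ u : ℝ, ∑' n : O, ind ((nm n : ℝ) ≤ u) = (ball u).card := fun u => by
    simpa using kzeta_tsum_ball 1 u
  have h2 := kzeta_split (g := fun n => ind ((nm n : ℝ) ≤ u))
    (summable_of_ne_finset_zero (s := ball u) fun n hn => by
      rw [ind_of_not (mt mem_ball.2 hn), norm_zero])
    fun v n hv => by simp only [kzeta_nm_unit hv]
  have h3 : ∀ n : O, ((nm (lam * n) : ℝ) ≤ u) = ((nm n : ℝ) ≤ u / 3) := fun n => by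
    rw [nm_mul, nm_lam, le_div_iff₀' (by norm_num), Nat.cast_mul, Nat.cast_ofNat]
  simp only [h3] at h2
  rw [h1, h1, kzeta_tsum_ball, kzeta_sum_prim] at h2
  exact_mod_cast h2

theorem card_pball : ∃ C : ℝ, 0 < C ∧ ∀ u : ℝ, 1 ≤ u →
    |((pball u).card : ℝ) - c0 / 9 * u| ≤ C * √u := by
  obtain ⟨C, hC, h⟩ := card_ball
  refine ⟨C, hC, fun u hu => ?_⟩
  have h1 := abs_le.1 (h u (by linarith))
  have h2 := abs_le.1 (h (u / 3) (by linarith))
  have h3 : 1 ≤ √u := Real.one_le_sqrt.2 hu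
  have h4 : √(u / 3) ≤ √u := Real.sqrt_le_sqrt (by linarith)
  have h5 := kzeta_card u
  have h6 := mul_le_mul_of_nonneg_left h3 hC.le
  have h7 := mul_le_mul_of_nonneg_left h4 hC.le
  rw [abs_le]
  constructor <;> nlinarith [h1.1, h1.2, h2.1, h2.2]

theorem kzeta_bd {E : ℂ} {M u τ : ℝ} {s : ℂ} (hu : 1 ≤ u) (hE : ‖E‖ ≤ M * √u) (hs : τ ≤ s.re) :
    ‖E * (u : ℂ) ^ (-s - 1)‖ ≤ M * u ^ (-τ - 1 / 2) := by
  have h0 : 0 < u := by linarith
  rw [norm_mul, Complex.norm_cpow_eq_rpow_re_of_pos h0,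
    show -τ - 1 / 2 = 1 / 2 + (-τ - 1) by ring, Real.rpow_add h0, ← mul_assoc, ← Real.sqrt_eq_rpow]
  refine mul_le_mul hE (Real.rpow_le_rpow_of_exponent_le hu ?_) (by positivity)
    ((norm_nonneg _).trans hE)
  simp only [Complex.sub_re, Complex.neg_re, Complex.one_re]
  linarith

theorem kzeta_int {τ : ℝ} (hτ : τ < -1) {c : ℝ} (hc : 0 < c) :
    IntegrableOn (fun u : ℝ => u ^ τ) (Set.Ici c) :=
  (integrableOn_Ici_iff_integrableOn_Ioi (by finiteness)).2 (integrableOn_Ioi_rpow_of_lt hτ hc)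

theorem kzeta_intC {s : ℂ} (hs : s.re < -1) {c : ℝ} (hc : 0 < c) :
    IntegrableOn (fun u : ℝ => (u : ℂ) ^ s) (Set.Ici c) :=
  (integrableOn_Ici_iff_integrableOn_Ioi (by finiteness)).2 (integrableOn_Ioi_cpow_of_lt hs hc)

theorem kzeta_abel {a : O → ℂ} (h0 : a 0 = 0) (ha : ∀ n, ‖a n‖ ≤ 1) {s : ℂ} (hs : 1 < s.re) :
    ∑' n : O, a n * (nm n : ℂ) ^ (-s) =
      s * ∫ u in Set.Ici (1 : ℝ), (∑ n ∈ ball u, a n) * (u : ℂ) ^ (-s - 1) := by
  have hs0 : s ≠ 0 := by rintro rfl; norm_num at hs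
  have : Countable O := Function.Injective.countable (f := fun x : O => (x.re, x.im))
    fun x y h => QuadraticAlgebra.ext (congrArg Prod.fst h) (congrArg Prod.snd h)
  have hs1 : (-s - 1).re < -1 := by
    simp only [Complex.sub_re, Complex.neg_re, Complex.one_re]; linarith
  set F : O → ℝ → ℂ := fun n => (Set.Ici (nm n : ℝ)).indicator fun u => a n * (u : ℂ) ^ (-s - 1)
    with hF
  have hi : ∀ n, Integrable (F n) (volume.restrict (Set.Ici 1)) := fun n =>
    ((kzeta_intC hs1 one_pos).const_mul _).indicator measurableSet_Ici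
  have hI : ∀ n : O, n ≠ 0 → Set.Ici (1 : ℝ) ∩ Set.Ici (nm n : ℝ) = Set.Ici (nm n : ℝ) :=
    fun n hn => Set.inter_eq_right.2 (Set.Ici_subset_Ici.2 (one_le_nm hn))
  have h1 : ∀ n, s * ∫ u in Set.Ici (1 : ℝ), F n u = a n * (nm n : ℂ) ^ (-s) := fun n => by
    rcases eq_or_ne n 0 with rfl | hn
    · simp [hF, h0]
    rw [hF, setIntegral_indicator measurableSet_Ici, hI n hn, integral_const_mul,
      integral_Ici_eq_integral_Ioi,
      integral_Ioi_cpow_of_lt hs1 (one_pos.trans_le (one_le_nm hn)), sub_add_cancel,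
      Complex.ofReal_natCast]
    field_simp
  have h2 : Summable fun n => ∫ u in Set.Ici (1 : ℝ), ‖F n u‖ := by
    refine Summable.of_nonneg_of_le (fun n => integral_nonneg fun _ => norm_nonneg _) (fun n => ?_)
      (summable_rpow hs)
    rcases eq_or_ne n 0 with rfl | hn
    · simp only [hF, h0, zero_mul, Set.indicator_zero, norm_zero, integral_zero]
      positivity
    have hp := one_pos.trans_le (one_le_nm hn)
    have h3 : -s.re - 1 < -1 := by linarith
    simp only [hF, norm_indicator_eq_indicator_norm]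
    rw [setIntegral_indicator measurableSet_Ici, hI n hn]
    refine (setIntegral_mono_on ((kzeta_intC hs1 hp).const_mul _).norm (kzeta_int h3 hp)
      measurableSet_Ici fun u hu => ?_).trans ?_
    · rw [norm_mul, Complex.norm_cpow_eq_rpow_re_of_pos (hp.trans_le hu)]
      exact mul_le_of_le_one_left (Real.rpow_nonneg (hp.trans_le hu).le _) (ha n)
    · rw [integral_Ici_eq_integral_Ioi, integral_Ioi_rpow_of_lt h3 hp, sub_add_cancel,
        neg_div_neg_eq]
      exact div_le_self (by positivity) hs.le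
  rw [← tsum_congr h1, tsum_mul_left, integral_tsum_of_summable_integral_norm hi h2]
  congr 1
  refine integral_congr_ae (ae_of_all _ fun u => ?_)
  simp only
  rw [← kzeta_tsum_ball, ← tsum_mul_right]
  refine tsum_congr fun n => ?_
  by_cases h : (nm n : ℝ) ≤ u
  · rw [ind_of h, mul_one, hF]
    exact Set.indicator_of_mem (show u ∈ Set.Ici _ from h) _
  · rw [ind_of_not h, mul_zero, zero_mul, hF]
    exact Set.indicator_of_notMem (show u ∉ Set.Ici _ from h) _

theorem kzeta_meas (a : O → ℂ) :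
    AEStronglyMeasurable (fun u : ℝ => ∑ n ∈ ball u, a n) (volume.restrict (Set.Ici 1)) := by
  have h : Measurable fun u : ℝ => ∑ n ∈ ball (⌊u⌋₊ : ℝ), a n :=
    (measurable_from_top (f := fun k : ℕ => ∑ n ∈ ball (k : ℝ), a n)).comp Nat.measurable_floor
  refine h.aestronglyMeasurable.congr ?_
  filter_upwards [ae_restrict_mem measurableSet_Ici] with u hu
  congr 1
  ext n
  rw [mem_ball, mem_ball, Nat.cast_le, Nat.le_floor_iff (zero_le_one.trans hu)]

theorem dir_cont {a : O → ℂ} (h0 : a 0 = 0) (ha : ∀ n, ‖a n‖ ≤ 1) {ρ : ℂ} {M : ℝ}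
    (h : ∀ u : ℝ, 1 ≤ u → ‖∑ n ∈ ball u, a n - ρ * u‖ ≤ M * √u) :
    ∃ H : ℂ → ℂ, DifferentiableOn ℂ H {s | 1 / 2 < s.re} ∧
      (∀ s : ℂ, 1 / 2 < s.re → ‖H s‖ ≤ M / (s.re - 1 / 2)) ∧
      ∀ s : ℂ, 1 < s.re → ∑' n : O, a n * (nm n : ℂ) ^ (-s) = ρ * s / (s - 1) + s * H s := by
  have hm : ∀ s : ℂ, AEStronglyMeasurable
      (fun u : ℝ => (∑ n ∈ ball u, a n - ρ * u) * (u : ℂ) ^ (-s - 1))
      (volume.restrict (Set.Ici 1)) := fun s =>
    ((kzeta_meas a).sub (by fun_prop)).mul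
      (Complex.measurable_ofReal.pow_const _).aestronglyMeasurable
  have hB : ∀ τ : ℝ, 1 / 2 < τ →
      Integrable (fun u : ℝ => M * u ^ (-τ - 1 / 2)) (volume.restrict (Set.Ici 1)) :=
    fun τ hτ => (kzeta_int (by linarith) one_pos).const_mul M
  have hb : ∀ τ : ℝ, ∀ᵐ u : ℝ ∂volume.restrict (Set.Ici 1), ∀ s : ℂ, τ ≤ s.re →
      ‖(∑ n ∈ ball u, a n - ρ * u) * (u : ℂ) ^ (-s - 1)‖ ≤ M * u ^ (-τ - 1 / 2) := fun τ => by
    filter_upwards [ae_restrict_mem measurableSet_Ici] with u hu s hs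
    exact kzeta_bd hu (h u hu) hs
  refine ⟨fun s => ∫ u in Set.Ici (1 : ℝ), (∑ n ∈ ball u, a n - ρ * u) * (u : ℂ) ^ (-s - 1),
    differentiableOn_integral_of_bound (isOpen_lt continuous_const Complex.continuous_re)
      (fun s _ => hm s) ?_ fun s₀ hs₀ => ?_, fun s hs => ?_, fun s hs => ?_⟩
  · filter_upwards [ae_restrict_mem measurableSet_Ici] with u hu
    have : (u : ℂ) ≠ 0 := Complex.ofReal_ne_zero.2 (one_pos.trans_le hu).ne'
    exact ((differentiable_const _).mul (Differentiable.const_cpow (by fun_prop)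
      (Or.inl this))).differentiableOn
  · have hs₀' : 1 / 2 < s₀.re := hs₀
    refine ⟨(s₀.re - 1 / 2) / 2, _, by linarith, hB ((s₀.re + 1 / 2) / 2) (by linarith), ?_⟩
    filter_upwards [hb ((s₀.re + 1 / 2) / 2)] with u hu s hs
    refine hu s ?_
    have h1 := Complex.abs_re_le_norm (s - s₀)
    rw [Metric.mem_ball, dist_eq_norm] at hs
    rw [Complex.sub_re] at h1
    linarith [(abs_le.1 h1).1]
  · refine (norm_integral_le_of_norm_le (hB _ hs) ((hb _).mono fun u hu => hu s le_rfl)).trans_eq ?_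
    rw [integral_const_mul, integral_Ici_eq_integral_Ioi,
      integral_Ioi_rpow_of_lt (by linarith) one_pos, Real.one_rpow,
      show -s.re - 1 / 2 + 1 = -(s.re - 1 / 2) by ring, neg_div_neg_eq, mul_one_div]
  · have hs1 : (-s).re < -1 := by rw [Complex.neg_re]; linarith
    have i1 : Integrable (fun u : ℝ => (∑ n ∈ ball u, a n - ρ * u) * (u : ℂ) ^ (-s - 1))
        (volume.restrict (Set.Ici 1)) :=
      (hB s.re (by linarith)).mono' (hm s) ((hb _).mono fun u hu => hu s le_rfl)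
    have i2 := (kzeta_intC hs1 one_pos).const_mul ρ
    have e1 : ∫ u in Set.Ici (1 : ℝ), (∑ n ∈ ball u, a n) * (u : ℂ) ^ (-s - 1) =
        ∫ u in Set.Ici (1 : ℝ), (ρ * (u : ℂ) ^ (-s) +
          (∑ n ∈ ball u, a n - ρ * u) * (u : ℂ) ^ (-s - 1)) := by
      refine setIntegral_congr_fun measurableSet_Ici fun u hu => ?_
      have : (u : ℂ) ≠ 0 := Complex.ofReal_ne_zero.2 (one_pos.trans_le hu).ne'
      rw [Complex.cpow_sub _ _ this, Complex.cpow_one]
      field_simp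
      ring
    have h1 : s - 1 ≠ 0 := fun h1 => by
      rw [sub_eq_zero.1 h1] at hs; norm_num at hs
    rw [kzeta_abel h0 ha hs, e1, integral_add i2 i1, integral_const_mul,
      integral_Ici_eq_integral_Ioi, integral_Ioi_cpow_of_lt hs1 one_pos, Complex.ofReal_one,
      Complex.one_cpow, show -s + 1 = -(s - 1) by ring, neg_div_neg_eq]
    field_simp

theorem zP_cont : ∃ (H : ℂ → ℂ) (C : ℝ), 0 < C ∧ DifferentiableOn ℂ H {s | 1 / 2 < s.re} ∧
    (∀ s : ℂ, 1 / 2 < s.re → ‖H s‖ ≤ C / (s.re - 1 / 2)) ∧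
    ∀ s : ℂ, 1 < s.re → zP s = (c0 / 9 : ℝ) * s / (s - 1) + s * H s := by
  obtain ⟨C, hC, h⟩ := card_pball
  obtain ⟨H, h1⟩ := dir_cont (a := fun n => ind (Prim n)) (ρ := (c0 / 9 : ℝ)) (M := C)
    (ind_of_not fun h => h.ne_zero rfl) (fun n => norm_ind_le _) fun u hu => by
      rw [kzeta_sum_prim]
      have := h u hu
      rw [← Real.norm_eq_abs, ← Complex.norm_real] at this
      simpa using this
  exact ⟨H, C, hC, h1⟩

/-- coprimality is an Euler factor -/
theorem zP_coprime {q : O} (hq : Prim q) {s : ℂ} (hs : 1 < s.re) :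
    ∑' n : O, ind (Prim n ∧ IsCoprime n q) * (nm n : ℂ) ^ (-s) =
      (∑ e ∈ pdiv q, mu e * (nm e : ℂ) ^ (-s)) * zP s := by
  have h1 := summable_norm_cpow (fun n => norm_ind_le (Prim n)) hs
  have h2 : ∀ n : O, ind (Prim n ∧ IsCoprime n q) * (nm n : ℂ) ^ (-s) =
      ∑ e ∈ pdiv q, mu e * (ind (e ∣ n) * (ind (Prim n) * (nm n : ℂ) ^ (-s))) := fun n => by
    rw [ind_and, ind_coprime hq, Finset.mul_sum, Finset.sum_mul]
    exact Finset.sum_congr rfl fun e _ => by ring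
  rw [tsum_congr h2, Summable.tsum_finsetSum fun e _ => (kzeta_summable h1 _).mul_left _,
    Finset.sum_mul]
  refine Finset.sum_congr rfl fun e he => ?_
  have he1 := ((mem_pdiv hq.ne_zero).1 he).1
  rw [tsum_mul_left, kzeta_dvd he1.ne_zero, mul_assoc, zP]
  congr 1
  rw [← tsum_mul_left]
  refine tsum_congr fun n => ?_
  rw [show Prim (e * n) = Prim n from propext ⟨he1.of_mul, he1.mul⟩, nm_mul, Nat.cast_mul,
    Complex.natCast_mul_natCast_cpow]
  ring

/-- all non-zero elements -/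
theorem zAll_coprime {q : O} (hq : Prim q) {s : ℂ} (hs : 1 < s.re) :
    (1 - (3 : ℂ) ^ (-s)) * ∑' n : O, ind (n ≠ 0 ∧ IsCoprime n q) * (nm n : ℂ) ^ (-s) =
      6 * ∑' n : O, ind (Prim n ∧ IsCoprime n q) * (nm n : ℂ) ^ (-s) := by
  have hl : IsCoprime lam q := prime_lam.irreducible.coprime_iff_not_dvd.2 hq.not_lam_dvd
  have key : ∀ v n : O, v ≠ 0 → IsCoprime v q →
      (v * n ≠ 0 ∧ IsCoprime (v * n) q) = (n ≠ 0 ∧ IsCoprime n q) := fun v n h1 h2 => by
    simp [h1, h2, IsCoprime.mul_left_iff]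
  have h1 := kzeta_split (summable_norm_cpow
    (fun n => norm_ind_le (n ≠ 0 ∧ IsCoprime n q)) hs) fun u n hu => by
      simp only [kzeta_nm_unit hu,
        key u n hu.ne_zero (isCoprime_comm.1 ((isCoprime_one_right (x := q)).of_isCoprime_of_dvd_right
          hu.dvd))]
  have h2 : ∑' n : O, ind (lam * n ≠ 0 ∧ IsCoprime (lam * n) q) * (nm (lam * n) : ℂ) ^ (-s) =
      (3 : ℂ) ^ (-s) * ∑' n : O, ind (n ≠ 0 ∧ IsCoprime n q) * (nm n : ℂ) ^ (-s) := by
    rw [← tsum_mul_left]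
    refine tsum_congr fun n => ?_
    rw [key lam n prime_lam.ne_zero hl, nm_mul, nm_lam, Nat.cast_mul,
      Complex.natCast_mul_natCast_cpow, Nat.cast_ofNat]
    ring
  have h3 : ∑' n : O, ind (Prim n) * (ind (n ≠ 0 ∧ IsCoprime n q) * (nm n : ℂ) ^ (-s)) =
      ∑' n : O, ind (Prim n ∧ IsCoprime n q) * (nm n : ℂ) ^ (-s) := by
    refine tsum_congr fun n => ?_
    rw [← mul_assoc, ← ind_and]
    congr 2
    exact propext ⟨fun h => ⟨h.1, h.2.2⟩, fun h => ⟨h.1, h.1.ne_zero, h.2⟩⟩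
  rw [h2, h3] at h1
  linear_combination h1

end Vale.Agent.P006
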