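import Vale.Agent.P006.KMel
import Vale.Agent.P006.KZeta

/-! K8: lattice point counting with Mellin kernels.
Plan: `tsum_mellinInv` on the line `2` turns the sum into `(1/2π) ∫ ψ(s) x^s E_q(s) ζ°(s) dt`, `E_q(s) = ∑_{e ∣ q} μ(e) N e^{-s}` (`zP_coprime`;
`‖E_q‖ ≤ tau q` for `Re s ≥ 0`, `E_q 1 = phiS q`), `ζ° = ρ s/(s-1) + s H` (`zP_cont`); `integral_shift_pole` and `integral_shift` from `2` to `3/5`;
`gauss_moment 1`.  Second statement: replace `ψ` by `6 ψ/(1 - 3^{-s})` (`zAll_coprime`; `|1 - 3^{-s}| ≥ 1 - 3^{-3/5} > 0.48`). -/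

namespace Vale.Agent.P006

open Vale.Agent.P026 Filter MeasureTheory
open scoped ComplexConjugate Real

theorem klc_norm {w : ℂ} {a : ℝ} (ha : 1 ≤ a) (h : |w.re| ≤ a) : ‖w‖ ≤ a * (1 + |w.im|) := by
  have h1 := Complex.norm_le_abs_re_add_abs_im w
  nlinarith [abs_nonneg w.im]

theorem klc_gen : ∃ C : ℝ, 0 < C ∧ ∀ (c : O → ℂ) (G ψ : ℂ → ℂ) (x M T B : ℝ), 0 < x → 1 ≤ T →
    c 0 = 0 → (∀ n, ‖c n‖ ≤ 1) → HolS (3 / 5) 2 G →
    (∀ w : ℂ, 3 / 5 ≤ w.re → ‖G w‖ ≤ B) →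
    (∀ w : ℂ, 1 < w.re → ∑' n : O, c n * (nm n : ℂ) ^ (-w) = G w * zP w) →
    DifferentiableOn ℂ ψ {s | 1 / 2 < s.re} →
    (∀ w : ℂ, 3 / 5 ≤ w.re → w.re ≤ 2 → ‖ψ w‖ ≤ M * Real.exp (-(w.im ^ 2 / (8 * T ^ 2)))) →
    ‖∑' n : O, c n * mellinInv 2 ψ (nm n / x) - (c0 / 9 : ℝ) * G 1 * ψ 1 * x‖ ≤
      C * B * x ^ (3 / 5 : ℝ) * M * T ^ 2 := by
  obtain ⟨H, C₁, hC₁, hH, bH, eH⟩ := zP_cont
  obtain ⟨C₂, hC₂, hm⟩ := gauss_moment 1 (c := 1 / 8) (by norm_num)
  have hc0 : 0 < c0 := by unfold c0; positivity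
  set ρ : ℝ := c0 / 9 with hρ
  have hρ0 : 0 < ρ := by positivity
  refine ⟨(3 * ρ + 10 * C₁) * C₂, by positivity,
    fun c G ψ x M T B hx hT h0 h1 hG bG eG hψ bψ => ?_⟩
  have : Countable O := (QuadraticAlgebra.equivProd (-1 : ℤ) (-1)).injective.countable
  have hx' : (x : ℂ) ≠ 0 := Complex.ofReal_ne_zero.2 hx.ne'
  have hU : IsOpen {s : ℂ | 1 / 2 < s.re} := isOpen_lt continuous_const Complex.continuous_re
  have hs : ∀ {f : ℂ → ℂ}, DifferentiableOn ℂ f {s | 1 / 2 < s.re} → HolS (3 / 5) 2 f :=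
    fun hf w a _ => hf.differentiableAt (hU.mem_nhds (show 1 / 2 < w.re by linarith))
  have hB : 0 ≤ B := (norm_nonneg _).trans (bG 1 (by norm_num))
  have hM : 0 ≤ M := by simpa using (norm_nonneg _).trans (bψ 1 (by norm_num) (by norm_num))
  have bH' : ∀ w : ℂ, 3 / 5 ≤ w.re → ‖H w‖ ≤ 10 * C₁ := fun w a =>
    (bH w (by linarith)).trans (by rw [div_le_iff₀ (by linarith)]; nlinarith)
  have dψ : Dec (3 / 5) 2 ψ := ⟨M, 1 / (8 * T ^ 2), by positivity, fun w a b => by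
    rw [one_div_mul_eq_div]; exact bψ w a b⟩
  set P : ℂ → ℂ := fun w => G w * (ρ * w + (w - 1) * (w * H w)) with hP
  have gP : ExpG (3 / 5) 2 P := by
    refine ExpG.of_poly (C := B * (2 * ρ + 20 * C₁)) (n := 2) fun w a b => ?_
    have n1 := klc_norm (w := w) one_le_two (abs_le.2 ⟨by linarith, b⟩)
    have n2 := klc_norm (w := w - 1) le_rfl (by
      rw [Complex.sub_re, Complex.one_re]; exact abs_le.2 ⟨by linarith, by linarith⟩)
    rw [Complex.sub_im, Complex.one_im, sub_zero, one_mul] at n2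
    have n3 := bH' w a
    have n4 : 1 ≤ 1 + |w.im| := le_add_of_nonneg_right (abs_nonneg _)
    rw [hP, norm_mul, mul_assoc]
    refine mul_le_mul (bG w a) ((norm_add_le _ _).trans ?_) (norm_nonneg _) hB
    rw [norm_mul, norm_mul, norm_mul, Complex.norm_real, Real.norm_of_nonneg hρ0.le]
    calc _ ≤ ρ * (2 * (1 + |w.im|) ^ 2) + (1 + |w.im|) * (2 * (1 + |w.im|) * (10 * C₁)) := by
          gcongr
          nlinarith
      _ = _ := by ring
  set Ψ : ℂ → ℂ := fun w => (x : ℂ) ^ (1 * w + 0) * P w * ψ w with hΨ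
  have dΨ : Dec (3 / 5) 2 Ψ := Dec.mul ((expG_cpow _ _ hx 1 0).mul gP) dψ
  have hΨ' : HolS (3 / 5) 2 Ψ := fun w a b => by
    have a1 := hG w a b
    have a2 := hs hH w a b
    have a3 := hs hψ w a b
    refine (DifferentiableAt.mul (DifferentiableAt.const_cpow (by fun_prop) (Or.inl hx')) ?_).mul a3
    rw [hP]
    fun_prop
  have e1 := (tsum_mellinInv c (fun n => nm n / x)
    (fun n hn => div_pos (Nat.cast_pos.2 (nm_pos fun h => hn (h ▸ h0))) hx) (σ := 2)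
    (dψ.mono (by norm_num) le_rfl) (fun w a b => hs hψ w (by linarith) b) ?_).2
  swap
  · refine Summable.of_nonneg_of_le (fun n => by positivity) (fun n => ?_)
      ((summable_rpow one_lt_two).div_const (x ^ (-2 : ℝ)))
    rw [← Real.div_rpow (by positivity) hx.le]
    exact mul_le_of_le_one_left (by positivity) (h1 n)
  have e2 : ∀ w : ℂ, 1 < w.re →
      ψ w * ∑' n : O, c n * ((nm n / x : ℝ) : ℂ) ^ (-w) = Ψ w / (w - (1 : ℝ)) := fun w hw => by
    have a1 : ∀ n : O, c n * ((nm n / x : ℝ) : ℂ) ^ (-w) =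
        (x : ℂ) ^ w * (c n * (nm n : ℂ) ^ (-w)) := fun n => by
      rw [div_eq_mul_inv, Complex.ofReal_mul, Complex.mul_cpow_ofReal_nonneg (by positivity)
        (by positivity), Complex.ofReal_inv, Complex.inv_cpow _ _ (by
          rw [Complex.arg_ofReal_of_nonneg hx.le]; exact Real.pi_ne_zero.symm),
        Complex.cpow_neg (x : ℂ), inv_inv, Complex.ofReal_natCast]
      ring
    have a2 : w - 1 ≠ 0 := fun h => by rw [sub_eq_zero.1 h] at hw; norm_num at hw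
    rw [tsum_congr a1, tsum_mul_left, eG w hw, eH w hw, hΨ, hP, Complex.ofReal_one]
    simp only [one_mul, add_zero]
    field_simp
  rw [e1, integral_congr_ae (ae_of_all _ fun t => e2 _ (by simp)),
    integral_shift_pole (by norm_num) (by norm_num) dΨ hΨ']
  have e3 : ∀ I : ℂ, (1 / (2 * π) : ℝ) * (2 * π * Ψ (1 : ℝ) + I) - ρ * G 1 * ψ 1 * x =
      (1 / (2 * π) : ℝ) * I := fun I => by
    have : (π : ℂ) ≠ 0 := Complex.ofReal_ne_zero.2 Real.pi_ne_zero
    rw [hΨ, hP]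
    simp only [Complex.ofReal_one, one_mul, add_zero, Complex.cpow_one, sub_self, zero_mul, mul_one]
    push_cast
    field_simp
    ring
  obtain ⟨i1, i2⟩ := hm T hT
  set K := (3 * ρ + 10 * C₁) * B * x ^ (3 / 5 : ℝ) * M with hK
  have hK0 : 0 ≤ K := by positivity
  rw [e3, norm_mul]
  refine (mul_le_of_le_one_left (norm_nonneg _) ?_).trans
    ((norm_integral_le_of_norm_le (i1.const_mul K) (ae_of_all _ fun t => ?_)).trans ?_)
  · rw [Complex.norm_real, Real.norm_of_nonneg (by positivity), div_le_one (by positivity)]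
    linarith [Real.pi_gt_three]
  · set w : ℂ := (3 / 5 : ℝ) + t * Complex.I with hw
    have wr : w.re = 3 / 5 := by simp [hw]
    have wi : w.im = t := by simp [hw]
    have n1 := klc_norm (w := w) le_rfl (by rw [wr]; norm_num)
    have n2 : 2 / 5 ≤ ‖w - 1‖ := by
      have := Complex.abs_re_le_norm (w - 1)
      rw [Complex.sub_re, wr, Complex.one_re] at this
      linarith [neg_abs_le (3 / 5 - 1 : ℝ)]
    have a2 : w - 1 ≠ 0 := norm_pos_iff.1 (by linarith)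
    have n3 := bH' w wr.ge
    have n4 := bψ w wr.ge (by rw [wr]; norm_num)
    have n5 := bG w wr.ge
    rw [wi] at n1 n4
    have a3 : Ψ w / (w - (1 : ℝ)) = (x : ℂ) ^ w * G w * (w * (ρ / (w - 1) + H w)) * ψ w := by
      rw [hΨ, hP, Complex.ofReal_one]
      simp only [one_mul, add_zero]
      field_simp
    have n6 : ‖ρ / (w - 1) + H w‖ ≤ 3 * ρ + 10 * C₁ := by
      refine (norm_add_le _ _).trans (add_le_add ?_ n3)
      rw [norm_div, Complex.norm_real, Real.norm_of_nonneg hρ0.le, div_le_iff₀ (by linarith)]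
      nlinarith
    rw [a3, norm_mul, norm_mul, norm_mul, norm_mul, Complex.norm_cpow_eq_rpow_re_of_pos hx, wr]
    calc _ ≤ x ^ (3 / 5 : ℝ) * B * (1 * (1 + |t|) * (3 * ρ + 10 * C₁)) *
          (M * Real.exp (-(t ^ 2 / (8 * T ^ 2)))) := by gcongr
      _ = _ := by
        rw [hK, show 1 / 8 * t ^ 2 / T ^ 2 = t ^ 2 / (8 * T ^ 2) by field_simp]
        ring
  · rw [integral_const_mul]
    calc _ ≤ K * (C₂ * T ^ (1 + 1)) := by gcongr
      _ = _ := by rw [hK]; ring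

theorem klc_three {w : ℂ} (hw : 3 / 5 ≤ w.re) : 2 / 5 ≤ ‖1 - (3 : ℂ) ^ (-w)‖ := by
  have h1 : ‖(3 : ℂ) ^ (-w)‖ = (3 : ℝ) ^ (-w.re) := by
    rw [← Complex.neg_re, ← Complex.norm_cpow_eq_rpow_re_of_pos (by norm_num), Complex.ofReal_ofNat]
  have h2 : (3 : ℝ) ^ (-w.re) ≤ 3 ^ (-(1 / 2) : ℝ) :=
    Real.rpow_le_rpow_of_exponent_le (by norm_num) (by linarith)
  have h3 : (3 : ℝ) ^ (-(1 / 2) : ℝ) ≤ 3 / 5 := by
    rw [Real.rpow_neg (by norm_num), ← Real.sqrt_eq_rpow, inv_le_comm₀ (by positivity) (by norm_num)]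
    exact Real.le_sqrt_of_sq_le (by norm_num)
  have h4 := norm_sub_norm_le (1 : ℂ) ((3 : ℂ) ^ (-w))
  rw [norm_one] at h4
  linarith

theorem lc : LCStmt := by
  obtain ⟨C, hC, h⟩ := klc_gen
  refine ⟨15 * C, by positivity, fun q ψ x M T hq hx hT hψ bψ => ?_⟩
  set E : ℂ → ℂ := fun s => ∑ e ∈ pdiv q, mu e * (nm e : ℂ) ^ (-s) with hE
  have hn : ∀ e ∈ pdiv q, e ≠ 0 := fun e he => ((mem_pdiv hq.1.ne_zero).1 he).1.ne_zero
  have dE : Differentiable ℂ E := Differentiable.fun_sum fun e he =>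
    (differentiable_const _).mul (Differentiable.const_cpow differentiable_neg
      (Or.inl (Nat.cast_ne_zero.2 (nm_pos (hn e he)).ne')))
  have bE : ∀ w : ℂ, 3 / 5 ≤ w.re → ‖E w‖ ≤ tau q := fun w hw => by
    refine (norm_sum_le _ _).trans ((Finset.sum_le_card_nsmul _ _ 1 fun e he => ?_).trans_eq
      (by rw [tau, nsmul_eq_mul, mul_one]))
    rw [norm_mul, Complex.norm_natCast_cpow_of_pos (nm_pos (hn e he)), Complex.neg_re]
    exact mul_le_one₀ (norm_mu_le e) (by positivity)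
      (Real.rpow_le_one_of_one_le_of_nonpos (one_le_nm (hn e he)) (by linarith))
  have E1 : E 1 = phiS q := Finset.sum_congr rfl fun e _ => by
    rw [Complex.cpow_neg_one, div_eq_mul_inv]
  have h3 : ∀ w : ℂ, 3 / 5 ≤ w.re → 1 - (3 : ℂ) ^ (-w) ≠ 0 := fun w hw =>
    norm_pos_iff.1 (by linarith [klc_three hw])
  have hτ : 0 ≤ tau q := Nat.cast_nonneg _
  have hM : 0 ≤ M := by simpa using (norm_nonneg _).trans (bψ 1 (by norm_num) (by norm_num))
  constructor
  · rw [← E1]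
    refine (h _ E ψ x M T _ hx hT (ind_of_not fun h => h.1.ne_zero rfl) (fun n => norm_ind_le _)
      (fun w _ _ => dE w) bE (fun w hw => zP_coprime hq.1 hw) hψ bψ).trans ?_
    gcongr
    linarith
  · have h4 := h (fun n => ind (n ≠ 0 ∧ IsCoprime n q)) (fun w => 6 * E w / (1 - (3 : ℂ) ^ (-w)))
      ψ x M T (15 * tau q) hx hT (ind_of_not fun h => h.1 rfl) (fun n => norm_ind_le _)
      (fun w hw _ => ((dE w).const_mul 6).div ((differentiableAt_const _).sub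
        (DifferentiableAt.const_cpow (by fun_prop) (Or.inl three_ne_zero))) (h3 w hw))
      (fun w hw => by
        rw [norm_div, norm_mul, Complex.norm_ofNat, div_le_iff₀ (norm_pos_iff.2 (h3 w hw))]
        nlinarith [klc_three hw, bE w hw])
      (fun w hw => by
        rw [div_mul_eq_mul_div, eq_div_iff (h3 w (by linarith)), mul_comm, zAll_coprime hq.1 hw,
          zP_coprime hq.1 hw, mul_assoc]) hψ bψ
    have e1 : ((c0 / 9 : ℝ) : ℂ) * (6 * E 1 / (1 - (3 : ℂ) ^ (-1 : ℂ))) = c0 * phiS q := by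
      rw [E1, Complex.cpow_neg_one]
      push_cast
      ring
    rw [e1] at h4
    exact h4.trans_eq (by ring)

end Vale.Agent.P006
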