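import Vale.Agent.P006.KSub
import Vale.Agent.P026.Poisson

/-! K6: Poisson summation with Mellin kernels.
Plan: `H u = sub ϕ Γ⁻¹ u`.  For `h ≠ 0`, `mellinInv 2 ϕ (N h / Y) = ∫ H u e^{-N h/(Y u)} du/u` (`sub_kernel`); for `h = 0` both sides vanish
(`mellinInv_zero`, `sub_mellin` at `w = 0`, `Complex.Gamma_zero`).  Swap `∑'` and `∫` (`∑_{h} e^{-N h/(Yu)} ≤ C (1 + Y u)`, e.g. from `poisson_gauss`
or `e^{-x} ≤ 2/x²`), apply `poisson_gauss` with `Y u`, swap back (`∑_{k ≠ 0} e^{-a u N k} ≤ C/(a u)²`), `k = 0` by `sub_mellin` at `w = 1`,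
`k ≠ 0` by `sub_dual` at `σ = 1/4`. -/

namespace Vale.Agent.P006

open Vale.Agent.P026 Filter MeasureTheory
open scoped ComplexConjugate Real

theorem norm_ft_le {q : O} (hq : q ≠ 0) {f : O → ℂ} {M : ℝ} (hf : ∀ x, ‖f x‖ ≤ M) (k : O) :
    ‖ft q f k‖ ≤ M := by
  have hn : (0 : ℝ) < nm q := by exact_mod_cast nm_pos hq
  rw [ft, norm_div, Complex.norm_natCast, div_le_iff₀ hn]
  refine (norm_sum_le _ _).trans ((Finset.sum_le_card_nsmul _ _ M fun x _ => ?_).trans ?_)
  · rw [norm_mul, norm_eq, mul_one]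
    exact hf x
  · rw [card_res hq, nsmul_eq_mul, mul_comm]

theorem kmp_exp {x : ℝ} (hx : 0 < x) : Real.exp (-x) ≤ 2 / x ^ 2 := by
  have h2 := Real.quadratic_le_exp_of_nonneg hx.le
  rw [Real.exp_neg]
  calc _ ≤ (x ^ 2 / 2)⁻¹ := inv_anti₀ (by positivity) (by linarith)
    _ = _ := by field_simp

/-- interchange of a Gaussian lattice sum and an integral -/
theorem kmp_swap {c : O → ℂ} {M : ℝ} (hc : ∀ h, ‖c h‖ ≤ M) {V : ℝ → ℂ} {g : ℝ → ℝ}
    (hV : ContinuousOn V (Set.Ioi 0)) (hg : ContinuousOn g (Set.Ioi 0))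
    (hg0 : ∀ u, 0 < u → 0 < g u) (h0 : IntegrableOn (fun u => ‖V u‖) (Set.Ioi 0))
    (h1 : IntegrableOn (fun u => ‖V u‖ / g u ^ 2) (Set.Ioi 0)) :
    HasSum (fun h : O => c h * ∫ u in Set.Ioi (0 : ℝ), V u * (Real.exp (-(nm h * g u)) : ℝ))
      (∫ u in Set.Ioi (0 : ℝ), V u * ∑' h : O, c h * (Real.exp (-(nm h * g u)) : ℝ)) := by
  have : Countable O := PoissonAux.E1.symm.injective.countable
  have hM : 0 ≤ M := (norm_nonneg _).trans (hc 0)
  have hn : ∀ h u, ‖c h * (V u * (Real.exp (-(nm h * g u)) : ℝ))‖ ≤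
      M * (‖V u‖ * Real.exp (-(nm h * g u))) := fun h u => by
    rw [norm_mul, norm_mul, Complex.norm_real, Real.norm_of_nonneg (Real.exp_pos _).le]
    exact mul_le_mul_of_nonneg_right (hc h) (by positivity)
  have hi : ∀ h : O, IntegrableOn (fun u => c h * (V u * (Real.exp (-(nm h * g u)) : ℝ)))
      (Set.Ioi 0) := fun h => by
    refine Integrable.mono' (h0.const_mul M) (ContinuousOn.aestronglyMeasurable ?_ measurableSet_Ioi)
      ((ae_restrict_iff' measurableSet_Ioi).2 (Eventually.of_forall fun u hu => (hn h u).trans ?_))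
    · exact continuousOn_const.mul (hV.mul (Complex.continuous_ofReal.comp_continuousOn
        (Real.continuous_exp.comp_continuousOn (continuousOn_const.mul hg).neg)))
    · have := hg0 u hu
      exact mul_le_mul_of_nonneg_left (mul_le_of_le_one_right (norm_nonneg _)
        (Real.exp_le_one_iff.2 (neg_nonpos.2 (by positivity)))) hM
  have hs : Summable fun h : O =>
      ∫ u in Set.Ioi (0 : ℝ), ‖c h * (V u * (Real.exp (-(nm h * g u)) : ℝ))‖ := by
    refine Summable.of_norm_bounded_eventually ((summable_rpow one_lt_two).mul_right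
      (∫ u in Set.Ioi (0 : ℝ), 2 * M * (‖V u‖ / g u ^ 2))) ?_
    filter_upwards [Set.Finite.compl_mem_cofinite (Set.finite_singleton (0 : O))] with h hh
    have h2 : (0 : ℝ) < nm h := by linarith [one_le_nm (show h ≠ 0 from hh)]
    rw [Real.norm_of_nonneg (integral_nonneg fun _ => norm_nonneg _), ← integral_const_mul]
    refine setIntegral_mono_on (hi h).norm ((h1.const_mul _).const_mul _) measurableSet_Ioi
      fun u hu => (hn h u).trans ?_
    have h3 := hg0 u hu
    refine (mul_le_mul_of_nonneg_left (mul_le_mul_of_nonneg_left (kmp_exp (mul_pos h2 h3))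
      (norm_nonneg _)) hM).trans (le_of_eq ?_)
    rw [Real.rpow_neg h2.le, Real.rpow_two]
    field_simp
  have h2 := hasSum_integral_of_summable_integral_norm hi hs
  simp only [integral_const_mul] at h2
  have e : ∀ u, V u * ∑' h : O, c h * (Real.exp (-(nm h * g u)) : ℝ) =
      ∑' h : O, c h * (V u * (Real.exp (-(nm h * g u)) : ℝ)) := fun u => by
    rw [← tsum_mul_left]
    exact tsum_congr fun h => by ring
  simpa only [e] using h2

theorem mp : MPStmt := by
  intro q f ϕ Y hq hf hϕ hY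
  classical
  have hc := c0_pos
  have hn : (0 : ℝ) < nm q := by exact_mod_cast nm_pos hq
  have hb : ∀ h, ‖f h‖ ≤ ∑ x ∈ res q, ‖f x‖ := by
    intro h
    obtain ⟨y, ⟨hy1, hy2⟩, -⟩ := res_spec hq h
    rw [hf h y hy2]
    exact Finset.single_le_sum (f := fun x => ‖f x‖) (fun _ _ => norm_nonneg _) hy1
  have hd := hϕ.dec (-2) 3
  have hh := hϕ.holS (-2) 3
  have ha : (-2 : ℝ) ≤ 2 := by norm_num
  have hb3 : (2 : ℝ) ≤ 3 := by norm_num
  have hH := sub_cont ker_exp hd hh ha hb3
  have hI := fun (σ : ℝ) => sub_integrable ker_exp hd hh ha hb3 (σ := σ)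
  have hM := fun (w : ℂ) => sub_mellin ker_exp hd hh ha hb3 (w := w)
  have hK := fun (y : ℝ) => sub_kernel ker_exp hd hh ha hb3 two_pos (y := y)
  have hD := fun (ξ : ℝ) => sub_dual ker_exp hd hh ha hb3 (σ := 1 / 4) (ξ := ξ) (by norm_num)
    (by norm_num) (by norm_num)
  generalize sub ϕ (fun w => (Complex.Gamma w)⁻¹) = H at hH hI hM hK hD
  have hA : (0 : ℝ) < c0 ^ 2 * Y / nm q := by positivity
  have s1 := kmp_swap hb (V := fun u => H u / u) (g := fun u => 1 / (Y * u))
    (hH.div Complex.continuous_ofReal.continuousOn fun u hu =>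
      Complex.ofReal_ne_zero.2 (ne_of_gt hu))
    (continuousOn_const.div (continuousOn_const.mul continuousOn_id) fun u hu =>
      (mul_pos hY hu).ne')
    (fun u hu => by positivity)
    ((hI 0 (by norm_num) (by norm_num)).congr_fun (fun u hu => by
      have hu' : (0 : ℝ) < u := hu
      simp only [norm_div, Complex.norm_real, Real.norm_of_nonneg hu'.le, zero_sub,
        Real.rpow_neg_one]
      rfl) measurableSet_Ioi)
    (IntegrableOn.congr_fun ((hI 2 (by norm_num) (by norm_num)).const_mul (Y ^ 2)) (fun u hu => by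
      have hu' : (0 : ℝ) < u := hu
      simp only [norm_div, Complex.norm_real, Real.norm_of_nonneg hu'.le,
        show (2 : ℝ) - 1 = 1 by norm_num, Real.rpow_one]
      field_simp) measurableSet_Ioi)
  have s2 := kmp_swap (norm_ft_le hq hb) (V := H) (g := fun u => c0 ^ 2 * Y / nm q * u) hH
    (continuousOn_const.mul continuousOn_id) (fun u hu => by positivity)
    ((hI 1 (by norm_num) (by norm_num)).congr_fun (fun u hu => by simp) measurableSet_Ioi)
    (IntegrableOn.congr_fun ((hI (-1) (by norm_num) (by norm_num)).const_mul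
      ((c0 ^ 2 * Y / nm q) ^ 2)⁻¹) (fun u hu => by
      have hu' : (0 : ℝ) < u := hu
      simp only [show (-1 : ℝ) - 1 = -2 by norm_num, Real.rpow_neg hu'.le, Real.rpow_two]
      field_simp) measurableSet_Ioi)
  have e1 : ∀ h : O, ∫ u in Set.Ioi (0 : ℝ), H u / u * (Real.exp (-(nm h * (1 / (Y * u)))) : ℝ) =
      mellinInv 2 ϕ (nm h / Y) := fun h => by
    by_cases h0 : h = 0
    · have := hM 0 (by norm_num) (by norm_num)
      simp only [zero_sub, Complex.cpow_neg_one, Complex.Gamma_zero, inv_zero, mul_zero] at this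
      simp [h0, mellinInv_zero two_ne_zero, div_eq_mul_inv, this]
    · have h2 : (0 : ℝ) < nm h := by linarith [one_le_nm h0]
      rw [← hK _ (div_pos h2 hY)]
      refine integral_congr_ae (Eventually.of_forall fun u => ?_)
      simp only [div_div, mul_one_div]
      ring
  have e2 : ∀ k : O, k ≠ 0 → ∫ u in Set.Ioi (0 : ℝ),
      H u * (Real.exp (-(nm k * (c0 ^ 2 * Y / nm q * u))) : ℝ) =
        shp ϕ (c0 ^ 2 * Y * nm k / nm q) := fun k h0 => by
    have h2 : (0 : ℝ) < nm k := by linarith [one_le_nm h0]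
    have e : ∀ u : ℝ, nm k * (c0 ^ 2 * Y / nm q * u) = c0 ^ 2 * Y * nm k / nm q * u :=
      fun u => by ring
    simp only [e]
    rw [hD _ (by positivity)]
    rfl
  have e3 : ∫ u in Set.Ioi (0 : ℝ),
      H u * (Real.exp (-(nm (0 : O) * (c0 ^ 2 * Y / nm q * u))) : ℝ) = ϕ 1 := by
    simpa using hM 1 (by norm_num) (by norm_num)
  have e4 := s2.summable.tsum_eq_add_tsum_ite 0
  rw [e3, s2.tsum_eq] at e4
  have e5 : ∑' k : O, ind (k ≠ 0) * ft q f k * shp ϕ (c0 ^ 2 * Y * nm k / nm q) =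
      ∑' k : O, if k = 0 then 0 else ft q f k * ∫ u in Set.Ioi (0 : ℝ),
        H u * (Real.exp (-(nm k * (c0 ^ 2 * Y / nm q * u))) : ℝ) := tsum_congr fun k => by
    by_cases h0 : k = 0
    · rw [if_pos h0, ind_of_not (not_not.2 h0), zero_mul, zero_mul]
    · rw [if_neg h0, ind_of h0, one_mul, e2 k h0]
  simp only [e1] at s1
  rw [e5, ← e4, s1.tsum_eq, ← integral_const_mul]
  refine setIntegral_congr_fun measurableSet_Ioi fun u hu => ?_
  have hu' : (0 : ℝ) < u := hu
  have key := poisson_gauss hq hf (mul_pos hY hu')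
  have e6 : ∀ k : O, (nm k : ℝ) * (c0 ^ 2 * Y / nm q * u) = c0 ^ 2 * (Y * u) * nm k / nm q :=
    fun k => by ring
  have e7 : ∀ (k : O) (z : ℂ), ft q f k * z =
      (nm q : ℂ)⁻¹ * ((∑ x ∈ res q, f x * eq (k * x) q) * z) := fun k z => by
    rw [ft]
    ring
  have hu2 : (u : ℂ) ≠ 0 := Complex.ofReal_ne_zero.2 hu'.ne'
  simp only [mul_one_div, e6, e7, key, tsum_mul_left]
  push_cast
  field_simp

end Vale.Agent.P006
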