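import Vale.Agent.P006.KShift

/-! K3b: `mellinInv` calculus, classes `GD` and `CT`.
Plans: everything from `integral_shift`, `Dec.mul`, `expG_cpow`; `tsum_mellinInv` by `integral_tsum_of_summable_integral_norm`;
`GD.twist`: translate `t` (`integral_add_right_eq_self`) and move the line; `CT.integral_norm`: `√(8π) < 6`. -/

namespace Vale.Agent.P006

open Vale.Agent.P026 Filter MeasureTheory
open scoped ComplexConjugate Real

theorem mellinInv_def (σ : ℝ) (ψ : ℂ → ℂ) (y : ℝ) : mellinInv σ ψ y =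
    (1 / (2 * π) : ℝ) * ∫ t : ℝ, (y : ℂ) ^ (-(σ + t * Complex.I)) * ψ (σ + t * Complex.I) := by
  simp only [mellinInv, smul_eq_mul, Complex.real_smul]
theorem mellinInv_zero {σ : ℝ} (hσ : σ ≠ 0) (ψ : ℂ → ℂ) : mellinInv σ ψ 0 = 0 := by
  have h : ∀ t : ℝ, ((0 : ℝ) : ℂ) ^ (-(σ + t * Complex.I)) = 0 := fun t => by
    rw [Complex.ofReal_zero]
    refine Complex.zero_cpow fun h => hσ ?_
    simpa using congrArg Complex.re h
  simp only [mellinInv_def, h, zero_mul, integral_zero, mul_zero]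
theorem kmel_norm (σ t : ℝ) {y : ℝ} (hy : 0 < y) :
    ‖(y : ℂ) ^ (-(σ + t * Complex.I))‖ = y ^ (-σ) := by
  rw [Complex.norm_cpow_eq_rpow_re_of_pos hy]
  simp
theorem kmel_shift {a b y : ℝ} {ψ : ℂ → ℂ} (hab : a ≤ b) (h : Dec a b ψ) (hψ : HolS a b ψ)
    (hy : 0 < y) : mellinInv a ψ y = mellinInv b ψ y := by
  have h1 : ExpG a b fun w => (y : ℂ) ^ (-w) := by
    simpa using expG_cpow a b hy (-1) 0
  have h2 := integral_shift (ψ := fun w => (y : ℂ) ^ (-w) * ψ w) hab (Dec.mul h1 h)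
    fun w h3 h4 => (differentiableAt_id.neg.const_cpow
      (Or.inl (Complex.ofReal_ne_zero.2 hy.ne'))).mul (hψ w h3 h4)
  rw [mellinInv_def, mellinInv_def, h2]
theorem mellinInv_shift {a b σ σ' y : ℝ} {ψ : ℂ → ℂ} (h : Dec a b ψ) (hψ : HolS a b ψ) (h1 : a ≤ σ)
    (h2 : σ ≤ b) (h3 : a ≤ σ') (h4 : σ' ≤ b) (hy : 0 < y) : mellinInv σ ψ y = mellinInv σ' ψ y := by
  rcases le_total σ σ' with h5 | h5
  · exact kmel_shift h5 (h.mono h1 h4) (fun w h6 h7 => hψ w (h1.trans h6) (h7.trans h4)) hy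
  · exact (kmel_shift h5 (h.mono h3 h2) (fun w h6 h7 => hψ w (h3.trans h6) (h7.trans h2)) hy).symm
theorem norm_mellinInv_le (σ : ℝ) (ψ : ℂ → ℂ) {y : ℝ} (hy : 0 < y) :
    ‖mellinInv σ ψ y‖ ≤ y ^ (-σ) / (2 * π) * ∫ t : ℝ, ‖ψ (σ + t * Complex.I)‖ := by
  have h0 : (0 : ℝ) ≤ 1 / (2 * π) := by positivity
  rw [mellinInv_def, norm_mul, Complex.norm_real, Real.norm_of_nonneg h0]
  refine (mul_le_mul_of_nonneg_left (norm_integral_le_integral_norm _) h0).trans (le_of_eq ?_)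
  simp only [norm_mul, kmel_norm σ _ hy]
  rw [integral_const_mul]
  ring
theorem mellinInv_scale (σ : ℝ) (ψ : ℂ → ℂ) {x y : ℝ} (hx : 0 < x) (hy : 0 < y) :
    mellinInv σ ψ (y / x) = mellinInv σ (fun w => (x : ℂ) ^ w * ψ w) y := by
  rw [mellinInv_def, mellinInv_def]
  congr 2
  funext t
  have hx' : (x : ℂ) ≠ 0 := Complex.ofReal_ne_zero.2 hx.ne'
  have e : (y : ℂ) ^ (-(σ + t * Complex.I)) =
      ((y / x : ℝ) : ℂ) ^ (-(σ + t * Complex.I)) * (x : ℂ) ^ (-(σ + t * Complex.I)) := by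
    rw [← Complex.mul_cpow_ofReal_nonneg (div_pos hy hx).le hx.le, ← Complex.ofReal_mul,
      div_mul_cancel₀ _ hx.ne']
  rw [e, mul_assoc, ← mul_assoc ((x : ℂ) ^ _), ← Complex.cpow_add _ _ hx', neg_add_cancel,
    Complex.cpow_zero, one_mul]
theorem continuousOn_mellinInv {a b σ : ℝ} {ψ : ℂ → ℂ} (h : Dec a b ψ) (hψ : HolS a b ψ)
    (ha : a ≤ σ) (hb : σ ≤ b) : ContinuousOn (mellinInv σ ψ) (Set.Ioi 0) := by
  intro y hy
  have hy0 : 0 < y := hy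
  refine ContinuousAt.continuousWithinAt ?_
  rw [show mellinInv σ ψ = _ from funext (mellinInv_def σ ψ)]
  refine continuousAt_const.mul (continuousAt_of_dominated
    (bound := fun t : ℝ => (y ^ (-σ) + 1) * ‖ψ (σ + t * Complex.I)‖) ?_ ?_
    ((h.integrable hψ ha hb).norm.const_mul _) (Eventually.of_forall fun t => ?_))
  · filter_upwards [Ioi_mem_nhds hy0] with x hx
    exact (h.integrable_cpow hψ ha hb hx).aestronglyMeasurable
  · filter_upwards [Ioi_mem_nhds hy0, (Real.continuousAt_rpow_const y (-σ)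
      (Or.inl hy0.ne')).eventually_lt_const (lt_add_one _)] with x hx hx'
    refine Eventually.of_forall fun t => ?_
    rw [norm_mul, kmel_norm σ t hx]
    exact mul_le_mul_of_nonneg_right hx'.le (norm_nonneg _)
  · exact (Complex.continuousAt_ofReal_cpow_const y _ (Or.inr hy0.ne')).mul continuousAt_const
theorem kmel_term (c : ℂ) (y σ : ℝ) (ψ : ℂ → ℂ) : c * mellinInv σ ψ y = (1 / (2 * π) : ℝ) *
    ∫ t : ℝ, ψ (σ + t * Complex.I) * (c * (y : ℂ) ^ (-(σ + t * Complex.I))) := by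
  rw [mellinInv_def, mul_left_comm, ← integral_const_mul]
  congr 2
  funext t
  ring
theorem kmel_int (c : ℂ) {y σ : ℝ} (hy : c ≠ 0 → 0 < y) {ψ : ℂ → ℂ} (h : Dec σ σ ψ)
    (hψ : HolS σ σ ψ) :
    Integrable fun t : ℝ => ψ (σ + t * Complex.I) * (c * (y : ℂ) ^ (-(σ + t * Complex.I))) := by
  by_cases hc : c = 0
  · simp [hc]
  · refine ((h.integrable_cpow hψ le_rfl le_rfl (hy hc)).const_mul c).congr
      (Eventually.of_forall fun t => ?_)
    ring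
/-- finite sums against an inverse Mellin transform -/
theorem sum_mellinInv {ι : Type*} (s : Finset ι) (c : ι → ℂ) (y : ι → ℝ) (hy : ∀ i ∈ s, 0 < y i)
    {σ : ℝ} {ψ : ℂ → ℂ} (h : Dec σ σ ψ) (hψ : HolS σ σ ψ) :
    ∑ i ∈ s, c i * mellinInv σ ψ (y i) = (1 / (2 * π) : ℝ) *
      ∫ t : ℝ, ψ (σ + t * Complex.I) * ∑ i ∈ s, c i * (y i : ℂ) ^ (-(σ + t * Complex.I)) := by
  simp only [kmel_term, Finset.mul_sum]
  rw [integral_finsetSum _ fun i hi => kmel_int (c i) (fun _ => hy i hi) h hψ, Finset.mul_sum]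
/-- absolutely convergent sums against an inverse Mellin transform -/
theorem tsum_mellinInv {ι : Type*} [Countable ι] (c : ι → ℂ) (y : ι → ℝ)
    (hy : ∀ i, c i ≠ 0 → 0 < y i) {σ : ℝ} {ψ : ℂ → ℂ} (h : Dec σ σ ψ) (hψ : HolS σ σ ψ)
    (hs : Summable fun i => ‖c i‖ * y i ^ (-σ)) :
    Summable (fun i => c i * mellinInv σ ψ (y i)) ∧
    ∑' i, c i * mellinInv σ ψ (y i) = (1 / (2 * π) : ℝ) *
      ∫ t : ℝ, ψ (σ + t * Complex.I) * ∑' i, c i * (y i : ℂ) ^ (-(σ + t * Complex.I)) := by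
  have h1 := hasSum_integral_of_summable_integral_norm (fun i => kmel_int (c i) (hy i) h hψ)
    ((hs.mul_right (∫ t : ℝ, ‖ψ (σ + t * Complex.I)‖)).congr fun i => by
      rw [← integral_const_mul]
      congr 1
      funext t
      by_cases hc : c i = 0
      · simp [hc]
      · rw [norm_mul, norm_mul, kmel_norm σ t (hy i hc)]
        ring)
  have h2 := h1.mul_left ((1 / (2 * π) : ℝ) : ℂ)
  simp only [kmel_term]
  refine ⟨h2.summable, ?_⟩
  rw [h2.tsum_eq]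
  simp only [tsum_mul_left]

theorem GD.dec {ϕ : ℂ → ℂ} (h : GD ϕ) (a b : ℝ) : Dec a b ϕ := h.2 a b
theorem GD.holS {ϕ : ℂ → ℂ} (h : GD ϕ) (a b : ℝ) : HolS a b ϕ := fun w _ _ => h.1 w
theorem GD.shift {ϕ : ℂ → ℂ} (h : GD ϕ) (w₀ : ℂ) : GD fun w => ϕ (w + w₀) := by
  refine ⟨h.1.comp (differentiable_id.add_const w₀), fun a b => ?_⟩
  obtain ⟨C, c, hc, hC⟩ := h.2 (a + w₀.re) (b + w₀.re)
  refine ⟨|C| * Real.exp (c * w₀.im ^ 2), c / 2, half_pos hc, fun w h1 h2 => ?_⟩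
  refine (hC (w + w₀) (by rw [Complex.add_re]; linarith) (by rw [Complex.add_re]; linarith)).trans ?_
  rw [mul_assoc, ← Real.exp_add, Complex.add_im]
  refine mul_le_mul (le_abs_self C) (Real.exp_le_exp.2 ?_) (Real.exp_pos _).le (abs_nonneg C)
  nlinarith [mul_nonneg hc.le (sq_nonneg (w.im + 2 * w₀.im))]
theorem GD.cpow_mul {ϕ : ℂ → ℂ} (h : GD ϕ) {x : ℝ} (hx : 0 < x) : GD fun w => (x : ℂ) ^ w * ϕ w := by
  refine ⟨(differentiable_id.const_cpow (Or.inl (Complex.ofReal_ne_zero.2 hx.ne'))).mul h.1,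
    fun a b => ?_⟩
  have h1 : ExpG a b fun w => (x : ℂ) ^ w := by
    simpa using expG_cpow a b hx 1 0
  exact Dec.mul h1 (h.dec a b)
theorem GD.const_mul {ϕ : ℂ → ℂ} (h : GD ϕ) (a : ℂ) : GD fun w => a * ϕ w := by
  refine ⟨h.1.const_mul a, fun a' b => ?_⟩
  obtain ⟨C, c, hc, hC⟩ := h.2 a' b
  refine ⟨‖a‖ * C, c, hc, fun w h1 h2 => ?_⟩
  rw [norm_mul, mul_assoc]
  exact mul_le_mul_of_nonneg_left (hC w h1 h2) (norm_nonneg a)
theorem GD.add {ϕ ψ : ℂ → ℂ} (h : GD ϕ) (h' : GD ψ) : GD fun w => ϕ w + ψ w :=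
  ⟨h.1.add h'.1, fun a b => Dec.add (h.dec a b) (h'.dec a b)⟩
theorem GD.line {ϕ : ℂ → ℂ} (h : GD ϕ) (σ σ' : ℝ) {y : ℝ} (hy : 0 < y) :
    mellinInv σ ϕ y = mellinInv σ' ϕ y :=
  mellinInv_shift (h.dec _ _) (h.holS _ _) (min_le_left σ σ') (le_max_left σ σ') (min_le_right σ σ')
    (le_max_right σ σ') hy
theorem GD.twist {ϕ : ℂ → ℂ} (h : GD ϕ) (σ : ℝ) (w₀ : ℂ) {y : ℝ} (hy : 0 < y) :
    (y : ℂ) ^ w₀ * mellinInv σ ϕ y = mellinInv σ (fun w => ϕ (w + w₀)) y := by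
  have hy' : (y : ℂ) ≠ 0 := Complex.ofReal_ne_zero.2 hy.ne'
  rw [h.line σ (σ + w₀.re) hy, mellinInv_def, mellinInv_def, mul_left_comm, ← integral_const_mul,
    ← integral_add_right_eq_self _ w₀.im]
  congr 2
  funext t
  have e : ((σ + w₀.re : ℝ) : ℂ) + ((t + w₀.im : ℝ) : ℂ) * Complex.I = σ + t * Complex.I + w₀ := by
    conv_rhs => rw [← Complex.re_add_im w₀]
    push_cast
    ring
  rw [e, ← mul_assoc, ← Complex.cpow_add _ _ hy']
  congr 2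
  ring
theorem CT.dec {T : ℝ} {ϕ : ℂ → ℂ} (hT : 0 < T) (h : CT T ϕ) : Dec (-2) 3 ϕ :=
  ⟨1 / T, 1 / (8 * T ^ 2), by positivity, fun w h1 h2 => by
    rw [one_div_mul_eq_div (8 * T ^ 2)]; exact h.2 w h1 h2⟩
theorem CT.holS {T : ℝ} {ϕ : ℂ → ℂ} (h : CT T ϕ) (a b : ℝ) : HolS a b ϕ := fun w _ _ => h.1 w
theorem CT.integral_norm {T σ : ℝ} {ϕ : ℂ → ℂ} (hT : 0 < T) (h : CT T ϕ) (h1 : -2 ≤ σ) (h2 : σ ≤ 3) :
    ∫ t : ℝ, ‖ϕ (σ + t * Complex.I)‖ ≤ 6 := by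
  have hc : 0 < 1 / (8 * T ^ 2) := by positivity
  have h3 : ∫ t : ℝ, ‖ϕ (σ + t * Complex.I)‖ ≤
      ∫ t : ℝ, 1 / T * Real.exp (-(1 / (8 * T ^ 2)) * t ^ 2) := by
    refine integral_mono_of_nonneg (Eventually.of_forall fun t => norm_nonneg _)
      ((integrable_exp_neg_mul_sq hc).const_mul _) (Eventually.of_forall fun t => ?_)
    have h4 := h.2 (σ + t * Complex.I) (by simpa using h1) (by simpa using h2)
    rw [show (σ + t * Complex.I : ℂ).im = t by simp] at h4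
    refine h4.trans (le_of_eq ?_)
    congr 2
    ring
  rw [integral_const_mul, integral_gaussian] at h3
  refine h3.trans ?_
  rw [one_div_mul_eq_div, div_le_iff₀ hT, Real.sqrt_le_left (by positivity), div_le_iff₀ hc]
  have h5 : (6 * T) ^ 2 * (1 / (8 * T ^ 2)) = 9 / 2 := by field_simp; ring
  rw [h5]
  linarith [Real.pi_le_four]
theorem CT.norm_le {T σ y : ℝ} {ϕ : ℂ → ℂ} (hT : 0 < T) (h : CT T ϕ) (h1 : -2 ≤ σ) (h2 : σ ≤ 3)
    (hy : 0 < y) : ‖mellinInv 2 ϕ y‖ ≤ y ^ (-σ) := by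
  rw [mellinInv_shift (h.dec hT) (h.holS _ _) (by norm_num) (by norm_num) h1 h2 hy]
  refine (norm_mellinInv_le σ ϕ hy).trans ?_
  have h3 := h.integral_norm hT h1 h2
  have h4 : 0 < y ^ (-σ) := Real.rpow_pos_of_pos hy _
  have h5 := Real.pi_gt_three
  rw [div_mul_eq_mul_div, div_le_iff₀ (by positivity)]
  exact mul_le_mul_of_nonneg_left (by linarith) h4.le

end Vale.Agent.P006
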