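import Vale.Agent.P006.Defs

/-! K3: moving the line of integration in `mellinInv`.
Plans: `integral_shift`: Cauchy on rectangles (`Complex.integral_boundary_rect_eq_zero_of_differentiableOn`), horizontal sides tend
to `0`, `intervalIntegral_tendsto_integral`.  `integral_shift_pole`: `ψ s / (s - s₀) = dslope (ψ - ψ s₀ e^{(s-s₀)²}) + ψ s₀ e^{(s-s₀)²}/(s-s₀)`;
`J a = ∫ e^{(a+it)²}/(a+it) dt` is odd in `a`, and for `a > 0`, `1/(a+it) = ∫_0^∞ e^{-u(a+it)} du` and the Gaussian integral give `J a = π`.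
`CT.integral_norm`: `√(8π) < 6`. -/

namespace Vale.Agent.P006

open Vale.Agent.P026 Filter MeasureTheory
open scoped ComplexConjugate Real

/-- Gaussian decay on the strip `a ≤ Re w ≤ b` -/
def Dec (a b : ℝ) (ψ : ℂ → ℂ) : Prop :=
  ∃ C c : ℝ, 0 < c ∧ ∀ w : ℂ, a ≤ w.re → w.re ≤ b → ‖ψ w‖ ≤ C * Real.exp (-(c * w.im ^ 2))

/-- holomorphic near the strip `a ≤ Re w ≤ b` -/
def HolS (a b : ℝ) (ψ : ℂ → ℂ) : Prop := ∀ w : ℂ, a ≤ w.re → w.re ≤ b → DifferentiableAt ℂ ψ w

/-- at most exponential growth on the strip -/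
def ExpG (a b : ℝ) (g : ℂ → ℂ) : Prop :=
  ∃ C : ℝ, ∀ w : ℂ, a ≤ w.re → w.re ≤ b → ‖g w‖ ≤ C * Real.exp (C * |w.im|)

theorem KShift_amgm (C x : ℝ) {c : ℝ} (hc : 0 < c) : C * x ≤ C ^ 2 / (2 * c) + c / 2 * x ^ 2 := by
  have e : C ^ 2 / (2 * c) + c / 2 * x ^ 2 - C * x = (C - c * x) ^ 2 / (2 * c) := by
    field_simp; ring
  have : 0 ≤ (C - c * x) ^ 2 / (2 * c) := by positivity
  linarith

theorem Dec.mono {a b a' b' : ℝ} {ψ : ℂ → ℂ} (h : Dec a b ψ) (ha : a ≤ a') (hb : b' ≤ b) :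
    Dec a' b' ψ := by
  obtain ⟨C, c, hc, h⟩ := h
  exact ⟨C, c, hc, fun w h1 h2 => h w (ha.trans h1) (h2.trans hb)⟩

theorem Dec.mul {a b : ℝ} {g ψ : ℂ → ℂ} (hg : ExpG a b g) (h : Dec a b ψ) :
    Dec a b fun w => g w * ψ w := by
  obtain ⟨C, hg⟩ := hg
  obtain ⟨D, c, hc, h⟩ := h
  refine ⟨|C| * |D| * Real.exp (C ^ 2 / (2 * c)), c / 2, by positivity, fun w h1 h2 => ?_⟩
  have e1 : ‖g w‖ ≤ |C| * Real.exp (C * |w.im|) :=
    (hg w h1 h2).trans (mul_le_mul_of_nonneg_right (le_abs_self C) (Real.exp_pos _).le)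
  have e2 : ‖ψ w‖ ≤ |D| * Real.exp (-(c * w.im ^ 2)) :=
    (h w h1 h2).trans (mul_le_mul_of_nonneg_right (le_abs_self D) (Real.exp_pos _).le)
  have e3 : Real.exp (C * |w.im|) * Real.exp (-(c * w.im ^ 2)) ≤
      Real.exp (C ^ 2 / (2 * c)) * Real.exp (-(c / 2 * w.im ^ 2)) := by
    rw [← Real.exp_add, ← Real.exp_add]
    exact Real.exp_le_exp.2 (by
      have := KShift_amgm C |w.im| hc
      rw [sq_abs] at this
      linarith)
  calc ‖g w * ψ w‖ = ‖g w‖ * ‖ψ w‖ := norm_mul _ _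
    _ ≤ (|C| * Real.exp (C * |w.im|)) * (|D| * Real.exp (-(c * w.im ^ 2))) :=
        mul_le_mul e1 e2 (norm_nonneg _) (by positivity)
    _ = |C| * |D| * (Real.exp (C * |w.im|) * Real.exp (-(c * w.im ^ 2))) := by ring
    _ ≤ |C| * |D| * (Real.exp (C ^ 2 / (2 * c)) * Real.exp (-(c / 2 * w.im ^ 2))) :=
        mul_le_mul_of_nonneg_left e3 (by positivity)
    _ = _ := by ring

theorem Dec.add {a b : ℝ} {φ ψ : ℂ → ℂ} (hφ : Dec a b φ) (h : Dec a b ψ) :
    Dec a b fun w => φ w + ψ w := by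
  obtain ⟨C, c, hc, hφ⟩ := hφ
  obtain ⟨D, d, hd, h⟩ := h
  refine ⟨|C| + |D|, min c d, lt_min hc hd, fun w h1 h2 => ?_⟩
  have e1 : ‖φ w‖ ≤ |C| * Real.exp (-(min c d * w.im ^ 2)) :=
    (hφ w h1 h2).trans (mul_le_mul (le_abs_self C) (Real.exp_le_exp.2 (by
      nlinarith [min_le_left c d, sq_nonneg w.im])) (Real.exp_pos _).le (abs_nonneg _))
  have e2 : ‖ψ w‖ ≤ |D| * Real.exp (-(min c d * w.im ^ 2)) :=
    (h w h1 h2).trans (mul_le_mul (le_abs_self D) (Real.exp_le_exp.2 (by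
      nlinarith [min_le_right c d, sq_nonneg w.im])) (Real.exp_pos _).le (abs_nonneg _))
  calc ‖φ w + ψ w‖ ≤ ‖φ w‖ + ‖ψ w‖ := norm_add_le _ _
    _ ≤ _ := by linarith

theorem Dec.refl {a b κ : ℝ} {ψ : ℂ → ℂ} (h : Dec a b ψ) :
    Dec (κ - b) (κ - a) fun w => ψ (κ - w) := by
  obtain ⟨C, c, hc, h⟩ := h
  refine ⟨C, c, hc, fun w h1 h2 => ?_⟩
  have := h (κ - w) (by simp; linarith) (by simp; linarith)
  simpa using this

theorem ExpG.of_poly {a b C : ℝ} {n : ℕ} {g : ℂ → ℂ}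
    (h : ∀ w : ℂ, a ≤ w.re → w.re ≤ b → ‖g w‖ ≤ C * (1 + |w.im|) ^ n) : ExpG a b g := by
  refine ⟨|C| + n, fun w h1 h2 => (h w h1 h2).trans ?_⟩
  have e1 : (1 + |w.im|) ^ n ≤ Real.exp ((|C| + n) * |w.im|) := by
    calc (1 + |w.im|) ^ n ≤ Real.exp |w.im| ^ n :=
          pow_le_pow_left₀ (by positivity) (by linarith [Real.add_one_le_exp |w.im|]) n
      _ = Real.exp (n * |w.im|) := (Real.exp_nat_mul _ _).symm
      _ ≤ _ := Real.exp_le_exp.2 (by nlinarith [abs_nonneg C, abs_nonneg w.im])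
  exact mul_le_mul (by linarith [le_abs_self C, (n.cast_nonneg : (0 : ℝ) ≤ n)]) e1 (by positivity)
    (by positivity)

theorem ExpG.mul {a b : ℝ} {g g' : ℂ → ℂ} (h : ExpG a b g) (h' : ExpG a b g') :
    ExpG a b fun w => g w * g' w := by
  obtain ⟨C, h⟩ := h
  obtain ⟨D, h'⟩ := h'
  refine ⟨|C| * |D| + |C| + |D|, fun w h1 h2 => ?_⟩
  have e1 : ‖g w‖ ≤ |C| * Real.exp (|C| * |w.im|) :=
    (h w h1 h2).trans (mul_le_mul (le_abs_self C) (Real.exp_le_exp.2
      (mul_le_mul_of_nonneg_right (le_abs_self C) (abs_nonneg _))) (Real.exp_pos _).le (abs_nonneg _))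
  have e2 : ‖g' w‖ ≤ |D| * Real.exp (|D| * |w.im|) :=
    (h' w h1 h2).trans (mul_le_mul (le_abs_self D) (Real.exp_le_exp.2
      (mul_le_mul_of_nonneg_right (le_abs_self D) (abs_nonneg _))) (Real.exp_pos _).le (abs_nonneg _))
  calc ‖g w * g' w‖ = ‖g w‖ * ‖g' w‖ := norm_mul _ _
    _ ≤ (|C| * Real.exp (|C| * |w.im|)) * (|D| * Real.exp (|D| * |w.im|)) :=
        mul_le_mul e1 e2 (norm_nonneg _) (by positivity)
    _ = |C| * |D| * Real.exp (|C| * |w.im| + |D| * |w.im|) := by rw [Real.exp_add]; ring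
    _ ≤ _ := mul_le_mul (by linarith [abs_nonneg C, abs_nonneg D]) (Real.exp_le_exp.2 (by
        have : 0 ≤ |C| * |D| * |w.im| := by positivity
        nlinarith)) (Real.exp_pos _).le (by positivity)

theorem expG_cpow (a b : ℝ) {x : ℝ} (hx : 0 < x) (c d : ℂ) :
    ExpG a b fun w => (x : ℂ) ^ (c * w + d) := by
  set L := |Real.log x|
  set K := Real.exp (L * (|c.re| * (|a| + |b|) + |d.re|))
  refine ⟨K + L * |c.im|, fun w h1 h2 => ?_⟩
  have hL : 0 ≤ L := abs_nonneg _
  have hw : |w.re| ≤ |a| + |b| := by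
    rw [abs_le]; constructor <;> linarith [neg_abs_le a, le_abs_self b, abs_nonneg a, abs_nonneg b]
  have e0 : |(c * w + d).re| ≤ |c.re| * (|a| + |b|) + |d.re| + |c.im| * |w.im| := by
    have : (c * w + d).re = c.re * w.re + d.re + -(c.im * w.im) := by simp; ring
    rw [this]
    have t1 := abs_add_le (c.re * w.re + d.re) (-(c.im * w.im))
    have t2 := abs_add_le (c.re * w.re) d.re
    rw [abs_neg, abs_mul] at t1
    rw [abs_mul] at t2
    have t3 := mul_le_mul_of_nonneg_left hw (abs_nonneg c.re)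
    linarith
  rw [Complex.norm_cpow_eq_rpow_re_of_pos hx, Real.rpow_def_of_pos hx]
  calc Real.exp (Real.log x * (c * w + d).re)
      ≤ Real.exp (L * (|c.re| * (|a| + |b|) + |d.re|) + L * |c.im| * |w.im|) := by
        refine Real.exp_le_exp.2 ((le_abs_self _).trans ?_)
        rw [abs_mul]
        have := mul_le_mul_of_nonneg_left e0 hL
        linarith
    _ = K * Real.exp (L * |c.im| * |w.im|) := Real.exp_add _ _
    _ ≤ _ := by
        have hK : 0 < K := Real.exp_pos _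
        have h3 : 0 ≤ L * |c.im| := by positivity
        refine mul_le_mul (by linarith) (Real.exp_le_exp.2 ?_) (Real.exp_pos _).le (by positivity)
        nlinarith [abs_nonneg w.im]

theorem Dec.integrable {a b σ : ℝ} {ψ : ℂ → ℂ} (h : Dec a b ψ) (hψ : HolS a b ψ) (ha : a ≤ σ)
    (hb : σ ≤ b) : Integrable fun t : ℝ => ψ (σ + t * Complex.I) := by
  obtain ⟨C, c, hc, h⟩ := h
  have hcont : Continuous fun t : ℝ => ψ (σ + t * Complex.I) := by
    refine continuous_iff_continuousAt.2 fun t => ?_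
    have h1 : ContinuousAt ψ (σ + t * Complex.I) :=
      (hψ _ (by simpa using ha) (by simpa using hb)).continuousAt
    exact ContinuousAt.comp (f := fun t : ℝ => (σ + t * Complex.I : ℂ)) h1 (by fun_prop)
  refine ((integrable_exp_neg_mul_sq hc).const_mul C).mono' hcont.aestronglyMeasurable
    (Eventually.of_forall fun t => ?_)
  have := h (σ + t * Complex.I) (by simpa using ha) (by simpa using hb)
  simpa using this

theorem Dec.integrable_cpow {a b σ y : ℝ} {ψ : ℂ → ℂ} (h : Dec a b ψ) (hψ : HolS a b ψ) (ha : a ≤ σ)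
    (hb : σ ≤ b) (hy : 0 < y) :
    Integrable fun t : ℝ => (y : ℂ) ^ (-(σ + t * Complex.I)) * ψ (σ + t * Complex.I) := by
  have h1 := Dec.mul (expG_cpow a b hy (-1) 0) h
  have h2 : HolS a b fun w => (y : ℂ) ^ (-1 * w + 0) * ψ w := fun w h1 h2 =>
    DifferentiableAt.mul (DifferentiableAt.const_cpow (by fun_prop)
      (Or.inl (by exact_mod_cast hy.ne'))) (hψ w h1 h2)
  simpa using h1.integrable h2 ha hb

theorem integral_shift {a b : ℝ} {ψ : ℂ → ℂ} (hab : a ≤ b) (h : Dec a b ψ) (hψ : HolS a b ψ) :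
    ∫ t : ℝ, ψ (a + t * Complex.I) = ∫ t : ℝ, ψ (b + t * Complex.I) := by
  have ia := h.integrable hψ le_rfl hab
  have ib := h.integrable hψ hab le_rfl
  obtain ⟨C, c, hc, h⟩ := h
  have hor : ∀ T : ℝ, ‖∫ x : ℝ in a..b, ψ (x + T * Complex.I)‖ ≤
      C * Real.exp (-(c * T ^ 2)) * |b - a| := fun T => by
    refine intervalIntegral.norm_integral_le_of_norm_le_const fun x hx => ?_
    rw [Set.uIoc_of_le hab] at hx
    have := h (x + T * Complex.I) (by simpa using hx.1.le) (by simpa using hx.2)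
    simpa using this
  have lim0 : Tendsto (fun T : ℝ => C * Real.exp (-(c * T ^ 2)) * |b - a|) atTop (nhds 0) := by
    have : Tendsto (fun T : ℝ => Real.exp (-(c * T ^ 2))) atTop (nhds 0) :=
      Real.tendsto_exp_neg_atTop_nhds_zero.comp
        ((tendsto_pow_atTop two_ne_zero).const_mul_atTop hc)
    simpa using (this.const_mul C).mul_const |b - a|
  have t1 : Tendsto (fun T : ℝ => ∫ x : ℝ in a..b, ψ (x + T * Complex.I)) atTop (nhds 0) :=
    squeeze_zero_norm hor lim0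
  have t2 : Tendsto (fun T : ℝ => ∫ x : ℝ in a..b, ψ (x + (-T : ℝ) * Complex.I)) atTop (nhds 0) :=
    squeeze_zero_norm (fun T => by simpa using hor (-T)) lim0
  have t3 := intervalIntegral_tendsto_integral ia tendsto_neg_atTop_atBot tendsto_id
  have t4 := intervalIntegral_tendsto_integral ib tendsto_neg_atTop_atBot tendsto_id
  have key : ∀ T : ℝ, (∫ x : ℝ in a..b, ψ (x + (-T : ℝ) * Complex.I)) -
      (∫ x : ℝ in a..b, ψ (x + T * Complex.I)) +
      Complex.I • (∫ y : ℝ in (-T)..(id T), ψ (b + y * Complex.I)) -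
      Complex.I • (∫ y : ℝ in (-T)..(id T), ψ (a + y * Complex.I)) = 0 := fun T => by
    have := Complex.integral_boundary_rect_eq_zero_of_differentiableOn ψ ⟨a, -T⟩ ⟨b, T⟩ (by
      intro w hw
      have h1 : w.re ∈ Set.uIcc a b := hw.1
      rw [Set.uIcc_of_le hab] at h1
      exact (hψ w h1.1 h1.2).differentiableWithinAt)
    exact this
  have lim := ((t2.sub t1).add (t4.const_smul Complex.I)).sub (t3.const_smul Complex.I)
  simp only [key] at lim
  have e := tendsto_nhds_unique tendsto_const_nhds lim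
  simp only [sub_self, zero_add, smul_eq_mul] at e
  have e2 : Complex.I * ((∫ t : ℝ, ψ (b + t * Complex.I)) - ∫ t : ℝ, ψ (a + t * Complex.I)) = 0 := by
    rw [mul_sub]; exact e.symm
  rcases mul_eq_zero.1 e2 with h0 | h0
  · exact absurd h0 Complex.I_ne_zero
  · exact (sub_eq_zero.1 h0).symm


theorem KShift_decG (a b s₀ : ℝ) : Dec a b fun w => Complex.exp ((w - s₀) ^ 2) := by
  refine ⟨Real.exp ((|a| + |b| + |s₀|) ^ 2), 1, one_pos, fun w h1 h2 => ?_⟩
  rw [Complex.norm_exp, ← Real.exp_add]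
  refine Real.exp_le_exp.2 ?_
  have e : ((w - s₀) ^ 2).re = (w.re - s₀) ^ 2 - w.im ^ 2 := by simp [sq]
  have hw : |w.re - s₀| ≤ |a| + |b| + |s₀| := by
    rw [abs_le]
    constructor <;> linarith [neg_abs_le a, le_abs_self b, abs_nonneg a, abs_nonneg b, neg_abs_le s₀,
      le_abs_self s₀]
  have := pow_le_pow_left₀ (abs_nonneg _) hw 2
  rw [sq_abs] at this
  rw [e]; linarith

theorem KShift_dec_of_far {a b C c : ℝ} {ψ : ℂ → ℂ} (hψ : HolS a b ψ) (hc : 0 < c)
    (h : ∀ w : ℂ, a ≤ w.re → w.re ≤ b → 1 ≤ |w.im| → ‖ψ w‖ ≤ C * Real.exp (-(c * w.im ^ 2))) :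
    Dec a b ψ := by
  have hK : IsCompact (Set.Icc a b ×ℂ Set.Icc (-1 : ℝ) 1) := isCompact_Icc.reProdIm isCompact_Icc
  obtain ⟨M, hM⟩ := hK.exists_bound_of_continuousOn (f := ψ) fun w hw =>
    (hψ w hw.1.1 hw.1.2).continuousAt.continuousWithinAt
  refine ⟨|C| + |M| * Real.exp c, c, hc, fun w h1 h2 => ?_⟩
  have hE := Real.exp_pos (-(c * w.im ^ 2))
  rcases le_total 1 |w.im| with h3 | h3
  · refine (h w h1 h2 h3).trans (mul_le_mul_of_nonneg_right ?_ hE.le)
    have : 0 ≤ |M| * Real.exp c := by positivity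
    linarith [le_abs_self C]
  · have h4 := hM w ⟨⟨h1, h2⟩, abs_le.1 h3⟩
    have h5 : 1 ≤ Real.exp c * Real.exp (-(c * w.im ^ 2)) := by
      rw [← Real.exp_add]
      refine Real.one_le_exp ?_
      have : w.im ^ 2 ≤ 1 := by rw [← sq_abs]; nlinarith [abs_nonneg w.im]
      nlinarith
    have h6 : 0 ≤ |C| * Real.exp (-(c * w.im ^ 2)) := by positivity
    have h7 := mul_le_mul_of_nonneg_left h5 (abs_nonneg M)
    nlinarith [le_abs_self M]

/-- the model integral -/
noncomputable def KShift_J (a : ℝ) : ℂ :=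
  ∫ t : ℝ, Complex.exp ((a + t * Complex.I) ^ 2) / (a + t * Complex.I)

theorem KShift_J_int {a : ℝ} (ha : a ≠ 0) :
    Integrable fun t : ℝ => Complex.exp ((a + t * Complex.I) ^ 2) / (a + t * Complex.I) := by
  have hH : HolS a a fun w => Complex.exp (w ^ 2) / w := fun w h1 h2 =>
    DifferentiableAt.div (by fun_prop) (by fun_prop) fun e => ha (by
      rw [e] at h1 h2; simp at h1 h2; linarith)
  have hD : Dec a a fun w => Complex.exp (w ^ 2) / w := by
    obtain ⟨C, c, hc, h⟩ := KShift_decG a a 0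
    refine KShift_dec_of_far hH (C := C) hc fun w h1 h2 h3 => ?_
    rw [norm_div]
    refine (div_le_self (norm_nonneg _) (h3.trans (Complex.abs_im_le_norm w))).trans ?_
    simpa using h w h1 h2
  exact hD.integrable hH le_rfl le_rfl

theorem KShift_J_pos {a : ℝ} (ha : 0 < a) : KShift_J a = π := by
  set F : ℝ → ℝ → ℂ := fun t u =>
    Complex.exp ((a + t * Complex.I) ^ 2) * Complex.exp (-(a + t * Complex.I) * u) with hF
  have e1 : ∀ t : ℝ, Complex.exp ((a + t * Complex.I) ^ 2) / (a + t * Complex.I) =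
      ∫ u in Set.Ioi (0 : ℝ), F t u := fun t => by
    simp only [hF]
    rw [integral_const_mul, integral_exp_mul_complex_Ioi (by simpa using ha)]
    simp only [Complex.ofReal_zero, mul_zero, Complex.exp_zero, neg_div_neg_eq]
    ring
  have e2 : ∀ u : ℝ, ∫ t : ℝ, F t u = ((√π * Real.exp (-(1 / 4) * u ^ 2) : ℝ) : ℂ) := fun u => by
    have := integral_cexp_quadratic (b := -1) (by norm_num) ((2 * a - u) * Complex.I) (a ^ 2 - a * u)
    have e : ∀ t : ℝ, F t u =
        Complex.exp (-1 * (t : ℂ) ^ 2 + (2 * a - u) * Complex.I * t + (a ^ 2 - a * u)) := fun t => by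
      simp only [hF]
      rw [← Complex.exp_add]
      congr 1
      linear_combination (t : ℂ) ^ 2 * Complex.I_sq
    simp only [e]
    rw [this]
    push_cast
    congr 1
    · rw [Real.sqrt_eq_rpow, Complex.ofReal_cpow Real.pi_pos.le]; simp
    · congr 1
      linear_combination (2 * (a : ℂ) - u) ^ 2 / 4 * Complex.I_sq
  have hI : Integrable (Function.uncurry F) (volume.prod (volume.restrict (Set.Ioi (0 : ℝ)))) := by
    have h1 := ((integrable_exp_neg_mul_sq one_pos).const_mul (Real.exp (a ^ 2))).mul_prod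
      (exp_neg_integrableOn_Ioi 0 ha)
    refine h1.mono' (Continuous.aestronglyMeasurable (by simp only [hF]; fun_prop))
      (Eventually.of_forall fun p => le_of_eq ?_)
    simp only [hF, Function.uncurry, norm_mul, Complex.norm_exp, ← Real.exp_add]
    congr 1
    simp [sq]; ring
  rw [KShift_J]
  simp only [e1]
  rw [integral_integral_swap hI]
  simp only [e2]
  rw [integral_complex_ofReal, integral_const_mul, integral_gaussian_Ioi]
  congr 1
  have : π / (1 / 4) = 2 ^ 2 * π := by ring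
  rw [this, Real.sqrt_mul (by positivity), Real.sqrt_sq (by norm_num)]
  linear_combination Real.mul_self_sqrt Real.pi_pos.le

theorem KShift_J_neg {a : ℝ} (ha : a < 0) : KShift_J a = -π := by
  rw [← KShift_J_pos (neg_pos.2 ha), KShift_J, KShift_J, ← integral_neg, ← integral_neg_eq_self]
  refine integral_congr_ae (Eventually.of_forall fun t => ?_)
  have e : (((-a : ℝ) : ℂ) + t * Complex.I) = -(a + ((-t : ℝ) : ℂ) * Complex.I) := by push_cast; ring
  simp only [e, neg_sq, div_neg, neg_neg]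

theorem integral_shift_pole {a b s₀ : ℝ} {ψ : ℂ → ℂ} (ha : a < s₀) (hb : s₀ < b) (h : Dec a b ψ)
    (hψ : HolS a b ψ) : ∫ t : ℝ, ψ (b + t * Complex.I) / (b + t * Complex.I - s₀) =
      2 * π * ψ s₀ + ∫ t : ℝ, ψ (a + t * Complex.I) / (a + t * Complex.I - s₀) := by
  have hab : a ≤ b := (ha.trans hb).le
  set φ : ℂ → ℂ := fun s => ψ s + -ψ s₀ * Complex.exp ((s - s₀) ^ 2) with hφ
  have hφD : Dec a b φ := h.add (Dec.mul (g := fun _ => -ψ s₀)
    (ExpG.of_poly (C := ‖ψ s₀‖) (n := 0) fun w _ _ => by simp) (KShift_decG a b s₀))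
  have hφH : HolS a b φ := fun w h1 h2 => (hψ w h1 h2).add (by fun_prop)
  have hφ0 : φ s₀ = 0 := by simp [hφ]
  have hds : ∀ w : ℂ, w ≠ s₀ → dslope φ s₀ w = φ w / (w - s₀) := fun w hw => by
    rw [dslope_of_ne _ hw, slope_def_field, hφ0, sub_zero]
  have hH : HolS a b (dslope φ s₀) := fun w h1 h2 => by
    by_cases hw : w = s₀
    · subst hw
      have hU : {w : ℂ | a < w.re ∧ w.re < b} ∈ nhds (s₀ : ℂ) :=
        ((isOpen_lt continuous_const Complex.continuous_re).inter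
          (isOpen_lt Complex.continuous_re continuous_const)).mem_nhds ⟨by simpa using ha, by simpa using hb⟩
      exact ((Complex.differentiableOn_dslope hU).2 fun w hw =>
        (hφH w hw.1.le hw.2.le).differentiableWithinAt).differentiableAt hU
    · exact (differentiableAt_dslope_of_ne hw).2 (hφH w h1 h2)
  have hD : Dec a b (dslope φ s₀) := by
    obtain ⟨C, c, hc, hφD⟩ := hφD
    refine KShift_dec_of_far hH (C := C) hc fun w h1 h2 h3 => ?_
    have h4 : 1 ≤ ‖w - s₀‖ := h3.trans (by simpa using Complex.abs_im_le_norm (w - s₀))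
    have hw : w ≠ s₀ := fun e => by rw [e] at h4; norm_num at h4
    rw [hds w hw, norm_div]
    exact (div_le_self (norm_nonneg _) h4).trans (hφD w h1 h2)
  have sp : ∀ σ : ℝ, a ≤ σ → σ ≤ b → σ ≠ s₀ →
      ∫ t : ℝ, ψ (σ + t * Complex.I) / (σ + t * Complex.I - s₀) =
        (∫ t : ℝ, dslope φ s₀ (σ + t * Complex.I)) + ψ s₀ * KShift_J (σ - s₀) := by
    intro σ h1 h2 h3
    have hne : ∀ t : ℝ, (σ + t * Complex.I : ℂ) ≠ s₀ := fun t e => h3 (by
      simpa using congrArg Complex.re e)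
    rw [KShift_J, ← integral_const_mul, ← integral_add (hD.integrable hH h1 h2)
      ((KShift_J_int (sub_ne_zero.2 h3)).const_mul _)]
    refine integral_congr_ae (Eventually.of_forall fun t => ?_)
    have e : (((σ - s₀ : ℝ) : ℂ) + t * Complex.I) = σ + t * Complex.I - s₀ := by push_cast; ring
    simp only [hds _ (hne t), e]
    simp only [hφ]
    ring
  rw [sp b hab le_rfl hb.ne', sp a le_rfl hab ha.ne, integral_shift hab hD hH,
    KShift_J_pos (sub_pos.2 hb), KShift_J_neg (sub_neg.2 ha)]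
  ring

/-- moments of the Gaussian majorant -/
theorem gauss_moment (n : ℕ) {c : ℝ} (hc : 0 < c) : ∃ C : ℝ, 0 < C ∧ ∀ T : ℝ, 1 ≤ T →
    Integrable (fun t : ℝ => (1 + |t|) ^ n * Real.exp (-(c * t ^ 2 / T ^ 2))) ∧
      ∫ t : ℝ, (1 + |t|) ^ n * Real.exp (-(c * t ^ 2 / T ^ 2)) ≤ C * T ^ (n + 1) := by
  set F : ℝ → ℝ := fun u => (1 + |u|) ^ n * Real.exp (-(c * u ^ 2)) with hF
  have hFi : Integrable F := by
    refine ((integrable_exp_neg_mul_sq (half_pos hc)).const_mul
      (Real.exp ((n : ℝ) ^ 2 / (2 * c)))).mono' (by fun_prop) (Eventually.of_forall fun u => ?_)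
    rw [Real.norm_of_nonneg (by positivity)]
    calc (1 + |u|) ^ n * Real.exp (-(c * u ^ 2)) ≤ Real.exp |u| ^ n * Real.exp (-(c * u ^ 2)) :=
          mul_le_mul_of_nonneg_right (pow_le_pow_left₀ (by positivity)
            (by linarith [Real.add_one_le_exp |u|]) n) (Real.exp_pos _).le
      _ ≤ _ := by
          rw [← Real.exp_nat_mul, ← Real.exp_add, ← Real.exp_add]
          exact Real.exp_le_exp.2 (by
            have := KShift_amgm n |u| hc
            rw [sq_abs] at this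
            linarith)
  have hF0 : 0 ≤ ∫ u, F u := integral_nonneg fun u => by positivity
  refine ⟨(∫ u, F u) + 1, by linarith, fun T hT => ?_⟩
  have hT0 : 0 < T := by linarith
  have hG : Integrable fun t => T ^ n * F (t / T) := (hFi.comp_div hT0.ne').const_mul _
  have hle : ∀ t : ℝ, (1 + |t|) ^ n * Real.exp (-(c * t ^ 2 / T ^ 2)) ≤ T ^ n * F (t / T) := fun t => by
    have e : c * (t / T) ^ 2 = c * t ^ 2 / T ^ 2 := by field_simp
    simp only [hF, e]
    rw [← mul_assoc, ← mul_pow]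
    refine mul_le_mul_of_nonneg_right (pow_le_pow_left₀ (by positivity) ?_ n) (Real.exp_pos _).le
    rw [abs_div, abs_of_pos hT0, mul_add, mul_div_cancel₀ _ hT0.ne']
    linarith
  have hI : Integrable (fun t : ℝ => (1 + |t|) ^ n * Real.exp (-(c * t ^ 2 / T ^ 2))) :=
    hG.mono' (by fun_prop) (Eventually.of_forall fun t => by
      rw [Real.norm_of_nonneg (by positivity)]; exact hle t)
  refine ⟨hI, (integral_mono hI hG hle).trans ?_⟩
  rw [integral_const_mul, Measure.integral_comp_div, abs_of_pos hT0, smul_eq_mul, pow_succ]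
  have : 0 < T ^ n * T := by positivity
  nlinarith

/-- tails of the Gaussian majorant -/
theorem gauss_tail {c : ℝ} (hc : 0 < c) : ∃ C : ℝ, 0 < C ∧ ∀ T U : ℝ, 0 < T → 0 ≤ U →
    ∫ t in {t : ℝ | U < |t|}, Real.exp (-(c * t ^ 2 / T ^ 2)) ≤
      C * T * Real.exp (-(c / 2 * U ^ 2 / T ^ 2)) := by
  refine ⟨√(2 * π / c), Real.sqrt_pos.2 (by positivity), fun T U hT hU => ?_⟩
  have hb : 0 < c / 2 / T ^ 2 := by positivity
  have hG := (integrable_exp_neg_mul_sq hb).const_mul (Real.exp (-(c / 2 * U ^ 2 / T ^ 2)))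
  have hF : Integrable fun t : ℝ => Real.exp (-(c * t ^ 2 / T ^ 2)) := by
    have := integrable_exp_neg_mul_sq (b := c / T ^ 2) (by positivity)
    refine this.congr (Eventually.of_forall fun t => ?_)
    simp only; congr 1; ring
  have hm : MeasurableSet {t : ℝ | U < |t|} := (isOpen_lt continuous_const continuous_abs).measurableSet
  calc ∫ t in {t : ℝ | U < |t|}, Real.exp (-(c * t ^ 2 / T ^ 2))
      ≤ ∫ t in {t : ℝ | U < |t|},
          Real.exp (-(c / 2 * U ^ 2 / T ^ 2)) * Real.exp (-(c / 2 / T ^ 2) * t ^ 2) := by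
        refine setIntegral_mono_on hF.integrableOn hG.integrableOn hm fun t ht => ?_
        rw [← Real.exp_add]
        refine Real.exp_le_exp.2 ?_
        have h1 : U ^ 2 ≤ t ^ 2 := by
          rw [← sq_abs t]; exact pow_le_pow_left₀ hU (le_of_lt ht) 2
        have h2 := mul_le_mul_of_nonneg_left h1 hb.le
        have e1 : c * t ^ 2 / T ^ 2 = 2 * (c / 2 / T ^ 2 * t ^ 2) := by ring
        have e2 : c / 2 * U ^ 2 / T ^ 2 = c / 2 / T ^ 2 * U ^ 2 := by ring
        rw [e1, e2]; linarith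
    _ ≤ ∫ t, Real.exp (-(c / 2 * U ^ 2 / T ^ 2)) * Real.exp (-(c / 2 / T ^ 2) * t ^ 2) :=
        setIntegral_le_integral hG (Eventually.of_forall fun t => by positivity)
    _ = _ := by
        rw [integral_const_mul, integral_gaussian]
        have : π / (c / 2 / T ^ 2) = 2 * π / c * T ^ 2 := by field_simp
        rw [this, Real.sqrt_mul (by positivity), Real.sqrt_sq hT.le]; ring


end Vale.Agent.P006
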