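import Vale.Agent.P006.KGam

/-! K5: subordination.  `k` is a kernel with Mellin transform `G` on `Re s > σ₀`, `Gi` is the entire function `1/G`,
`sub ϕ Gi = mellinInv (ϕ Gi)`.
Plans: `sub_bound`: `mellinInv_shift` + `norm_mellinInv_le`.  `sub_kernel`, `sub_dual`: write `sub` on the line `σ` resp. `1 - σ`, Fubini
(`integral_integral_swap`; integrable since `MellinConvergent k σ`), substitution `u ↦ y/u` resp. `ξ u` (`mellin_comp_mul_left`, `mellin_comp_inv`),
and `t ↦ -t` in `sub_dual`.  `sub_mellin`: `mellinInv_eq_fourierInv`, `mellin_eq_fourier`, Fourier inversion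
(`MeasureTheory.Integrable.fourier_fourierInv_eq` or `Continuous.fourier_fourierInv_eq`), integrability from `sub_bound` on both sides of `Re w`. -/

namespace Vale.Agent.P006

open Vale.Agent.P026 Filter MeasureTheory
open scoped ComplexConjugate Real

/-- kernel data -/
structure Ker (k : ℝ → ℂ) (G Gi : ℂ → ℂ) (σ₀ : ℝ) : Prop where
  cont : ContinuousOn k (Set.Ioi 0)
  mel : ∀ s : ℂ, σ₀ < s.re → MellinConvergent k s ∧ mellin k s = G s
  diff : Differentiable ℂ Gi
  grow : ∀ a b, ExpG a b Gi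
  inv : ∀ s : ℂ, σ₀ < s.re → G s * Gi s = 1

/-- the subordinating density -/
noncomputable def sub (ϕ Gi : ℂ → ℂ) (u : ℝ) : ℂ := mellinInv 2 (fun w => ϕ w * Gi w) u

variable {k : ℝ → ℂ} {G Gi ϕ : ℂ → ℂ} {σ₀ a b : ℝ}

theorem KSub_dec (hk : Ker k G Gi σ₀) (h : Dec a b ϕ) : Dec a b fun w => ϕ w * Gi w := by
  simpa only [mul_comm] using Dec.mul (hk.grow a b) h

theorem KSub_hol (hk : Ker k G Gi σ₀) (hϕ : HolS a b ϕ) : HolS a b fun w => ϕ w * Gi w :=
  fun w h1 h2 => (hϕ w h1 h2).mul (hk.diff w)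

theorem KSub_line (hk : Ker k G Gi σ₀) (h : Dec a b ϕ) (hϕ : HolS a b ϕ) (ha : a ≤ 2) (hb : 2 ≤ b)
    {σ : ℝ} (h1 : a ≤ σ) (h2 : σ ≤ b) {u : ℝ} (hu : 0 < u) :
    sub ϕ Gi u = mellinInv σ (fun w => ϕ w * Gi w) u :=
  mellinInv_shift (KSub_dec hk h) (KSub_hol hk hϕ) ha hb h1 h2 hu

/-- Parseval formula for the Mellin transform -/
theorem KSub_pars {τ : ℝ} {ψ : ℂ → ℂ} {F : ℝ → ℂ}
    (hψ : Integrable fun t : ℝ => ψ (τ + t * Complex.I)) (hF : MellinConvergent F (1 - τ)) :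
    ∫ u in Set.Ioi (0 : ℝ), mellinInv τ ψ u * F u = (1 / (2 * π) : ℝ) *
      ∫ t : ℝ, ψ (τ + t * Complex.I) * mellin F (1 - (τ + t * Complex.I)) := by
  set Φ : ℝ → ℝ → ℂ := fun u t => ((u : ℂ) ^ ((1 - τ : ℂ) - 1) • F u) * ψ (τ + t * Complex.I) *
    Complex.exp (((-(t * Real.log u) : ℝ) : ℂ) * Complex.I) with hΦ
  have e1 : ∀ u : ℝ, 0 < u → ∀ t : ℝ, Φ u t =
      (u : ℂ) ^ (-(τ + t * Complex.I)) * ψ (τ + t * Complex.I) * F u := by
    intro u hu t
    have h0 : (u : ℂ) ≠ 0 := Complex.ofReal_ne_zero.2 hu.ne'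
    have : (u : ℂ) ^ (-(τ + t * Complex.I)) = (u : ℂ) ^ ((1 - τ : ℂ) - 1) *
        Complex.exp (((-(t * Real.log u) : ℝ) : ℂ) * Complex.I) := by
      rw [Complex.cpow_def_of_ne_zero h0, Complex.cpow_def_of_ne_zero h0, ← Complex.exp_add,
        ← Complex.ofReal_log hu.le]
      congr 1
      push_cast
      ring
    rw [this, hΦ]
    simp only [smul_eq_mul]
    ring
  have hi : Integrable (Function.uncurry Φ) ((volume.restrict (Set.Ioi 0)).prod volume) := by
    refine (Integrable.mul_prod hF hψ).mul_bdd (c := 1) ?_ (Eventually.of_forall fun z => ?_)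
    · refine Measurable.aestronglyMeasurable ?_
      fun_prop
    · rw [Complex.norm_exp_ofReal_mul_I]
  calc ∫ u in Set.Ioi (0 : ℝ), mellinInv τ ψ u * F u
      = ∫ u in Set.Ioi (0 : ℝ), (1 / (2 * π) : ℝ) * ∫ t : ℝ, Φ u t := by
        refine setIntegral_congr_fun measurableSet_Ioi fun u hu => ?_
        simp only [e1 u hu]
        rw [mellinInv_def, mul_assoc, integral_mul_const]
    _ = (1 / (2 * π) : ℝ) * ∫ t : ℝ, ∫ u in Set.Ioi (0 : ℝ), Φ u t := by
        rw [integral_const_mul, integral_integral_swap hi]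
    _ = _ := by
        congr 1
        refine integral_congr_ae (Eventually.of_forall fun t => ?_)
        simp only
        rw [mellin, ← integral_const_mul]
        refine setIntegral_congr_fun measurableSet_Ioi fun u hu => ?_
        simp only [e1 u hu, smul_eq_mul, sub_sub_cancel_left]
        ring

theorem sub_cont (hk : Ker k G Gi σ₀) (h : Dec a b ϕ) (hϕ : HolS a b ϕ) (ha : a ≤ 2) (hb : 2 ≤ b) :
    ContinuousOn (sub ϕ Gi) (Set.Ioi 0) :=
  continuousOn_mellinInv (KSub_dec hk h) (KSub_hol hk hϕ) ha hb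

theorem sub_bound (hk : Ker k G Gi σ₀) (h : Dec a b ϕ) (hϕ : HolS a b ϕ) (ha : a ≤ 2) (hb : 2 ≤ b)
    {σ : ℝ} (h1 : a ≤ σ) (h2 : σ ≤ b) : ∃ C : ℝ, ∀ u : ℝ, 0 < u → ‖sub ϕ Gi u‖ ≤ C * u ^ (-σ) := by
  refine ⟨(∫ t : ℝ, ‖ϕ (σ + t * Complex.I) * Gi (σ + t * Complex.I)‖) / (2 * π), fun u hu => ?_⟩
  rw [KSub_line hk h hϕ ha hb h1 h2 hu]
  refine (norm_mellinInv_le σ _ hu).trans (le_of_eq ?_)
  ring

theorem sub_integrable (hk : Ker k G Gi σ₀) (h : Dec a b ϕ) (hϕ : HolS a b ϕ) (ha : a ≤ 2)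
    (hb : 2 ≤ b) {σ : ℝ} (h1 : a < σ) (h2 : σ < b) :
    IntegrableOn (fun u : ℝ => ‖sub ϕ Gi u‖ * u ^ (σ - 1)) (Set.Ioi 0) := by
  have key : ∀ τ : ℝ, a ≤ τ → τ ≤ b → ∀ l : Filter ℝ, (∀ᶠ u in l, 0 < u) →
      (fun u => ‖sub ϕ Gi u‖) =O[l] fun u => u ^ (-τ) := by
    intro τ t1 t2 l hl
    obtain ⟨C, hC⟩ := sub_bound hk h hϕ ha hb t1 t2
    refine Asymptotics.IsBigO.of_bound C ?_
    filter_upwards [hl] with u hu
    rw [norm_norm, Real.norm_of_nonneg (Real.rpow_nonneg hu.le _)]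
    exact hC u hu
  have := mellin_convergent_of_isBigO_scalar
    ((sub_cont hk h hϕ ha hb).norm.locallyIntegrableOn measurableSet_Ioi)
    (key b (by linarith) le_rfl atTop (eventually_gt_atTop 0)) h2
    (key a le_rfl (by linarith) _ self_mem_nhdsWithin) h1
  simpa only [mul_comm] using this

open scoped FourierTransform in
theorem sub_mellin (hk : Ker k G Gi σ₀) (h : Dec a b ϕ) (hϕ : HolS a b ϕ) (ha : a ≤ 2) (hb : 2 ≤ b)
    {w : ℂ} (h1 : a < w.re) (h2 : w.re < b) :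
    ∫ u in Set.Ioi (0 : ℝ), sub ϕ Gi u * (u : ℂ) ^ (w - 1) = ϕ w * Gi w := by
  set ψ : ℂ → ℂ := fun w => ϕ w * Gi w with hψ
  set g : ℝ → ℂ := fun y => ψ (w.re + 2 * π * y * Complex.I) with hg
  have h2π : (2 * π : ℝ) ≠ 0 := by positivity
  have gi : Integrable g := by
    have := ((KSub_dec hk h).integrable (KSub_hol hk hϕ) h1.le h2.le).comp_mul_left' h2π
    simpa only [Complex.ofReal_mul, Complex.ofReal_ofNat] using this
  have gc : Continuous g := by
    refine continuous_iff_continuousAt.2 fun y => ?_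
    refine ContinuousAt.comp (g := ψ) (f := fun y : ℝ => (w.re : ℂ) + 2 * π * y * Complex.I)
      (KSub_hol hk hϕ _ ?_ ?_).continuousAt (by fun_prop)
    · simpa using h1.le
    · simpa using h2.le
  have e1 : (fun x : ℝ => Real.exp (-w.re * x) • sub ϕ Gi (Real.exp (-x))) = 𝓕⁻ g := by
    funext x
    have hx := Real.exp_pos (-x)
    rw [KSub_line hk h hϕ ha hb h1.le h2.le hx, mellinInv_eq_fourierInv _ _ hx, Real.log_exp,
      neg_neg, ← Complex.ofReal_neg, ← Complex.ofReal_cpow hx.le, Complex.coe_smul, smul_smul,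
      ← Real.exp_mul, ← Real.exp_add]
    have : -w.re * x + -x * -w.re = 0 := by ring
    rw [this, Real.exp_zero, one_smul]
  have fi : Integrable (𝓕⁻ g) := by
    have hd : ∀ x ∈ (Set.univ : Set ℝ), HasDerivWithinAt (fun x : ℝ => Real.exp (-x))
        (Real.exp (-x) * -1) Set.univ x := fun x _ => (hasDerivAt_neg x).exp.hasDerivWithinAt
    have him : (fun x : ℝ => Real.exp (-x)) '' Set.univ = Set.Ioi 0 := by
      refine Set.Subset.antisymm ?_ fun u hu => ⟨-Real.log u, trivial, ?_⟩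
      · rintro _ ⟨x, -, rfl⟩
        exact Real.exp_pos _
      · simp only [neg_neg]
        exact Real.exp_log hu
    have hin : Set.InjOn (fun x : ℝ => Real.exp (-x)) Set.univ := fun x _ y _ hxy =>
      neg_injective (Real.exp_injective hxy)
    have h3 := sub_integrable hk h hϕ ha hb h1 h2
    rw [← him, integrableOn_image_iff_integrableOn_abs_deriv_smul MeasurableSet.univ hd hin,
      integrableOn_univ] at h3
    rw [← e1]
    have hc : Continuous fun x : ℝ => sub ϕ Gi (Real.exp (-x)) :=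
      (sub_cont hk h hϕ ha hb).comp_continuous (by fun_prop) fun x => Real.exp_pos _
    refine h3.mono' (Continuous.aestronglyMeasurable (by fun_prop))
      (Eventually.of_forall fun x => le_of_eq ?_)
    rw [norm_smul, mul_neg_one, abs_neg, abs_of_pos (Real.exp_pos _), Real.norm_eq_abs,
      abs_of_pos (Real.exp_pos _), smul_eq_mul, ← Real.exp_mul, mul_left_comm, ← Real.exp_add,
      mul_comm]
    congr 2
    ring
  have fi' : Integrable (𝓕 g) := by
    have := fi.comp_neg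
    simpa only [Real.fourierInv_eq_fourier_neg, neg_neg] using this
  have e2 : ∫ u in Set.Ioi (0 : ℝ), sub ϕ Gi u * (u : ℂ) ^ (w - 1) = mellin (sub ϕ Gi) w := by
    simp only [mellin, smul_eq_mul, mul_comm]
  rw [e2, mellin_eq_fourier, e1, gc.fourier_fourierInv_eq gi fi', hg]
  have e3 : (w.re : ℂ) + 2 * π * ((w.im / (2 * π) : ℝ) : ℂ) * Complex.I = w := by
    have : (2 * π * ((w.im / (2 * π) : ℝ) : ℂ)) = (w.im : ℂ) := by
      norm_cast
      field_simp
    rw [this, Complex.re_add_im]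
  simp only [e3, hψ]

theorem sub_kernel (hk : Ker k G Gi σ₀) (h : Dec a b ϕ) (hϕ : HolS a b ϕ) (ha : a ≤ 2) (hb : 2 ≤ b)
    (h0 : σ₀ < 2) {y : ℝ} (hy : 0 < y) :
    ∫ u in Set.Ioi (0 : ℝ), sub ϕ Gi u * k (y / u) / u = mellinInv 2 ϕ y := by
  set F : ℝ → ℂ := fun u => (u : ℂ) ^ (-1 : ℂ) • k (y * u ^ (-1 : ℝ)) with hF
  have hc : MellinConvergent F (1 - ((2 : ℝ) : ℂ)) := by
    rw [hF, MellinConvergent.cpow_smul,
      MellinConvergent.comp_rpow (f := fun t => k (y * t)) (by norm_num),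
      MellinConvergent.comp_mul_left hy]
    refine (hk.mel _ ?_).1
    have : (1 - ((2 : ℝ) : ℂ) + -1) / ((-1 : ℝ) : ℂ) = ((2 : ℝ) : ℂ) := by
      push_cast
      ring
    rw [this, Complex.ofReal_re]
    exact h0
  have hm : ∀ s : ℂ, σ₀ < s.re → mellin F (1 - s) = (y : ℂ) ^ (-s) * G s := by
    intro s hs
    have : (1 - s + -1) / ((-1 : ℝ) : ℂ) = s := by
      push_cast
      ring
    rw [hF, mellin_cpow_smul, mellin_comp_rpow (fun t => k (y * t)), mellin_comp_mul_left _ _ hy,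
      this, (hk.mel s hs).2]
    simp
  have h1 := KSub_pars (ψ := fun w => ϕ w * Gi w)
    ((KSub_dec hk h).integrable (KSub_hol hk hϕ) ha hb) hc
  rw [mellinInv_def 2 ϕ]
  refine Eq.trans (setIntegral_congr_fun measurableSet_Ioi fun u hu => ?_) (h1.trans ?_)
  · simp only [hF, sub, Complex.cpow_neg_one, Real.rpow_neg_one, smul_eq_mul, div_eq_mul_inv]
    ring
  · congr 1
    refine integral_congr_ae (Eventually.of_forall fun t => ?_)
    have hs : σ₀ < (((2 : ℝ) : ℂ) + t * Complex.I).re := by simpa using h0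
    simp only
    rw [hm _ hs]
    linear_combination (y : ℂ) ^ (-(((2 : ℝ) : ℂ) + t * Complex.I)) *
      ϕ (((2 : ℝ) : ℂ) + t * Complex.I) * hk.inv _ hs

theorem sub_dual (hk : Ker k G Gi σ₀) (h : Dec a b ϕ) (hϕ : HolS a b ϕ) (ha : a ≤ 2) (hb : 2 ≤ b)
    {σ ξ : ℝ} (h0 : σ₀ < σ) (h1 : a ≤ 1 - σ) (h2 : 1 - σ ≤ b) (hξ : 0 < ξ) :
    ∫ u in Set.Ioi (0 : ℝ), sub ϕ Gi u * k (ξ * u) =
      mellinInv σ (fun s => G s * Gi (1 - s) * ϕ (1 - s)) ξ := by
  have hc : MellinConvergent (fun u => k (ξ * u)) (1 - ((1 - σ : ℝ) : ℂ)) := by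
    rw [MellinConvergent.comp_mul_left hξ]
    refine (hk.mel _ ?_).1
    simpa using h0
  have h3 := KSub_pars (ψ := fun w => ϕ w * Gi w)
    ((KSub_dec hk h).integrable (KSub_hol hk hϕ) h1 h2) hc
  rw [mellinInv_def σ]
  refine Eq.trans (setIntegral_congr_fun measurableSet_Ioi fun u hu => ?_) (h3.trans ?_)
  · rw [KSub_line hk h hϕ ha hb h1 h2 hu]
  · congr 1
    rw [← integral_neg_eq_self]
    refine integral_congr_ae (Eventually.of_forall fun t => ?_)
    have e1 : (((1 - σ : ℝ) : ℂ) + ((-t : ℝ) : ℂ) * Complex.I) = 1 - (σ + t * Complex.I) := by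
      push_cast
      ring
    have hs : σ₀ < ((σ : ℂ) + t * Complex.I).re := by simpa using h0
    simp only
    rw [e1, sub_sub_cancel, mellin_comp_mul_left _ _ hξ, (hk.mel _ hs).2, smul_eq_mul]
    ring

theorem ker_exp : Ker (fun y => (Real.exp (-y) : ℝ)) Complex.Gamma (fun w => (Complex.Gamma w)⁻¹) 0 := by
  refine ⟨Continuous.continuousOn (by fun_prop), fun s hs => ⟨?_, ?_⟩,
    Complex.differentiable_one_div_Gamma, fun a b => ?_,
    fun s hs => mul_inv_cancel₀ (Complex.Gamma_ne_zero_of_re_pos hs)⟩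
  · simpa only [MellinConvergent, smul_eq_mul, mul_comm] using Complex.GammaIntegral_convergent hs
  · rw [Complex.Gamma_eq_integral hs, Complex.GammaIntegral_eq_mellin]
  · simpa using expG_invGamma a b 0

end Vale.Agent.P006
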