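import Vale.Agent.P006.LDec

/-! # From squarefree numerators to all numerators.

Plan. `db_triv`: `ld_triv`, `card_le_of_nm` twice.
`db_of_pb`: `G k = ‖∑ n, c n * cub k n‖ ^ 2`, `W = Z ^ (1/3)`, `V = (ball 27).erase 0`,
`P = {(y, z) ∈ ball W ×ˢ ball W | y ≠ 0, z ≠ 0, nm y * nm z ≤ W}` (`card_pairs` with `a = b = 1`, `σ = 1 + ε/2`).
Split the `k` according to whether some decomposition `exists_xyz` has `nm y ≤ nm x` (case A) or not (case B); in both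
cases the smaller of `x, y` forms with `z` a pair of `P` (cube roots: `(nm y * nm z) ^ 3 ≤ nm k ≤ Z`).  Use
`sum_le_sum_cover` with index sets `V ×ˢ P.sigma ..` (or `Finset.biUnion`).
Case A: for fixed `v, y, z` the sum over `x ∈ qball X'`, `X' = Z / (nm y ^ 2 * nm z ^ 3) ≥ 1`, is `PB` with
coefficients `c n * cub (v z³) n * conj (cub y n)` (`cub_xyz`, `norm_cub_le`); `X' ^ ξ ≤ Z ^ ξ ny^(-2) nz^(-3)`,
`(X' N) ^ (2/3) = (Z N) ^ (2/3) ny^(-4/3) nz^(-2)`, `sum_pairs`.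
Case B: for fixed `v, x, z` the sum over `y ∈ qball (Z ^ (1/2))` is `PB` after `ld_norm_conj`; multiply by
`card P ≤ C Z ^ (1/3 + ε/6)`; `1/3 + ξ/2 ≤ ξ`. -/

namespace Vale.Agent.P006

open Vale.Agent.P026
open scoped ComplexConjugate Real

theorem db_triv : ∃ C : ℝ, 0 < C ∧ ∀ R : ℝ, DB R fun Z N => C * (Z * N) := by
  classical
  obtain ⟨C, hC, h⟩ := card_le_of_nm
  refine ⟨C * C, by positivity, fun R Z N c hZ hN _ => ?_⟩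
  have h1 := h Z ((ball Z).erase 0) (by linarith) fun n hn =>
    ⟨Finset.ne_of_mem_erase hn, mem_ball.1 (Finset.mem_of_mem_erase hn)⟩
  have h2 := h N ((qball N).filter fun n => c n ≠ 0) (by linarith) fun n hn =>
    ⟨(ld_mem_qball.1 (Finset.mem_filter.1 hn).1).1.1.ne_zero,
      (ld_mem_qball.1 (Finset.mem_filter.1 hn).1).2⟩
  have hS : 0 ≤ ∑ n ∈ qball N, ‖c n‖ ^ 2 := by positivity
  refine (Finset.sum_le_card_nsmul _ _ _ fun k _ => ld_triv N c k).trans ?_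
  rw [nsmul_eq_mul]
  calc _ ≤ C * Z * (C * N * ∑ n ∈ qball N, ‖c n‖ ^ 2) := by gcongr
    _ = _ := by ring

theorem ldba_cover {G : O → ℝ} (hG : ∀ k, 0 ≤ G k) (s V : Finset O) {ι : Type} (P : Finset ι)
    {κ : Type} (Q : ι → Finset κ) (σ : O → ι → κ → O)
    (h : ∀ k ∈ s, ∃ v ∈ V, ∃ p ∈ P, ∃ x ∈ Q p, σ v p x = k) :
    ∑ k ∈ s, G k ≤ ∑ v ∈ V, ∑ p ∈ P, ∑ x ∈ Q p, G (σ v p x) := by
  refine (sum_le_sum_cover s (V ×ˢ P.sigma Q) (fun i => σ i.1 i.2.1 i.2.2) G hG fun k hk => ?_).trans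
    (le_of_eq ?_)
  · obtain ⟨v, hv, p, hp, x, hx, e⟩ := h k hk
    exact ⟨(v, ⟨p, x⟩), Finset.mem_product.2 ⟨hv, Finset.mem_sigma.2 ⟨hp, hx⟩⟩, e⟩
  · rw [Finset.sum_product]
    exact Finset.sum_congr rfl fun v _ => Finset.sum_sigma _ _ _

theorem ldba_or {G : O → ℝ} (hG : ∀ k, 0 ≤ G k) (s t u : Finset O) (h : ∀ k ∈ s, k ∈ t ∨ k ∈ u) :
    ∑ k ∈ s, G k ≤ ∑ k ∈ t, G k + ∑ k ∈ u, G k := by
  classical
  rw [← Finset.sum_union_inter]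
  refine le_add_of_le_of_nonneg (Finset.sum_le_sum_of_subset_of_nonneg
    (fun k hk => Finset.mem_union.2 (h k hk)) fun k _ _ => hG k) (Finset.sum_nonneg fun k _ => hG k)

theorem ldba_cover2 {G : O → ℝ} (hG : ∀ k, 0 ≤ G k) (s V : Finset O) {ι κ ι' κ' : Type} (P : Finset ι)
    (Q : ι → Finset κ) (σ : O → ι → κ → O) (P' : Finset ι') (Q' : ι' → Finset κ') (τ : O → ι' → κ' → O)
    {A B : ℝ} (hA : ∀ v, ∑ p ∈ P, ∑ x ∈ Q p, G (σ v p x) ≤ A)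
    (hB : ∀ v, ∑ p ∈ P', ∑ x ∈ Q' p, G (τ v p x) ≤ B)
    (h : ∀ k ∈ s, (∃ v ∈ V, ∃ p ∈ P, ∃ x ∈ Q p, σ v p x = k) ∨
      ∃ v ∈ V, ∃ p ∈ P', ∃ x ∈ Q' p, τ v p x = k) :
    ∑ k ∈ s, G k ≤ V.card * (A + B) := by
  classical
  refine (ldba_or hG s (s.filter fun k => ∃ v ∈ V, ∃ p ∈ P, ∃ x ∈ Q p, σ v p x = k)
    (s.filter fun k => ∃ v ∈ V, ∃ p ∈ P', ∃ x ∈ Q' p, τ v p x = k) fun k hk => ?_).trans ?_
  · simpa only [Finset.mem_filter, hk, true_and] using h k hk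
  · rw [mul_add]
    exact add_le_add
      ((ldba_cover hG _ V P Q σ fun k hk => (Finset.mem_filter.1 hk).2).trans
        ((Finset.sum_le_card_nsmul _ _ _ fun v _ => hA v).trans_eq (nsmul_eq_mul _ _)))
      ((ldba_cover hG _ V P' Q' τ fun k hk => (Finset.mem_filter.1 hk).2).trans
        ((Finset.sum_le_card_nsmul _ _ _ fun v _ => hB v).trans_eq (nsmul_eq_mul _ _)))

theorem ldba_coef (N : ℝ) (c f g : O → ℂ) (hf : ∀ n, ‖f n‖ ≤ 1) (hg : ∀ n, ‖g n‖ ≤ 1) :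
    ∑ n ∈ qball N, ‖c n * f n * g n‖ ^ 2 ≤ ∑ n ∈ qball N, ‖c n‖ ^ 2 := by
  refine Finset.sum_le_sum fun n _ => pow_le_pow_left₀ (norm_nonneg _) ?_ 2
  rw [norm_mul, norm_mul, mul_assoc]
  exact mul_le_of_le_one_right (norm_nonneg _) (mul_le_one₀ (hf n) (norm_nonneg _) (hg n))

theorem ldba_x {M N K : ℝ} (hK : 0 ≤ K)
    (h : ∀ c : O → ℂ, ∑ m ∈ qball M, ‖∑ n ∈ qball N, c n * cub m n‖ ^ 2 ≤
      K * ∑ n ∈ qball N, ‖c n‖ ^ 2) (c : O → ℂ) (v y z : O) :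
    ∑ x ∈ qball M, ‖∑ n ∈ qball N, c n * cub (v * x * y ^ 2 * z ^ 3) n‖ ^ 2 ≤
      K * ∑ n ∈ qball N, ‖c n‖ ^ 2 := by
  refine le_trans (le_of_eq ?_) ((h fun n => c n * cub (v * z ^ 3) n * conj (cub y n)).trans
    (mul_le_mul_of_nonneg_left (ldba_coef N c _ _ (fun n => norm_cub_le _ n) fun n => by
      rw [Complex.norm_conj]; exact norm_cub_le _ n) hK))
  refine Finset.sum_congr rfl fun x _ => ?_
  congr 2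
  exact Finset.sum_congr rfl fun n _ => by rw [cub_xyz]; ring

theorem ldba_y {M N K : ℝ} (hK : 0 ≤ K)
    (h : ∀ c : O → ℂ, ∑ m ∈ qball M, ‖∑ n ∈ qball N, c n * cub m n‖ ^ 2 ≤
      K * ∑ n ∈ qball N, ‖c n‖ ^ 2) (c : O → ℂ) (v x z : O) :
    ∑ y ∈ qball M, ‖∑ n ∈ qball N, c n * cub (v * x * y ^ 2 * z ^ 3) n‖ ^ 2 ≤
      K * ∑ n ∈ qball N, ‖c n‖ ^ 2 := by
  refine le_trans (le_of_eq ?_) ((h fun n => conj (c n * cub (v * z ^ 3) n * cub x n)).trans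
    (mul_le_mul_of_nonneg_left ?_ hK))
  · refine Finset.sum_congr rfl fun y _ => ?_
    rw [← ld_norm_conj]
    congr 2
    exact Finset.sum_congr rfl fun n _ => by rw [cub_xyz]; ring
  · simp only [Complex.norm_conj]
    exact ldba_coef N c _ _ (fun n => norm_cub_le _ n) fun n => norm_cub_le _ n

theorem ldba_nm {v x y z : O} (hv : v ≠ 0) {Z : ℝ} (h : (nm (v * x * y ^ 2 * z ^ 3) : ℝ) ≤ Z) :
    (nm x : ℝ) * (nm y ^ 2 * nm z ^ 3) ≤ Z := by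
  refine le_trans ?_ h
  rw [nm_mul, nm_mul, nm_mul, nm_pow, nm_pow]
  push_cast
  rw [mul_assoc, mul_assoc]
  exact le_mul_of_one_le_left (by positivity) (one_le_nm hv)

theorem ldba_root {a Z : ℝ} (ha : 0 ≤ a) (n : ℕ) (hn : n ≠ 0) (h : a ^ n ≤ Z) :
    a ≤ Z ^ (1 / n : ℝ) := by
  rw [one_div, Real.le_rpow_inv_iff_of_pos ha ((pow_nonneg ha n).trans h) (by positivity),
    Real.rpow_natCast]
  exact h

theorem ldba_numA {Z N a b ξ ε : ℝ} (hZ : 1 ≤ Z) (hN : 1 ≤ N) (ha : 1 ≤ a) (hb : 1 ≤ b) (hξ : 1 ≤ ξ)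
    (hε : 0 ≤ ε) : (Z / (a ^ 2 * b ^ 3) * N) ^ ε *
      ((Z / (a ^ 2 * b ^ 3)) ^ ξ + N + (Z / (a ^ 2 * b ^ 3) * N) ^ (2 / 3 : ℝ)) ≤
      (Z * N) ^ ε * ((Z ^ ξ + (Z * N) ^ (2 / 3 : ℝ)) * (a ^ (-(4 / 3) : ℝ) * b ^ (-2 : ℝ)) + N) := by
  have hm : 1 ≤ a ^ 2 * b ^ 3 := one_le_mul_of_one_le_of_one_le (one_le_pow₀ ha) (one_le_pow₀ hb)
  have e : a ^ (-(4 / 3) : ℝ) * b ^ (-2 : ℝ) = ((a ^ 2 * b ^ 3) ^ (2 / 3 : ℝ))⁻¹ := by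
    rw [Real.mul_rpow (by positivity) (by positivity), ← Real.rpow_natCast, ← Real.rpow_natCast,
      ← Real.rpow_mul (by linarith), ← Real.rpow_mul (by linarith), mul_inv,
      ← Real.rpow_neg (by linarith), ← Real.rpow_neg (by linarith)]
    norm_num
  rw [e]
  generalize a ^ 2 * b ^ 3 = m at hm
  have h1 : (Z / m) ^ ξ ≤ Z ^ ξ * (m ^ (2 / 3 : ℝ))⁻¹ := by
    rw [Real.div_rpow (by linarith) (by linarith), div_eq_mul_inv]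
    gcongr
    linarith
  have h2 : (Z / m * N) ^ (2 / 3 : ℝ) = (Z * N) ^ (2 / 3 : ℝ) * (m ^ (2 / 3 : ℝ))⁻¹ := by
    rw [div_mul_eq_mul_div, Real.div_rpow (by positivity) (by linarith), div_eq_mul_inv]
  have h3 : (Z / m * N) ^ ε ≤ (Z * N) ^ ε := by
    gcongr
    exact div_le_self (by linarith) hm
  refine mul_le_mul h3 ?_ (by positivity) (by positivity)
  rw [h2]
  linarith

theorem ldba_numB {Z N ξ : ℝ} (hZ : 1 ≤ Z) (hN : 1 ≤ N) (hξ : 1 ≤ ξ) :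
    Z ^ (1 / 3 : ℝ) * ((Z ^ (1 / 2 : ℝ)) ^ ξ + N + (Z ^ (1 / 2 : ℝ) * N) ^ (2 / 3 : ℝ)) ≤
      Z ^ (1 / 3 : ℝ) * N + Z ^ ξ + (Z * N) ^ (2 / 3 : ℝ) := by
  have h0 : 0 < Z := by linarith
  have h1 : Z ^ (1 / 3 : ℝ) * (Z ^ (1 / 2 : ℝ)) ^ ξ ≤ Z ^ ξ := by
    rw [← Real.rpow_mul h0.le, ← Real.rpow_add h0]
    exact Real.rpow_le_rpow_of_exponent_le hZ (by linarith)
  have h2 : Z ^ (1 / 3 : ℝ) * (Z ^ (1 / 2 : ℝ) * N) ^ (2 / 3 : ℝ) = (Z * N) ^ (2 / 3 : ℝ) := by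
    rw [Real.mul_rpow (by positivity) (by linarith), Real.mul_rpow h0.le (by linarith),
      ← Real.rpow_mul h0.le, ← mul_assoc, ← Real.rpow_add h0]
    norm_num
  linarith

theorem ldba_P (Z : ℝ) : ∃ P : Finset (O × O), ∀ p, p ∈ P ↔
    p.1 ≠ 0 ∧ p.2 ≠ 0 ∧ ((nm p.1 : ℝ) * nm p.2) ^ 3 ≤ Z := by
  classical
  refine ⟨(ball Z ×ˢ ball Z).filter fun p => p.1 ≠ 0 ∧ p.2 ≠ 0 ∧ ((nm p.1 : ℝ) * nm p.2) ^ 3 ≤ Z,
    fun p => ⟨fun hp => (Finset.mem_filter.1 hp).2, fun hp => Finset.mem_filter.2 ⟨?_, hp⟩⟩⟩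
  have a1 := one_le_nm hp.1
  have a2 := one_le_nm hp.2.1
  have a3 := (le_self_pow₀ (one_le_mul_of_one_le_of_one_le a1 a2) three_ne_zero).trans hp.2.2
  rw [Finset.mem_product, mem_ball, mem_ball]
  exact ⟨(le_mul_of_one_le_right (by linarith) a2).trans a3,
    (le_mul_of_one_le_left (by linarith) a1).trans a3⟩

theorem ldba_split {G : O → ℝ} (hG : ∀ k, 0 ≤ G k) {Z : ℝ} {P : Finset (O × O)}
    (hP : ∀ p, p ∈ P ↔ p.1 ≠ 0 ∧ p.2 ≠ 0 ∧ ((nm p.1 : ℝ) * nm p.2) ^ 3 ≤ Z) {A B : ℝ}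
    (hA : ∀ v, ∑ p ∈ P, ∑ x ∈ qball (Z / ((nm p.1 : ℝ) ^ 2 * (nm p.2 : ℝ) ^ 3)),
      G (v * x * p.1 ^ 2 * p.2 ^ 3) ≤ A)
    (hB : ∀ v, ∑ p ∈ P, ∑ y ∈ qball (Z ^ (1 / 2 : ℝ)), G (v * p.1 * y ^ 2 * p.2 ^ 3) ≤ B) :
    ∑ k ∈ (ball Z).erase 0, G k ≤ ((ball 27).erase 0).card * (A + B) := by
  refine ldba_cover2 hG _ _ P _ (fun v p x => v * x * p.1 ^ 2 * p.2 ^ 3) P
    (fun _ => qball (Z ^ (1 / 2 : ℝ))) (fun v p y => v * p.1 * y ^ 2 * p.2 ^ 3) hA hB fun k hk => ?_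
  obtain ⟨v, x, y, z, hv, hv', hx, hy, -, hz, rfl⟩ := exists_xyz (Finset.ne_of_mem_erase hk)
  have a0 : v ∈ (ball 27).erase 0 := Finset.mem_erase.2 ⟨hv, mem_ball.2 (by exact_mod_cast hv')⟩
  have a1 := ldba_nm hv (mem_ball.1 (Finset.mem_of_mem_erase hk))
  have a2 := one_le_nm hx.1.ne_zero
  have a3 := one_le_nm hy.1.ne_zero
  have a4 := one_le_nm hz
  rcases le_total (nm y : ℝ) (nm x) with a5 | a5
  · refine .inl ⟨v, a0, (y, z), (hP _).2 ⟨hy.1.ne_zero, hz, le_trans ?_ a1⟩, x,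
      ld_mem_qball.2 ⟨hx, (le_div_iff₀ (by positivity)).2 a1⟩, rfl⟩
    calc ((nm y : ℝ) * nm z) ^ 3 = nm y * (nm y ^ 2 * nm z ^ 3) := by ring
      _ ≤ _ := by gcongr
  · refine .inr ⟨v, a0, (x, z), (hP _).2 ⟨hx.1.ne_zero, hz, le_trans ?_ a1⟩, y,
      ld_mem_qball.2 ⟨hy, ?_⟩, rfl⟩
    · calc ((nm x : ℝ) * nm z) ^ 3 = nm x * (nm x ^ 2 * nm z ^ 3) := by ring
        _ ≤ _ := by gcongr
    · have := ldba_root (a := nm y) (Z := Z) (by positivity) 2 two_ne_zero (le_trans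
        ((le_mul_of_one_le_right (by positivity) (one_le_pow₀ a4)).trans
          (le_mul_of_one_le_left (by positivity) a2)) a1)
      exact_mod_cast this

theorem ldba_A {ξ δ C₀ C₁ C₂ Z N : ℝ} (h1 : 1 ≤ ξ) (hδ : 0 ≤ δ) (hC₀ : 0 ≤ C₀) (hC₂ : 0 ≤ C₂)
    (hZ : 1 ≤ Z) (hN : 1 ≤ N)
    (h0 : ∀ M : ℝ, 1 ≤ M → ∀ c : O → ℂ, ∑ m ∈ qball M, ‖∑ n ∈ qball N, c n * cub m n‖ ^ 2 ≤
      C₀ * (M * N) ^ δ * (M ^ ξ + N + (M * N) ^ (2 / 3 : ℝ)) * ∑ n ∈ qball N, ‖c n‖ ^ 2)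
    {P : Finset (O × O)} (hP : ∀ p ∈ P, p.1 ≠ 0 ∧ p.2 ≠ 0 ∧ ((nm p.1 : ℝ) * nm p.2) ^ 3 ≤ Z)
    (hs : ∑ p ∈ P, (nm p.1 : ℝ) ^ (-(4 / 3) : ℝ) * (nm p.2 : ℝ) ^ (-2 : ℝ) ≤ C₁)
    (hc : (P.card : ℝ) ≤ C₂ * (Z ^ (1 / 3 : ℝ) * (Z * N) ^ δ)) (c : O → ℂ) (v : O) :
    ∑ p ∈ P, ∑ x ∈ qball (Z / ((nm p.1 : ℝ) ^ 2 * (nm p.2 : ℝ) ^ 3)),
      ‖∑ n ∈ qball N, c n * cub (v * x * p.1 ^ 2 * p.2 ^ 3) n‖ ^ 2 ≤
      C₀ * (C₁ + C₂) * ((Z * N) ^ δ * (Z * N) ^ δ) *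
        (Z ^ (1 / 3 : ℝ) * N + Z ^ ξ + (Z * N) ^ (2 / 3 : ℝ)) * ∑ n ∈ qball N, ‖c n‖ ^ 2 := by
  have hE : 1 ≤ (Z * N) ^ δ := Real.one_le_rpow (one_le_mul_of_one_le_of_one_le hZ hN) hδ
  have hS : 0 ≤ ∑ n ∈ qball N, ‖c n‖ ^ 2 := by positivity
  refine (Finset.sum_le_sum (g := fun p => C₀ * ((Z * N) ^ δ * ((Z ^ ξ + (Z * N) ^ (2 / 3 : ℝ)) *
    ((nm p.1 : ℝ) ^ (-(4 / 3) : ℝ) * (nm p.2 : ℝ) ^ (-2 : ℝ)) + N)) * ∑ n ∈ qball N, ‖c n‖ ^ 2)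
    fun p hp => ?_).trans ?_
  · obtain ⟨a1, a2, a3⟩ := hP p hp
    have b1 := one_le_nm a1
    have b2 := one_le_nm a2
    have b3 : 1 ≤ Z / ((nm p.1 : ℝ) ^ 2 * (nm p.2 : ℝ) ^ 3) := by
      rw [one_le_div (by positivity)]
      refine le_trans ?_ a3
      rw [mul_pow]
      exact mul_le_mul_of_nonneg_right (pow_le_pow_right₀ b1 (by norm_num)) (by positivity)
    refine (ldba_x (by positivity) (h0 _ b3) c v p.1 p.2).trans ?_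
    rw [mul_assoc C₀]
    exact mul_le_mul_of_nonneg_right (mul_le_mul_of_nonneg_left
      (ldba_numA hZ hN b1 b2 h1 hδ) hC₀) hS
  · rw [← Finset.sum_mul, ← Finset.mul_sum, ← Finset.mul_sum, Finset.sum_add_distrib,
      ← Finset.mul_sum, Finset.sum_const, nsmul_eq_mul]
    refine mul_le_mul_of_nonneg_right ?_ hS
    have a1 : 0 ≤ Z ^ (1 / 3 : ℝ) := by positivity
    have a2 : 0 ≤ Z ^ ξ + (Z * N) ^ (2 / 3 : ℝ) := by positivity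
    have a3 : 0 ≤ ∑ p ∈ P, (nm p.1 : ℝ) ^ (-(4 / 3) : ℝ) * (nm p.2 : ℝ) ^ (-2 : ℝ) := by positivity
    rw [add_assoc]
    generalize (Z * N) ^ δ = E at *
    generalize Z ^ ξ + (Z * N) ^ (2 / 3 : ℝ) = F at *
    generalize Z ^ (1 / 3 : ℝ) = W at *
    have a4 : 0 ≤ W * N := by positivity
    have b1 := mul_le_mul (show F ≤ E * (W * N + F) from
      le_trans (by linarith) (le_mul_of_one_le_left (by positivity) hE)) hs a3 (by positivity)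
    have b2 : (P.card : ℝ) * N ≤ C₂ * (E * (W * N + F)) := by
      refine (mul_le_mul_of_nonneg_right hc (by linarith)).trans ?_
      rw [mul_assoc, mul_right_comm, mul_comm _ E]
      gcongr
      linarith
    calc _ ≤ C₀ * (E * (E * (W * N + F) * C₁ + C₂ * (E * (W * N + F)))) := by gcongr
      _ = _ := by ring

theorem ldba_B {ξ δ C₀ C₂ Z N : ℝ} (h1 : 1 ≤ ξ) (hδ : 0 ≤ δ) (hC₀ : 0 ≤ C₀) (hC₂ : 0 ≤ C₂)
    (hZ : 1 ≤ Z) (hN : 1 ≤ N)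
    (h0 : ∀ M : ℝ, 1 ≤ M → ∀ c : O → ℂ, ∑ m ∈ qball M, ‖∑ n ∈ qball N, c n * cub m n‖ ^ 2 ≤
      C₀ * (M * N) ^ δ * (M ^ ξ + N + (M * N) ^ (2 / 3 : ℝ)) * ∑ n ∈ qball N, ‖c n‖ ^ 2)
    {P : Finset (O × O)} (hc : (P.card : ℝ) ≤ C₂ * (Z ^ (1 / 3 : ℝ) * (Z * N) ^ δ)) (c : O → ℂ) (v : O) :
    ∑ p ∈ P, ∑ y ∈ qball (Z ^ (1 / 2 : ℝ)),
      ‖∑ n ∈ qball N, c n * cub (v * p.1 * y ^ 2 * p.2 ^ 3) n‖ ^ 2 ≤
      C₀ * C₂ * ((Z * N) ^ δ * (Z * N) ^ δ) *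
        (Z ^ (1 / 3 : ℝ) * N + Z ^ ξ + (Z * N) ^ (2 / 3 : ℝ)) * ∑ n ∈ qball N, ‖c n‖ ^ 2 := by
  have b1 : 1 ≤ Z ^ (1 / 2 : ℝ) := Real.one_le_rpow hZ (by norm_num)
  refine (Finset.sum_le_card_nsmul _ _ _ fun p _ =>
    ldba_y (by positivity) (h0 _ b1) c v p.1 p.2).trans ?_
  rw [nsmul_eq_mul, ← mul_assoc]
  refine mul_le_mul_of_nonneg_right ?_ (by positivity)
  have b2 : (Z ^ (1 / 2 : ℝ) * N) ^ δ ≤ (Z * N) ^ δ := by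
    gcongr
    exact Real.rpow_le_self_of_one_le hZ (by norm_num)
  calc _ ≤ C₂ * (Z ^ (1 / 3 : ℝ) * (Z * N) ^ δ) * (C₀ * (Z * N) ^ δ *
        ((Z ^ (1 / 2 : ℝ)) ^ ξ + N + (Z ^ (1 / 2 : ℝ) * N) ^ (2 / 3 : ℝ))) := by gcongr
    _ = C₀ * C₂ * ((Z * N) ^ δ * (Z * N) ^ δ) * (Z ^ (1 / 3 : ℝ) *
        ((Z ^ (1 / 2 : ℝ)) ^ ξ + N + (Z ^ (1 / 2 : ℝ) * N) ^ (2 / 3 : ℝ))) := by ring
    _ ≤ _ := mul_le_mul_of_nonneg_left (ldba_numB hZ hN h1) (by positivity)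

theorem db_of_pb {ξ : ℝ} (h1 : 1 ≤ ξ) (h : PB ξ) {ε : ℝ} (hε : 0 < ε) : ∃ C : ℝ, 0 < C ∧ ∀ R : ℝ,
    DB R fun Z N => C * (Z * N) ^ ε * (Z ^ (1 / 3 : ℝ) * N + Z ^ ξ + (Z * N) ^ (2 / 3 : ℝ)) := by
  obtain ⟨C₀, hC₀, h0⟩ := h (ε / 2) (by positivity)
  obtain ⟨C₁, hC₁, hs⟩ := sum_pairs (σ := 4 / 3) (τ := 2) (by norm_num) (by norm_num)
  obtain ⟨C₂, hC₂, hc⟩ := card_pairs (a := 1) (b := 1) (σ := 1 + ε / 2) (by positivity)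
    (by linarith) (by linarith)
  refine ⟨(((ball 27).erase 0).card + 1) * (C₀ * (C₁ + 2 * C₂)), by positivity,
    fun R Z N c hZ hN _ => ?_⟩
  have hZ0 : 0 < Z := by linarith
  obtain ⟨P, hP⟩ := ldba_P Z
  have hcard : (P.card : ℝ) ≤ C₂ * (Z ^ (1 / 3 : ℝ) * (Z * N) ^ (ε / 2)) := by
    refine (hc (Z ^ (1 / 3 : ℝ)) P (by positivity) fun p hp => ?_).trans ?_
    · obtain ⟨a1, a2, a3⟩ := (hP p).1 hp
      rw [Real.rpow_one, Real.rpow_one]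
      exact ⟨a1, a2, by exact_mod_cast ldba_root (by positivity) 3 three_ne_zero a3⟩
    · rw [Real.rpow_add (by positivity), Real.rpow_one]
      gcongr
      exact (Real.rpow_le_self_of_one_le hZ (by norm_num)).trans (le_mul_of_one_le_right hZ0.le hN)
  have hA := ldba_A h1 (half_pos hε).le hC₀.le hC₂.le hZ hN (fun M hM c => h0 M N c hM hN)
    (fun p hp => (hP p).1 hp) (hs P) hcard c
  have hB := ldba_B h1 (half_pos hε).le hC₀.le hC₂.le hZ hN (fun M hM c => h0 M N c hM hN) hcard c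
  refine (ldba_split (G := fun k => ‖∑ n ∈ qball N, c n * cub k n‖ ^ 2) (fun _ => by positivity)
    hP hA hB).trans ?_
  rw [← Real.rpow_add (by positivity), add_halves]
  have : 0 ≤ C₀ * (C₁ + 2 * C₂) * (Z * N) ^ ε * (Z ^ (1 / 3 : ℝ) * N + Z ^ ξ + (Z * N) ^ (2 / 3 : ℝ)) *
    ∑ n ∈ qball N, ‖c n‖ ^ 2 := by positivity
  beta_reduce
  linarith

end Vale.Agent.P006
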