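import Vale.Agent.P006.LDBa

/-! # All numerators, sparse coefficients.

Plan. `G k = ‖∑ n, c n * cub k n‖ ^ 2`, `V = (ball 27).erase 0`.  Split the `k` according to whether some
decomposition `exists_xyz` has `nm x ≤ Z ^ (2/3)` (case A) or not (case B); `sum_le_sum_cover`.
Case A: `G k ≤ R * ∑ ‖c‖²` (`ld_triv`); for fixed `v` and `x ∈ qball (Z ^ (2/3))` the pairs `(y, z)` with
`nm y ^ 2 * nm z ^ 3 ≤ Z / nm x` number `≤ C (Z / nm x) ^ (1/2 + ε/2) ≤ C Z ^ (1/2 + ε/2) nx ^ (-1/2)`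
(`card_pairs` with `a = 2`, `b = 3`), and `∑ nx ^ (-1/2) ≤ C Z ^ (1/3)` (`sum_rpow_le`).
Case B: `nm y ^ 2 * nm z ^ 3 ≤ Z ^ (1/3)`, at most `C Z ^ (1/6 + ε/2)` pairs (`σ = 1/2 + 3ε/2`), for each of them
`PB 1` over `x ∈ qball Z` with coefficients `c n * cub (v z³) n * conj (cub y n)` (`cub_xyz`). -/

namespace Vale.Agent.P006

open Vale.Agent.P026
open scoped ComplexConjugate Real

theorem ldbb_P : ∃ P : ℝ → Finset (O × O), ∀ W p, p ∈ P W ↔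
    p.1 ≠ 0 ∧ p.2 ≠ 0 ∧ (nm p.1 : ℝ) ^ 2 * (nm p.2 : ℝ) ^ 3 ≤ W := by
  classical
  refine ⟨fun W => (ball W ×ˢ ball W).filter fun p =>
    p.1 ≠ 0 ∧ p.2 ≠ 0 ∧ (nm p.1 : ℝ) ^ 2 * (nm p.2 : ℝ) ^ 3 ≤ W,
    fun W p => ⟨fun hp => (Finset.mem_filter.1 hp).2, fun hp => Finset.mem_filter.2 ⟨?_, hp⟩⟩⟩
  have a1 := one_le_nm hp.1
  have a2 := one_le_nm hp.2.1
  rw [Finset.mem_product, mem_ball, mem_ball]
  exact ⟨((le_self_pow₀ a1 two_ne_zero).trans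
      (le_mul_of_one_le_right (by positivity) (one_le_pow₀ a2))).trans hp.2.2,
    ((le_self_pow₀ a2 three_ne_zero).trans
      (le_mul_of_one_le_left (by positivity) (one_le_pow₀ a1))).trans hp.2.2⟩

theorem ldbb_card {σ : ℝ} (hσ : 1 / 2 < σ) : ∃ C : ℝ, 0 < C ∧ ∀ (W : ℝ) (P : Finset (O × O)), 0 < W →
    (∀ p ∈ P, p.1 ≠ 0 ∧ p.2 ≠ 0 ∧ (nm p.1 : ℝ) ^ 2 * (nm p.2 : ℝ) ^ 3 ≤ W) →
      (P.card : ℝ) ≤ C * W ^ σ := by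
  obtain ⟨C, hC, h⟩ := card_pairs (a := 2) (b := 3) (σ := σ) (by linarith) (by linarith) (by linarith)
  refine ⟨C, hC, fun W P hW hP => h W P hW fun p hp => ?_⟩
  rw [Real.rpow_ofNat, Real.rpow_ofNat]
  exact hP p hp

theorem ldbb_split {G : O → ℝ} (hG : ∀ k, 0 ≤ G k) {Z : ℝ} (hZ : 0 < Z) {P : ℝ → Finset (O × O)}
    (hP : ∀ W p, p ∈ P W ↔ p.1 ≠ 0 ∧ p.2 ≠ 0 ∧ (nm p.1 : ℝ) ^ 2 * (nm p.2 : ℝ) ^ 3 ≤ W) {A B : ℝ}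
    (hA : ∀ v, ∑ x ∈ qball (Z ^ (2 / 3 : ℝ)), ∑ p ∈ P (Z / nm x), G (v * x * p.1 ^ 2 * p.2 ^ 3) ≤ A)
    (hB : ∀ v, ∑ p ∈ P (Z ^ (1 / 3 : ℝ)), ∑ x ∈ qball Z, G (v * x * p.1 ^ 2 * p.2 ^ 3) ≤ B) :
    ∑ k ∈ (ball Z).erase 0, G k ≤ ((ball 27).erase 0).card * (A + B) := by
  refine ldba_cover2 hG _ _ _ _ (fun v x (p : O × O) => v * x * p.1 ^ 2 * p.2 ^ 3) _
    (fun _ => qball Z) (fun v (p : O × O) x => v * x * p.1 ^ 2 * p.2 ^ 3) hA hB fun k hk => ?_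
  obtain ⟨v, x, y, z, hv, hv', hx, hy, -, hz, rfl⟩ := exists_xyz (Finset.ne_of_mem_erase hk)
  have a0 : v ∈ (ball 27).erase 0 := Finset.mem_erase.2 ⟨hv, mem_ball.2 (by exact_mod_cast hv')⟩
  have a1 := ldba_nm hv (mem_ball.1 (Finset.mem_of_mem_erase hk))
  have a2 := one_le_nm hx.1.ne_zero
  have a3 : 1 ≤ (nm y : ℝ) ^ 2 * (nm z : ℝ) ^ 3 := one_le_mul_of_one_le_of_one_le
    (one_le_pow₀ (one_le_nm hy.1.ne_zero)) (one_le_pow₀ (one_le_nm hz))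
  rcases le_total (nm x : ℝ) (Z ^ (2 / 3 : ℝ)) with a5 | a5
  · exact .inl ⟨v, a0, x, ld_mem_qball.2 ⟨hx, a5⟩, (y, z),
      (hP _ _).2 ⟨hy.1.ne_zero, hz, (le_div_iff₀' (by linarith)).2 a1⟩, rfl⟩
  · refine .inr ⟨v, a0, (y, z), (hP _ _).2 ⟨hy.1.ne_zero, hz, ?_⟩, x,
      ld_mem_qball.2 ⟨hx, (le_mul_of_one_le_right (by linarith) a3).trans a1⟩, rfl⟩
    refine le_of_mul_le_mul_left (a := Z ^ (2 / 3 : ℝ)) ?_ (by positivity)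
    rw [← Real.rpow_add hZ, show (2 / 3 + 1 / 3 : ℝ) = 1 by norm_num, Real.rpow_one]
    exact (mul_le_mul_of_nonneg_right a5 (by linarith)).trans a1

theorem ldbb_A {G : O → ℝ} {δ C₁ C₂ Z K : ℝ} (hδ : 0 ≤ δ) (hC₂ : 0 ≤ C₂) (hZ : 0 < Z) (hK : 0 ≤ K)
    (hG : ∀ k, G k ≤ K) {P : ℝ → Finset (O × O)}
    (hs : ∑ n ∈ ball (Z ^ (2 / 3 : ℝ)), (nm n : ℝ) ^ (-(1 / 2) : ℝ) ≤
      C₁ * (Z ^ (2 / 3 : ℝ)) ^ (1 - 1 / 2 : ℝ))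
    (hc : ∀ W, 0 < W → ((P W).card : ℝ) ≤ C₂ * W ^ (1 / 2 + δ)) (v : O) :
    ∑ x ∈ qball (Z ^ (2 / 3 : ℝ)), ∑ p ∈ P (Z / nm x), G (v * x * p.1 ^ 2 * p.2 ^ 3) ≤
      C₁ * C₂ * Z ^ δ * Z ^ (5 / 6 : ℝ) * K := by
  refine (Finset.sum_le_sum (g := fun x => C₂ * Z ^ (1 / 2 + δ) * K * (nm x : ℝ) ^ (-(1 / 2) : ℝ))
    fun x hx => ?_).trans ?_
  · have a1 := one_le_nm (ld_mem_qball.1 hx).1.1.ne_zero
    refine (Finset.sum_le_card_nsmul _ _ K fun p _ => hG _).trans ?_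
    rw [nsmul_eq_mul, mul_right_comm]
    refine mul_le_mul_of_nonneg_right ((hc _ (by positivity)).trans ?_) hK
    rw [Real.div_rpow hZ.le (by linarith), div_eq_mul_inv, ← Real.rpow_neg (by linarith), mul_assoc]
    gcongr
    linarith
  · rw [← Finset.mul_sum]
    refine (mul_le_mul_of_nonneg_left ((Finset.sum_le_sum_of_subset_of_nonneg
      (fun x hx => mem_ball.2 (ld_mem_qball.1 hx).2) fun _ _ _ => by positivity).trans hs)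
      (by positivity)).trans_eq ?_
    rw [← Real.rpow_mul hZ.le, Real.rpow_add hZ, show (5 / 6 : ℝ) = 1 / 2 + 2 / 3 * (1 - 1 / 2) by norm_num,
      Real.rpow_add hZ]
    ring

theorem db_hm (h : PB 1) {ε : ℝ} (hε : 0 < ε) : ∃ C : ℝ, 0 < C ∧ ∀ R : ℝ, 0 ≤ R →
    DB R fun Z N => C * (Z * N) ^ ε *
      (Z ^ (5 / 6 : ℝ) * R + Z ^ (1 / 6 : ℝ) * (Z + N + (Z * N) ^ (2 / 3 : ℝ))) := by
  obtain ⟨C₀, hC₀, h0⟩ := h (ε / 2) (by positivity)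
  obtain ⟨C₁, hC₁, hs⟩ := sum_rpow_le (σ := 1 / 2) (by norm_num) (by norm_num)
  obtain ⟨C₂, hC₂, hc⟩ := ldbb_card (σ := 1 / 2 + ε / 2) (by linarith)
  obtain ⟨P, hP⟩ := ldbb_P
  have hc' : ∀ W, 0 < W → ((P W).card : ℝ) ≤ C₂ * W ^ (1 / 2 + ε / 2) := fun W hW =>
    hc W _ hW fun p hp => (hP W p).1 hp
  refine ⟨(((ball 27).erase 0).card + 1) * ((C₀ + C₁) * C₂), by positivity,
    fun R hR Z N c hZ hN hcR => ?_⟩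
  have hZ0 : 0 < Z := by linarith
  have hS : 0 ≤ ∑ n ∈ qball N, ‖c n‖ ^ 2 := by positivity
  have hE : 1 ≤ (Z * N) ^ (ε / 2) :=
    Real.one_le_rpow (one_le_mul_of_one_le_of_one_le hZ hN) (half_pos hε).le
  have hZE : ∀ W, 0 ≤ W → W ≤ Z → W ^ (ε / 2) ≤ (Z * N) ^ (ε / 2) := fun W h1 h2 =>
    Real.rpow_le_rpow h1 (h2.trans (le_mul_of_one_le_right hZ0.le hN)) (half_pos hε).le
  have hA := ldbb_A (G := fun k => ‖∑ n ∈ qball N, c n * cub k n‖ ^ 2) (half_pos hε).le hC₂.le hZ0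
    (mul_nonneg hR hS) (fun k => (ld_triv N c k).trans (mul_le_mul_of_nonneg_right hcR hS))
    (hs _ (by positivity)) hc'
  have hB : ∀ v, ∑ p ∈ P (Z ^ (1 / 3 : ℝ)), ∑ x ∈ qball Z,
      ‖∑ n ∈ qball N, c n * cub (v * x * p.1 ^ 2 * p.2 ^ 3) n‖ ^ 2 ≤
      C₂ * (Z ^ (1 / 6 : ℝ) * (Z * N) ^ (ε / 2)) * (C₀ * (Z * N) ^ (ε / 2) *
        (Z + N + (Z * N) ^ (2 / 3 : ℝ)) * ∑ n ∈ qball N, ‖c n‖ ^ 2) := by
    intro v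
    refine (Finset.sum_le_card_nsmul _ _ _ fun p _ =>
      ldba_x (by positivity) (fun c => h0 Z N c hZ hN) c v p.1 p.2).trans ?_
    rw [nsmul_eq_mul, Real.rpow_one]
    refine mul_le_mul_of_nonneg_right ((hc' _ (by positivity)).trans ?_) (by positivity)
    rw [Real.rpow_add (by positivity), ← Real.rpow_mul hZ0.le,
      show (1 / 3 * (1 / 2) : ℝ) = 1 / 6 by norm_num]
    exact mul_le_mul_of_nonneg_left (mul_le_mul_of_nonneg_left (hZE (Z ^ (1 / 3 : ℝ)) (by positivity)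
      (Real.rpow_le_self_of_one_le hZ (by norm_num))) (by positivity)) hC₂.le
  refine (ldbb_split (G := fun k => ‖∑ n ∈ qball N, c n * cub k n‖ ^ 2) (fun _ => by positivity)
    hZ0 hP hA hB).trans ?_
  have hEE : (Z * N) ^ ε = (Z * N) ^ (ε / 2) * (Z * N) ^ (ε / 2) := by
    rw [← Real.rpow_add (by positivity), add_halves]
  have h1 : Z ^ (ε / 2) ≤ (Z * N) ^ ε :=
    (hZE Z hZ0.le le_rfl).trans (hEE ▸ le_mul_of_one_le_right (by positivity) hE)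
  have h2 : 0 ≤ Z ^ (5 / 6 : ℝ) * R := by positivity
  have h3 : 0 ≤ Z ^ (1 / 6 : ℝ) * (Z + N + (Z * N) ^ (2 / 3 : ℝ)) := by positivity
  have h4 : 0 ≤ (Z * N) ^ ε := by positivity
  beta_reduce
  rw [mul_assoc (_ + 1 : ℝ), mul_assoc (_ + 1 : ℝ), mul_assoc (_ + 1 : ℝ)]
  refine mul_le_mul (le_add_of_nonneg_right zero_le_one) ?_ (by positivity) (by positivity)
  calc _ = C₂ * (C₁ * (Z ^ (ε / 2) * (Z ^ (5 / 6 : ℝ) * R)) + C₀ * ((Z * N) ^ ε *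
        (Z ^ (1 / 6 : ℝ) * (Z + N + (Z * N) ^ (2 / 3 : ℝ))))) * ∑ n ∈ qball N, ‖c n‖ ^ 2 := by
        rw [hEE]; ring
    _ ≤ C₂ * (C₁ * ((Z * N) ^ ε * (Z ^ (5 / 6 : ℝ) * R + Z ^ (1 / 6 : ℝ) * (Z + N + (Z * N) ^ (2 / 3 : ℝ))))
        + C₀ * ((Z * N) ^ ε * (Z ^ (5 / 6 : ℝ) * R + Z ^ (1 / 6 : ℝ) * (Z + N + (Z * N) ^ (2 / 3 : ℝ))))) *
        ∑ n ∈ qball N, ‖c n‖ ^ 2 := by
        gcongr <;> linarith
    _ = _ := by ring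

end Vale.Agent.P006
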