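import Vale.Agent.P006.LDefs

/-! # Cubic Gauss sums for squarefree moduli and the cubic family.

Plan. `lfam_gs_cub`: induction on `n` (`Prim.induction` with the statement `Squarefree n → ..`; `g3_crt`,
`G2.gt3_crt`, `G2.sqrt_nm_mul`, `cub_mul_right`); for a prime use `gs_prime` with `per_cub`, `cub_mul_left`,
`cub_eq_zero_of_dvd`, `norm_cub`, `exists_cub_ne_one` (compare `gs_sex` in P026/Gauss.lean).
`ft_cub`: `gs_crt` with `f = cub · x`, `g = conj (cub · y)`; `cub y x * conj (cub x y) = 1` (`cub_recip`,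
`norm_cub`, `fam_mul_conj`); the second factor is `conj (g3 (-k) y)` (`conj_eq`, `cub_neg_left`)
(compare `exists_famS` in P026/Fam.lean).  `exists_famC`: `ε = 1`, `norm_gt3`, `cub_eq_zero`, `cub_unit_right`. -/

namespace Vale.Agent.P006

open Vale.Agent.P026
open scoped ComplexConjugate Real

theorem lfam_gs {n : O} (hn : Sq n) (ν : O) : g3 ν n = conj (cub ν n) * g3 1 n := by
  refine Prim.induction (P := fun n => Squarefree n → g3 ν n = conj (cub ν n) * g3 1 n) ?_ ?_ hn.1 hn.2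
  · intro _
    rw [g3_one, g3_one, cub_unit_right isUnit_one, map_one, one_mul]
  · intro p n hp hp' hn ih hs
    obtain ⟨h1, -, h2⟩ := squarefree_mul_iff.1 hs
    have h3 := h1.isCoprime
    obtain ⟨a, ha, ha'⟩ := exists_cub_ne_one hp hp'.not_lam_dvd
    have h4 := (gs_prime hp (per_cub p) (fun a b => cub_mul_left a b p)
      (cub_eq_zero_of_dvd hp hp' (dvd_zero p)) (fun _ h => norm_cub (G2.coprime_of_not_dvd hp h))
      ⟨a, G2.not_dvd_of_coprime hp ha, ha'⟩).1
    have h5 : g3 ν p = conj (cub ν p) * g3 1 p := by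
      simp only [g3, one_mul]
      exact h4 ν
    rw [g3_crt hp.ne_zero hn.ne_zero h3, g3_crt hp.ne_zero hn.ne_zero h3, ih h2, h5,
      cub_mul_right hp.ne_zero hn.ne_zero, map_mul]
    ring

theorem lfam_gs_cub {n : O} (hn : Sq n) (ν : O) :
    g3 ν n = conj (cub ν n) * gt3 n * (√(nm n) : ℝ) := by
  rw [lfam_gs hn, gt3, mul_assoc, div_mul_cancel₀ _ (G2.sqrt_nm_ne hn.1.ne_zero)]

theorem ft_cub {x y : O} (hx : Sq x) (hy : Sq y) (h : IsCoprime x y) (k : O) :
    ∑ b ∈ res (x * y), cub b x * conj (cub b y) * eq (k * b) (x * y) =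
      (√(nm x) * √(nm y) : ℝ) * gt3 x * conj (gt3 y) * conj (cub k x) * cub k y := by
  have a1 := gs_crt hx.1.ne_zero hy.1.ne_zero h (f := fun b => cub b x)
    (g := fun b => conj (cub b y)) (per_cub x)
    (fun a b e => by beta_reduce; rw [cub_congr e]) (fun a b => cub_mul_left a b x)
    (fun a b => by rw [cub_mul_left, map_mul]) k
  have a2 : ∑ b ∈ res y, conj (cub b y) * eq (k * b) y =
      cub k y * conj (gt3 y) * (√(nm y) : ℝ) := by
    have := congrArg conj (lfam_gs_cub hy (-k))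
    rw [g3, map_sum, map_mul, map_mul, Complex.conj_conj, Complex.conj_ofReal, cub_neg_left] at this
    rw [← this]
    refine Finset.sum_congr rfl fun b _ => ?_
    rw [map_mul, conj_eq]
    congr 2
    ring
  have a3 := fam_mul_conj (norm_cub h)
  have a4 := lfam_gs_cub hx k
  rw [g3] at a4
  rw [a1, a2, a4, cub_recip hy.1 hx.1]
  push_cast
  linear_combination (conj (cub k x) * gt3 x * (√(nm x) : ℝ) * cub k y * conj (gt3 y) *
    (√(nm y) : ℝ)) * a3

theorem exists_famC : ∃ F : Fam, (∀ n a, F.X n a = cub a n) ∧ ∀ n, F.g n = gt3 n :=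
  ⟨⟨fun n a => cub a n, gt3, fun _ _ => 1,
    fun _ _ a hm hn => cub_mul_right hm.1.ne_zero hn.1.ne_zero a,
    fun n a b _ => cub_mul_left a b n, fun a => cub_unit_right isUnit_one a, per_cub,
    fun _ _ _ h => norm_cub h, fun _ _ hn h => cub_eq_zero hn.1.not_lam_dvd h,
    fun _ hn => norm_gt3 hn.1.1 hn.2, fun _ _ => norm_one.le, fun _ _ _ _ _ _ => rfl,
    fun _ _ k h1 h2 h => by rw [ft_cub ⟨h1.1.1, h1.2⟩ ⟨h2.1.1, h2.2⟩ h k, mul_one]⟩,
    fun _ _ => rfl, fun _ => rfl⟩

end Vale.Agent.P006
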