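import Vale.Agent.P006.LAdd
import Vale.Agent.P006.LFam

/-! # The classical large sieve for the characters `χ_x conj χ_y`.

Plan. `S q b = ∑ m ∈ ball M, a m * eq (m * b) q`.  `ft_cub` with the roles of `x, y` exchanged gives
`√ √ * unimodular * (cub m x * conj (cub m y)) = ∑ b ∈ res (y x), cub b y * conj (cub b x) * eq (m b) (y x)`
(`norm_gt3`); the coefficients vanish unless `IsCoprime b (y x)` (`cub_eq_zero`); Cauchy-Schwarz and `card_res` give
`‖∑ a m χ‖² ≤ ∑ b ∈ (res q).filter (IsCoprime · q), ‖S q b‖²` with `q = y x ∈ qball (N₁ N₂)`.  At most `tau q` pairs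
have the same `q` (`x ∈ pdiv q`; `card_pdiv_le`).  `add_sieve` with index set
`(qball (N₁ N₂)).sigma fun q => (res q).filter (IsCoprime · q)`, `θ = toC b / toC q`, `Q = (N₁ N₂)²`:
`toC l + b/q - b'/q' = toC (l q q' + b q' - b' q) / (toC q toC q')`; the numerator is nonzero for different
indices (`q ∣ b q'` gives `q ∣ q'`, `Prim.eq_of_associated`, uniqueness in `res_spec`). -/

namespace Vale.Agent.P006

open Vale.Agent.P026
open scoped ComplexConjugate Real

open Classical in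
/-- mean square over the reduced residues -/
noncomputable def ljG (s : Finset O) (a : O → ℂ) (q : O) : ℝ :=
  ∑ b ∈ (res q).filter fun b => IsCoprime b q, ‖∑ m ∈ s, a m * eq (m * b) q‖ ^ 2

theorem lj_nonneg (s : Finset O) (a : O → ℂ) (q : O) : 0 ≤ ljG s a q :=
  Finset.sum_nonneg fun _ _ => by positivity

theorem lj_pair {x y : O} (hx : Sq x) (hy : Sq y) (h : IsCoprime x y) (s : Finset O) (a : O → ℂ) :
    ‖∑ m ∈ s, a m * (cub m x * conj (cub m y))‖ ^ 2 ≤ ljG s a (y * x) := by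
  classical
  have h0 : y * x ≠ 0 := mul_ne_zero hy.1.ne_zero hx.1.ne_zero
  have hq : (0 : ℝ) < nm (y * x) := by exact_mod_cast nm_pos h0
  have h1 : ((√(nm y) * √(nm x) : ℝ) * gt3 y * conj (gt3 x)) *
      ∑ m ∈ s, a m * (cub m x * conj (cub m y)) =
      ∑ b ∈ (res (y * x)).filter fun b => IsCoprime b (y * x),
        cub b y * conj (cub b x) * ∑ m ∈ s, a m * eq (m * b) (y * x) := by
    rw [Finset.sum_filter_of_ne fun b _ hb => ?_]
    · simp only [Finset.mul_sum]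
      rw [Finset.sum_comm]
      refine Finset.sum_congr rfl fun m _ => ?_
      have h2 := congrArg (a m * ·) (ft_cub hy hx h.symm m)
      simp only [Finset.mul_sum] at h2
      refine Eq.trans ?_ (h2.symm.trans (Finset.sum_congr rfl fun b _ => ?_))
      · ring
      · ring
    · refine IsCoprime.mul_right (by_contra fun h2 => hb ?_) (by_contra fun h2 => hb ?_)
      · rw [cub_eq_zero hy.1.not_lam_dvd h2, zero_mul, zero_mul]
      · rw [cub_eq_zero hx.1.not_lam_dvd h2, map_zero, mul_zero, zero_mul]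
  rw [← G2.sqrt_nm_mul] at h1
  have h2 := congrArg (fun z => ‖z‖ ^ 2) h1
  simp only [norm_mul, Complex.norm_conj, norm_gt3 hx.1 hx.2, norm_gt3 hy.1 hy.2, mul_one,
    Complex.norm_real, mul_pow] at h2
  rw [Real.norm_eq_abs, sq_abs, Real.sq_sqrt hq.le] at h2
  refine le_of_mul_le_mul_left (h2.le.trans ?_) hq
  refine (pow_le_pow_left₀ (norm_nonneg _) (norm_sum_le_of_le _
    (n := fun b => ‖∑ m ∈ s, a m * eq (m * b) (y * x)‖) fun b _ => ?_) 2).trans
    (sq_sum_le_card_mul_sum_sq.trans ?_)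
  · rw [norm_mul, norm_mul, Complex.norm_conj]
    exact mul_le_of_le_one_left (norm_nonneg _)
      (mul_le_one₀ (norm_cub_le _ _) (norm_nonneg _) (norm_cub_le _ _))
  · refine mul_le_mul_of_nonneg_right ?_ (lj_nonneg s a _)
    rw [← card_res h0]
    exact_mod_cast Finset.card_filter_le _ _

open Classical in
theorem lj_count {N₁ N₂ : ℝ} (G : O → ℝ) (hG : ∀ q, 0 ≤ G q) :
    ∑ x ∈ qball N₁, ∑ y ∈ (qball N₂).filter (fun y => IsCoprime x y), G (y * x) ≤
      ∑ q ∈ qball (N₁ * N₂), (pdiv q).card * G q := by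
  have h1 : ∀ x ∈ qball N₁, ∑ y ∈ (qball N₂).filter (fun y => IsCoprime x y), G (y * x) ≤
      ∑ q ∈ qball (N₁ * N₂), if x ∣ q then G q else 0 := by
    intro x hx
    obtain ⟨x1, x2⟩ := ld_mem_qball.1 hx
    rw [← Finset.sum_image (f := G) (g := fun y => y * x)
      (fun y _ y' _ e => mul_right_cancel₀ x1.1.ne_zero e), ← Finset.sum_filter]
    refine Finset.sum_le_sum_of_subset_of_nonneg (fun q hq => ?_) fun q _ _ => hG q
    obtain ⟨y, hy, rfl⟩ := Finset.mem_image.1 hq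
    obtain ⟨y0, y3⟩ := Finset.mem_filter.1 hy
    obtain ⟨y1, y2⟩ := ld_mem_qball.1 y0
    refine Finset.mem_filter.2 ⟨ld_mem_qball.2 ⟨⟨y1.1.mul x1.1,
      squarefree_mul_iff.2 ⟨y3.symm.isRelPrime, y1.2, x1.2⟩⟩, ?_⟩, dvd_mul_left _ _⟩
    rw [nm_mul, Nat.cast_mul, mul_comm]
    exact mul_le_mul x2 y2 (Nat.cast_nonneg _) ((Nat.cast_nonneg _).trans x2)
  refine (Finset.sum_le_sum h1).trans ?_
  rw [Finset.sum_comm]
  refine Finset.sum_le_sum fun q hq => ?_
  rw [← Finset.sum_filter, Finset.sum_const, nsmul_eq_mul]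
  refine mul_le_mul_of_nonneg_right ?_ (hG q)
  have : (qball N₁).filter (· ∣ q) ⊆ pdiv q := fun e he =>
    (mem_pdiv (ld_mem_qball.1 hq).1.1.ne_zero).2
      ⟨(ld_mem_qball.1 (Finset.mem_filter.1 he).1).1.1, (Finset.mem_filter.1 he).2⟩
  exact_mod_cast Finset.card_le_card this

theorem lj_sep {q q' b b' : O} {N : ℝ} (hq : q ∈ qball N) (hq' : q' ∈ qball N) (hb : b ∈ res q)
    (hb' : b' ∈ res q') (hc : IsCoprime b q) (hc' : IsCoprime b' q') (hne : ¬(q = q' ∧ b = b'))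
    (l : O) : 1 / N ^ 2 ≤ ‖toC l + (toC b / toC q - toC b' / toC q')‖ ^ 2 := by
  obtain ⟨q1, q2⟩ := ld_mem_qball.1 hq
  obtain ⟨q3, q4⟩ := ld_mem_qball.1 hq'
  have z1 : toC q ≠ 0 := mt toC_eq_zero.1 q1.1.ne_zero
  have z2 : toC q' ≠ 0 := mt toC_eq_zero.1 q3.1.ne_zero
  have e : toC l + (toC b / toC q - toC b' / toC q') =
      toC (l * q * q' + b * q' - b' * q) / (toC q * toC q') := by
    simp only [map_sub, map_add, map_mul]
    field_simp
    ring
  have h0 : l * q * q' + b * q' - b' * q ≠ 0 := fun h => by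
    have d1 : q ∣ q' := hc.symm.dvd_of_dvd_mul_left ⟨b' - l * q', by linear_combination h⟩
    have d2 : q' ∣ q := hc'.symm.dvd_of_dvd_mul_left ⟨b + l * q, by linear_combination -h⟩
    obtain rfl := q1.1.eq_of_associated q3.1 (associated_of_dvd_dvd d1 d2)
    have h1 : l * q + b - b' = 0 :=
      mul_left_cancel₀ q1.1.ne_zero (by linear_combination h)
    exact hne ⟨rfl, (res_spec q1.1.ne_zero b).unique ⟨hb, by simp⟩
      ⟨hb', -l, by linear_combination h1⟩⟩
  have p1 := one_le_nm q1.1.ne_zero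
  have p2 := one_le_nm q3.1.ne_zero
  rw [e, norm_div, norm_mul, div_pow, mul_pow, norm_toC_sq, norm_toC_sq, norm_toC_sq]
  refine div_le_div₀ (Nat.cast_nonneg _) (one_le_nm h0) (by positivity) ?_
  rw [sq]
  exact mul_le_mul q2 q4 (by linarith) (by linarith)

theorem jls : JLSStmt := by
  classical
  intro ε hε
  obtain ⟨C, hC, H⟩ := add_sieve
  obtain ⟨D, hD, hτ⟩ := card_pdiv_le ε hε
  refine ⟨D * C, by positivity, fun M N₁ N₂ a hM h1 h2 => ?_⟩
  have hN : 1 ≤ N₁ * N₂ := one_le_mul_of_one_le_of_one_le h1 h2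
  have h3 := H ((_ : O) × O)
    ((qball (N₁ * N₂)).sigma fun q => (res q).filter fun b => IsCoprime b q)
    (fun i => toC i.2 / toC i.1) ((N₁ * N₂) ^ 2) M a (one_le_pow₀ hN) hM fun i hi j hj hne l => by
      obtain ⟨i1, i2⟩ := Finset.mem_sigma.1 hi
      obtain ⟨j1, j2⟩ := Finset.mem_sigma.1 hj
      exact lj_sep i1 j1 (Finset.mem_filter.1 i2).1 (Finset.mem_filter.1 j2).1
        (Finset.mem_filter.1 i2).2 (Finset.mem_filter.1 j2).2
        (fun h => hne (Sigma.ext h.1 (heq_of_eq h.2))) l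
  have h4 : ∑ q ∈ qball (N₁ * N₂), ljG (ball M) a q ≤
      C * (M + (N₁ * N₂) ^ 2) * ∑ m ∈ ball M, ‖a m‖ ^ 2 := by
    refine le_trans (le_of_eq ?_) h3
    rw [Finset.sum_sigma]
    refine Finset.sum_congr rfl fun q _ => Finset.sum_congr rfl fun b _ => ?_
    simp only [eq, map_mul, mul_div_assoc]
  calc _ ≤ ∑ x ∈ qball N₁, ∑ y ∈ (qball N₂).filter (fun y => IsCoprime x y),
          ljG (ball M) a (y * x) :=
        Finset.sum_le_sum fun x hx => Finset.sum_le_sum fun y hy =>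
          lj_pair (ld_mem_qball.1 hx).1 (ld_mem_qball.1 (Finset.mem_filter.1 hy).1).1
            (Finset.mem_filter.1 hy).2 _ a
    _ ≤ ∑ q ∈ qball (N₁ * N₂), (pdiv q).card * ljG (ball M) a q := lj_count _ (lj_nonneg _ a)
    _ ≤ ∑ q ∈ qball (N₁ * N₂), D * (N₁ * N₂) ^ ε * ljG (ball M) a q := by
        refine Finset.sum_le_sum fun q hq => mul_le_mul_of_nonneg_right ?_ (lj_nonneg _ a q)
        obtain ⟨q1, q2⟩ := ld_mem_qball.1 hq
        exact (hτ q q1.1.ne_zero).trans (mul_le_mul_of_nonneg_left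
          (Real.rpow_le_rpow (Nat.cast_nonneg _) q2 hε.le) hD.le)
    _ ≤ D * (N₁ * N₂) ^ ε * (C * (M + (N₁ * N₂) ^ 2) * ∑ m ∈ ball M, ‖a m‖ ^ 2) := by
        rw [← Finset.mul_sum]
        exact mul_le_mul_of_nonneg_left h4 (by positivity)
    _ = _ := by ring

end Vale.Agent.P006
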