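import Vale.Agent.P006.LDefs

/-! # The numerical hypotheses of the Poisson step (real powers only).

Plan. Put `K = e x² / Y`.  For `y ≥ 1` each power `(y K) ^ a ≤ y ^ 2 * K ^ a` (`0 ≤ a ≤ 2`) and
`(y K * (2 x)) ^ ε ≤ y * (2 N ^ 3) ^ ε` (`K ≤ N ^ 2`, `x ≤ N`, `ε ≤ 1`).  The basic computation is
`Y / (e x) * K ^ a * x ^ b = Y ^ (1-a) * e ^ (a-1) * x ^ (2a+b-1) ≤ Y ^ (1-a) * N ^ (2a+b-1)` if `0 ≤ 2a+b-1` and
`0 ≤ a + b` (for `a ≤ 1` drop `e ^ (a-1)`, for `a ≥ 1` write `(e x) ^ (a-1) * x ^ (a+b)`); prove it once as a lemma.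
`(y K * (2x)) ^ (2/3) = (y K) ^ (2/3) * 2 ^ (2/3) * x ^ (2/3)`. -/

namespace Vale.Agent.P006

theorem lnum_key {Y N e x y : ℝ} (a b : ℝ) (hY : 0 < Y) (he : 1 ≤ e) (hx : 0 < x) (hN : e * x ≤ N)
    (hy : 1 ≤ y) (ha2 : a ≤ 2) (h1 : 0 ≤ 2 * a + b - 1) (h2 : 0 ≤ a + b) :
    Y / (e * x) * ((y * (e * x ^ 2 / Y)) ^ a * x ^ b) ≤
      y ^ 2 * (Y ^ (1 - a) * N ^ (2 * a + b - 1)) := by
  have he0 : 0 < e := by linarith
  have hy0 : 0 < y := by linarith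
  have hxN : x ≤ N := (le_mul_of_one_le_left hx.le he).trans hN
  have hN0 : 0 < N := hx.trans_le hxN
  have e1 : Y / (e * x) * ((y * (e * x ^ 2 / Y)) ^ a * x ^ b) =
      y ^ a * (Y ^ (1 - a) * (e ^ (a - 1) * x ^ (2 * a + b - 1))) := by
    rw [Real.mul_rpow hy0.le (by positivity), Real.div_rpow (by positivity) hY.le,
      Real.mul_rpow he0.le (by positivity), ← Real.rpow_natCast x 2, ← Real.rpow_mul hx.le,
      Real.rpow_sub hY, Real.rpow_sub he0, Real.rpow_sub hx, Real.rpow_add hx]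
    simp only [Real.rpow_one, Nat.cast_ofNat]
    field_simp
  have e2 : y ^ a ≤ y ^ 2 := by
    rw [← Real.rpow_natCast y 2]
    exact Real.rpow_le_rpow_of_exponent_le hy (by simpa using ha2)
  have e3 : e ^ (a - 1) * x ^ (2 * a + b - 1) ≤ N ^ (2 * a + b - 1) := by
    rcases le_total a 1 with h | h
    · calc _ ≤ 1 * N ^ (2 * a + b - 1) :=
            mul_le_mul (Real.rpow_le_one_of_one_le_of_nonpos he (by linarith))
              (Real.rpow_le_rpow hx.le hxN h1) (by positivity) zero_le_one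
        _ = _ := one_mul _
    · rw [show 2 * a + b - 1 = (a - 1) + (a + b) by ring, Real.rpow_add hx, Real.rpow_add hN0,
        ← mul_assoc, ← Real.mul_rpow he0.le hx.le]
      exact mul_le_mul (Real.rpow_le_rpow (by positivity) hN (by linarith))
        (Real.rpow_le_rpow hx.le hxN h2) (by positivity) (by positivity)
  rw [e1]
  gcongr

theorem lnum_eps {Y N e x y ε : ℝ} (hY : 1 ≤ Y) (he : 1 ≤ e) (hx : 0 < x) (hN : e * x ≤ N)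
    (hy : 1 ≤ y) (hε : 0 ≤ ε) (hε1 : ε ≤ 1) :
    (y * (e * x ^ 2 / Y) * (2 * x)) ^ ε ≤ 2 * y * N ^ (3 * ε) := by
  have hxN : x ≤ N := (le_mul_of_one_le_left hx.le he).trans hN
  have hN0 : 0 < N := hx.trans_le hxN
  have h1 : e * x ^ 2 / Y ≤ N * N := by
    refine (div_le_self (by positivity) hY).trans ?_
    rw [pow_two, ← mul_assoc]
    exact mul_le_mul hN hxN hx.le hN0.le
  have h2 : y * (e * x ^ 2 / Y) * (2 * x) ≤ (2 * y) * N ^ (3 : ℝ) := by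
    rw [show N ^ (3 : ℝ) = N * N * N by rw [show (3 : ℝ) = (3 : ℕ) by norm_num, Real.rpow_natCast]; ring]
    calc _ ≤ y * (N * N) * (2 * N) := by gcongr
      _ = _ := by ring
  refine (Real.rpow_le_rpow (by positivity) h2 hε).trans ?_
  rw [Real.mul_rpow (by positivity) (by positivity), ← Real.rpow_mul hN0.le]
  refine mul_le_mul_of_nonneg_right ?_ (by positivity)
  simpa using Real.rpow_le_rpow_of_exponent_le (show 1 ≤ 2 * y by linarith) hε1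

theorem lnum_two {Z x : ℝ} (hZ : 0 ≤ Z) (hx : 0 ≤ x) :
    (Z * (2 * x)) ^ (2 / 3 : ℝ) ≤ 2 * (Z ^ (2 / 3 : ℝ) * x ^ (2 / 3 : ℝ)) := by
  rw [Real.mul_rpow hZ (by positivity), Real.mul_rpow zero_le_two hx]
  have : (2 : ℝ) ^ (2 / 3 : ℝ) ≤ 2 := by
    simpa using Real.rpow_le_rpow_of_exponent_le (one_le_two (α := ℝ)) (show (2 / 3 : ℝ) ≤ 1 by norm_num)
  calc _ ≤ Z ^ (2 / 3 : ℝ) * (2 * x ^ (2 / 3 : ℝ)) := by gcongr
    _ = _ := by ring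

theorem lnum_fin {D C P Q S T y : ℝ} (hD : 0 ≤ D) (hC : 0 ≤ C) (hP : 0 ≤ P) (hS : 0 ≤ S) (hPQ : P ≤ 2 * y * Q)
    (hS' : D * S ≤ y ^ 2 * T) : D * (C * P * S) ≤ 2 * C * Q * T * y ^ 3 := by
  calc _ = C * (P * (D * S)) := by ring
    _ ≤ C * ((2 * y * Q) * (y ^ 2 * T)) :=
      mul_le_mul_of_nonneg_left (mul_le_mul hPQ hS' (by positivity) (hP.trans hPQ)) hC
    _ = _ := by ring

theorem num_triv {Y N C : ℝ} (hY : 0 < Y) (hC : 0 ≤ C) :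
    PsNum Y N (2 * C * N ^ 2) fun Z M => C * (Z * M) := by
  intro e x y he hx hN hy _
  have hx0 : 0 < x := by linarith
  have hxN : x ≤ N := (le_mul_of_one_le_left hx0.le he).trans hN
  have e1 : Y / (e * x) * (C * (y * (e * x ^ 2 / Y) * (2 * x))) = 2 * C * x ^ 2 * y := by
    field_simp
  have e2 : y ≤ y ^ 3 := le_self_pow₀ hy (by norm_num)
  dsimp only
  rw [e1]
  gcongr

theorem num_pb {Y N C ε ξ : ℝ} (hY : 1 ≤ Y) (hC : 0 ≤ C) (hε : 0 ≤ ε) (hε1 : ε ≤ 1) (h1 : 1 ≤ ξ)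
    (h2 : ξ ≤ 2) : PsNum Y N (4 * C * N ^ (3 * ε) * ((Y * N) ^ (2 / 3 : ℝ) +
      Y ^ (1 - ξ) * N ^ (2 * ξ - 1) + Y ^ (1 / 3 : ℝ) * N))
      fun Z M => C * (Z * M) ^ ε * (Z ^ (1 / 3 : ℝ) * M + Z ^ ξ + (Z * M) ^ (2 / 3 : ℝ)) := by
  intro e x y he hx hN hy _
  have hx0 : 0 < x := by linarith
  have hY0 : 0 < Y := by linarith
  have hN0 : 0 < N := lt_of_lt_of_le (by positivity) hN
  have k1 := lnum_key (1 / 3) 1 hY0 he hx0 hN hy (by norm_num) (by norm_num) (by norm_num)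
  have k2 := lnum_key ξ 0 hY0 he hx0 hN hy h2 (by linarith) (by linarith)
  have k3 := lnum_key (2 / 3) (2 / 3) hY0 he hx0 hN hy (by norm_num) (by norm_num) (by norm_num)
  have k4 := lnum_two (show 0 ≤ y * (e * x ^ 2 / Y) by positivity) hx0.le
  have k5 := mul_le_mul_of_nonneg_left k4 (show 0 ≤ Y / (e * x) by positivity)
  norm_num at k1 k2 k3
  rw [← Real.mul_rpow hY0.le hN0.le] at k1
  have k6 : 0 ≤ y ^ 2 * (Y ^ (1 - ξ) * N ^ (2 * ξ - 1)) := by positivity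
  refine (lnum_fin (T := 2 * ((Y * N) ^ (2 / 3 : ℝ) + Y ^ (1 - ξ) * N ^ (2 * ξ - 1) +
    Y ^ (1 / 3 : ℝ) * N)) (by positivity) hC (by positivity) (by positivity)
    (lnum_eps hY he hx0 hN hy hε hε1) (by linarith)).trans_eq (by ring)

theorem num_hm {Y N C ε R : ℝ} (hY : 1 ≤ Y) (hC : 0 ≤ C) (hε : 0 ≤ ε) (hε1 : ε ≤ 1) (hR : 0 ≤ R) :
    PsNum Y N (6 * C * N ^ (3 * ε) * (Y ^ (1 / 6 : ℝ) * N ^ (2 / 3 : ℝ) * R +
      Y ^ (5 / 6 : ℝ) * N ^ (1 / 3 : ℝ) + Y ^ (1 / 6 : ℝ) * N ^ (4 / 3 : ℝ)))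
      fun Z M => C * (Z * M) ^ ε *
        (Z ^ (5 / 6 : ℝ) * R + Z ^ (1 / 6 : ℝ) * (Z + M + (Z * M) ^ (2 / 3 : ℝ))) := by
  intro e x y he hx hN hy hZ
  have hx0 : 0 < x := by linarith
  have hY0 : 0 < Y := by linarith
  have hN0 : 0 < N := lt_of_lt_of_le (by positivity) hN
  have hZ0 : 0 < y * (e * x ^ 2 / Y) := by positivity
  have k1 := lnum_key (5 / 6) 0 hY0 he hx0 hN hy (by norm_num) (by norm_num) (by norm_num)
  have k2 := lnum_key (7 / 6) 0 hY0 he hx0 hN hy (by norm_num) (by norm_num) (by norm_num)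
  have k3 := lnum_key (1 / 6) 1 hY0 he hx0 hN hy (by norm_num) (by norm_num) (by norm_num)
  have k4 := lnum_key (5 / 6) (2 / 3) hY0 he hx0 hN hy (by norm_num) (by norm_num) (by norm_num)
  have k5 := mul_le_mul_of_nonneg_left (lnum_two hZ0.le hx0.le)
    (show 0 ≤ Y / (e * x) * (y * (e * x ^ 2 / Y)) ^ (1 / 6 : ℝ) by positivity)
  norm_num at k1 k2 k3 k4
  have a1 : (y * (e * x ^ 2 / Y)) ^ (7 / 6 : ℝ) =
      (y * (e * x ^ 2 / Y)) ^ (1 / 6 : ℝ) * (y * (e * x ^ 2 / Y)) := by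
    rw [← Real.rpow_add_one hZ0.ne']; norm_num
  have a2 : (y * (e * x ^ 2 / Y)) ^ (5 / 6 : ℝ) =
      (y * (e * x ^ 2 / Y)) ^ (1 / 6 : ℝ) * (y * (e * x ^ 2 / Y)) ^ (2 / 3 : ℝ) := by
    rw [← Real.rpow_add hZ0]; norm_num
  have a3 : Y ^ (-(1 / 6) : ℝ) ≤ Y ^ (1 / 6 : ℝ) := Real.rpow_le_rpow_of_exponent_le hY (by norm_num)
  have a4 : y ^ 2 * (Y ^ (-(1 / 6) : ℝ) * N ^ (4 / 3 : ℝ)) ≤
      y ^ 2 * (Y ^ (1 / 6 : ℝ) * N ^ (4 / 3 : ℝ)) := by gcongr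
  have k1' := mul_le_mul_of_nonneg_right k1 hR
  have b1 : 0 ≤ y ^ 2 * (Y ^ (1 / 6 : ℝ) * N ^ (2 / 3 : ℝ)) * R := by positivity
  have b2 : 0 ≤ y ^ 2 * (Y ^ (5 / 6 : ℝ) * N ^ (1 / 3 : ℝ)) := by positivity
  rw [a1] at k2
  rw [a2] at k4
  refine (lnum_fin (T := 3 * (Y ^ (1 / 6 : ℝ) * N ^ (2 / 3 : ℝ) * R +
    Y ^ (5 / 6 : ℝ) * N ^ (1 / 3 : ℝ) + Y ^ (1 / 6 : ℝ) * N ^ (4 / 3 : ℝ))) (by positivity) hC
    (by positivity) (by positivity) (lnum_eps hY he hx0 hN hy hε hε1) (by linarith)).trans_eq (by ring)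

end Vale.Agent.P006
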