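import Vale.Agent.P006.LPsB
import Vale.Agent.P006.LDBa
import Vale.Agent.P006.LDBb
import Vale.Agent.P006.LNum
import Vale.Agent.P006.LJ

/-! # Part L: the large sieve inequalities (`jls` is in `LJ`). -/

namespace Vale.Agent.P006

open Vale.Agent.P026
open scoped ComplexConjugate Real

theorem l_rp {M N p q p' q' : ℝ} (hM : 0 < M) (hN : 0 < N)
    (h : p * Real.log M + q * Real.log N ≤ p' * Real.log M + q' * Real.log N) :
    M ^ p * N ^ q ≤ M ^ p' * N ^ q' := by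
  rw [Real.rpow_def_of_pos hM, Real.rpow_def_of_pos hN, Real.rpow_def_of_pos hM,
    Real.rpow_def_of_pos hN, ← Real.exp_add, ← Real.exp_add]
  exact Real.exp_le_exp.2 (by linarith)

/-- absorbing the constants of the Poisson step -/
theorem l_abs {C₁ C₂ N ε ε' M T S : ℝ} (hC₁ : 0 ≤ C₁) (hC₂ : 0 ≤ C₂) (hN : 1 ≤ N) (hε' : 0 ≤ ε')
    (h : ε' ≤ ε / 4) (hM : 0 ≤ M) (hT : 0 ≤ T) (hS : 0 ≤ S) :
    C₂ * N ^ (ε / 4) * (M + C₁ * N ^ (3 * ε') * T) * S ≤ C₂ * (1 + C₁) * N ^ ε * (M + T) * S := by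
  have hN0 : 0 < N := by linarith
  have h1 : 1 ≤ N ^ (3 * ε') := Real.one_le_rpow hN (by linarith)
  have h2 : N ^ (ε / 4) * N ^ (3 * ε') ≤ N ^ ε := by
    rw [← Real.rpow_add hN0]
    exact Real.rpow_le_rpow_of_exponent_le hN (by linarith)
  have h3 : M + C₁ * N ^ (3 * ε') * T ≤ (1 + C₁) * N ^ (3 * ε') * (M + T) := by
    have := mul_nonneg hC₁ (mul_nonneg (zero_le_one.trans h1) hM)
    have := mul_nonneg (zero_le_one.trans h1) hT
    nlinarith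
  calc _ ≤ C₂ * N ^ (ε / 4) * ((1 + C₁) * N ^ (3 * ε') * (M + T)) * S := by gcongr
    _ = C₂ * (1 + C₁) * (N ^ (ε / 4) * N ^ (3 * ε')) * (M + T) * S := by ring
    _ ≤ _ := by gcongr

theorem l_b2 {ξ : ℝ} (h1 : 1 ≤ ξ) (h2 : ξ ≤ 2) (h : PB ξ) {ε : ℝ} (hε : 0 < ε) :
    ∃ C : ℝ, 0 < C ∧ ∀ (M N : ℝ) (c : O → ℂ), 1 ≤ M → 1 ≤ N →
      ∑ m ∈ ball M, ‖∑ n ∈ qball N, c n * cub m n‖ ^ 2 ≤ C * N ^ ε * (M + ((M * N) ^ (2 / 3 : ℝ) +
        M ^ (1 - ξ) * N ^ (2 * ξ - 1) + M ^ (1 / 3 : ℝ) * N)) * ∑ n ∈ qball N, ‖c n‖ ^ 2 := by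
  have he : 0 < min (ε / 4) 1 := lt_min (by positivity) one_pos
  obtain ⟨C₁, hC₁, H₁⟩ := db_of_pb h1 h he
  obtain ⟨C₂, hC₂, H₂⟩ := pstep (ε := ε / 4) (by positivity)
  refine ⟨C₂ * (1 + 4 * C₁), by positivity, fun M N c hM hN => ?_⟩
  have hM0 : 0 < M := by linarith
  have hN0 : 0 < N := by linarith
  exact (H₂ _ M N _ _ (H₁ _) hM0 hN (by positivity)
    (num_pb hM hC₁.le he.le (min_le_right _ _) h1 h2) c le_rfl).trans
    (l_abs (by positivity) hC₂.le hN he.le (min_le_left _ _) hM0.le (by positivity) (by positivity))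

theorem l_flip {ξ : ℝ} (h : ∀ ε : ℝ, 0 < ε → ∃ C : ℝ, 0 < C ∧ ∀ (M N : ℝ) (c : O → ℂ), 1 ≤ M → 1 ≤ N →
    ∑ m ∈ qball M, ‖∑ n ∈ qball N, c n * cub m n‖ ^ 2 ≤
      C * N ^ ε * (M + N ^ ξ + (M * N) ^ (2 / 3 : ℝ)) * ∑ n ∈ qball N, ‖c n‖ ^ 2) : PB ξ := by
  intro ε hε
  obtain ⟨C, hC, H⟩ := h ε hε
  refine ⟨C, hC, fun M N c hM hN => ?_⟩
  have hM0 : 0 < M := by linarith
  have hN0 : 0 < N := by linarith
  refine (b1_symm (by positivity) (fun c' => H N M c' hN hM) c).trans ?_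
  have : M ^ ε ≤ (M * N) ^ ε := Real.rpow_le_rpow hM0.le (by nlinarith) hε.le
  rw [mul_comm N M, add_comm N]
  gcongr

theorem pb_two : PB 2 := by
  refine l_flip fun ε hε => ?_
  obtain ⟨C₁, hC₁, H₁⟩ := db_triv
  obtain ⟨C₂, hC₂, H₂⟩ := pstep hε
  refine ⟨C₂ * (1 + 2 * C₁), by positivity, fun M N c hM hN => ?_⟩
  have hM0 : 0 < M := by linarith
  have hN0 : 0 < N := by linarith
  refine (Finset.sum_le_sum_of_subset_of_nonneg (ld_qball_subset M) fun _ _ _ => by positivity).trans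
    ((H₂ _ M N _ _ (H₁ _) hM0 hN (by positivity) (num_triv hM0 hC₁.le) c le_rfl).trans ?_)
  rw [Real.rpow_two]
  have h1 : 0 ≤ (M * N) ^ (2 / 3 : ℝ) := by positivity
  have h2 : M + 2 * C₁ * N ^ 2 ≤ (1 + 2 * C₁) * (M + N ^ 2 + (M * N) ^ (2 / 3 : ℝ)) := by
    nlinarith [mul_nonneg hC₁.le h1, mul_nonneg hC₁.le hM0.le, sq_nonneg N]
  calc _ ≤ C₂ * N ^ ε * ((1 + 2 * C₁) * (M + N ^ 2 + (M * N) ^ (2 / 3 : ℝ))) *
        ∑ n ∈ qball N, ‖c n‖ ^ 2 := by gcongr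
    _ = _ := by ring

theorem pb_step {θ : ℝ} (h0 : 0 ≤ θ) (h1 : θ ≤ 2 / 3) (h : PB (4 / 3 + θ)) :
    PB (4 / 3 + 2 / 3 * θ) := by
  refine l_flip fun ε hε => ?_
  obtain ⟨C, hC, H⟩ := l_b2 (by linarith) (by linarith) h hε
  refine ⟨C * 4, by positivity, fun M N c hM hN => ?_⟩
  have hM0 : 0 < M := by linarith
  have hN0 : 0 < N := by linarith
  set M' := max M (N ^ (1 + θ)) with hM'
  have hMM : M ≤ M' := le_max_left _ _
  have hM'0 : 0 < M' := by linarith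
  have hb : 0 ≤ Real.log N := Real.log_nonneg hN
  have ha : (1 + θ) * Real.log N ≤ Real.log M' := by
    rw [← Real.log_rpow hN0]
    exact Real.log_le_log (by positivity) (le_max_right _ _)
  have e1 : (M' * N) ^ (2 / 3 : ℝ) = M' ^ (2 / 3 : ℝ) * N ^ (2 / 3 : ℝ) :=
    Real.mul_rpow hM'0.le hN0.le
  have a1 : M' ^ (1 - (4 / 3 + θ)) * N ^ (2 * (4 / 3 + θ) - 1) ≤ (M' * N) ^ (2 / 3 : ℝ) := by
    rw [e1]
    refine l_rp hM'0 hN0 ?_
    nlinarith [mul_le_mul_of_nonneg_left ha (by linarith : 0 ≤ 1 + θ), mul_nonneg (sq_nonneg θ) hb]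
  have a2 : M' ^ (1 / 3 : ℝ) * N ≤ (M' * N) ^ (2 / 3 : ℝ) := by
    rw [e1]
    nth_rw 1 [← Real.rpow_one N]
    refine l_rp hM'0 hN0 ?_
    nlinarith [mul_nonneg h0 hb]
  have a3 : N ^ (1 + θ) ≤ N ^ (4 / 3 + 2 / 3 * θ) :=
    Real.rpow_le_rpow_of_exponent_le hN (by linarith)
  have a4 : (N ^ (1 + θ) * N) ^ (2 / 3 : ℝ) = N ^ (4 / 3 + 2 / 3 * θ) := by
    rw [← Real.rpow_add_one hN0.ne', ← Real.rpow_mul hN0.le]
    congr 1
    ring
  have p1 : 0 ≤ N ^ (4 / 3 + 2 / 3 * θ) := by positivity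
  have p2 : 0 ≤ (M * N) ^ (2 / 3 : ℝ) := by positivity
  have a5 : M' + 3 * (M' * N) ^ (2 / 3 : ℝ) ≤
      4 * (M + N ^ (4 / 3 + 2 / 3 * θ) + (M * N) ^ (2 / 3 : ℝ)) := by
    rcases max_choice M (N ^ (1 + θ)) with k | k
    · rw [hM', k]
      linarith
    · rw [hM', k, a4]
      linarith
  have sub : qball M ⊆ ball M' := (ld_qball_mono hMM).trans (ld_qball_subset _)
  refine (Finset.sum_le_sum_of_subset_of_nonneg sub fun _ _ _ => by positivity).trans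
    ((H M' N c (hM.trans hMM) hN).trans ?_)
  calc _ ≤ C * N ^ ε * (4 * (M + N ^ (4 / 3 + 2 / 3 * θ) + (M * N) ^ (2 / 3 : ℝ))) *
        ∑ n ∈ qball N, ‖c n‖ ^ 2 := by
        gcongr
        linarith
    _ = _ := by ring

theorem pb_iter (j : ℕ) : PB (4 / 3 + (2 / 3) ^ (j + 1)) := by
  induction j with
  | zero => convert pb_two using 1; norm_num
  | succ j ih =>
    rw [pow_succ' (2 / 3 : ℝ) (j + 1)]
    refine pb_step (by positivity) ?_ ih
    rw [pow_succ']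
    exact mul_le_of_le_one_right (by norm_num) (pow_le_one₀ (by norm_num) (by norm_num))

theorem ls1 : LS1Stmt := by
  intro ε hε
  obtain ⟨j, hj⟩ := exists_pow_lt_of_lt_one (half_pos hε) (by norm_num : (2 / 3 : ℝ) < 1)
  have hθ : (2 / 3 : ℝ) ^ (j + 1) ≤ ε / 2 :=
    (pow_le_pow_of_le_one (by norm_num) (by norm_num) (Nat.le_succ j)).trans hj.le
  have hθ0 : (0 : ℝ) ≤ (2 / 3) ^ (j + 1) := by positivity
  obtain ⟨C, hC, H⟩ := pb_iter j (ε / 2) (half_pos hε)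
  generalize (2 / 3 : ℝ) ^ (j + 1) = θ at *
  have key : ∀ (M N : ℝ) (c : O → ℂ), 1 ≤ M → M ≤ N →
      ∑ m ∈ qball M, ‖∑ n ∈ qball N, c n * cub m n‖ ^ 2 ≤
        C * 2 * (M * N) ^ ε * (M + N + (M * N) ^ (2 / 3 : ℝ)) * ∑ n ∈ qball N, ‖c n‖ ^ 2 := by
    intro M N c hM hMN
    have hM0 : 0 < M := by linarith
    have hN0 : 0 < N := by linarith
    have hP : 1 ≤ M * N := by nlinarith
    have hP0 : 0 < M * N := by positivity
    refine (H M N c hM (hM.trans hMN)).trans ?_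
    have a0 : 1 ≤ (M * N) ^ (ε / 2) := Real.one_le_rpow hP (by positivity)
    have a1 : M ^ (4 / 3 + θ) ≤ (M * N) ^ (ε / 2) * (M * N) ^ (2 / 3 : ℝ) := by
      rw [← Real.rpow_add hP0, Real.mul_rpow hM0.le hN0.le, ← mul_one (M ^ (4 / 3 + θ)),
        ← Real.rpow_zero N]
      refine l_rp hM0 hN0 ?_
      have := Real.log_nonneg hM
      have := Real.log_le_log hM0 hMN
      nlinarith
    have p2 : 0 ≤ (M * N) ^ (2 / 3 : ℝ) := by positivity
    have a2 : M ^ (4 / 3 + θ) + N + (M * N) ^ (2 / 3 : ℝ) ≤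
        (M * N) ^ (ε / 2) * (2 * (M + N + (M * N) ^ (2 / 3 : ℝ))) := by
      nlinarith
    calc _ ≤ C * (M * N) ^ (ε / 2) * ((M * N) ^ (ε / 2) * (2 * (M + N + (M * N) ^ (2 / 3 : ℝ)))) *
          ∑ n ∈ qball N, ‖c n‖ ^ 2 := by gcongr
      _ = C * 2 * ((M * N) ^ (ε / 2) * (M * N) ^ (ε / 2)) * (M + N + (M * N) ^ (2 / 3 : ℝ)) *
          ∑ n ∈ qball N, ‖c n‖ ^ 2 := by ring
      _ = _ := by rw [← Real.rpow_add hP0, add_halves]
  refine ⟨C * 2, by positivity, fun M N c hM hN => ?_⟩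
  rcases le_total M N with h | h
  · exact key M N c hM h
  · have hN0 : 0 < N := by linarith
    have hM0 : 0 < M := by linarith
    have := b1_symm (by positivity) (fun c' => key N M c' hN h) c
    rwa [mul_comm N M, add_comm N M] at this

theorem pb_one : PB 1 := by
  intro ε hε
  simpa only [Real.rpow_one] using ls1 ε hε

theorem ls2 : LS2Stmt := by
  classical
  intro ε hε
  obtain ⟨C₁, hC₁, H₁⟩ := db_of_pb le_rfl pb_one hε
  obtain ⟨C₂, hC₂, H₂⟩ := card_le_of_nm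
  refine ⟨C₁ + C₂, by positivity, fun M N c hM hN => ?_⟩
  have hM0 : 0 < M := by linarith
  have hN0 : 0 < N := by linarith
  have h0 : (0 : O) ∈ ball M := mem_ball.2 (by rw [nm_eq_zero.2 rfl]; simpa using hM0.le)
  have a1 := H₁ _ M N c hM hN le_rfl
  have a2 := (ld_triv N c 0).trans (mul_le_mul_of_nonneg_right (H₂ N _ hN0.le fun n hn =>
    ⟨(ld_mem_qball.1 (Finset.mem_filter.1 hn).1).1.1.ne_zero,
      (ld_mem_qball.1 (Finset.mem_filter.1 hn).1).2⟩) (by positivity))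
  simp only [Real.rpow_one] at a1
  rw [← Finset.add_sum_erase _ _ h0]
  have b1 : 1 ≤ (M * N) ^ ε := Real.one_le_rpow (by nlinarith) hε.le
  have b2 : 1 ≤ M ^ (1 / 3 : ℝ) := Real.one_le_rpow hM (by norm_num)
  have b3 : 0 ≤ (M * N) ^ (2 / 3 : ℝ) := by positivity
  have b4 : N ≤ (M * N) ^ ε * (M ^ (1 / 3 : ℝ) * N + M + (M * N) ^ (2 / 3 : ℝ)) := by
    have : N ≤ M ^ (1 / 3 : ℝ) * N + M + (M * N) ^ (2 / 3 : ℝ) := by nlinarith
    nlinarith
  have b5 : C₂ * N * ∑ n ∈ qball N, ‖c n‖ ^ 2 ≤ C₂ * ((M * N) ^ ε *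
      (M ^ (1 / 3 : ℝ) * N + M + (M * N) ^ (2 / 3 : ℝ))) * ∑ n ∈ qball N, ‖c n‖ ^ 2 := by gcongr
  linarith

theorem ls3 : LS3Stmt := by
  intro ε hε
  obtain ⟨C, hC, H⟩ := ls2 ε hε
  refine ⟨C, hC, fun M N a hM hN => ?_⟩
  have hM0 : 0 < M := by linarith
  have hN0 : 0 < N := by linarith
  exact dual_norm (ball M) (qball N) (fun m n => cub m n) (by positivity)
    (fun c => H M N c hM hN) a

theorem hm : HMStmt := by
  classical
  intro ε hε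
  have he : 0 < min (ε / 4) 1 := lt_min (by positivity) one_pos
  obtain ⟨C₁, hC₁, H₁⟩ := db_hm pb_one he
  obtain ⟨C₂, hC₂, H₂⟩ := pstep (ε := ε / 4) (by positivity)
  refine ⟨C₂ * (1 + 6 * C₁), by positivity, fun M N a s hM hN hs => ?_⟩
  have hM0 : 0 < M := by linarith
  have hN0 : 0 < N := by linarith
  refine dual_norm (ball M) s (fun m n => cub m n) (by positivity) (fun c => ?_) a
  have h := (H₂ s.card M N _ _ (H₁ _ (by positivity)) hM0 hN (by positivity)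
    (num_hm hM hC₁.le he.le (min_le_right _ _) (by positivity)) (fun n => if n ∈ s then c n else 0)
    (by
      refine Nat.cast_le.2 (Finset.card_le_card fun n hn => ?_)
      by_contra k
      exact (Finset.mem_filter.1 hn).2 (if_neg k))).trans
    (l_abs (by positivity) hC₂.le hN he.le (min_le_left _ _) hM0.le (by positivity) (by positivity))
  simp only [ite_mul, zero_mul, apply_ite (fun z : ℂ => ‖z‖ ^ 2), norm_zero, ne_eq,
    OfNat.ofNat_ne_zero, not_false_eq_true, zero_pow, Finset.sum_ite_mem,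
    Finset.inter_eq_right.2 hs] at h
  refine h.trans ?_
  have : N ^ ε ≤ (M * N) ^ ε := Real.rpow_le_rpow hN0.le (by nlinarith) hε.le
  simp only [← add_assoc]
  gcongr

end Vale.Agent.P006
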