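import Vale.Agent.P006.LDefs

/-! # The additive large sieve in `O`.

Plan. `packing`: `s₀ = 1 / (2 √Q)`; send `a` to a lattice point `x a` with `‖toC (x a) - p a / s₀‖² ≤ 3/4`
(`exists_near`); this is injective (`‖p a - p b‖² ≤ 3 s₀² < 1/Q`), and `nm (x a) ≤ 2 ‖p a / s₀‖² + 3/2 = 8 Q ‖p a‖² + 3/2`,
so `exp (-(Q ‖p a‖²)) ≤ exp (3/16) * exp (-(nm (x a) / 8))`; `summable_exp`, `Summable.sum_le_tsum`, `Finset.sum_image`.
`theta_sum`: `poisson_general` with `κ = 0`, `δ = c0² Y`.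
`add_sieve`: `dual_norm (ball M) I`, `Y = M + Q`, `1 ≤ exp 1 * exp (-(nm m / Y))`; expand the square,
`ec (m θ i) * conj (ec (m θ j)) = ec (m (θ i - θ j))` (`conj_ec`, `ec_add`), `theta_sum`; Schur test
`‖c i‖ ‖c j‖ ≤ (‖c i‖² + ‖c j‖²) / 2`; for fixed `i` the points `toC l + (θ i - θ j)` indexed by `(j, l)` are separated
(`one_le_nm`, `norm_toC_sq` when `j = j'`), `Real.tsum_le_of_sum_le` and `packing` (`Q ≤ c0² Y`, `c0_sq`, `Real.pi_gt_three`);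
the same for fixed `j`. -/

namespace Vale.Agent.P006

open Vale.Agent.P026
open scoped ComplexConjugate Real

theorem ladd_sq (u v : ℂ) : ‖u - v‖ ^ 2 ≤ 2 * ‖u‖ ^ 2 + 2 * ‖v‖ ^ 2 := by
  have h := pow_le_pow_left₀ (norm_nonneg _) (norm_sub_le u v) 2
  nlinarith [sq_nonneg (‖u‖ - ‖v‖)]

theorem packing : ∃ C : ℝ, 0 < C ∧ ∀ (κ : Type) (s : Finset κ) (p : κ → ℂ) (Q : ℝ), 0 < Q →
    (∀ a ∈ s, ∀ b ∈ s, a ≠ b → 1 / Q ≤ ‖p a - p b‖ ^ 2) →
      ∑ a ∈ s, Real.exp (-(Q * ‖p a‖ ^ 2)) ≤ C := by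
  classical
  have hs := summable_exp (y := 1 / 8) (by norm_num)
  refine ⟨Real.exp (3 / 16) * ∑' n : O, Real.exp (-(1 / 8 * nm n)), mul_pos (Real.exp_pos _)
    (hs.tsum_pos (fun _ => (Real.exp_pos _).le) 0 (Real.exp_pos _)), fun κ s p Q hQ h => ?_⟩
  choose x hx using fun a => exists_near (((2 * √Q : ℝ) : ℂ) * p a)
  have hn : ∀ w : ℂ, ‖((2 * √Q : ℝ) : ℂ) * w‖ ^ 2 = 4 * (Q * ‖w‖ ^ 2) := fun w => by
    rw [norm_mul, Complex.norm_real, mul_pow, Real.norm_eq_abs, sq_abs, mul_pow, Real.sq_sqrt hQ.le]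
    ring
  have h1 : Set.InjOn x s := fun a ha b hb e => by
    by_contra hne
    have h2 := h a ha b hb hne
    have h3 := ladd_sq (toC (x b) - ((2 * √Q : ℝ) : ℂ) * p b) (toC (x a) - ((2 * √Q : ℝ) : ℂ) * p a)
    have h4 := hx a
    have h5 := hx b
    rw [e, sub_sub_sub_cancel_left, ← mul_sub, hn] at h3
    rw [e] at h4
    rw [div_le_iff₀' hQ] at h2
    linarith
  calc ∑ a ∈ s, Real.exp (-(Q * ‖p a‖ ^ 2))
      ≤ ∑ a ∈ s, Real.exp (3 / 16) * Real.exp (-(1 / 8 * nm (x a))) := by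
        refine Finset.sum_le_sum fun a _ => ?_
        have h3 := ladd_sq (toC (x a) - ((2 * √Q : ℝ) : ℂ) * p a) (-(((2 * √Q : ℝ) : ℂ) * p a))
        rw [sub_neg_eq_add, sub_add_cancel, norm_neg, hn, norm_toC_sq] at h3
        rw [← Real.exp_add, Real.exp_le_exp]
        linarith [hx a]
    _ = Real.exp (3 / 16) * ∑ n ∈ s.image x, Real.exp (-(1 / 8 * nm n)) := by
        rw [Finset.sum_image h1, Finset.mul_sum]
    _ ≤ _ := mul_le_mul_of_nonneg_left (hs.sum_le_tsum _ fun _ _ => (Real.exp_pos _).le)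
        (Real.exp_pos _).le

theorem theta_sum {Y : ℝ} (hY : 0 < Y) (θ : ℂ) :
    ∑' m : O, (Real.exp (-(nm m / Y)) : ℝ) * ec (toC m * θ) =
      (c0 * Y : ℝ) * ∑' l : O, ((Real.exp (-(c0 ^ 2 * Y * ‖toC l + θ‖ ^ 2)) : ℝ) : ℂ) := by
  have hc := c0_pos
  have hδ : 0 < c0 ^ 2 * Y := by positivity
  have h := poisson_general hδ 0 θ
  have e1 : (c0 ^ 2 * Y) ^ 2 + 4 * c0 ^ 2 * ‖(0 : ℂ)‖ ^ 2 = (c0 ^ 2 * Y) ^ 2 := by simp
  have e2 : ∀ y : O, c0 ^ 2 * (c0 ^ 2 * Y) / (c0 ^ 2 * Y) ^ 2 * nm y = nm y / Y := fun y => by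
    field_simp
  have e3 : ((c0 * Y : ℝ) : ℂ) * (c0 / (c0 ^ 2 * Y) : ℝ) = 1 := by
    rw [← Complex.ofReal_mul, Complex.ofReal_eq_one]
    field_simp
  simp only [e1, e2, zero_mul, ec_zero, mul_one, map_zero, mul_zero, neg_zero,
    Real.sqrt_sq hδ.le] at h
  simp only [Complex.ofReal_exp, Complex.ofReal_neg]
  rw [h, ← mul_assoc, e3, one_mul]

theorem ladd_row : ∃ C : ℝ, 0 < C ∧ ∀ (ι : Type) (I : Finset ι) (φ : ι → ℂ) (Q δ : ℝ),
    1 ≤ Q → Q ≤ δ → (∀ i ∈ I, ∀ j ∈ I, i ≠ j → ∀ l : O, 1 / Q ≤ ‖toC l + (φ i - φ j)‖ ^ 2) →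
      ∑ i ∈ I, ∑' l : O, Real.exp (-(δ * ‖toC l + φ i‖ ^ 2)) ≤ C := by
  obtain ⟨C, hC, H⟩ := packing
  refine ⟨C, hC, fun ι I φ Q δ hQ hδ h => ?_⟩
  have h1 : ∀ s : Finset O, ∑ l ∈ s, ∑ i ∈ I, Real.exp (-(δ * ‖toC l + φ i‖ ^ 2)) ≤ C := by
    intro s
    rw [← Finset.sum_product']
    refine le_trans (Finset.sum_le_sum fun q _ => ?_)
      (H (O × ι) (s ×ˢ I) (fun q => toC q.1 + φ q.2) Q (by linarith) fun a ha b hb hne => ?_)
    · exact Real.exp_le_exp.2 (neg_le_neg (mul_le_mul_of_nonneg_right hδ (by positivity)))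
    · have e : toC a.1 + φ a.2 - (toC b.1 + φ b.2) = toC (a.1 - b.1) + (φ a.2 - φ b.2) := by
        rw [map_sub]
        ring
      rw [e]
      by_cases h2 : a.2 = b.2
      · rw [h2, sub_self, add_zero, norm_toC_sq]
        refine le_trans ?_ (one_le_nm (sub_ne_zero.2 fun h3 => hne (Prod.ext h3 h2)))
        exact (div_le_one (by linarith)).2 hQ
      · exact h _ (Finset.mem_product.1 ha).2 _ (Finset.mem_product.1 hb).2 h2 _
  have h2 : ∀ i ∈ I, Summable fun l : O => Real.exp (-(δ * ‖toC l + φ i‖ ^ 2)) := fun i hi =>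
    summable_of_sum_le (fun _ => (Real.exp_pos _).le) fun s => le_trans
      (Finset.sum_le_sum fun l _ => Finset.single_le_sum
        (f := fun i => Real.exp (-(δ * ‖toC l + φ i‖ ^ 2))) (fun _ _ => (Real.exp_pos _).le) hi) (h1 s)
  rw [← Summable.tsum_finsetSum h2]
  exact Real.tsum_le_of_sum_le (fun _ => Finset.sum_nonneg fun _ _ => (Real.exp_pos _).le) h1

theorem ladd_expand {ι : Type} (I : Finset ι) (θ c : ι → ℂ) {Y : ℝ} (hY : 0 < Y) (s : Finset O) :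
    ∑ m ∈ s, Real.exp (-(nm m / Y)) * ‖∑ i ∈ I, c i * ec (toC m * θ i)‖ ^ 2 ≤
      c0 * Y * ∑ i ∈ I, ∑ j ∈ I, ‖c i‖ * ‖c j‖ *
        ∑' l : O, Real.exp (-(c0 ^ 2 * Y * ‖toC l + (θ i - θ j)‖ ^ 2)) := by
  have hc := c0_pos
  have hs : Summable fun m : O => Real.exp (-(nm m / Y)) :=
    (summable_exp (y := 1 / Y) (by positivity)).congr fun m => by rw [one_div_mul_eq_div]
  have h1 : ∀ φ : ℂ, Summable fun m : O => (Real.exp (-(nm m / Y)) : ℝ) * ec (toC m * φ) :=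
    fun φ => hs.of_norm_bounded fun m => by
      rw [norm_mul, norm_ec, mul_one, Complex.norm_real, Real.norm_of_nonneg (Real.exp_pos _).le]
  have h2 : ∀ m : O, ((Real.exp (-(nm m / Y)) * ‖∑ i ∈ I, c i * ec (toC m * θ i)‖ ^ 2 : ℝ) : ℂ) =
      ∑ i ∈ I, ∑ j ∈ I, c i * conj (c j) *
        ((Real.exp (-(nm m / Y)) : ℝ) * ec (toC m * (θ i - θ j))) := fun m => by
    rw [Complex.ofReal_mul, ← Complex.normSq_eq_norm_sq, ← Complex.mul_conj, map_sum,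
      Finset.sum_mul_sum, Finset.mul_sum]
    refine Finset.sum_congr rfl fun i _ => ?_
    rw [Finset.mul_sum]
    refine Finset.sum_congr rfl fun j _ => ?_
    rw [map_mul, conj_ec, mul_sub, sub_eq_add_neg, ec_add]
    ring
  have h3 : HasSum (fun m : O =>
      ((Real.exp (-(nm m / Y)) * ‖∑ i ∈ I, c i * ec (toC m * θ i)‖ ^ 2 : ℝ) : ℂ))
      (∑ i ∈ I, ∑ j ∈ I, c i * conj (c j) * ((c0 * Y : ℝ) *
        ((∑' l : O, Real.exp (-(c0 ^ 2 * Y * ‖toC l + (θ i - θ j)‖ ^ 2)) : ℝ) : ℂ))) := by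
    simp only [h2]
    refine hasSum_sum fun i _ => hasSum_sum fun j _ => HasSum.mul_left _ ?_
    rw [Complex.ofReal_tsum, ← theta_sum hY]
    exact (h1 _).hasSum
  have h4 := Complex.hasSum_re h3
  simp only [Complex.ofReal_re] at h4
  refine (sum_le_hasSum s (fun m _ => by positivity) h4).trans ((Complex.re_le_norm _).trans ?_)
  rw [Finset.mul_sum]
  refine norm_sum_le_of_le _ fun i _ => ?_
  rw [Finset.mul_sum]
  refine norm_sum_le_of_le _ fun j _ => le_of_eq ?_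
  rw [norm_mul, norm_mul, norm_mul, Complex.norm_conj, Complex.norm_real, Complex.norm_real,
    Real.norm_of_nonneg (by positivity),
    Real.norm_of_nonneg (tsum_nonneg fun _ => (Real.exp_pos _).le)]
  ring

theorem add_sieve : ∃ C : ℝ, 0 < C ∧ ∀ (ι : Type) (I : Finset ι) (θ : ι → ℂ) (Q M : ℝ) (a : O → ℂ),
    1 ≤ Q → 1 ≤ M → (∀ i ∈ I, ∀ j ∈ I, i ≠ j → ∀ l : O, 1 / Q ≤ ‖toC l + (θ i - θ j)‖ ^ 2) →
      ∑ i ∈ I, ‖∑ m ∈ ball M, a m * ec (toC m * θ i)‖ ^ 2 ≤ C * (M + Q) * ∑ m ∈ ball M, ‖a m‖ ^ 2 := by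
  obtain ⟨C, hC, H⟩ := ladd_row
  have hc := c0_pos
  refine ⟨Real.exp 1 * c0 * C, by positivity, fun ι I θ Q M a hQ hM h => ?_⟩
  have hY : 0 < M + Q := by linarith
  refine dual_norm (ball M) I (fun m i => ec (toC m * θ i)) (by positivity) (fun c => ?_) a
  have hδ : Q ≤ c0 ^ 2 * (M + Q) := by
    have h1 := PoissonAux.c0_sq
    have h2 := Real.pi_gt_three
    have h3 : 1 ≤ c0 ^ 2 := by nlinarith
    nlinarith
  set T : ι → ι → ℝ := fun i j =>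
    ∑' l : O, Real.exp (-(c0 ^ 2 * (M + Q) * ‖toC l + (θ i - θ j)‖ ^ 2)) with hT
  have T0 : ∀ i j, 0 ≤ T i j := fun i j => tsum_nonneg fun _ => (Real.exp_pos _).le
  have T1 : ∀ i, ∑ j ∈ I, T i j ≤ C := fun i => H ι I (fun j => θ i - θ j) Q _ hQ hδ
    fun j hj j' hj' hne l => by
      rw [sub_sub_sub_cancel_left]
      exact h j' hj' j hj hne.symm l
  have T2 : ∀ j, ∑ i ∈ I, T i j ≤ C := fun j => H ι I (fun i => θ i - θ j) Q _ hQ hδ
    fun i hi i' hi' hne l => by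
      rw [sub_sub_sub_cancel_right]
      exact h i hi i' hi' hne l
  have h1 : ∑ i ∈ I, ∑ j ∈ I, ‖c i‖ * ‖c j‖ * T i j ≤ C * ∑ i ∈ I, ‖c i‖ ^ 2 := by
    have h2 : ∑ i ∈ I, ∑ j ∈ I, ‖c i‖ ^ 2 * T i j ≤ C * ∑ i ∈ I, ‖c i‖ ^ 2 := by
      rw [Finset.mul_sum]
      refine Finset.sum_le_sum fun i _ => ?_
      rw [← Finset.mul_sum, mul_comm C]
      exact mul_le_mul_of_nonneg_left (T1 i) (by positivity)
    have h3 : ∑ i ∈ I, ∑ j ∈ I, ‖c j‖ ^ 2 * T i j ≤ C * ∑ i ∈ I, ‖c i‖ ^ 2 := by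
      rw [Finset.sum_comm, Finset.mul_sum]
      refine Finset.sum_le_sum fun j _ => ?_
      rw [← Finset.mul_sum, mul_comm C]
      exact mul_le_mul_of_nonneg_left (T2 j) (by positivity)
    have h4 : 2 * ∑ i ∈ I, ∑ j ∈ I, ‖c i‖ * ‖c j‖ * T i j ≤
        ∑ i ∈ I, ∑ j ∈ I, ‖c i‖ ^ 2 * T i j + ∑ i ∈ I, ∑ j ∈ I, ‖c j‖ ^ 2 * T i j := by
      rw [← Finset.sum_add_distrib, Finset.mul_sum]
      refine Finset.sum_le_sum fun i _ => ?_
      rw [← Finset.sum_add_distrib, Finset.mul_sum]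
      refine Finset.sum_le_sum fun j _ => ?_
      nlinarith [mul_nonneg (sq_nonneg (‖c i‖ - ‖c j‖)) (T0 i j)]
    linarith
  calc ∑ m ∈ ball M, ‖∑ i ∈ I, c i * ec (toC m * θ i)‖ ^ 2
      ≤ Real.exp 1 * ∑ m ∈ ball M, Real.exp (-(nm m / (M + Q))) *
          ‖∑ i ∈ I, c i * ec (toC m * θ i)‖ ^ 2 := by
        rw [Finset.mul_sum]
        refine Finset.sum_le_sum fun m hm => ?_
        rw [← mul_assoc, ← Real.exp_add]
        refine le_mul_of_one_le_left (by positivity) (Real.one_le_exp ?_)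
        have h2 : (nm m : ℝ) / (M + Q) ≤ 1 := (div_le_one hY).2 (by linarith [mem_ball.1 hm])
        linarith
    _ ≤ Real.exp 1 * (c0 * (M + Q) * (C * ∑ i ∈ I, ‖c i‖ ^ 2)) :=
        mul_le_mul_of_nonneg_left ((ladd_expand I θ c hY _).trans
          (mul_le_mul_of_nonneg_left h1 (by positivity))) (Real.exp_pos _).le
    _ = _ := by ring

end Vale.Agent.P006
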