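import Vale.Agent.P006.LDefs

/-! # Numerators `k = v x y² z³` and counting.

Plan. `exists_xyz`: strong induction on `nm k`.  If `p ^ 3 ∣ k` for a prime `p`, use `k = p ^ 3 k'`.  Otherwise
`exists_sq_mul_sqf` gives `k = l ^ 2 a` with `a` squarefree, `l` is squarefree (`p * p ∣ l` gives `p ^ 3 ∣ k`;
`squarefree_iff_irreducible_sq_not_dvd_of_ne_zero`) and coprime to `a`; `exists_decomp` for `a` and `l`, the
exponents of `lam` are at most `1` by squarefreeness (`prime_lam`), `v = u u'² lam ^ (i + 2 i')`, `nm_lam`.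
`cub_xyz`: `cub_mul_left`, `cub_pow_left`, `conj_cub`.
`sum_pairs`: `Finset.sum_le_sum_of_subset_of_nonneg` into `P.image fst ×ˢ P.image snd`, `Finset.sum_product`,
`Finset.sum_mul_sum`, `sum_rpow_le_const`.  `card_pairs` (Rankin): each pair contributes
`1 ≤ (W / (nm y ^ a * nm z ^ b)) ^ σ`. -/

namespace Vale.Agent.P006

open Vale.Agent.P026
open scoped ComplexConjugate Real

theorem ldec_sqf {a : O} (ha : Squarefree a) :
    ∃ v c : O, v ≠ 0 ∧ nm v ≤ 3 ∧ Sq c ∧ a = v * c := by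
  obtain ⟨u, j, c, hu, hc, rfl⟩ := exists_decomp ha.ne_zero
  have hj : j ≤ 1 := by
    by_contra h
    obtain ⟨i, rfl⟩ : ∃ i, j = i + 2 := ⟨j - 2, by omega⟩
    exact prime_lam.not_isUnit (ha lam ⟨u * lam ^ i * c, by ring⟩)
  refine ⟨u * lam ^ j, c, mul_ne_zero hu.ne_zero (pow_ne_zero _ prime_lam.ne_zero), ?_,
    ⟨hc, ha.of_mul_right⟩, rfl⟩
  rw [nm_mul, nm_pow, isUnit_iff_nm.1 hu, nm_lam, one_mul]
  interval_cases j <;> norm_num

theorem exists_xyz {k : O} (hk : k ≠ 0) : ∃ v x y z : O, v ≠ 0 ∧ nm v ≤ 27 ∧ Sq x ∧ Sq y ∧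
    IsCoprime x y ∧ z ≠ 0 ∧ k = v * x * y ^ 2 * z ^ 3 := by
  induction hn : nm k using Nat.strong_induction_on generalizing k with
  | _ n ih =>
    by_cases h : ∃ p : O, Prime p ∧ p ^ 3 ∣ k
    · obtain ⟨p, hp, k', rfl⟩ := h
      have hk' : k' ≠ 0 := right_ne_zero_of_mul hk
      have h1 : nm k' < n := by
        have h2 : 1 < nm p := by
          have a1 := nm_pos hp.ne_zero
          have a2 : nm p ≠ 1 := fun h => hp.not_isUnit (isUnit_iff_nm.2 h)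
          omega
        have h3 := nm_pos hk'
        have h4 : 1 < nm p ^ 3 := Nat.one_lt_pow (by norm_num) h2
        rw [← hn, nm_mul, nm_pow]
        nlinarith
      obtain ⟨v, x, y, z, h1, h2, h3, h4, h5, h6, h7⟩ := ih _ h1 hk' rfl
      exact ⟨v, x, y, p * z, h1, h2, h3, h4, h5, mul_ne_zero hp.ne_zero h6, by rw [h7]; ring⟩
    · obtain ⟨a, l, rfl, ha⟩ := exists_sq_mul_sqf hk
      have hl0 : l ≠ 0 := fun h0 => hk (by rw [h0]; ring)
      have hl : Squarefree l := by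
        rw [squarefree_iff_irreducible_sq_not_dvd_of_ne_zero hl0]
        rintro p hp ⟨c, rfl⟩
        exact h ⟨p, hp.prime, p * c ^ 2 * a, by ring⟩
      have hc : IsCoprime a l := by
        refine isCoprime_of_prime_dvd (fun h0 => hl0 h0.2) ?_
        rintro p hp ⟨c, rfl⟩ ⟨d, rfl⟩
        exact h ⟨p, hp, d ^ 2 * c, by ring⟩
      obtain ⟨v, x, h1, h2, h3, rfl⟩ := ldec_sqf ha
      obtain ⟨w, y, h4, h5, h6, rfl⟩ := ldec_sqf hl
      refine ⟨v * w ^ 2, x, y, 1, mul_ne_zero h1 (pow_ne_zero _ h4), ?_, h3, h6,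
        hc.of_mul_left_right.of_mul_right_right, one_ne_zero, by ring⟩
      rw [nm_mul, nm_pow]
      calc nm v * nm w ^ 2 ≤ 3 * 3 ^ 2 := by gcongr
        _ = 27 := by norm_num

theorem cub_xyz (v x y z n : O) :
    cub (v * x * y ^ 2 * z ^ 3) n = cub (v * z ^ 3) n * cub x n * conj (cub y n) := by
  simp only [cub_mul_left, cub_pow_left, conj_cub]
  ring

theorem sum_pairs {σ τ : ℝ} (hσ : 1 < σ) (hτ : 1 < τ) : ∃ C : ℝ, 0 < C ∧ ∀ P : Finset (O × O),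
    ∑ p ∈ P, (nm p.1 : ℝ) ^ (-σ) * (nm p.2 : ℝ) ^ (-τ) ≤ C := by
  classical
  obtain ⟨C₁, hC₁, H₁⟩ := sum_rpow_le_const hσ
  obtain ⟨C₂, hC₂, H₂⟩ := sum_rpow_le_const hτ
  refine ⟨C₁ * C₂, by positivity, fun P => ?_⟩
  refine (Finset.sum_le_sum_of_subset_of_nonneg Finset.subset_product
    fun _ _ _ => by positivity).trans ?_
  rw [Finset.sum_product]
  simp only
  rw [← Finset.sum_mul_sum]
  exact mul_le_mul (H₁ _) (H₂ _) (Finset.sum_nonneg fun _ _ => by positivity) hC₁.le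

theorem card_pairs {a b σ : ℝ} (hσ : 0 < σ) (ha : 1 < a * σ) (hb : 1 < b * σ) :
    ∃ C : ℝ, 0 < C ∧ ∀ (W : ℝ) (P : Finset (O × O)), 0 < W →
      (∀ p ∈ P, p.1 ≠ 0 ∧ p.2 ≠ 0 ∧ (nm p.1 : ℝ) ^ a * (nm p.2 : ℝ) ^ b ≤ W) →
        (P.card : ℝ) ≤ C * W ^ σ := by
  obtain ⟨C, hC, H⟩ := sum_pairs ha hb
  refine ⟨C, hC, fun W P hW hP => ?_⟩
  refine le_trans ?_ (mul_le_mul_of_nonneg_right (H P) (by positivity))
  rw [Finset.sum_mul, Finset.card_eq_sum_ones, Nat.cast_sum]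
  refine Finset.sum_le_sum fun p hp => ?_
  obtain ⟨h1, h2, h3⟩ := hP p hp
  have a1 : (0 : ℝ) < nm p.1 := Nat.cast_pos.2 (nm_pos h1)
  have a2 : (0 : ℝ) < nm p.2 := Nat.cast_pos.2 (nm_pos h2)
  have a3 := Real.rpow_le_rpow (by positivity) h3 hσ.le
  rw [Real.mul_rpow (by positivity) (by positivity), ← Real.rpow_mul a1.le,
    ← Real.rpow_mul a2.le] at a3
  rw [Real.rpow_neg a1.le, Real.rpow_neg a2.le, ← mul_inv, Nat.cast_one, inv_mul_eq_div,
    one_le_div (by positivity)]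
  exact a3

end Vale.Agent.P006
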