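import Vale.Agent.P006.Defs
import Vale.Agent.P026.QZero

/-! # Part L (large sieves): definitions and elementary facts.

`PB ξ` is the large sieve on `Sq × Sq` with exponent `ξ` in the outer variable, `DB R Φ` a mean square
bound over all nonzero numerators for coefficients with at most `R` nonzero entries.
Chain: `pstep` (Poisson step: `DB` for the dual sum gives a bound over all numerators), `db_of_pb`, `db_hm`
(numerators `k = v x y² z³`), `pb_step` (recursion `4/3 + θ ↦ 4/3 + 2θ/3`), `add_sieve` (additive sieve). -/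

namespace Vale.Agent.P006

open Vale.Agent.P026
open scoped ComplexConjugate Real

def PB (ξ : ℝ) : Prop :=
  ∀ ε : ℝ, 0 < ε → ∃ C : ℝ, 0 < C ∧ ∀ (M N : ℝ) (c : O → ℂ), 1 ≤ M → 1 ≤ N →
    ∑ m ∈ qball M, ‖∑ n ∈ qball N, c n * cub m n‖ ^ 2 ≤
      C * (M * N) ^ ε * (M ^ ξ + N + (M * N) ^ (2 / 3 : ℝ)) * ∑ n ∈ qball N, ‖c n‖ ^ 2

open Classical in
def DB (R : ℝ) (Φ : ℝ → ℝ → ℝ) : Prop :=
  ∀ (Z N : ℝ) (c : O → ℂ), 1 ≤ Z → 1 ≤ N → (((qball N).filter fun n => c n ≠ 0).card : ℝ) ≤ R →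
    ∑ k ∈ (ball Z).erase 0, ‖∑ n ∈ qball N, c n * cub k n‖ ^ 2 ≤ Φ Z N * ∑ n ∈ qball N, ‖c n‖ ^ 2

/-- the numerical hypothesis of the Poisson step -/
def PsNum (Y N Ψ : ℝ) (Φ : ℝ → ℝ → ℝ) : Prop :=
  ∀ e x y : ℝ, 1 ≤ e → 1 ≤ 2 * x → e * x ≤ N → 1 ≤ y → 1 ≤ y * (e * x ^ 2 / Y) →
    Y / (e * x) * Φ (y * (e * x ^ 2 / Y)) (2 * x) ≤ Ψ * y ^ 3

theorem ld_mem_qball {X : ℝ} {x : O} : x ∈ qball X ↔ Sq x ∧ (nm x : ℝ) ≤ X := by
  classical
  simp only [qball, Finset.mem_filter, mem_ball]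
  exact and_comm

theorem ld_qball_mono {X Y : ℝ} (h : X ≤ Y) : qball X ⊆ qball Y := fun _ hx =>
  ld_mem_qball.2 ⟨(ld_mem_qball.1 hx).1, (ld_mem_qball.1 hx).2.trans h⟩

theorem ld_qball_subset (X : ℝ) : qball X ⊆ ball X := fun _ hx => mem_ball.2 (ld_mem_qball.1 hx).2

theorem ld_sball_subset (X : ℝ) : sball X ⊆ qball X := fun _ hx =>
  ld_mem_qball.2 ⟨⟨(mem_sball.1 hx).1.1.1, (mem_sball.1 hx).1.2⟩, (mem_sball.1 hx).2⟩

theorem ld_norm_conj (s : Finset O) (c f : O → ℂ) :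
    ‖∑ n ∈ s, c n * conj (f n)‖ = ‖∑ n ∈ s, conj (c n) * f n‖ := by
  rw [← Complex.norm_conj, map_sum]
  simp only [map_mul, Complex.conj_conj]

/-- symmetry of the norm on `Sq × Sq` -/
theorem b1_symm {M N K : ℝ} (hK : 0 ≤ K)
    (h : ∀ c : O → ℂ, ∑ m ∈ qball M, ‖∑ n ∈ qball N, c n * cub m n‖ ^ 2 ≤
      K * ∑ n ∈ qball N, ‖c n‖ ^ 2) (c : O → ℂ) :
    ∑ n ∈ qball N, ‖∑ m ∈ qball M, c m * cub n m‖ ^ 2 ≤ K * ∑ m ∈ qball M, ‖c m‖ ^ 2 := by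
  refine le_of_eq_of_le (Finset.sum_congr rfl fun n hn => ?_)
    (dual_norm (qball M) (qball N) (fun m n => cub m n) hK h c)
  congr 2
  exact Finset.sum_congr rfl fun m hm => by
    rw [cub_recip (ld_mem_qball.1 hn).1.1 (ld_mem_qball.1 hm).1.1]

open Classical in
/-- Cauchy-Schwarz on the support -/
theorem ld_triv (N : ℝ) (c : O → ℂ) (k : O) : ‖∑ n ∈ qball N, c n * cub k n‖ ^ 2 ≤
    ((qball N).filter fun n => c n ≠ 0).card * ∑ n ∈ qball N, ‖c n‖ ^ 2 := by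
  rw [← Finset.sum_filter_of_ne (p := fun n => c n ≠ 0) fun n _ h => left_ne_zero_of_mul h]
  refine (pow_le_pow_left₀ (norm_nonneg _) (norm_sum_le_of_le _ (n := fun n => ‖c n‖)
    fun n _ => ?_) 2).trans (sq_sum_le_card_mul_sum_sq.trans ?_)
  · rw [norm_mul]
    exact mul_le_of_le_one_right (norm_nonneg _) (norm_cub_le _ _)
  · exact mul_le_mul_of_nonneg_left (Finset.sum_le_sum_of_subset_of_nonneg
      (Finset.filter_subset _ _) fun _ _ _ => by positivity) (by positivity)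

end Vale.Agent.P006
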