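import Vale.Agent.P006.LFam

/-! # The Poisson step for one dyadic piece.

Plan (compare `q0` in P026/QZero.lean and `large2` in P026/QLarge.lean).  `F` from `exists_famC`;
`1 ≤ exp 1 * exp (-(nm h / Y))` on `ball Y`, `summable_sq0`, `sq_expand_le` with `g = 1`, `psx0` with `B = 2`,
`A' = 0`, `c = 1`.  For `Δ ∈ sball (2X)`, `e ∈ pdiv Δ`, `f`: `x = X / nm Δ`, `K = nm e * x ^ 2 / Y`; the weight is
`(1 + nm k / K) ^ (-5)`, the prefactor is `Y / (nm e * x)`.  `dyadic_weight` (`A = 5`, `p = 3`) with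
`D = (nm e * x / Y) * Ψ * ∑ ‖γ‖²`: if `y K < 1` the sum is empty (`0 ∉ s`, `one_le_nm`), otherwise apply `DB` with
`Z = y K`, `N = 2 x` to the coefficients `conj (γ m)` on `sball (2X)`, `0` elsewhere (`ld_norm_conj`; they vanish
unless `nm m ≤ 2 x`; their support injects into the support of `b` by `m ↦ Δ m`), where
`γ m = ind .. * ind (f ∣ m) * b (Δ m) * cub e m * gt3 m * nt m t`, `‖γ m‖ ≤ ‖ind (f ∣ m) * b (Δ m)‖`.
`y ^ (3 : ℝ) = y ^ 3`.  Finish with `sum_tau_le`, `(2X) ^ ε ≤ 2 ^ ε X ^ ε`, `1 ≤ X ^ ε`. -/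

namespace Vale.Agent.P006

open Vale.Agent.P026
open scoped ComplexConjugate Real

open Classical in
theorem lpsa_inner : ∃ C : ℝ, 0 < C ∧ ∀ (R Y X Ψ e x : ℝ) (Φ : ℝ → ℝ → ℝ) (T s : Finset O)
    (γ : O → ℂ), DB R Φ → 0 < Y → 0 ≤ Ψ → PsNum Y X Ψ Φ → 1 ≤ e → 1 ≤ 2 * x → e * x ≤ X →
      (∀ m ∈ T, γ m ≠ 0 → m ∈ qball (2 * x)) → ((T.filter fun m => γ m ≠ 0).card : ℝ) ≤ R → 0 ∉ s →
      Y / (e * x) * ∑ k ∈ s, (1 + (nm k : ℝ) / (e * x ^ 2 / Y)) ^ (-5 : ℝ) *
        ‖∑ m ∈ T, γ m * conj (cub k m)‖ ^ 2 ≤ C * Ψ * ∑ m ∈ T, ‖γ m‖ ^ 2 := by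
  obtain ⟨C, hC, H⟩ := dyadic_weight (A := 5) (p := 3) (by norm_num) (by norm_num)
  refine ⟨C, hC, fun R Y X Ψ e x Φ T s γ hD hY hΨ hN he hx hex hT hR hs => ?_⟩
  have hx0 : 0 < x := by linarith
  have he0 : 0 < e := by linarith
  have hS : 0 ≤ ∑ m ∈ T, ‖γ m‖ ^ 2 := by positivity
  have tr : ∀ {M : Type} [AddCommMonoid M] (g : O → M), (∀ m, γ m = 0 → g m = 0) →
      ∑ m ∈ qball (2 * x), (if m ∈ T then g m else 0) = ∑ m ∈ T, g m := by
    intro M _ g hg
    rw [Finset.sum_ite_mem]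
    refine Finset.sum_subset Finset.inter_subset_right fun m hm hm' => hg m ?_
    by_contra h0
    exact hm' (Finset.mem_inter.2 ⟨hT m hm h0, hm⟩)
  have h := H (fun k => ‖∑ m ∈ T, γ m * conj (cub k m)‖ ^ 2) (e * x ^ 2 / Y)
    (e * x / Y * Ψ * ∑ m ∈ T, ‖γ m‖ ^ 2) s (fun _ _ => by positivity) (by positivity) fun y hy => by
      rcases (s.filter fun k => (nm k : ℝ) ≤ y * (e * x ^ 2 / Y)).eq_empty_or_nonempty with
        h0 | ⟨k, hk⟩
      · rw [h0, Finset.sum_empty]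
        positivity
      have hK : 1 ≤ y * (e * x ^ 2 / Y) :=
        (one_le_nm fun h0 : k = 0 => hs (h0 ▸ (Finset.mem_filter.1 hk).1)).trans
          (Finset.mem_filter.1 hk).2
      have a1 := hD (y * (e * x ^ 2 / Y)) (2 * x) (fun m => if m ∈ T then conj (γ m) else 0) hK hx
        (le_trans (Nat.cast_le.2 (Finset.card_le_card fun m hm => by
          have h1 := (Finset.mem_filter.1 hm).2
          by_cases h2 : m ∈ T
          · rw [if_pos h2] at h1
            exact Finset.mem_filter.2 ⟨h2, fun h3 => h1 (by rw [h3, map_zero])⟩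
          · exact absurd (if_neg h2) h1)) hR)
      simp only [ite_mul, zero_mul, apply_ite (fun z : ℂ => ‖z‖ ^ 2), norm_zero, ne_eq,
        OfNat.ofNat_ne_zero, not_false_eq_true, zero_pow, Complex.norm_conj] at a1
      rw [tr _ fun m hm => by simp [hm]] at a1
      have a2 : ∀ k, ∑ m ∈ qball (2 * x), (if m ∈ T then conj (γ m) * cub k m else 0) =
          ∑ m ∈ T, conj (γ m) * cub k m := fun k => tr _ fun m hm => by simp [hm]
      simp only [a2, ← ld_norm_conj] at a1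
      refine (Finset.sum_le_sum_of_subset_of_nonneg (fun k hk => ?_)
        fun _ _ _ => by positivity).trans (a1.trans ?_)
      · exact Finset.mem_erase.2 ⟨fun h0 => hs (h0 ▸ (Finset.mem_filter.1 hk).1),
          mem_ball.2 (Finset.mem_filter.1 hk).2⟩
      · have a3 := hN e x y he hx hex hy hK
        rw [div_mul_eq_mul_div, div_le_iff₀ (by positivity)] at a3
        have a4 : Φ (y * (e * x ^ 2 / Y)) (2 * x) ≤ e * x / Y * Ψ * y ^ 3 := by
          rw [div_mul_eq_mul_div, div_mul_eq_mul_div, le_div_iff₀ hY]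
          linarith
        rw [show (3 : ℝ) = (3 : ℕ) by norm_num, Real.rpow_natCast]
        calc _ ≤ e * x / Y * Ψ * y ^ 3 * ∑ m ∈ T, ‖γ m‖ ^ 2 := by gcongr
          _ = _ := by ring
  refine (mul_le_mul_of_nonneg_left h (by positivity)).trans (le_of_eq ?_)
  field_simp

open Classical in
theorem pstepA {ε : ℝ} (hε : 0 < ε) : ∃ C : ℝ, 0 < C ∧
    ∀ (R Y X Ψ : ℝ) (Φ : ℝ → ℝ → ℝ), DB R Φ → 0 < Y → 1 ≤ X → 0 ≤ Ψ → PsNum Y X Ψ Φ →
      ∀ b : O → ℂ, (∀ n, b n ≠ 0 → n ∈ sball (2 * X) ∧ X / 2 ≤ nm n) →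
        (((sball (2 * X)).filter fun n => b n ≠ 0).card : ℝ) ≤ R →
        ∑ h ∈ ball Y, ‖∑ n ∈ sball (2 * X), b n * cub h n‖ ^ 2 ≤
          C * X ^ ε * (Y + Ψ) * ∑ n ∈ sball (2 * X), ‖b n‖ ^ 2 := by
  obtain ⟨F, hF, -⟩ := exists_famC
  obtain ⟨C₁, hC₁, H₁⟩ := lpsa_inner
  obtain ⟨C₂, hC₂, H₂⟩ := sum_tau_le ε hε
  obtain ⟨C₃, hC₃, H₃⟩ := psx0 F (B := 2) (by norm_num) 0
  refine ⟨Real.exp 1 * C₃ * (C₁ * C₂ * 2 ^ ε + 1), by positivity,
    fun R Y X Ψ Φ hD hY hX hΨ hN b hb hR => ?_⟩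
  have hX0 : 0 < X := by linarith
  set S := ∑ n ∈ sball (2 * X), ‖b n‖ ^ 2 with hS
  have hS0 : 0 ≤ S := by positivity
  have h3 := H₃ X Y (C₁ * Ψ * (C₂ * (2 * X) ^ ε * S)) b (fun _ => 1) hX0 hY
    (fun n hn => ⟨(hb n hn).2, (mem_sball.1 (hb n hn).1).2⟩) (fun _ => zero_le_one)
    fun t α s hs => by
      rw [Real.rpow_zero, mul_one]
      refine le_trans ?_ (mul_le_mul_of_nonneg_left
        (H₂ (2 * X) b (by linarith) fun n hn => (hb n hn).1) (by positivity))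
      rw [Finset.mul_sum]
      refine Finset.sum_le_sum fun Δ hΔ => ?_
      have hΔ0 : Δ ≠ 0 := (mem_sball.1 hΔ).1.1.1.ne_zero
      have n1 : (1 : ℝ) ≤ nm Δ := one_le_nm hΔ0
      rw [mul_left_comm, ← nsmul_eq_mul]
      refine Finset.sum_le_card_nsmul _ _ _ fun e he => ?_
      obtain ⟨he1, he2⟩ := (mem_pdiv hΔ0).1 he
      have n2 : (1 : ℝ) ≤ nm e := one_le_nm he1.ne_zero
      have n3 : (nm e : ℝ) ≤ nm Δ := by exact_mod_cast nm_le_of_dvd hΔ0 he2
      rw [one_mul, Finset.mul_sum, Finset.mul_sum]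
      refine Finset.sum_le_sum fun f _ => ?_
      have hne : ∀ m, ind ((72 : O) ∣ m - α) * ind (f ∣ m) * b (Δ * m) * F.X m e * F.g m * nt m t ≠ 0 →
          b (Δ * m) ≠ 0 := fun m h0 => right_ne_zero_of_mul (left_ne_zero_of_mul
            (left_ne_zero_of_mul (left_ne_zero_of_mul h0)))
      have a1 := H₁ R Y X Ψ (nm e) (X / nm Δ) Φ (sball (2 * X)) s
        (fun m => ind ((72 : O) ∣ m - α) * ind (f ∣ m) * b (Δ * m) * F.X m e * F.g m * nt m t)
        hD hY hΨ hN n2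
        (by rw [← mul_div_assoc, le_div_iff₀ (by positivity), one_mul]; exact (mem_sball.1 hΔ).2)
        (by rw [← mul_div_assoc, div_le_iff₀ (by positivity)]; nlinarith)
        (fun m hm h0 => by
          have b1 := (mem_sball.1 (hb _ (hne m h0)).1).2
          rw [nm_mul, Nat.cast_mul] at b1
          refine ld_mem_qball.2 ⟨(ld_mem_qball.1 (ld_sball_subset _ hm)).1, ?_⟩
          rw [← mul_div_assoc, le_div_iff₀ (by positivity)]
          linarith)
        (le_trans (Nat.cast_le.2 (Finset.card_le_card_of_injOn (fun m => Δ * m) (fun m hm => by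
          have h0 := hne m (Finset.mem_filter.1 (Finset.mem_coe.1 hm)).2
          exact Finset.mem_coe.2 (Finset.mem_filter.2 ⟨(hb _ h0).1, h0⟩))
          fun _ _ _ _ h => mul_left_cancel₀ hΔ0 h)) hR) hs
      refine le_trans (le_of_eq ?_) (a1.trans (mul_le_mul_of_nonneg_left
        (Finset.sum_le_sum fun m hm => pow_le_pow_left₀ (norm_nonneg _) ?_ 2) (by positivity)))
      · congr 1
        · field_simp
        · refine Finset.sum_congr rfl fun k _ => ?_
          congr 2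
          · field_simp
          · congr 1
            refine Finset.sum_congr rfl fun m _ => ?_
            rw [hF m k]
            ring
      · have hm' := (mem_sball.1 hm).1
        rw [norm_mul, norm_mul, norm_mul, norm_nt, F.norm_g m hm', mul_one, mul_one, mul_assoc,
          norm_mul]
        exact (mul_le_of_le_one_right (by positivity) (norm_X_le F hm'.1 e)).trans
          (mul_le_of_le_one_left (norm_nonneg _) (norm_ind_le _))
  have e1 := sq_expand_le F hY (fun n hn => (hb n hn).1) 1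
  simp only [ind_of (one_dvd _), one_mul, norm_one] at e1 h3
  have s0 := summable_sq0 F hY (2 * X) b
  simp only [hF] at e1 s0
  have p1 : 1 ≤ X ^ ε := Real.one_le_rpow hX hε.le
  have p2 : 0 ≤ C₁ * C₂ * 2 ^ ε := by positivity
  calc ∑ h ∈ ball Y, ‖∑ n ∈ sball (2 * X), b n * cub h n‖ ^ 2
      ≤ ∑ h ∈ ball Y, Real.exp 1 * (Real.exp (-(nm h / Y)) *
          ‖∑ n ∈ sball (2 * X), b n * cub h n‖ ^ 2) := by
        refine Finset.sum_le_sum fun h hh => ?_
        rw [← mul_assoc, ← Real.exp_add]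
        refine le_mul_of_one_le_left (by positivity) (Real.one_le_exp ?_)
        have : (nm h : ℝ) / Y ≤ 1 := (div_le_one hY).2 (mem_ball.1 hh)
        linarith
    _ ≤ Real.exp 1 * (C₃ * (C₁ * Ψ * (C₂ * (2 * X) ^ ε * S) + Y * S)) := by
        rw [← Finset.mul_sum]
        exact mul_le_mul_of_nonneg_left
          ((s0.sum_le_tsum _ fun h _ => by positivity).trans (e1.trans h3)) (Real.exp_pos 1).le
    _ = Real.exp 1 * C₃ * ((C₁ * C₂ * 2 ^ ε * X ^ ε * Ψ + Y) * S) := by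
        rw [Real.mul_rpow (by norm_num) hX0.le]
        ring
    _ ≤ Real.exp 1 * C₃ * (((C₁ * C₂ * 2 ^ ε + 1) * X ^ ε * (Y + Ψ)) * S) := by
        gcongr
        nlinarith [mul_nonneg p2 (mul_nonneg (zero_le_one.trans p1) hY.le),
          mul_nonneg (zero_le_one.trans p1) hΨ]
    _ = _ := by ring

end Vale.Agent.P006
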