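import Vale.Agent.P006.LPsA

/-! # The Poisson step.

Plan. `pstepS`: dyadic pieces `Nat.log 2 (nm n) = j`, `X = 2 ^ j ≤ N`, exactly as in `qls` (P026/QLS.lean:
`log_mem_range`, `pow_log_floor_le`, `sum_fiberwise_of_maps_to`, `sq_sum_le_card_mul_sum_sq`,
`J + 1 ≤ C N ^ (ε/2)`); `PsNum Y N Ψ Φ` implies `PsNum Y X Ψ Φ` for `X ≤ N`.
`pstep`: `qball N` is the disjoint union of `sball N` and the image of `{m ∈ sball N | nm (-2 m) ≤ N}` under
`m ↦ -2 m` (`prim_neg_two`, `Prim.of_mul`, `prime_two`, squarefreeness); `cub h (-2 m) = cub h (-2) * cub h m`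
(`cub_mul_right`, `norm_cub_le`), `‖x + y‖² ≤ 2 ‖x‖² + 2 ‖y‖²`; apply `pstepS` to `b` and to
`m ↦ if -2 m ∈ qball N then b (-2 m) else 0`. -/

namespace Vale.Agent.P006

open Vale.Agent.P026
open scoped ComplexConjugate Real

theorem lpsb_log {ε : ℝ} (hε : 0 < ε) {N : ℝ} (hN : 1 ≤ N) :
    ((Nat.log 2 ⌊N⌋₊ + 1 : ℕ) : ℝ) ≤ (2 / ε + 1) * N ^ ε := by
  have a1 := Real.log_le_log (by positivity) (pow_log_floor_le hN)
  have a2 := Real.log_le_rpow_div (by linarith : 0 ≤ N) hε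
  have a3 := Real.log_two_gt_d9
  have a4 : 1 ≤ N ^ ε := Real.one_le_rpow hN hε.le
  rw [Real.log_pow] at a1
  have a5 : (0 : ℝ) ≤ Nat.log 2 ⌊N⌋₊ := Nat.cast_nonneg _
  have a6 : 2 / ε * N ^ ε = 2 * (N ^ ε / ε) := by ring
  push_cast
  nlinarith

open Classical in
theorem pstepS {ε : ℝ} (hε : 0 < ε) : ∃ C : ℝ, 0 < C ∧
    ∀ (R Y N Ψ : ℝ) (Φ : ℝ → ℝ → ℝ), DB R Φ → 0 < Y → 1 ≤ N → 0 ≤ Ψ → PsNum Y N Ψ Φ →
      ∀ b : O → ℂ, (((sball N).filter fun n => b n ≠ 0).card : ℝ) ≤ R →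
        ∑ h ∈ ball Y, ‖∑ n ∈ sball N, b n * cub h n‖ ^ 2 ≤
          C * N ^ ε * (Y + Ψ) * ∑ n ∈ sball N, ‖b n‖ ^ 2 := by
  obtain ⟨C, hC, H⟩ := pstepA (half_pos hε)
  refine ⟨(2 / (ε / 2) + 1) * C, by positivity, fun R Y N Ψ Φ hD hY hN hΨ hP b hR => ?_⟩
  have hN0 : 0 < N := by linarith
  have hJW := lpsb_log (half_pos hε) hN
  set J := Nat.log 2 ⌊N⌋₊ with hJ
  have hJ2 : (2 : ℝ) ^ J ≤ N := pow_log_floor_le hN
  have maps : ∀ n ∈ sball N, Nat.log 2 (nm n) ∈ Finset.range (J + 1) := fun n hn =>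
    log_mem_range (mem_ball.2 (mem_sball.1 hn).2)
  have piece : ∀ j ∈ Finset.range (J + 1), ∑ h ∈ ball Y,
      ‖∑ n ∈ sball N with Nat.log 2 (nm n) = j, b n * cub h n‖ ^ 2 ≤
      C * N ^ (ε / 2) * (Y + Ψ) * ∑ n ∈ sball N with Nat.log 2 (nm n) = j, ‖b n‖ ^ 2 := by
    intro j hj
    set s := (sball N).filter fun n => Nat.log 2 (nm n) = j with hs
    have rng : ∀ n ∈ s, n ∈ sball (2 * 2 ^ j) ∧ (2 : ℝ) ^ j / 2 ≤ nm n := by
      intro n hn
      obtain ⟨k1, k2⟩ := Finset.mem_filter.1 hn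
      have k3 := (mem_sball.1 k1).1
      have u : nm n < 2 ^ (j + 1) := k2 ▸ Nat.lt_pow_succ_log_self (by norm_num) _
      have l : 2 ^ j ≤ nm n := k2 ▸ Nat.pow_log_le_self 2 (nm_pos k3.1.1.ne_zero).ne'
      have u' : (nm n : ℝ) < 2 ^ (j + 1) := by exact_mod_cast u
      have l' : (2 : ℝ) ^ j ≤ nm n := by exact_mod_cast l
      refine ⟨mem_sball.2 ⟨k3, ?_⟩, ?_⟩
      · rw [pow_succ] at u'
        linarith
      · linarith [half_le_self (by positivity : (0 : ℝ) ≤ 2 ^ j)]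
    have sub : sball (2 * 2 ^ j) ∩ s = s := Finset.inter_eq_right.2 fun n hn => (rng n hn).1
    have jW : (2 : ℝ) ^ j ≤ N :=
      (pow_le_pow_right₀ (by norm_num) (Nat.lt_succ_iff.1 (Finset.mem_range.1 hj))).trans hJ2
    have h := H R Y (2 ^ j) Ψ Φ hD hY (one_le_pow₀ (by norm_num)) hΨ
      (fun e x y h1 h2 h3 => hP e x y h1 h2 (h3.trans jW)) (fun n => if n ∈ s then b n else 0)
      (fun n hn => by
        by_cases k : n ∈ s
        · exact rng n k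
        · exact absurd (if_neg k) hn)
      (le_trans (Nat.cast_le.2 (Finset.card_le_card fun n hn => by
        have h1 := (Finset.mem_filter.1 hn).2
        by_cases k : n ∈ s
        · rw [if_pos k] at h1
          exact Finset.mem_filter.2 ⟨(Finset.mem_filter.1 k).1, h1⟩
        · exact absurd (if_neg k) h1)) hR)
    simp only [ite_mul, zero_mul, apply_ite (fun z : ℂ => ‖z‖ ^ 2), norm_zero, ne_eq,
      OfNat.ofNat_ne_zero, not_false_eq_true, zero_pow, Finset.sum_ite_mem, sub] at h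
    refine h.trans ?_
    gcongr
  have pt : ∀ h ∈ ball Y, ‖∑ n ∈ sball N, b n * cub h n‖ ^ 2 ≤
      ((J + 1 : ℕ) : ℝ) * ∑ j ∈ Finset.range (J + 1),
        ‖∑ n ∈ sball N with Nat.log 2 (nm n) = j, b n * cub h n‖ ^ 2 := by
    intro h _
    rw [← Finset.sum_fiberwise_of_maps_to maps]
    refine (pow_le_pow_left₀ (norm_nonneg _) (norm_sum_le _ _) 2).trans ?_
    simpa only [Finset.card_range] using sq_sum_le_card_mul_sum_sq (s := Finset.range (J + 1))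
      (f := fun j => ‖∑ n ∈ sball N with Nat.log 2 (nm n) = j, b n * cub h n‖)
  refine (Finset.sum_le_sum pt).trans ?_
  rw [← Finset.mul_sum, Finset.sum_comm]
  have tot := Finset.sum_le_sum piece
  rw [← Finset.mul_sum, Finset.sum_fiberwise_of_maps_to maps] at tot
  calc _ ≤ (2 / (ε / 2) + 1) * N ^ (ε / 2) *
        (C * N ^ (ε / 2) * (Y + Ψ) * ∑ n ∈ sball N, ‖b n‖ ^ 2) := by gcongr
    _ = (2 / (ε / 2) + 1) * C * (N ^ (ε / 2) * N ^ (ε / 2)) * (Y + Ψ) *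
        ∑ n ∈ sball N, ‖b n‖ ^ 2 := by ring
    _ = _ := by rw [← Real.rpow_add hN0, add_halves]

open Classical in
theorem lpsb_split {M : Type} [AddCommMonoid M] (N : ℝ) (g : O → M) :
    ∑ n ∈ qball N, g n = ∑ n ∈ sball N, g n +
      ∑ m ∈ sball N, if -2 * m ∈ qball N then g (-2 * m) else 0 := by
  rw [← Finset.sum_filter_add_sum_filter_not (qball N) fun n => ¬(2 : O) ∣ n, ← Finset.sum_filter]
  have h2 : (-2 : O) ≠ 0 := prim_neg_two.ne_zero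
  congr 1
  · refine Finset.sum_congr ?_ fun _ _ => rfl
    ext n
    simp only [Finset.mem_filter, ld_mem_qball, mem_sball, Sq, IsS, IsP]
    tauto
  · symm
    refine Finset.sum_bij (fun m _ => -2 * m) (fun m hm => ?_)
      (fun _ _ _ _ h => mul_left_cancel₀ h2 h) (fun n hn => ?_) fun _ _ => rfl
    · exact Finset.mem_filter.2 ⟨(Finset.mem_filter.1 hm).2, not_not.2 ⟨-m, by ring⟩⟩
    · obtain ⟨k1, k2⟩ := Finset.mem_filter.1 hn
      obtain ⟨c, rfl⟩ := not_not.1 k2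
      have e : (2 : O) * c = -2 * -c := by ring
      rw [e] at k1 ⊢
      obtain ⟨⟨k3, k4⟩, k5⟩ := ld_mem_qball.1 k1
      refine ⟨-c, Finset.mem_filter.2 ⟨mem_sball.2 ⟨⟨⟨prim_neg_two.of_mul k3, fun ⟨d, hd⟩ => ?_⟩,
        k4.of_mul_right⟩, le_trans ?_ k5⟩, k1⟩, rfl⟩
      · exact prime_two.not_isUnit (k4 2 ⟨-d, by rw [hd]; ring⟩)
      · exact_mod_cast nm_le_of_dvd k3.ne_zero (dvd_mul_left _ _)

open Classical in
theorem pstep {ε : ℝ} (hε : 0 < ε) : ∃ C : ℝ, 0 < C ∧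
    ∀ (R Y N Ψ : ℝ) (Φ : ℝ → ℝ → ℝ), DB R Φ → 0 < Y → 1 ≤ N → 0 ≤ Ψ → PsNum Y N Ψ Φ →
      ∀ b : O → ℂ, (((qball N).filter fun n => b n ≠ 0).card : ℝ) ≤ R →
        ∑ h ∈ ball Y, ‖∑ n ∈ qball N, b n * cub h n‖ ^ 2 ≤
          C * N ^ ε * (Y + Ψ) * ∑ n ∈ qball N, ‖b n‖ ^ 2 := by
  obtain ⟨C, hC, H⟩ := pstepS hε
  refine ⟨2 * C, by positivity, fun R Y N Ψ Φ hD hY hN hΨ hP b hR => ?_⟩
  have h2 : (-2 : O) ≠ 0 := prim_neg_two.ne_zero
  set b' : O → ℂ := fun m => if -2 * m ∈ qball N then b (-2 * m) else 0 with hb'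
  have a1 := H R Y N Ψ Φ hD hY hN hΨ hP b (le_trans (Nat.cast_le.2 (Finset.card_le_card
    (Finset.filter_subset_filter _ (ld_sball_subset N)))) hR)
  have a2 := H R Y N Ψ Φ hD hY hN hΨ hP b' (le_trans (Nat.cast_le.2
    (Finset.card_le_card_of_injOn (fun m => -2 * m) (fun m hm => by
      have h1 := (Finset.mem_filter.1 (Finset.mem_coe.1 hm)).2
      by_cases k : -2 * m ∈ qball N
      · simp only [hb', if_pos k] at h1
        exact Finset.mem_coe.2 (Finset.mem_filter.2 ⟨k, h1⟩)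
      · exact absurd (if_neg k) h1) fun _ _ _ _ h => mul_left_cancel₀ h2 h)) hR)
  have a3 : ∀ h ∈ ball Y, ‖∑ n ∈ qball N, b n * cub h n‖ ^ 2 ≤
      2 * ‖∑ n ∈ sball N, b n * cub h n‖ ^ 2 + 2 * ‖∑ n ∈ sball N, b' n * cub h n‖ ^ 2 := by
    intro h _
    have e : ∑ m ∈ sball N, (if -2 * m ∈ qball N then b (-2 * m) * cub h (-2 * m) else 0) =
        cub h (-2) * ∑ n ∈ sball N, b' n * cub h n := by
      rw [Finset.mul_sum]
      refine Finset.sum_congr rfl fun m hm => ?_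
      rw [cub_mul_right h2 (mem_sball.1 hm).1.1.1.ne_zero, hb']
      beta_reduce
      split_ifs <;> ring
    rw [lpsb_split, e]
    have b1 := norm_add_le (∑ n ∈ sball N, b n * cub h n)
      (cub h (-2) * ∑ n ∈ sball N, b' n * cub h n)
    have b2 : ‖cub h (-2) * ∑ n ∈ sball N, b' n * cub h n‖ ≤ ‖∑ n ∈ sball N, b' n * cub h n‖ := by
      rw [norm_mul]
      exact mul_le_of_le_one_left (norm_nonneg _) (norm_cub_le _ _)
    refine (pow_le_pow_left₀ (norm_nonneg _) (b1.trans (add_le_add_right b2 _)) 2).trans ?_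
    nlinarith [sq_nonneg (‖∑ n ∈ sball N, b n * cub h n‖ - ‖∑ n ∈ sball N, b' n * cub h n‖)]
  have a4 : ∑ n ∈ qball N, ‖b n‖ ^ 2 = ∑ n ∈ sball N, ‖b n‖ ^ 2 + ∑ n ∈ sball N, ‖b' n‖ ^ 2 := by
    rw [lpsb_split]
    congr 1
    refine Finset.sum_congr rfl fun m _ => ?_
    rw [hb']
    beta_reduce
    split_ifs <;> simp
  refine (Finset.sum_le_sum a3).trans ?_
  rw [Finset.sum_add_distrib, ← Finset.mul_sum, ← Finset.mul_sum, a4]
  linarith

end Vale.Agent.P006
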