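import Vale.Agent.P006.NBas

/-! N5: the forms `lf` as forms `LL`, splitting of a convolution.
Plans: `lf_eq`: `ch_eq`, `cub_mul_left`, `qball` is a filter of `ball`.  `nsplit`: for `Sq (g n)`, `sum_pdiv_mul` writes the divisors of `g n` as
`g₁ n₁`, and `g n / (g₁ n₁) = (g / g₁) (n / n₁)`; for fixed `g₁` compare the sums over `(n, n₁ ∈ pdiv n)` and `(n₁, n₂)` by
`Finset.sum_bij_ne_zero` (or rewrite both as sums over the same filtered product); `cub_mul_right`, `np_mul`; the ranges come from `Supp`. -/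

namespace Vale.Agent.P006

open Vale.Agent.P026 Filter
open scoped ComplexConjugate Real

theorem wt_mul {a b : O} (ha : a ≠ 0) (hb : b ≠ 0) (t : ℝ) : wt t (a * b) = wt t a * wt t b :=
  np_mul ha hb _
theorem norm_wt {a : O} (ha : a ≠ 0) (t : ℝ) : ‖wt t a‖ = (nm a : ℝ) ^ (-1 / 4 : ℝ) := by
  rw [wt, norm_np ha]
  congr 1
  simp
theorem norm_wt_le_one {a : O} (ha : a ≠ 0) (t : ℝ) : ‖wt t a‖ ≤ 1 := by
  rw [norm_wt ha]
  exact Real.rpow_le_one_of_one_le_of_nonpos (one_le_nm ha) (by norm_num)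
theorem norm_wt_le {a : O} {B G : ℝ} (ha : a ≠ 0) (hB : 0 < B) (h : B ≤ G * nm a) (t : ℝ) :
    ‖wt t a‖ ≤ (G / B) ^ (1 / 4 : ℝ) := by
  have h0 : (0 : ℝ) < nm a := zero_lt_one.trans_le (one_le_nm ha)
  rw [norm_wt ha, show (-1 / 4 : ℝ) = -(1 / 4) by norm_num, Real.rpow_neg h0.le,
    ← Real.inv_rpow h0.le]
  refine Real.rpow_le_rpow (by positivity) ?_ (by norm_num)
  rw [inv_eq_one_div, div_le_div_iff₀ h0 hB, one_mul]
  exact h
theorem lf_eq (B : ℝ) (β : O → ℂ) (g w : O) (t : ℝ) {x y : O} (hx : Sq x) (hy : Sq y) :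
    lf B β g (w * x * y ^ 2) t = LL (16 * B) (cf β g w t) x y := by
  rw [lf, LL, ← Finset.sum_subset (qball_subset (16 * B))]
  · refine Finset.sum_congr rfl fun n hn => ?_
    have h1 := (mem_qball.1 hn).1
    rw [cf, ind_of h1, ch_eq h1.1 hx.1 hy.1, mul_assoc w, cub_mul_left w, wt]
    ring
  · intro n hn hn'
    rw [cf, ind_of_not fun h => hn' (mem_qball.2 ⟨h, mem_ball.1 hn⟩), zero_mul, zero_mul]
theorem NLf_conj_ind (p : Prop) : conj (ind p) = ind p := by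
  by_cases h : p
  · rw [ind_of h, map_one]
  · rw [ind_of_not h, map_zero]
theorem NLf_conj_wt (t : ℝ) (n : O) : conj (wt t n) = wt (-t) n := by
  rw [wt, wt, conj_np]
  congr 1
  simp [map_ofNat]
theorem conj_cf (β : O → ℂ) (g w : O) (t : ℝ) (n : O) :
    conj (cf β g w t n) = cf (fun b => conj (β b)) g (w ^ 2) (-t) n := by
  simp only [cf, map_mul, NLf_conj_ind, NLf_conj_wt, conj_cub, cub_pow_left]
theorem conj_cv (f g : O → ℂ) :
    (fun n => conj (cv f g n)) = cv (fun n => conj (f n)) fun n => conj (g n) := by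
  funext n
  simp only [cv, map_mul, map_sum, NLf_conj_ind]
theorem conj_win (x₁ x₂ : ℝ) : (fun n => conj (win x₁ x₂ n)) = win x₁ x₂ := by
  funext n
  exact NLf_conj_ind _
theorem Supp.conj {c B : ℝ} {β : O → ℂ} (h : Supp c B β) : Supp c B fun b => conj (β b) :=
  fun b hb => h b fun h0 => hb (by simp only [h0, map_zero])
theorem Bd.conj {A : ℝ} {β : O → ℂ} (h : Bd A β) : Bd A fun b => conj (β b) :=
  fun b => (Complex.norm_conj _).trans_le (h b)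
theorem NLf_bound {A B G c : ℝ} {β : O → ℂ} {g' n : O} (hs : Supp c B β) (hb : Bd A β) (hB : 0 < B)
    (hG : (nm g' : ℝ) ≤ G) (w : O) (t : ℝ) (p : Prop) :
    ‖ind p * (β (g' * n) * cub w n * wt t n)‖ ≤ A * (G / B) ^ (1 / 4 : ℝ) := by
  have hA : 0 ≤ A := (norm_nonneg _).trans (hb 0)
  have hG0 : 0 ≤ G := (Nat.cast_nonneg _).trans hG
  by_cases h0 : β (g' * n) = 0
  · rw [h0, zero_mul, zero_mul, mul_zero, norm_zero]
    positivity
  · obtain ⟨h1, h2, -⟩ := hs _ h0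
    have h3 : n ≠ 0 := right_ne_zero_of_mul h1.ne_zero
    rw [nm_mul, Nat.cast_mul] at h2
    have h4 := norm_wt_le h3 hB
      (h2.le.trans (mul_le_mul_of_nonneg_right hG (Nat.cast_nonneg _))) t
    rw [norm_mul, norm_mul, norm_mul]
    calc _ ≤ 1 * (A * 1 * (G / B) ^ (1 / 4 : ℝ)) := by
          gcongr
          exacts [norm_ind_le _, hb _, norm_cub_le _ _]
      _ = _ := by ring
theorem NLf_le {B c : ℝ} {β : O → ℂ} {g' n : O} (hs : Supp c B β) (h0 : β (g' * n) ≠ 0) :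
    (nm n : ℝ) ≤ c * B := by
  obtain ⟨h1, -, h2⟩ := hs _ h0
  exact le_trans (by exact_mod_cast nm_le_of_dvd h1.ne_zero (dvd_mul_left n g')) h2
theorem co_cf {A B G : ℝ} {β : O → ℂ} {g : O} (hs : Supp 16 B β) (hb : Bd A β) (hB : 0 < B)
    (hg : Sq g) (hG : (nm g : ℝ) ≤ G) (w : O) (t : ℝ) :
    Co (A * (G / B) ^ (1 / 4 : ℝ)) (16 * B) (cf β g w t) ∧ Sf (cf β g w t) := by
  have _ := hg
  have key : ∀ n, cf β g w t n ≠ 0 → Sq n ∧ β (g * n) ≠ 0 := fun n h0 =>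
    ⟨by_contra fun h => left_ne_zero_of_mul h0 (ind_of_not h),
      left_ne_zero_of_mul (left_ne_zero_of_mul (right_ne_zero_of_mul h0))⟩
  exact ⟨fun n => ⟨NLf_bound hs hb hB hG w t _,
    fun h0 => ⟨(key n h0).1.1, NLf_le hs (key n h0).2⟩⟩, fun n h0 => (key n h0).1.2⟩
theorem NLf_bf_ne {β : O → ℂ} {g g' w n : O} {t : ℝ} (h0 : bf β g g' w t n ≠ 0) :
    Sq (g * n) ∧ β (g' * n) ≠ 0 :=
  ⟨by_contra fun h => left_ne_zero_of_mul h0 (ind_of_not h),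
    left_ne_zero_of_mul (left_ne_zero_of_mul (right_ne_zero_of_mul h0))⟩
theorem co_bf {A B G c : ℝ} {β : O → ℂ} {g g' : O} (hs : Supp c B β) (hb : Bd A β) (hB : 0 < B)
    (hg : Sq g) (hg' : g' ∣ g) (hG : (nm g : ℝ) ≤ G) (w : O) (t : ℝ) :
    Co (A * (G / B) ^ (1 / 4 : ℝ)) (c * B) (bf β g g' w t) ∧ Sf (bf β g g' w t) := by
  have hG' : (nm g' : ℝ) ≤ G := le_trans (by exact_mod_cast nm_le_of_dvd hg.ne_zero hg') hG
  exact ⟨fun n => ⟨NLf_bound hs hb hB hG' w t _,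
    fun h0 => ⟨((NLf_bf_ne h0).1.right hg.1).2.1, NLf_le hs (NLf_bf_ne h0).2⟩⟩,
    fun n h0 => ((NLf_bf_ne h0).1.right hg.1).2.2⟩
theorem CP_smul (N₁ N₂ : ℝ) (c₁ c₂ : ℂ) (b₁ b₂ : O → ℂ) (x y : O) :
    CP N₁ N₂ (fun n => c₁ * b₁ n) (fun n => c₂ * b₂ n) x y = c₁ * c₂ * CP N₁ N₂ b₁ b₂ x y := by
  simp only [CP, Finset.mul_sum]
  refine Finset.sum_congr rfl fun a _ => Finset.sum_congr rfl fun b _ => ?_
  ring
theorem NLf_cv {g : O} (hg : Sq g) (β₁ β₂ : O → ℂ) (n : O) : cv β₁ β₂ (g * n) =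
    ∑ g₁ ∈ pdiv g, cv (fun a => β₁ (g₁ * a)) (fun b => β₂ (g / g₁ * b)) n * ind (Sq (g * n)) := by
  by_cases h : Sq (g * n)
  · have hn := (h.right hg.1).2
    simp only [cv, ind_of h, ind_of hn, one_mul, mul_one]
    rw [sum_pdiv_mul hg.1 hn.1 h.coprime]
    refine Finset.sum_congr rfl fun a ha => Finset.sum_congr rfl fun b hb => ?_
    obtain ⟨a1, -, a3⟩ := hg.div ha
    obtain ⟨b1, -, b3⟩ := hn.div hb
    have e : g * n = a * b * (g / a * (n / b)) := by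
      rw [mul_mul_mul_comm, a3, b3]
    have e2 : g * n / (a * b) = g / a * (n / b) := by
      rw [e, mul_div_cancel_left₀ _ (mul_ne_zero a1.ne_zero b1.ne_zero)]
    rw [e2]
  · rw [cv_eq_zero h]
    simp only [ind_of_not h, mul_zero, Finset.sum_const_zero]
theorem NLf_sq_iff {g a b : O} (hg : Sq g) (ha : Sq a) (hb : Sq b) :
    Sq (g * (a * b)) ↔ IsCoprime a b ∧ Sq (g * a) ∧ Sq (g * b) :=
  ⟨fun h => ⟨(h.right hg.1).2.coprime,
      h.of_dvd (hg.1.mul ha.1) (mul_dvd_mul_left g (dvd_mul_right a b)),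
      h.of_dvd (hg.1.mul hb.1) (mul_dvd_mul_left g (dvd_mul_left b a))⟩,
    fun h => hg.mul (ha.mul hb h.1) (h.2.1.coprime.mul_right h.2.2.coprime)⟩
theorem NLf_sum_eq {ι : Type*} {s₁ s₂ t₁ t₂ : Finset ι} {T : ι → ι → ℂ}
    (h : ∀ a b, T a b ≠ 0 → (a ∈ s₁ ∧ b ∈ s₂) ∧ a ∈ t₁ ∧ b ∈ t₂) :
    ∑ a ∈ s₁, ∑ b ∈ s₂, T a b = ∑ a ∈ t₁, ∑ b ∈ t₂, T a b := by
  classical
  rw [← Finset.sum_product', ← Finset.sum_product']
  refine Finset.sum_congr_of_eq_on_inter (fun p _ hp => ?_) (fun p _ hp => ?_) fun _ _ _ => rfl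
  · exact by_contra fun h0 => hp (Finset.mem_product.2 (h _ _ h0).2)
  · exact by_contra fun h0 => hp (Finset.mem_product.2 (h _ _ h0).1)
theorem NLf_nm_mul {B₁ B₂ : ℝ} {a b : O} (ha : (nm a : ℝ) ≤ 4 * B₁) (hb : (nm b : ℝ) ≤ 4 * B₂) :
    (nm (a * b) : ℝ) ≤ 16 * (B₁ * B₂) := by
  rw [nm_mul, Nat.cast_mul, show 16 * (B₁ * B₂) = 4 * B₁ * (4 * B₂) by ring]
  exact mul_le_mul ha hb (Nat.cast_nonneg _) ((Nat.cast_nonneg _).trans ha)
theorem nsplit {B₁ B₂ : ℝ} {β₁ β₂ : O → ℂ} (h₁ : Supp 4 B₁ β₁) (h₂ : Supp 4 B₂ β₂) {g : O}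
    (hg : Sq g) (w : O) (t : ℝ) (x y : O) : LL (16 * (B₁ * B₂)) (cf (cv β₁ β₂) g w t) x y =
      ∑ g₁ ∈ pdiv g, CP (4 * B₁) (4 * B₂) (bf β₁ g g₁ w t) (bf β₂ g (g / g₁) w t) x y := by
  have e1 : LL (16 * (B₁ * B₂)) (cf (cv β₁ β₂) g w t) x y =
      ∑ n ∈ qball (16 * (B₁ * B₂)), ∑ g₁ ∈ pdiv g,
        cv (fun a => β₁ (g₁ * a)) (fun b => β₂ (g / g₁ * b)) n *
          (ind (Sq (g * n)) * (cub w n * wt t n * ch n x y)) := by
    rw [LL, ← Finset.sum_subset (qball_subset _)]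
    · refine Finset.sum_congr rfl fun n hn => ?_
      rw [cf, ind_of (mem_qball.1 hn).1, one_mul, NLf_cv hg, Finset.sum_mul, Finset.sum_mul,
        Finset.sum_mul]
      refine Finset.sum_congr rfl fun _ _ => ?_
      ring
    · intro n hn hn'
      rw [cf, ind_of_not fun h => hn' (mem_qball.2 ⟨h, mem_ball.1 hn⟩), zero_mul, zero_mul]
  rw [e1, Finset.sum_comm]
  refine Finset.sum_congr rfl fun g₁ _ => ?_
  rw [sum_cv, CP, NLf_sum_eq (s₁ := ball (4 * B₁)) (s₂ := ball (4 * B₂))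
    (t₁ := qball (16 * (B₁ * B₂))) (t₂ := qball (16 * (B₁ * B₂)))]
  · refine Finset.sum_congr rfl fun a ha => Finset.sum_congr rfl fun b hb => ?_
    have ha' := (mem_qball.1 ha).1
    have hb' := (mem_qball.1 hb).1
    by_cases z₁ : β₁ (g₁ * a) = 0
    · simp only [bf, z₁, zero_mul, mul_zero]
    by_cases z₂ : β₂ (g / g₁ * b) = 0
    · simp only [bf, z₂, zero_mul, mul_zero]
    have hN := NLf_nm_mul (NLf_le h₁ z₁) (NLf_le h₂ z₂)
    by_cases h : Sq (g * (a * b))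
    · obtain ⟨c1, c2, c3⟩ := (NLf_sq_iff hg ha' hb').1 h
      rw [bf, bf, ind_of h, ind_of c1, ind_of c2, ind_of c3, ind_of (And.intro (ha'.mul hb' c1) hN),
        cub_mul_right ha'.ne_zero hb'.ne_zero, wt_mul ha'.ne_zero hb'.ne_zero]
      ring
    · have h3 := ind_of_not fun h' => h ((NLf_sq_iff hg ha' hb').2 h')
      rw [ind_and, ind_and] at h3
      rw [bf, bf, ind_of_not h]
      linear_combination (-(β₁ (g₁ * a) * cub w a * wt t a * (β₂ (g / g₁ * b) * cub w b * wt t b) *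
        ch (a * b) x y)) * h3
  · intro a b h0
    have h3 := right_ne_zero_of_mul (left_ne_zero_of_mul h0)
    obtain ⟨a1, a2⟩ := NLf_bf_ne (left_ne_zero_of_mul h3)
    obtain ⟨b1, b2⟩ := NLf_bf_ne (right_ne_zero_of_mul h3)
    have ha' := (a1.right hg.1).2
    have hb' := (b1.right hg.1).2
    have hN := NLf_nm_mul (NLf_le h₁ a2) (NLf_le h₂ b2)
    have hab := mul_ne_zero ha'.ne_zero hb'.ne_zero
    exact ⟨⟨mem_ball.2 (NLf_le h₁ a2), mem_ball.2 (NLf_le h₂ b2)⟩,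
      mem_qball.2 ⟨ha', le_trans (by exact_mod_cast nm_le_of_dvd hab (dvd_mul_right a b)) hN⟩,
      mem_qball.2 ⟨hb', le_trans (by exact_mod_cast nm_le_of_dvd hab (dvd_mul_left b a)) hN⟩⟩

end Vale.Agent.P006
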