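import Vale.Agent.P006.NBas

/-! N7a: bookkeeping with powers of `X`. -/

namespace Vale.Agent.P006

open Vale.Agent.P026 Filter
open scoped ComplexConjugate Real

theorem npow_ex {X y : ℝ} (hX : 1 < X) (hy : 0 < y) : ∃ b : ℝ, y = X ^ b :=
  ⟨Real.logb X y, (Real.rpow_logb (by linarith) hX.ne' hy).symm⟩
theorem npow_le {X a b : ℝ} (hX : 1 < X) : X ^ a ≤ X ^ b ↔ a ≤ b := Real.rpow_le_rpow_left_iff hX
theorem npow_one_le {X a : ℝ} (hX : 1 < X) : 1 ≤ X ^ a ↔ 0 ≤ a := by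
  rw [← npow_le (a := 0) hX, Real.rpow_zero]
theorem npow_mul {X : ℝ} (hX : 1 < X) (a b : ℝ) : X ^ a * X ^ b = X ^ (a + b) :=
  (Real.rpow_add (by linarith) a b).symm
theorem npow_div {X : ℝ} (hX : 1 < X) (a b : ℝ) : X ^ a / X ^ b = X ^ (a - b) :=
  (Real.rpow_sub (by linarith) a b).symm
theorem npow_rpow {X : ℝ} (hX : 1 < X) (a b : ℝ) : (X ^ a) ^ b = X ^ (a * b) :=
  (Real.rpow_mul (by linarith) a b).symm
theorem npow_pow {X : ℝ} (hX : 1 < X) (a : ℝ) (k : ℕ) : (X ^ a) ^ k = X ^ (a * k) := by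
  rw [← npow_rpow hX, Real.rpow_natCast]
theorem npow_sqrt {X : ℝ} (hX : 1 < X) (a : ℝ) : √(X ^ a) = X ^ (a / 2) := by
  rw [Real.sqrt_eq_rpow, npow_rpow hX]; ring_nf
theorem npow_add2 {X ν s u v : ℝ} (hX : 1 < X) (h : 2 ≤ X ^ ν) (hu : u ≤ X ^ s) (hv : v ≤ X ^ s) :
    u + v ≤ X ^ (s + ν) := by
  rw [← npow_mul hX]
  have : 0 < X ^ s := by positivity
  nlinarith
theorem npow_add3 {X ν s u v w : ℝ} (hX : 1 < X) (h : 3 ≤ X ^ ν) (hu : u ≤ X ^ s) (hv : v ≤ X ^ s)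
    (hw : w ≤ X ^ s) : u + v + w ≤ X ^ (s + ν) := by
  rw [← npow_mul hX]
  have : 0 < X ^ s := by positivity
  nlinarith
theorem npow_mono {X u a b : ℝ} (hX : 1 < X) (hu : u ≤ X ^ a) (h : a ≤ b) : u ≤ X ^ b :=
  hu.trans ((npow_le hX).2 h)
theorem npow_mul_le {X u v a b : ℝ} (hX : 1 < X) (hu : u ≤ X ^ a) (hv : v ≤ X ^ b) (h : 0 ≤ v) :
    u * v ≤ X ^ (a + b) := by
  rw [← npow_mul hX]
  exact mul_le_mul hu hv h (by positivity)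
theorem npow_rpow_le {X u a p : ℝ} (hX : 1 < X) (hu : u ≤ X ^ a) (h : 0 ≤ u) (hp : 0 ≤ p) :
    u ^ p ≤ X ^ (a * p) := by
  rw [← npow_rpow hX]
  exact Real.rpow_le_rpow h hu hp
theorem npow_pow_le {X u a : ℝ} (hX : 1 < X) (hu : u ≤ X ^ a) (h : 0 ≤ u) (k : ℕ) :
    u ^ k ≤ X ^ (a * k) := by
  rw [← npow_pow hX]
  exact pow_le_pow_left₀ h hu k
theorem npow_three (X : ℝ) : X ^ 3 = X ^ (3 : ℝ) := by norm_cast

end Vale.Agent.P006
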