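import Vale.Agent.P006.NRed
import Vale.Agent.P006.NLf
import Vale.Agent.P006.NPow

/-! N16: from boxes to `NCH`. -/

namespace Vale.Agent.P006

open Vale.Agent.P026 Filter
open scoped ComplexConjugate Real

theorem NTop_A {X ν b : ℝ} (hX : 1 < X) (h16 : 16 ≤ X ^ ν) :
    (X ^ ν * (X ^ ν / X ^ b) ^ (1 / 4 : ℝ)) ^ 2 * (16 * X ^ b) ≤ X ^ (7 / 2 * ν + b / 2) := by
  rw [npow_div hX, npow_rpow hX, npow_mul hX, npow_pow hX]
  refine npow_mono hX (npow_mul_le hX le_rfl (npow_mul_le hX h16 le_rfl (by positivity))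
    (by positivity)) (le_of_eq ?_)
  push_cast; ring

theorem NTop_T {X δ b a c : ℝ} (hX : 1 < X) :
    X ^ (-δ) * (X ^ b) ^ (3 / 2 : ℝ) * ((X ^ c) ^ 2 * X ^ a) ^ (1 / 3 : ℝ) =
      X ^ (-δ + 3 / 2 * b + (2 * c + a) / 3) := by
  simp only [npow_pow hX, npow_mul hX, npow_rpow hX]
  congr 1; push_cast; ring

theorem nbox {μ θ δ : ℝ} (hδ : 0 < δ) (h1 : 4 * δ ≤ μ) (h2 : 4 * δ ≤ θ) :
    ∀ᶠ X : ℝ in atTop, ∀ (E B K : ℝ) (β : O → ℂ), Env E (X ^ 3) → E ≤ X ^ (δ / 100) → 1 ≤ B →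
      B ≤ X → K ≤ X ^ 3 → Supp 16 B β → Bd (X ^ (δ / 100)) β → Xtra X B K θ β →
      ∀ (g w : O) (t M m : ℝ), Sq g → (nm g : ℝ) ≤ X ^ (δ / 100) → w ≠ 0 →
        |t| ≤ X ^ (0.18 : ℝ) → 1 ≤ m → m ≤ M → X ^ μ ≤ M → √(nm w) * (m ^ 2 * M) ≤ K →
          MS M m (LL (16 * B) (cf β g w t)) ≤
            X ^ (-δ) * B ^ (3 / 2 : ℝ) * (m ^ 2 * M) ^ (1 / 3 : ℝ) := by
  filter_upwards [eventually_ge_atTop 16, ev_const 16 (show 0 < δ / 100 by linarith)] with X hX16 h16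
    E B K β he hE hB1 hBX hK hs hb hx g w t M m hg hG hw ht hm1 hmM hμ hV
  have hX : 1 < X := by linarith
  obtain ⟨hco, hsf⟩ := co_cf hs hb (by linarith) hg hG w t
  have hE0 : 0 ≤ E := by linarith [he.one]
  have hN : 16 * B ≤ X ^ 3 := by nlinarith [mul_pos (mul_pos (sub_pos.2 hX) (sub_pos.2 hX)) (sub_pos.2 hX)]
  have hM : M ≤ X ^ 3 := by
    have h5 : 1 ≤ √(nm w : ℝ) := Real.one_le_sqrt.2 (one_le_nm hw)
    have h6 : M ≤ m ^ 2 * M := le_mul_of_one_le_left (by linarith) (one_le_pow₀ hm1)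
    have h7 : m ^ 2 * M ≤ √(nm w : ℝ) * (m ^ 2 * M) := le_mul_of_one_le_left (by linarith) h5
    linarith
  have hxt : B * X ^ (-θ) ≤ m ^ 2 * M → (M ≤ X ^ θ * m ∨ B * X ^ (-θ) ≤ m * M) →
      MS M m (LL (16 * B) (cf β g w t)) ≤ X ^ (-θ) * B ^ (11 / 6 : ℝ) :=
    hx g w t M m hg (npow_mono hX hG (by linarith)) hw ht hm1 hmM hV
  have hM0 : 0 ≤ M := by linarith
  have hS := he.MS_le (M := M) hm1 (by positivity) fun y =>
    he.ls1 _ _ M _ y hco hsf (by linarith) hN (by linarith) hM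
  have hJ := he.jls _ _ M m _ hco (by linarith) hN (by linarith) hM hm1 (hmM.trans hM)
  generalize MS M m (LL (16 * B) (cf β g w t)) = Z at *
  obtain ⟨b, rfl⟩ := npow_ex hX (show 0 < B by linarith)
  obtain ⟨a, rfl⟩ := npow_ex hX (show 0 < M by linarith)
  obtain ⟨c, rfl⟩ := npow_ex hX (show 0 < m by linarith)
  rw [NTop_T hX]
  have hA := NTop_A (b := b) hX h16
  have hN' : 16 * X ^ b ≤ X ^ (δ / 100 + b) := npow_mul_le hX h16 le_rfl (by positivity)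
  simp only [npow_pow hX, npow_mul hX, npow_rpow hX, npow_le hX, npow_one_le hX] at hxt hm1 hmM hμ
  push_cast at hxt
  have hxt' : b + -θ ≤ c * 2 + a → (a ≤ θ + c ∨ b + -θ ≤ c + a) →
      Z ≤ X ^ (-δ + 3 / 2 * b + (2 * c + a) / 3) := fun u v =>
    npow_mono hX (hxt u v) (by linarith)
  by_cases q1 : a ≤ θ + c
  · by_cases q2 : b + -θ ≤ c * 2 + a
    · exact hxt' q2 (Or.inl q1)
    have e1 : 16 * X ^ b + (X ^ a * X ^ c) ^ 2 ≤
        X ^ (b + (2 * c + a) / 3 - 4 / 3 * δ + δ / 100 + δ / 100) := by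
      refine npow_add2 hX (by linarith) (npow_mono hX hN' (by linarith)) ?_
      rw [npow_mul hX, npow_pow hX, npow_le hX]
      push_cast; linarith
    rw [mul_assoc E] at hJ
    exact npow_mono hX (hJ.trans (npow_mul_le hX (npow_mul_le hX hE hA (by positivity)) e1
      (by positivity))) (by linarith)
  · by_cases q2 : b + -θ ≤ c + a
    · exact hxt' (by linarith) (Or.inr q2)
    have e1 : X ^ a + 16 * X ^ b + (X ^ a * (16 * X ^ b)) ^ (2 / 3 : ℝ) ≤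
        X ^ (b + (a - c) / 3 - θ / 3 + δ / 100 + δ / 100) := by
      refine npow_add3 hX (by linarith) ((npow_le hX).2 (by linarith))
        (npow_mono hX hN' (by linarith)) (npow_mono hX (npow_rpow_le hX
          (npow_mul_le hX le_rfl hN' (by positivity)) (by positivity) (by norm_num)) (by linarith))
    rw [mul_assoc E _ (16 * X ^ b)] at hS
    exact npow_mono hX (hS.trans (npow_mul_le hX (npow_mul_le hX hE le_rfl (by positivity))
      (npow_mul_le hX (npow_mul_le hX hE hA (by positivity)) e1 (by positivity)) (by positivity)))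
      (by linarith)

theorem ntop (he : EnvStmt) {η₁ θ : ℝ} (h1 : 0 < η₁) (hθ : 0 < θ) : ∃ η₀ : ℝ, 0 < η₀ ∧
    ∀ η : ℝ, 0 < η → η ≤ η₀ → ∀ᶠ X : ℝ in atTop, ∀ (B K : ℝ) (β : O → ℂ), 1 ≤ B → B ≤ X →
      K ≤ X ^ 2 → Supp 16 B β → Bd (X ^ (3 * η)) β → SW X B η₁ β →
      Xtra X B (8 * X ^ η * K) θ β → Xtra X B (8 * X ^ η * K) θ (fun b => conj (β b)) →
        NCH X B K η β := by
  classical
  obtain ⟨δ, hδ, d1, d2, d3⟩ : ∃ δ : ℝ, 0 < δ ∧ 4 * δ ≤ η₁ / 4 ∧ 4 * δ ≤ θ ∧ δ ≤ 1 :=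
    ⟨min (min (η₁ / 16) (θ / 4)) 1, by positivity,
      by linarith [min_le_left (min (η₁ / 16) (θ / 4)) 1, min_le_left (η₁ / 16) (θ / 4)],
      by linarith [min_le_left (min (η₁ / 16) (θ / 4)) 1, min_le_right (η₁ / 16) (θ / 4)],
      min_le_right _ _⟩
  obtain ⟨C, hC⟩ := nred
  refine ⟨δ / 300, by positivity, fun η hη hη' => ?_⟩
  filter_upwards [nbox hδ d1 d2, he η hη, ev_const C hη, eventually_gt_atTop 1,
    ev_const 8 one_half_pos] with X hbox henv hCX hX h8 B K β hB1 hBX hK hs hb hsw hx hx'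
    g w t K₁ hg hG hw hW ht hK1 hK2
  have hη3 : X ^ η ≤ X ^ (δ / 100) := (npow_le hX).2 (by linarith)
  have hb' : Bd (X ^ (δ / 100)) β := fun b => npow_mono hX (hb b) (by linarith)
  have hK0 : 0 ≤ K := by linarith
  have hK' : 8 * X ^ η * K ≤ X ^ 3 := by
    rw [npow_three]
    refine npow_mono hX (npow_mul_le hX (npow_mul_le hX h8 le_rfl (by positivity))
      (b := 2) (by simpa using hK) hK0) (by linarith)
  have hK3 : K ≤ X ^ 3 := by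
    have : 1 ≤ X ^ η := (npow_one_le hX).2 hη.le
    nlinarith
  set F : O → ℝ := fun k => if ¬Cube k then ‖lf B β g k t‖ ^ 2 else 0 with hF
  have hF0 : ∀ k, 0 ≤ F k := fun k => by simp only [hF]; split_ifs <;> positivity
  have hF1 : ∀ k, F k ≤ ‖lf B β g k t‖ ^ 2 := fun k => by
    simp only [hF]; split_ifs
    · positivity
    · exact le_rfl
  have key := hC _ _ henv hCX F K₁ (X ^ (-δ) * B ^ (3 / 2 : ℝ)) w hF0 hK1 (hK2.trans hK3)
    (by positivity) hw ?_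
  · have e : ∑ k ∈ (ball K₁).filter (fun k => k ≠ 0 ∧ ¬Cube (k * w)), ‖lf B β g (k * w) t‖ ^ 2 =
        ∑ k ∈ (ball K₁).filter (fun k => k ≠ 0), F (k * w) := by
      rw [← Finset.filter_filter, Finset.sum_filter]
    have e2 : (X ^ η) ^ 5 * X ^ (-δ) ≤ X ^ (-η) := by
      rw [npow_pow hX, npow_mul hX, npow_le hX]; push_cast; linarith
    calc _ = _ := by convert e
      _ ≤ _ := key
      _ = (X ^ η) ^ 5 * X ^ (-δ) * K₁ ^ (1 / 3 : ℝ) * B ^ (3 / 2 : ℝ) := by ring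
      _ ≤ _ := by gcongr
  intro w' X₁ Y₁ hw' hX₁ hY₁ hwK
  have hwK' : nm w' * (X₁ * Y₁ ^ 2) ≤ 8 * X ^ η * K := hwK.trans (by gcongr)
  have n1 := one_le_nm hw'
  have hMS : ∑ p ∈ prs X₁ Y₁, F (w' * p.1 * p.2 ^ 2) ≤ MS X₁ Y₁ (LL (16 * B) (cf β g w' t)) :=
    Finset.sum_le_sum fun p hp => by
      obtain ⟨a, b, -⟩ := mem_prs.1 hp
      rw [← lf_eq B β g w' t a.1 b.1]; exact hF1 _
  by_cases q : X₁ ≤ X ^ (η₁ / 4) ∧ Y₁ ≤ X ^ (η₁ / 4)
  · have e1 : ∀ p ∈ prs X₁ Y₁, F (w' * p.1 * p.2 ^ 2) ≤ (X ^ (-η₁) * B ^ (3 / 4 : ℝ)) ^ 2 := by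
      intro p hp
      obtain ⟨a, b, -⟩ := mem_prs.1 hp
      simp only [hF]; split_ifs with hc
      · positivity
      refine pow_le_pow_left₀ (norm_nonneg _) (hsw g _ t hg (npow_mono hX hG (by linarith))
        (mul_ne_zero (mul_ne_zero hw' a.1.ne_zero) (pow_ne_zero _ b.1.ne_zero)) ?_ hc
        (ht.trans (by simpa using (npow_le (b := 1) hX).2 (by norm_num)))) 2
      rw [nm_mul, nm_mul, nm_pow]; push_cast
      calc (nm w' : ℝ) * nm p.1 * (nm p.2 : ℝ) ^ 2 = nm w' * (nm p.1 * (nm p.2 : ℝ) ^ 2) := by ring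
        _ ≤ nm w' * (X₁ * Y₁ ^ 2) := by gcongr; exacts [a.2, b.2]
        _ ≤ X ^ 3 := hwK'.trans hK'
        _ ≤ X ^ 10 := pow_le_pow_right₀ hX.le (by norm_num)
    have e2 : (X ^ η) ^ 2 * (X₁ * Y₁) * (X ^ (-η₁)) ^ 2 ≤ X ^ (-δ) := by
      rw [npow_pow hX, npow_pow hX]
      refine npow_mono hX (npow_mul_le hX (npow_mul_le hX le_rfl
        (npow_mul_le hX q.1 q.2 (by linarith)) (by positivity)) le_rfl (by positivity)) ?_
      push_cast; linarith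
    have e3 : 1 ≤ (X₁ * Y₁ ^ 2) ^ (1 / 3 : ℝ) :=
      Real.one_le_rpow (one_le_mul_of_one_le_of_one_le hX₁ (one_le_pow₀ hY₁)) (by norm_num)
    have e4 : (B ^ (3 / 4 : ℝ)) ^ 2 = B ^ (3 / 2 : ℝ) := by
      rw [← Real.rpow_natCast, ← Real.rpow_mul (by linarith)]; norm_num
    calc _ ≤ ((prs X₁ Y₁).card : ℝ) * (X ^ (-η₁) * B ^ (3 / 4 : ℝ)) ^ 2 := by
          simpa using Finset.sum_le_card_nsmul _ _ _ e1
      _ ≤ (X ^ η) ^ 2 * (X₁ * Y₁) * (X ^ (-η₁) * B ^ (3 / 4 : ℝ)) ^ 2 := by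
          gcongr; exact henv.card_prs hX₁ hY₁
      _ = (X ^ η) ^ 2 * (X₁ * Y₁) * (X ^ (-η₁)) ^ 2 * B ^ (3 / 2 : ℝ) * 1 := by
          rw [mul_pow, e4]; ring
      _ ≤ _ := by gcongr
  refine hMS.trans ?_
  rcases le_total Y₁ X₁ with r | r
  · have hμ : X ^ (η₁ / 4) ≤ X₁ := by
      by_contra h; exact q ⟨(not_le.1 h).le, r.trans (not_le.1 h).le⟩
    rw [mul_comm X₁]
    refine hbox _ B _ β henv hη3 hB1 hBX hK' hs hb' hx g w' t X₁ Y₁ hg (hG.trans hη3) hw' ht hY₁ r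
      hμ (le_trans ?_ hwK')
    rw [mul_comm X₁]
    gcongr
    exact Real.sqrt_le_self_iff.2 (Or.inr n1)
  · have hμ : X ^ (η₁ / 4) ≤ Y₁ := by
      by_contra h; exact q ⟨r.trans (not_le.1 h).le, (not_le.1 h).le⟩
    have e1 : X₁ ^ 2 * Y₁ ≤ X₁ * Y₁ ^ 2 := by nlinarith [mul_pos (by linarith : 0 < X₁) (by linarith : 0 < Y₁)]
    rw [MS_swap]
    simp only [conj_cf]
    refine (hbox _ B _ _ henv hη3 hB1 hBX hK' hs.conj hb'.conj hx' g (w' ^ 2) (-t) Y₁ X₁ hg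
      (hG.trans hη3) (pow_ne_zero _ hw') (by rwa [abs_neg]) hX₁ r hμ (le_trans ?_ hwK')).trans
      (by gcongr)
    rw [nm_pow]; push_cast
    rw [Real.sqrt_sq (by linarith)]
    gcongr

end Vale.Agent.P006
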