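import Vale.Agent.P006.NBas
import Vale.Agent.P006.KMP
import Vale.Agent.P026.RecAux

/-! N10: arithmetic of the pure character sums.
Plans: `per_psi`: `Prim.of_dvd_sub`, `cub_den_congr`.  `ft_psi_ch`: `sum_res_crt` for `9 Q` and `x y`, `eq_crt`, periodicity,
`psi w (x y a) = cub w (x y) * psi w a`, `ch_mul`, `ftc`, `norm_gt3`.  `cred`: `x₀ = ` primary gcd of `x` and `Q` (`exists_prim_gcd`), `x = x₀ x'`
with `x'` coprime to `Q` since `x` is squarefree; same for `y`; for primary `h`, `ch h (x₀ x') (y₀ y') = cub (x₀ y₀²) h * ch h x' y'`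
(`cub_mul_right`, `ch_eq`), so `LL (pc Y w t) x y = LL (pc Y (w x₀ y₀²) t) x' y'`; `sum_le_sum_cover` over `pdiv Q ×ˢ pdiv Q ×ˢ prq Q M m`
with `σ (x₀, y₀, x', y') = (x₀ x', y₀ y')`. -/

namespace Vale.Agent.P006

open Vale.Agent.P026 Filter
open scoped ComplexConjugate Real

theorem norm_psi_le (w h : O) : ‖psi w h‖ ≤ 1 := by
  rw [psi, norm_mul]
  exact mul_le_one₀ (norm_ind_le _) (norm_nonneg _) (norm_cub_le _ _)
theorem psi_zero (w : O) : psi w 0 = 0 := by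
  rw [psi, ind_of_not fun h : Prim 0 => h.ne_zero rfl, zero_mul]
theorem per_psi {w Q : O} (h : Rad w Q) : Per (9 * Q) (psi w) := by
  intro a b hab
  have h3 : (3 : O) ∣ 9 * Q := ⟨3 * Q, by ring⟩
  by_cases ha : Prim a
  · rw [psi, psi, ind_of ha, ind_of (ha.of_dvd_sub h3 (dvd_sub_comm.1 hab)),
      cub_den_congr h.1 ha (dvd_mul_right 9 Q) (fun p hp hw => (h.2.2 p hp hw).mul_left 9) hab]
  · rw [psi, psi, ind_of_not ha, ind_of_not fun hb : Prim b => ha (hb.of_dvd_sub h3 hab), zero_mul,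
      zero_mul]
theorem NCFt_ch_congr {a b x y : O} (h : x * y ∣ a - b) : ch a x y = ch b x y := by
  rw [ch, ch, cub_congr ((dvd_mul_right x y).trans h), cub_congr ((dvd_mul_left y x).trans h)]
theorem NCFt_psi_mul (w : O) {c : O} (hc : Prim c) (a : O) : psi w (c * a) = cub w c * psi w a := by
  by_cases ha : Prim a
  · rw [psi, psi, ind_of ha, ind_of (hc.mul ha), cub_mul_right hc.ne_zero ha.ne_zero, one_mul,
      one_mul]
  · rw [psi, psi, ind_of_not ha, ind_of_not fun h => ha (hc.of_mul h), zero_mul, zero_mul, mul_zero]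
theorem per_psi_ch {w Q : O} (h : Rad w Q) (x y : O) :
    Per (9 * Q * (x * y)) fun h => psi w h * ch h x y := fun a b hab =>
  congrArg₂ _ (per_psi h a b ((dvd_mul_right _ _).trans hab))
    (NCFt_ch_congr ((dvd_mul_left _ _).trans hab))
theorem ft_psi_ch {w Q x y : O} (h : Rad w Q) (hx : Sq x) (hy : Sq y) (hxy : IsCoprime x y)
    (hQ : IsCoprime (x * y) Q) : ∃ κ : ℂ, ‖κ‖ ≤ 1 ∧ ∀ k,
      ft (9 * Q * (x * y)) (fun h => psi w h * ch h x y) k =
        κ / (√(nm x * nm y) : ℝ) * (ft (9 * Q) (psi w) k * conj (ch k x y)) := by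
  have hq : Prim (x * y) := hx.1.mul hy.1
  have h9 : 9 * Q ≠ 0 := mul_ne_zero (by decide) h.2.1
  have hc : IsCoprime (9 * Q) (x * y) := (hq.coprime_nine.mul_right hQ).symm
  refine ⟨cub w (x * y) * ch (9 * Q) x y * (gt3 x * conj (gt3 y)), ?_, fun k => ?_⟩
  · rw [norm_mul, norm_mul, norm_mul, Complex.norm_conj, norm_gt3 hx.1 hx.2, norm_gt3 hy.1 hy.2,
      mul_one, mul_one]
    exact mul_le_one₀ (norm_cub_le _ _) (norm_nonneg _) (norm_ch_le _ _ _)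
  have e3 : ∀ a b : O, psi w (x * y * a + 9 * Q * b) * ch (x * y * a + 9 * Q * b) x y *
      eq (k * (x * y * a + 9 * Q * b)) (9 * Q * (x * y)) = psi w a * eq (k * a) (9 * Q) *
        (cub w (x * y) * ch (9 * Q) x y * (ch b x y * eq (k * b) (x * y))) := by
    intro a b
    rw [show k * (x * y * a + 9 * Q * b) = x * y * (k * a) + 9 * Q * (k * b) by ring,
      eq_crt h9 hq.ne_zero, per_psi h _ (x * y * a) ⟨b, by ring⟩, NCFt_psi_mul w hq,
      NCFt_ch_congr (b := 9 * Q * b) ⟨a, by ring⟩, ch_mul]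
    ring
  have e4 : (nm (9 * Q * (x * y)) : ℂ) =
      nm (9 * Q) * ((√(nm x * nm y) : ℝ) * (√(nm x * nm y) : ℝ)) := by
    rw [← Complex.ofReal_mul, Real.mul_self_sqrt (by positivity), nm_mul (9 * Q), nm_mul x]
    push_cast
    rfl
  have e5 : ((√(nm x * nm y) : ℝ) : ℂ) ≠ 0 := Complex.ofReal_ne_zero.2
    (Real.sqrt_pos.2 (mul_pos (one_pos.trans_le hx.one_le) (one_pos.trans_le hy.one_le))).ne'
  have e6 := KBasic_nm_ne h9
  rw [ft, ft, sum_res_crt h9 hq.ne_zero hc fun a b hab => congrArg₂ _ (per_psi_ch h x y a b hab)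
    (eq_congr (by rw [← mul_sub]; exact hab.mul_left k))]
  simp only [e3, ← Finset.mul_sum, ← Finset.sum_mul]
  simp only [ch]
  rw [ftc hx hy hxy k, e4, ← Real.sqrt_mul (Nat.cast_nonneg _), map_mul, Complex.conj_conj]
  field_simp
theorem ch_zero {x y : O} (hx : Sq x) (hy : Sq y) (h : ¬(x = 1 ∧ y = 1)) : ch 0 x y = 0 := by
  have key : ∀ m : O, Prim m → m ≠ 1 → cub 0 m = 0 := fun m hm h =>
    cub_eq_zero hm.not_lam_dvd fun hc => h (hm.eq_one_of_isUnit (isCoprime_zero_left.1 hc))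
  rcases not_and_or.1 h with a | a
  · rw [ch, key _ hx.1 a, zero_mul]
  · rw [ch, key _ hy.1 a, map_zero, mul_zero]
theorem NCFt_norm_ft {q : O} (hq : q ≠ 0) {f : O → ℂ} (hf : ∀ x, ‖f x‖ ≤ 1) (k : O) :
    ‖ft q f k‖ ≤ 1 := by
  have h0 : (0 : ℝ) < nm q := by exact_mod_cast nm_pos hq
  rw [ft, norm_div, Complex.norm_natCast, div_le_one h0]
  refine (norm_sum_le_of_le _ (n := fun _ => 1) fun x _ => ?_).trans ?_
  · rw [norm_mul, norm_eq, mul_one]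
    exact hf x
  · rw [Finset.sum_const, card_res hq, nsmul_eq_mul, mul_one]
theorem norm_dk_le {w Q : O} (hQ : Q ≠ 0) (τ : ℝ) (k : O) : ‖dk Q w τ k‖ ^ 2 ≤ (nm k : ℝ)⁻¹ := by
  by_cases hk : k = 0
  · rw [dk, ind_of_not (not_not.2 hk), zero_mul, zero_mul, norm_zero, sq, zero_mul]
    positivity
  have h1 : ((nm k : ℝ) ^ (-1 / 2 + Complex.I * τ : ℂ).re) ^ 2 = (nm k : ℝ)⁻¹ := by
    rw [← Real.rpow_natCast, ← Real.rpow_mul (Nat.cast_nonneg _), ← Real.rpow_neg_one]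
    congr 1
    simp
  rw [dk, ind_of hk, one_mul, norm_mul, Complex.norm_conj, norm_np hk, mul_pow, h1]
  exact mul_le_of_le_one_left (by positivity) (pow_le_one₀ (norm_nonneg _)
    (NCFt_norm_ft (mul_ne_zero (by decide) hQ) (norm_psi_le w) k))
theorem continuous_dk (Q w k : O) : Continuous fun τ : ℝ => dk Q w τ k := by
  by_cases hk : k = 0
  · simp only [dk, ind_of_not (not_not.2 hk), zero_mul]
    exact continuous_const
  · exact continuous_const.mul (Continuous.const_cpow (by fun_prop) (Or.inl (KBasic_nm_ne hk)))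
theorem NCFt_gcd {x : O} (hx : Sq x) {Q : O} (hQ : Q ≠ 0) :
    ∃ c ∈ pdiv Q, ∃ x', x = c * x' ∧ Sq x' ∧ IsCoprime x' Q := by
  obtain ⟨c, hc, ⟨x', rfl⟩, h2, h3⟩ := exists_prim_gcd Q hx.1
  refine ⟨c, (mem_pdiv hQ).2 ⟨hc, h2⟩, x', rfl, (hx.right hc).2, IsRelPrime.isCoprime ?_⟩
  exact fun e h4 h5 => hx.2 e (mul_dvd_mul (h3 e (h4.mul_left c) h5) h4)
theorem NCFt_LL (Y t : ℝ) (w : O) {c e x y : O} (hc : Prim c) (he : Prim e) (hx : x ≠ 0)
    (hy : y ≠ 0) : LL (2 * Y) (pc Y w t) (c * x) (e * y) =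
      LL (2 * Y) (pc Y (w * (c * e ^ 2)) t) x y := by
  refine Finset.sum_congr rfl fun n _ => ?_
  by_cases hn : Prim n
  · rw [pc, pc, psi, psi, cub_mul_left w, ← ch_eq hn hc he, ch, ch, ch,
      cub_mul_right hc.ne_zero hx, cub_mul_right he.ne_zero hy, map_mul]
    ring
  · simp only [pc, psi, ind_of_not hn, zero_mul]
theorem Env.cred {E R Y t M m S : ℝ} {w Q : O} (h : Env E R) (hw : Rad w Q) (hQ : (nm Q : ℝ) ≤ R)
    (hS : ∀ w', Rad w' Q → ∑ p ∈ prq Q M m, ‖LL (2 * Y) (pc Y w' t) p.1 p.2‖ ^ 2 ≤ S) :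
    MS M m (LL (2 * Y) (pc Y w t)) ≤ E ^ 2 * S := by
  have hQ0 := hw.2.1
  have hS0 : 0 ≤ S := le_trans (by positivity) (hS w hw)
  have h1 := h.tau Q hQ0 hQ
  refine (sum_le_sum_cover (prs M m) (pdiv Q ×ˢ pdiv Q ×ˢ prq Q M m)
    (fun i => (i.1 * i.2.2.1, i.2.1 * i.2.2.2)) (fun p => ‖LL (2 * Y) (pc Y w t) p.1 p.2‖ ^ 2)
    (fun _ => by positivity) fun p hp => ?_).trans ?_
  · obtain ⟨⟨a1, a2⟩, ⟨a3, a4⟩, a5⟩ := mem_prs.1 hp
    obtain ⟨c, hc, x, e1, hx, b1⟩ := NCFt_gcd a1 hQ0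
    obtain ⟨e, he, y, e2, hy, b2⟩ := NCFt_gcd a3 hQ0
    have d1 : x ∣ p.1 := e1 ▸ dvd_mul_left x c
    have d2 : y ∣ p.2 := e2 ▸ dvd_mul_left y e
    refine ⟨(c, e, x, y), Finset.mem_product.2 ⟨hc, Finset.mem_product.2 ⟨he, mem_prq.2
      ⟨mem_prs.2 ⟨⟨hx, le_trans ?_ a2⟩, ⟨hy, le_trans ?_ a4⟩,
        (a5.of_isCoprime_of_dvd_left d1).of_isCoprime_of_dvd_right d2⟩, b1.mul_left b2⟩⟩⟩,
      Prod.ext e1.symm e2.symm⟩
    · exact_mod_cast nm_le_of_dvd a1.ne_zero d1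
    · exact_mod_cast nm_le_of_dvd a3.ne_zero d2
  rw [Finset.sum_product]
  refine (Finset.sum_le_card_nsmul _ _ (P026.tau Q * S) fun c hc => ?_).trans ?_
  · rw [Finset.sum_product]
    refine (Finset.sum_le_card_nsmul _ _ S fun e he => ?_).trans_eq (nsmul_eq_mul _ _)
    obtain ⟨c1, c2⟩ := (mem_pdiv hQ0).1 hc
    obtain ⟨e1, e2⟩ := (mem_pdiv hQ0).1 he
    refine le_trans (le_of_eq (Finset.sum_congr rfl fun p hp => ?_)) (hS (w * (c * e ^ 2))
      ⟨mul_ne_zero hw.1 (mul_ne_zero c1.ne_zero (pow_ne_zero 2 e1.ne_zero)), hQ0, fun p hp hd => ?_⟩)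
    · obtain ⟨a1, a2, -⟩ := mem_prs.1 (mem_prq.1 hp).1
      rw [NCFt_LL Y t w c1 e1 a1.1.ne_zero a2.1.ne_zero]
    · rcases hp.dvd_or_dvd hd with h' | h'
      · exact hw.2.2 p hp h'
      · rcases hp.dvd_or_dvd h' with h' | h'
        · exact h'.trans c2
        · exact (hp.dvd_of_dvd_pow h').trans e2
  · rw [nsmul_eq_mul, ← mul_assoc, sq]
    exact mul_le_mul_of_nonneg_right (mul_self_le_mul_self (tau_nonneg Q) h1) hS0

end Vale.Agent.P006
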