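import Vale.Agent.P006.NLf
import Vale.Agent.P006.NCFt
import Vale.Agent.P006.KGs

/-! N11: smoothing the window.
Plan: split the series at `ball (4 Y)`; `LL (2Y) pc - SS = LL (4Y) e - tail`, `e h = psi w h * wt t h * (win - Sm)`; `MS_add`.
`Env.ms3`, `g3K_le` (`u = 1`) and `csm_sum` (`Sm_sub_win`, `Gs ≤ 1`) give `∑ ‖e‖² ≤ E² (√Y/T + 1)`.
`csm_sum`: if `|log (N h / y)| < E / T ≤ 1` count by `card_annulus` (`e^u - e^{-u} ≤ 3 u`), otherwise `Gs ≤ e^{-E²}` and `R ≤ e^E`.
`csm_tail`: for `u = N h/(2Y) ≥ 2`, `Sm ≤ 2 Gs T u`, `Gs T u ≤ u^{-2} * 4 e^{-T² log² 2}` (as `T² log 2 ≥ 2`), `sum_rpow_tail`, `summable_of_sum_le`.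
The tail has `MS ≤ E² M m ≤ E² K` (`Env.card_prs`). -/

namespace Vale.Agent.P006

open Vale.Agent.P026 Filter
open scoped ComplexConjugate Real

theorem NCSm_near {y u x : ℝ} (hy : 1 ≤ y) (hu : u ≤ 1) (hx : 0 < x) (h : |Real.log (x / y)| < u) :
    y * Real.exp (-u) < x ∧ x ≤ y * Real.exp (-u) + 4 * u * y ∧ x ^ (-1 / 2 : ℝ) ≤ 2 / √y := by
  have hy0 : 0 < y := by linarith
  have hu0 : 0 ≤ u := (abs_nonneg _).trans h.le
  obtain ⟨h1, h2⟩ := abs_lt.1 h
  rw [Real.lt_log_iff_exp_lt (by positivity), lt_div_iff₀ hy0] at h1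
  rw [Real.log_lt_iff_lt_exp (by positivity), div_lt_iff₀ hy0] at h2
  have h3 := Real.abs_exp_sub_one_le (x := u) (by rwa [abs_of_nonneg hu0])
  have h4 := Real.abs_exp_sub_one_le (x := -u) (by rwa [abs_neg, abs_of_nonneg hu0])
  rw [abs_neg] at h4
  rw [abs_of_nonneg hu0, abs_le] at h3 h4
  refine ⟨by linarith, by nlinarith [h3.2, h4.1], ?_⟩
  have h5 : 1 / 4 ≤ Real.exp (-u) := by
    have h6 := Real.exp_neg_one_gt_d9
    have h7 := Real.exp_le_exp.2 (neg_le_neg hu)
    linarith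
  have h8 : √y ≤ 2 * √x := by
    rw [← Real.sqrt_sq zero_le_two, ← Real.sqrt_mul (by positivity)]
    exact Real.sqrt_le_sqrt (by nlinarith)
  rw [show (-1 / 2 : ℝ) = -(1 / 2) by norm_num, Real.rpow_neg hx.le, ← Real.sqrt_eq_rpow,
    inv_eq_one_div, div_le_div_iff₀ (by positivity) (by positivity), one_mul]
  exact h8

theorem NCSm_R {E R : ℝ} (h : Env E R) (hR : 0 < R) : R ≤ Real.exp E :=
  (Real.log_le_iff_le_exp hR).1 h.log

theorem csm_sum : ∃ C : ℝ, ∀ E R T y : ℝ, Env E R → C ≤ E → E ≤ T → 1 ≤ y → 4 * y ≤ 2 * R →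
    ∀ s : Finset O, (∀ h ∈ s, h ≠ 0 ∧ (nm h : ℝ) ≤ R) →
      ∑ h ∈ s, (nm h : ℝ) ^ (-1 / 2 : ℝ) * Gs T (nm h / y) ≤ C * (E * √y / T + 1) := by
  classical
  obtain ⟨C, hC, hc⟩ := card_annulus
  refine ⟨8 * C + 2, fun E R T y hE hCE hT hy hR s hs => ?_⟩
  have hE2 : 2 ≤ E := by linarith
  have hT0 : 0 < T := by linarith
  have hu1 : E / T ≤ 1 := (div_le_one hT0).2 hT
  have hu0 : 0 < E / T := by positivity
  have hTu : T * (E / T) = E := by field_simp
  have hsq : 1 ≤ √y := Real.one_le_sqrt.2 hy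
  rw [mul_div_right_comm]
  generalize E / T = u at hu1 hu0 hTu
  have hpos : ∀ h ∈ s, (1 : ℝ) ≤ nm h := fun h hh => one_le_nm (hs h hh).1
  rw [← Finset.sum_filter_add_sum_filter_not s fun h => |Real.log (nm h / y)| < u]
  have near : ∑ h ∈ s.filter (fun h => |Real.log (nm h / y)| < u),
      (nm h : ℝ) ^ (-1 / 2 : ℝ) * Gs T (nm h / y) ≤ 8 * C * (u * √y + 1) := by
    have h1 : ((s.filter fun h => |Real.log (nm h / y)| < u).card : ℝ) ≤
        C * (4 * u * y + √y + 1) := by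
      have h2 := hc (y * Real.exp (-u)) (4 * u * y) (by positivity) (by positivity)
      refine le_trans (Nat.cast_le.2 (Finset.card_le_card fun h hh => ?_)) (h2.trans ?_)
      · rw [Finset.mem_filter] at hh ⊢
        have h3 := NCSm_near hy hu1 (zero_lt_one.trans_le (hpos h hh.1)) hh.2
        exact ⟨mem_ball.2 h3.2.1, h3.1⟩
      · have h4 : Real.exp (-u) ≤ 1 := Real.exp_le_one_iff.2 (by linarith)
        have h5 : √(y * Real.exp (-u)) ≤ √y := Real.sqrt_le_sqrt (by nlinarith)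
        gcongr
    refine (Finset.sum_le_card_nsmul _ _ (2 / √y) fun h hh => ?_).trans ?_
    · rw [Finset.mem_filter] at hh
      have h3 := NCSm_near hy hu1 (zero_lt_one.trans_le (hpos h hh.1)) hh.2
      exact (mul_le_of_le_one_right (by positivity) (Gs_le_one _ _)).trans h3.2.2
    · rw [nsmul_eq_mul]
      refine (mul_le_mul_of_nonneg_right h1 (by positivity)).trans ?_
      have h6 := Real.mul_self_sqrt (show 0 ≤ y by linarith)
      rw [← mul_div_assoc, div_le_iff₀ (by positivity)]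
      have h7 : (4 * u * y + √y + 1) * 2 ≤ 8 * (u * √y + 1) * √y := by nlinarith
      nlinarith
  have far : ∑ h ∈ s.filter (fun h => ¬|Real.log (nm h / y)| < u),
      (nm h : ℝ) ^ (-1 / 2 : ℝ) * Gs T (nm h / y) ≤ 1 := by
    have h1 : ((s.filter fun h => ¬|Real.log (nm h / y)| < u).card : ℝ) ≤ E * R := by
      refine le_trans (Nat.cast_le.2 (Finset.card_le_card fun h hh => ?_)) (hE.card R (by linarith))
      exact mem_ball.2 (hs h (Finset.mem_filter.1 hh).1).2
    refine (Finset.sum_le_card_nsmul _ _ (Real.exp (-E ^ 2)) fun h hh => ?_).trans ?_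
    · rw [Finset.mem_filter, not_lt] at hh
      refine (mul_le_of_le_one_left (Gs_pos _ _).le
        (Real.rpow_le_one_of_one_le_of_nonpos (hpos h hh.1) (by norm_num))).trans ?_
      refine Real.exp_le_exp.2 (neg_le_neg ?_)
      rw [← hTu, mul_pow, ← sq_abs (Real.log _)]
      have := hh.2
      gcongr
    · rw [nsmul_eq_mul]
      have h2 := NCSm_R hE (by linarith)
      have h3 : E ≤ Real.exp E := by linarith [Real.add_one_le_exp E]
      calc _ ≤ Real.exp E * Real.exp E * Real.exp (-E ^ 2) := by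
            refine mul_le_mul_of_nonneg_right (h1.trans ?_) (Real.exp_pos _).le
            exact mul_le_mul h3 h2 (by linarith) (Real.exp_pos _).le
        _ ≤ 1 := by
            rw [← Real.exp_add, ← Real.exp_add, Real.exp_le_one_iff]
            nlinarith
  have h9 : 0 ≤ u * √y := by positivity
  nlinarith

theorem NCSm_Gs {E T x : ℝ} (hE : 4 ≤ E) (hT : E ≤ T) (hx : 2 ≤ x) :
    Gs T x ≤ Real.exp (-(E ^ 2 / 4)) / x ^ 2 := by
  have h1 : 0.69 ≤ Real.log x := by
    have := Real.log_two_gt_d9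
    have := Real.log_le_log two_pos hx
    linarith
  have h2 : x ^ 2 = Real.exp (2 * Real.log x) := by
    rw [two_mul, Real.exp_add, Real.exp_log (by linarith), sq]
  rw [h2, ← Real.exp_sub, Gs, Real.exp_le_exp]
  generalize Real.log x = l at h1
  have h3 : E ^ 2 ≤ T ^ 2 := by gcongr
  have h4 : 16 ≤ E ^ 2 := by nlinarith
  have h5 : E ^ 2 * l ^ 2 ≤ T ^ 2 * l ^ 2 := by gcongr
  have h6 : E ^ 2 / 2 ≤ E ^ 2 * l - 2 := by nlinarith
  nlinarith

theorem NCSm_win {Y : ℝ} {h : O} (hh : 2 * Y < nm h) : win Y (2 * Y) h = 0 := by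
  rw [win, ind, if_neg fun h1 => absurd h1.2 (not_le.2 hh)]

theorem csm_tail : ∃ C : ℝ, ∀ E R T Y : ℝ, Env E R → C ≤ E → E ≤ T → 1 ≤ Y → Y ≤ R →
    Summable (fun h : O => ‖ind (4 * Y < nm h)‖ * Sm T Y (2 * Y) (nm h)) ∧
      ∑' h : O, ‖ind (4 * Y < nm h)‖ * Sm T Y (2 * Y) (nm h) ≤ 1 := by
  classical
  obtain ⟨C, hC, hc⟩ := sum_rpow_tail (σ := 2) one_lt_two
  refine ⟨2 * C + 8, fun E R T Y hE hCE hT hY hR => ?_⟩
  have hT0 : 0 < T := by linarith
  have hY0 : 0 < Y := by linarith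
  have h0 : ∀ h : O, 0 ≤ ‖ind (4 * Y < nm h)‖ * Sm T Y (2 * Y) (nm h) := fun h =>
    mul_nonneg (norm_nonneg _) (Sm_nonneg hT0 hY0 (by linarith) _)
  have key : ∀ s : Finset O, ∑ h ∈ s, ‖ind (4 * Y < nm h)‖ * Sm T Y (2 * Y) (nm h) ≤ 1 := by
    intro s
    have h1 : ∑ h ∈ s, ‖ind (4 * Y < nm h)‖ * Sm T Y (2 * Y) (nm h) ≤
        ∑ h ∈ s.filter (fun h => 4 * Y < nm h),
          5 * Y ^ 2 * Real.exp (-(E ^ 2 / 4)) * (nm h : ℝ) ^ (-2 : ℝ) := by
      rw [Finset.sum_filter]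
      refine Finset.sum_le_sum fun h _ => ?_
      unfold ind
      split_ifs with hh
      · have hN : (0 : ℝ) < nm h := by linarith
        have hne : h ≠ 0 := by
          rintro rfl
          simp at hN
        have h2 := Sm_sub_win hT0 hY0 (by linarith : Y ≤ 2 * Y) hne
        rw [NCSm_win (by linarith), sub_zero, Complex.norm_real] at h2
        have h3 := NCSm_Gs (x := nm h / Y) (by linarith) hT (by rw [le_div_iff₀ hY0]; linarith)
        have h4 := NCSm_Gs (x := nm h / (2 * Y)) (by linarith) hT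
          (by rw [le_div_iff₀ (by linarith)]; linarith)
        rw [norm_one, one_mul]
        refine (Real.le_norm_self _).trans (h2.trans ((add_le_add h3 h4).trans (le_of_eq ?_)))
        rw [Real.rpow_neg hN.le, Real.rpow_two]
        field_simp
        ring
      · simp
    have h5 := hc (4 * Y) (s.filter fun h => 4 * Y < nm h) (by linarith)
      fun h hh => (Finset.mem_filter.1 hh).2
    rw [← Finset.mul_sum] at h1
    refine h1.trans ((mul_le_mul_of_nonneg_left h5 (by positivity)).trans ?_)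
    have h6 := NCSm_R hE (by linarith)
    have h7 : 2 * C ≤ Real.exp E := by linarith [Real.add_one_le_exp E]
    rw [show (1 - 2 : ℝ) = -1 by norm_num, Real.rpow_neg_one]
    calc _ = 5 / 8 * (2 * C * Y * Real.exp (-(E ^ 2 / 4))) := by field_simp; ring
      _ ≤ 1 * (Real.exp E * Real.exp E * Real.exp (-(E ^ 2 / 4))) := by
          gcongr
          · norm_num
          · linarith
      _ ≤ 1 := by
          rw [one_mul, ← Real.exp_add, ← Real.exp_add, Real.exp_le_one_iff]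
          nlinarith
  have hs := summable_of_sum_le h0 key
  exact ⟨hs, hs.tsum_le_of_sum_le key⟩

theorem NCSm_split {T Y t : ℝ} {w : O} (hT : 0 < T) (hY : 0 < Y)
    (hs : Summable fun h : O => ‖ind (4 * Y < nm h)‖ * Sm T Y (2 * Y) (nm h))
    (h1 : ∑' h : O, ‖ind (4 * Y < nm h)‖ * Sm T Y (2 * Y) (nm h) ≤ 1) (x y : O) :
    ∃ z : ℂ, ‖z‖ ≤ 1 ∧ LL (2 * Y) (pc Y w t) x y - SS T Y w t x y =
      LL (4 * Y) (fun h => psi w h * (wt t h * (win Y (2 * Y) h - (Sm T Y (2 * Y) (nm h) : ℝ)))) x y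
        + z := by
  classical
  obtain ⟨F, hF⟩ : ∃ F : O → ℂ,
      F = fun h => psi w h * ch h x y * (wt t h * (Sm T Y (2 * Y) (nm h) : ℝ)) := ⟨_, rfl⟩
  have hb : ∀ h : O, ‖ind (4 * Y < nm h) * F h‖ ≤
      ‖ind (4 * Y < nm h)‖ * Sm T Y (2 * Y) (nm h) := by
    intro h
    have h2 := Sm_nonneg hT hY (by linarith : Y ≤ 2 * Y) (nm h)
    rw [norm_mul]
    refine mul_le_mul_of_nonneg_left ?_ (norm_nonneg _)
    rcases eq_or_ne h 0 with rfl | hne
    · simp only [hF, psi_zero, zero_mul, norm_zero]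
      exact h2
    · simp only [hF, norm_mul, Complex.norm_real, Real.norm_of_nonneg h2]
      calc _ ≤ 1 * 1 * (1 * Sm T Y (2 * Y) (nm h)) := by
            gcongr
            · exact norm_psi_le _ _
            · exact norm_ch_le _ _ _
            · exact norm_wt_le_one hne _
        _ = _ := by ring
  have hG : Summable fun h : O => ind (4 * Y < nm h) * F h := Summable.of_norm_bounded hs hb
  have hA : HasSum (fun h : O => if h ∈ ball (4 * Y) then F h else 0) (∑ h ∈ ball (4 * Y), F h) := by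
    have h3 := hasSum_sum_of_ne_finset_zero (f := fun h : O => if h ∈ ball (4 * Y) then F h else 0)
      (s := ball (4 * Y)) (L := SummationFilter.unconditional O) fun h hh => if_neg hh
    rwa [Finset.sum_congr rfl fun h hh => if_pos hh] at h3
  have hS : SS T Y w t x y = ∑ h ∈ ball (4 * Y), F h + ∑' h : O, ind (4 * Y < nm h) * F h := by
    rw [← (hA.add hG.hasSum).tsum_eq, SS, ← hF]
    refine tsum_congr fun h => ?_
    by_cases hh : 4 * Y < nm h
    · rw [if_neg (fun h4 => absurd (mem_ball.1 h4) (not_le.2 hh)), ind, if_pos hh, one_mul, zero_add]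
    · rw [if_pos (mem_ball.2 (not_lt.1 hh)), ind, if_neg hh, zero_mul, add_zero]
  have hL : LL (2 * Y) (pc Y w t) x y = LL (4 * Y) (pc Y w t) x y := by
    refine Finset.sum_subset (fun h hh => mem_ball.2 ((mem_ball.1 hh).trans (by linarith)))
      fun h _ hh => ?_
    rw [pc, NCSm_win (not_le.1 fun h4 => hh (mem_ball.2 h4))]
    simp
  refine ⟨-∑' h : O, ind (4 * Y < nm h) * F h, ?_, ?_⟩
  · rw [norm_neg]
    exact (tsum_of_norm_bounded hs.hasSum hb).trans h1
  · rw [hS, hL, ← sub_sub, ← sub_eq_add_neg, LL, LL, ← Finset.sum_sub_distrib]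
    congr 1
    refine Finset.sum_congr rfl fun h _ => ?_
    simp only [hF, pc]
    ring

theorem csmooth : ∃ C : ℝ, ∀ E R : ℝ, Env E R → C ≤ E → ∀ (T Y K M m t : ℝ) (w : O), E ≤ T →
    1 ≤ Y → 4 * Y ≤ K → K ≤ R → 1 ≤ m → m ≤ M → m ^ 2 * M ≤ K →
      MS M m (fun x y => LL (2 * Y) (pc Y w t) x y - SS T Y w t x y) ≤
        E ^ 5 * K ^ (4 / 3 : ℝ) * (√Y / T + 1) := by
  classical
  obtain ⟨C1, hC1⟩ := csm_sum
  obtain ⟨C2, hC2⟩ := csm_tail
  refine ⟨max (36 * |C1| + 2) C2, fun E R hE hCE T Y K M m t w hT hY hK hR hm hM hmM => ?_⟩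
  have hE1 := hE.one
  have hA := abs_nonneg C1
  have hA' := le_abs_self C1
  have hC3 : 36 * |C1| + 2 ≤ E := (le_max_left _ _).trans hCE
  have hT0 : 0 < T := by linarith
  have hY0 : 0 < Y := by linarith
  obtain ⟨hs, h1⟩ := hC2 E R T Y hE ((le_max_right _ _).trans hCE) hT hY (by linarith)
  choose z hz hz' using NCSm_split (t := t) (w := w) hT0 hY0 hs h1
  simp only [hz']
  generalize he : (fun h => psi w h * (wt t h *
    (win Y (2 * Y) h - (Sm T Y (2 * Y) (nm h) : ℝ)))) = e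
  have hV : 1 ≤ √Y / T + 1 := by
    have : 0 ≤ √Y / T := by positivity
    linarith
  have hK1 : K ≤ K ^ (4 / 3 : ℝ) := by
    conv_lhs => rw [← Real.rpow_one K]
    exact Real.rpow_le_rpow_of_exponent_le (by linarith) (by norm_num)
  have h2 : MS M m z ≤ E ^ 2 * K ^ (4 / 3 : ℝ) := by
    refine (Finset.sum_le_card_nsmul _ _ 1 fun p _ => pow_le_one₀ (norm_nonneg _) (hz _ _)).trans ?_
    rw [nsmul_eq_mul, mul_one]
    refine (hE.card_prs (hm.trans hM) hm).trans (mul_le_mul_of_nonneg_left ?_ (by positivity))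
    nlinarith [mul_le_mul_of_nonneg_left hm (show 0 ≤ M * m by nlinarith)]
  have h3 : ∑ n ∈ ball (4 * Y), ‖e n‖ ^ 2 ≤ 6 * |C1| * E * (√Y / T + 1) := by
    have hs' : ∀ h ∈ (ball (4 * Y)).erase 0, h ≠ 0 ∧ (nm h : ℝ) ≤ R := fun h hh =>
      ⟨(Finset.mem_erase.1 hh).1, (mem_ball.1 (Finset.mem_erase.1 hh).2).trans (by linarith)⟩
    have h4 := hC1 E R T Y hE (by linarith) hT hY (by linarith) _ hs'
    have h5 := hC1 E R T (2 * Y) hE (by linarith) hT (by linarith) (by linarith) _ hs'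
    have h6 : ∑ n ∈ ball (4 * Y), ‖e n‖ ^ 2 ≤ ∑ h ∈ (ball (4 * Y)).erase 0,
        2 * ((nm h : ℝ) ^ (-1 / 2 : ℝ) * Gs T (nm h / Y) +
          (nm h : ℝ) ^ (-1 / 2 : ℝ) * Gs T (nm h / (2 * Y))) := by
      rw [← Finset.sum_erase (ball (4 * Y)) (a := 0) (by simp [← he, psi_zero])]
      refine Finset.sum_le_sum fun h hh => ?_
      have hne := (Finset.mem_erase.1 hh).1
      have h7 := Sm_sub_win hT0 hY0 (by linarith : Y ≤ 2 * Y) hne
      have g1 := Gs_le_one T (nm h / Y)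
      have g2 := Gs_le_one T (nm h / (2 * Y))
      have g3 := Gs_pos T (nm h / Y)
      have g4 := Gs_pos T (nm h / (2 * Y))
      have h8 : ‖e h‖ ≤ 1 * ((nm h : ℝ) ^ (-1 / 4 : ℝ) *
          (Gs T (nm h / Y) + Gs T (nm h / (2 * Y)))) := by
        simp only [← he]
        rw [norm_mul, norm_mul, norm_wt hne, norm_sub_rev]
        gcongr
        exact norm_psi_le _ _
      have h9 : ((nm h : ℝ) ^ (-1 / 4 : ℝ)) ^ 2 = (nm h : ℝ) ^ (-1 / 2 : ℝ) := by
        rw [← Real.rpow_natCast, ← Real.rpow_mul (Nat.cast_nonneg _)]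
        norm_num
      refine (pow_le_pow_left₀ (norm_nonneg _) h8 2).trans ?_
      rw [one_mul, mul_pow, h9, ← mul_add, mul_left_comm]
      exact mul_le_mul_of_nonneg_left (by nlinarith) (by positivity)
    rw [← Finset.mul_sum, Finset.sum_add_distrib] at h6
    have h10 : √(2 * Y) ≤ 2 * √Y := by
      rw [← Real.sqrt_sq zero_le_two, ← Real.sqrt_mul (by positivity), Real.sqrt_sq zero_le_two]
      exact Real.sqrt_le_sqrt (by linarith)
    have h11 : E * √(2 * Y) / T ≤ 2 * (E * (√Y / T)) := by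
      rw [div_le_iff₀ hT0]
      have : 2 * (E * (√Y / T)) * T = E * (2 * √Y) := by field_simp
      rw [this]
      exact mul_le_mul_of_nonneg_left h10 (by linarith)
    have h12 : C1 * (E * √Y / T + 1) ≤ |C1| * (E * (√Y / T) + E) := by
      rw [mul_div_assoc]
      exact mul_le_mul hA' (by linarith) (by positivity) hA
    have h13 : C1 * (E * √(2 * Y) / T + 1) ≤ |C1| * (2 * (E * (√Y / T)) + 2 * E) :=
      mul_le_mul hA' (by linarith) (by positivity) hA
    nlinarith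
  have h14 := hE.ms3 e (N := 4 * Y) (by linarith) (by linarith) hm hM hmM hR
  have h15 := g3K_le (N := 4 * Y) (K := K) (u := 1) (by linarith) le_rfl (by simpa using hK)
  rw [Real.one_rpow, mul_one] at h15
  have hK0 : 0 ≤ K ^ (4 / 3 : ℝ) := by linarith
  have h16 : MS M m (LL (4 * Y) e) ≤
      E ^ 2 * (3 * K ^ (4 / 3 : ℝ)) * (6 * |C1| * E * (√Y / T + 1)) :=
    h14.trans (mul_le_mul (mul_le_mul_of_nonneg_left h15 (by positivity)) h3
      (Finset.sum_nonneg fun _ _ => by positivity) (by positivity))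
  refine (MS_add M m (LL (4 * Y) e) z).trans ?_
  generalize √Y / T + 1 = V at hV h16
  generalize K ^ (4 / 3 : ℝ) = L at hK0 h2 h16
  have h17 : E ^ 2 * L ≤ E ^ 3 * L * V := by
    calc E ^ 2 * L = E ^ 2 * 1 * L * 1 := by ring
      _ ≤ E ^ 2 * E * L * V := by gcongr
      _ = _ := by ring
  have h18 : (36 * |C1| + 2) * (E ^ 3 * L * V) ≤ E * E * (E ^ 3 * L * V) :=
    mul_le_mul_of_nonneg_right (by nlinarith) (by positivity)
  nlinarith

end Vale.Agent.P006
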