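import Vale.Agent.P006.NCPs
import Vale.Agent.P006.NCSm

/-! N14: mean square of the pure character sums.
Plans: `int_ms`: with `I i = ∫ G ‖F i‖`, `∑ I i ² = ∫ G ∑ I i ‖F i τ‖ ≤ (∫ G) √(∑ I i ²) √S`.
`pure`: `Env.cred`; on `prq ⊆ prs`, `‖LL‖² ≤ 2 ‖LL - SS‖² + 2 ‖SS‖²`, `csmooth`, `cps` (`N x N y ≤ M m ≤ K`), `(a+b+c)² ≤ 3 (a²+b²+c²)`;
at most one pair `(1, 1)`; `int_ms` with `Env.ms3`, `norm_dk_le`, `sum_inv_nm_le`, `integral_Gk` (`log (2T) ≤ 2E`, `1 + log N ≤ 2E`);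
last term: `E² K Y^{3/2} N² / R⁵ ≤ E²`. -/

namespace Vale.Agent.P006

open Vale.Agent.P026 Filter MeasureTheory
open scoped ComplexConjugate Real

theorem int_ms {ι : Type*} (s : Finset ι) {G : ℝ → ℝ} {F : ι → ℝ → ℂ} {S : ℝ} (hG : Integrable G)
    (h0 : ∀ τ, 0 ≤ G τ) (hF : ∀ i, Continuous (F i)) (hS : ∀ τ, ∑ i ∈ s, ‖F i τ‖ ^ 2 ≤ S) :
    ∑ i ∈ s, (∫ τ, G τ * ‖F i τ‖) ^ 2 ≤ (∫ τ, G τ) ^ 2 * S := by
  have S0 : 0 ≤ S := (Finset.sum_nonneg fun i _ => sq_nonneg _).trans (hS 0)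
  have hi : ∀ i ∈ s, Integrable fun τ => G τ * ‖F i τ‖ := fun i his => by
    refine hG.mul_bdd (c := √S) (hF i).norm.aestronglyMeasurable (ae_of_all _ fun τ => ?_)
    rw [norm_norm]
    exact Real.le_sqrt_of_sq_le
      ((Finset.single_le_sum (f := fun i => ‖F i τ‖ ^ 2) (fun i _ => sq_nonneg _) his).trans (hS τ))
  set I : ι → ℝ := fun i => ∫ τ, G τ * ‖F i τ‖ with hI
  set A := ∑ i ∈ s, I i ^ 2 with hA
  have A0 : 0 ≤ A := Finset.sum_nonneg fun i _ => sq_nonneg _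
  have g0 : 0 ≤ ∫ τ, G τ := integral_nonneg h0
  have key : A ≤ (∫ τ, G τ) * (√A * √S) := by
    calc A = ∑ i ∈ s, ∫ τ, I i * (G τ * ‖F i τ‖) :=
          Finset.sum_congr rfl fun i _ => by rw [integral_const_mul, sq]
      _ = ∫ τ, ∑ i ∈ s, I i * (G τ * ‖F i τ‖) :=
          (integral_finsetSum s fun i h => (hi i h).const_mul _).symm
      _ ≤ ∫ τ, G τ * (√A * √S) := by
          refine integral_mono (integrable_finsetSum s fun i h => (hi i h).const_mul _)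
            (hG.mul_const _) fun τ => ?_
          have e : ∑ i ∈ s, I i * (G τ * ‖F i τ‖) = G τ * ∑ i ∈ s, I i * ‖F i τ‖ := by
            rw [Finset.mul_sum]; exact Finset.sum_congr rfl fun i _ => by ring
          simp only [e]
          refine mul_le_mul_of_nonneg_left ((Real.sum_mul_le_sqrt_mul_sqrt _ _ _).trans ?_) (h0 τ)
          exact mul_le_mul_of_nonneg_left (Real.sqrt_le_sqrt (hS τ)) (Real.sqrt_nonneg _)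
      _ = _ := integral_mul_const _ _
  rcases A0.eq_or_lt with h | h
  · rw [← h]; positivity
  · have a1 : √A ≤ (∫ τ, G τ) * √S := by
      refine le_of_mul_le_mul_left ?_ (Real.sqrt_pos.2 h)
      rw [Real.mul_self_sqrt A0]
      linarith
    calc A = √A ^ 2 := (Real.sq_sqrt A0).symm
      _ ≤ ((∫ τ, G τ) * √S) ^ 2 := by gcongr
      _ = _ := by rw [mul_pow, Real.sq_sqrt S0]

theorem ncms_sub (Q : O) (M m : ℝ) : prq Q M m ⊆ prs M m := fun _ hp => (mem_prq.1 hp).1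

theorem ncms_ind (s : Finset (O × O)) : ∑ p ∈ s, ‖ind (p.1 = 1 ∧ p.2 = 1)‖ ^ 2 ≤ 1 := by
  classical
  have e : ∀ p : O × O, ‖ind (p.1 = 1 ∧ p.2 = 1)‖ ^ 2 = if p = (1, 1) then 1 else 0 := fun p => by
    split_ifs with h
    · rw [ind_of (Prod.ext_iff.1 h)]; simp
    · rw [ind_of_not fun h' => h (Prod.ext h'.1 h'.2)]; simp
  simp only [e, Finset.sum_ite_eq']
  split_ifs <;> norm_num

theorem ncms_int : ∃ C : ℝ, 0 < C ∧ ∀ (E R T t K N M m : ℝ) (w Q : O), Env E R → 1 ≤ T → T ≤ R →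
    K ≤ R → 1 ≤ N → N ≤ R → 1 ≤ m → m ≤ M → m ^ 2 * M ≤ K → Q ≠ 0 →
      ∑ p ∈ prq Q M m, (∫ τ, Gk T t τ * ‖LL N (dk Q w τ) p.1 p.2‖) ^ 2 ≤ C * E ^ 5 * g3K N K := by
  obtain ⟨C₃, c3, h3⟩ := integral_Gk
  obtain ⟨C₄, c4, h4⟩ := sum_inv_nm_le
  refine ⟨8 * C₃ ^ 2 * C₄, by positivity, fun E R T t K N M m w Q h hT hTR hK hN hNR hm hM hmK hQ => ?_⟩
  have E1 := h.one
  have hK0 : 0 ≤ K := le_trans (by have : 0 ≤ M := by linarith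
                                   positivity) hmK
  have g0 : 0 ≤ g3K N K := g3K_nonneg (by linarith) hK0
  have l1 : Real.log (2 * T) ≤ 2 * E := by
    rw [Real.log_mul two_ne_zero (by linarith)]
    have a1 := Real.log_two_lt_d9
    have a2 := (Real.log_le_log (by linarith) hTR).trans h.log
    linarith
  have l2 : 1 + Real.log N ≤ 2 * E := by
    have a2 := (Real.log_le_log (by linarith) hNR).trans h.log
    linarith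
  have hS : ∀ τ, ∑ p ∈ prq Q M m, ‖LL N (dk Q w τ) p.1 p.2‖ ^ 2 ≤
      E ^ 2 * g3K N K * (C₄ * (2 * E)) := fun τ => by
    refine (Finset.sum_le_sum_of_subset_of_nonneg (ncms_sub Q M m) fun _ _ _ => sq_nonneg _).trans
      ((h.ms3 _ hN hNR hm hM hmK hK).trans ?_)
    refine mul_le_mul_of_nonneg_left ((Finset.sum_le_sum fun k _ => norm_dk_le hQ τ k).trans
      ((h4 N hN).trans ?_)) (by positivity)
    gcongr
  have hc : ∀ p : O × O, Continuous fun τ => LL N (dk Q w τ) p.1 p.2 := fun p =>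
    continuous_finsetSum _ fun k _ => (continuous_dk Q w k).mul continuous_const
  refine (int_ms _ (h3 T t hT).1 (Gk_nonneg T t) hc hS).trans ?_
  have i0 : 0 ≤ ∫ τ, Gk T t τ := integral_nonneg (Gk_nonneg T t)
  have i1 : ∫ τ, Gk T t τ ≤ C₃ * (2 * E) := (h3 T t hT).2.trans (by gcongr)
  calc _ ≤ (C₃ * (2 * E)) ^ 2 * (E ^ 2 * g3K N K * (C₄ * (2 * E))) := by gcongr
    _ = _ := by ring

theorem ncms_alg {x C a b Y N H q : ℝ} {n : ℕ} (hx : 0 ≤ x) (hY : 0 < Y) (hH : 0 < H) (hq : 0 ≤ q)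
    (h : x ≤ C * (a * Y ^ (3 / 4 : ℝ) + √q * Y ^ (1 / 4 : ℝ) * b +
      Y ^ (3 / 4 : ℝ) * N * H ^ (-((n + 1) / 2) : ℝ))) :
    x ^ 2 ≤ 3 * C ^ 2 * (a ^ 2 * Y ^ (3 / 2 : ℝ) + b ^ 2 * (q * √Y) +
      Y ^ (3 / 2 : ℝ) * N ^ 2 * (H ^ (n + 1))⁻¹) := by
  have y1 : (Y ^ (3 / 4 : ℝ)) ^ 2 = Y ^ (3 / 2 : ℝ) := by
    rw [← Real.rpow_two, ← Real.rpow_mul hY.le]; norm_num
  have y2 : (Y ^ (1 / 4 : ℝ)) ^ 2 = √Y := by
    rw [← Real.rpow_two, ← Real.rpow_mul hY.le, Real.sqrt_eq_rpow]; norm_num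
  have y3 : (H ^ (-((n + 1) / 2) : ℝ)) ^ 2 = (H ^ (n + 1))⁻¹ := by
    rw [← Real.rpow_two, ← Real.rpow_mul hH.le, ← Real.rpow_natCast, ← Real.rpow_neg hH.le]
    congr 1; push_cast; ring
  refine (pow_le_pow_left₀ hx h 2).trans ?_
  rw [← y1, ← y2, ← y3]
  nth_rewrite 2 [← Real.sq_sqrt hq]
  generalize Y ^ (3 / 4 : ℝ) = u
  generalize Y ^ (1 / 4 : ℝ) = v
  generalize H ^ (-((n + 1) / 2) : ℝ) = z
  generalize √q = r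
  have k : ∀ a b c : ℝ, (C * (a + b + c)) ^ 2 ≤ 3 * C ^ 2 * (a ^ 2 + b ^ 2 + c ^ 2) :=
    fun a b c => by
      have : (a + b + c) ^ 2 ≤ 3 * (a ^ 2 + b ^ 2 + c ^ 2) := by
        nlinarith [sq_nonneg (a - b), sq_nonneg (a - c), sq_nonneg (b - c)]
      nlinarith [sq_nonneg C]
  exact (k _ _ _).trans (le_of_eq (by ring))

theorem ncms_mK {M m K : ℝ} (hm : 1 ≤ m) (hM : m ≤ M) (hmK : m ^ 2 * M ≤ K) : M * m ≤ K := by
  have M0 : 0 ≤ M := by linarith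
  refine le_trans ?_ hmK
  rw [mul_comm, sq]
  gcongr
  exact le_mul_of_one_le_left (by linarith) hm

theorem ncms_fin {C₂ C₃ E R Y N P c s₁ s₂ q W g : ℝ} (c3 : 0 < C₃) (E1 : 1 ≤ E) (Y0 : 0 < Y)
    (hN : 1 ≤ N) (hNR : N ≤ R) (hR : R ^ 5 ≤ P) (b1 : s₁ ≤ 1) (b2 : s₂ ≤ C₃ * E ^ 5 * g)
    (b3 : c ≤ E ^ 2 * R) (g0 : 0 ≤ g) (q0 : 0 ≤ q) (hQ : q ≤ W) :
    3 * C₂ ^ 2 * (s₁ * Y ^ (3 / 2 : ℝ) + s₂ * (q * √Y) + c * (Y ^ (3 / 2 : ℝ) * N ^ 2 * P⁻¹)) ≤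
      3 * C₂ ^ 2 * (2 + C₃) * E ^ 5 * (Y ^ (3 / 2 : ℝ) + W * √Y * g) := by
  have R1 : 1 ≤ R := hN.trans hNR
  have W0 : 0 ≤ W := q0.trans hQ
  have P0 : 0 < P := lt_of_lt_of_le (by positivity) hR
  have y0 : 0 < Y ^ (3 / 2 : ℝ) := by positivity
  generalize Y ^ (3 / 2 : ℝ) = u at *
  have b4 : c * (u * N ^ 2 * P⁻¹) ≤ E ^ 5 * u := by
    calc _ ≤ E ^ 5 * R * (u * R ^ 2 * (R ^ 3)⁻¹) := by
          gcongr
          · exact b3.trans (by gcongr; norm_num)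
          · exact (pow_le_pow_right₀ R1 (by norm_num)).trans hR
      _ = _ := by field_simp
  have E5 : 1 ≤ E ^ 5 := one_le_pow₀ E1
  have b5 : 0 ≤ E ^ 5 * u := by positivity
  have b6 : 0 ≤ E ^ 5 * (W * √Y * g) := by positivity
  calc _ ≤ 3 * C₂ ^ 2 * (E ^ 5 * u + C₃ * E ^ 5 * g * (W * √Y) + E ^ 5 * u) := by
        gcongr
        exact b1.trans E5
    _ ≤ 3 * C₂ ^ 2 * ((2 + C₃) * (E ^ 5 * (u + W * √Y * g))) := by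
        gcongr
        nlinarith [mul_nonneg c3.le b5]
    _ = _ := by ring

theorem ncms_ss (hmp : MPStmt) {n : ℕ} (hn : 2 ≤ n) : ∃ C : ℝ, 0 < C ∧
    ∀ (E R T T₀ H K N W Y t M m : ℝ) (w Q : O), Env E R → 1 ≤ T → T ≤ T₀ → T ≤ R → |t| ≤ T₀ →
    1 ≤ Y → K ≤ R → 1 ≤ N → N ≤ R → 0 < H → 1 ≤ m → m ≤ M → m ^ 2 * M ≤ K →
    H * T₀ ^ 2 * (81 * W * K) ≤ Y * N → R ^ 5 ≤ H ^ (n + 1) → Rad w Q → (nm Q : ℝ) ≤ W →
      ∑ p ∈ prq Q M m, ‖SS T Y w t p.1 p.2‖ ^ 2 ≤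
        C * E ^ 5 * (Y ^ (3 / 2 : ℝ) + W * √Y * g3K N K) := by
  obtain ⟨C₂, c2, h2⟩ := cps hmp hn
  obtain ⟨C₃, c3, h3⟩ := ncms_int
  refine ⟨3 * C₂ ^ 2 * (2 + C₃), by positivity,
    fun E R T T₀ H K N W Y t M m w Q h hT hT₀ hTR ht hY hK hN hNR hH hm hM hmK hHN hR hw hQ => ?_⟩
  have E1 := h.one
  have Y0 : 0 < Y := by linarith
  have M0 : 0 ≤ M := by linarith
  have W0 : 0 ≤ W := (Nat.cast_nonneg _).trans hQ
  have mK := ncms_mK hm hM hmK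
  have hK0 : 0 ≤ K := le_trans (by positivity) mK
  have g0 : 0 ≤ g3K N K := g3K_nonneg (by linarith) hK0
  have hp : ∀ p ∈ prq Q M m, ‖SS T Y w t p.1 p.2‖ ^ 2 ≤ 3 * C₂ ^ 2 *
      (‖ind (p.1 = 1 ∧ p.2 = 1)‖ ^ 2 * Y ^ (3 / 2 : ℝ) +
        (∫ τ, Gk T t τ * ‖LL N (dk Q w τ) p.1 p.2‖) ^ 2 * (nm Q * √Y) +
        Y ^ (3 / 2 : ℝ) * N ^ 2 * (H ^ (n + 1))⁻¹) := by
    intro p hp
    obtain ⟨hp1, hp2⟩ := mem_prq.1 hp
    obtain ⟨⟨x1, x2⟩, ⟨z1, z2⟩, hc⟩ := mem_prs.1 hp1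
    have a0 : (nm p.1 : ℝ) * nm p.2 ≤ K :=
      (mul_le_mul x2 z2 (Nat.cast_nonneg _) M0).trans mK
    have a1 : H * T₀ ^ 2 * (81 * nm Q * (nm p.1 * nm p.2)) ≤ H * T₀ ^ 2 * (81 * W * K) :=
      mul_le_mul_of_nonneg_left (mul_le_mul (by linarith) a0 (by positivity) (by positivity))
        (by positivity)
    exact ncms_alg (norm_nonneg _) Y0 hH (Nat.cast_nonneg _)
      (h2 T T₀ Y t H N w Q p.1 p.2 hT hT₀ ht hY hH hN hw x1 z1 hc hp2 (a1.trans hHN))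
  refine (Finset.sum_le_sum hp).trans ?_
  rw [← Finset.mul_sum, Finset.sum_add_distrib, Finset.sum_add_distrib, ← Finset.sum_mul,
    ← Finset.sum_mul, Finset.sum_const, nsmul_eq_mul]
  have b3 : ((prq Q M m).card : ℝ) ≤ E ^ 2 * R := by
    have a1 : ((prq Q M m).card : ℝ) ≤ (prs M m).card := by
      exact_mod_cast Finset.card_le_card (ncms_sub Q M m)
    exact a1.trans ((h.card_prs (hm.trans hM) hm).trans
      (mul_le_mul_of_nonneg_left (mK.trans hK) (sq_nonneg _)))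
  exact ncms_fin c3 E1 Y0 hN hNR hR (ncms_ind _)
    (h3 E R T t K N M m w Q h hT hTR hK hN hNR hm hM hmK hw.2.1) b3 g0 (Nat.cast_nonneg _) hQ

theorem pure (hmp : MPStmt) {n : ℕ} (hn : 2 ≤ n) : ∃ C : ℝ, ∀ E R : ℝ, Env E R → C ≤ E →
    ∀ T T₀ H K N W Y₁ Y₂ t M m : ℝ, E ≤ T → T ≤ T₀ → T ≤ R → |t| ≤ T₀ → 1 ≤ Y₁ → 4 * Y₂ ≤ K →
    K ≤ R → W ≤ R → 1 ≤ N → N ≤ R → 0 < H → 1 ≤ m → m ≤ M → m ^ 2 * M ≤ K →
    H * T₀ ^ 2 * (81 * W * K) ≤ Y₁ * N → R ^ 5 ≤ H ^ (n + 1) →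
      Pure Y₁ Y₂ W t M m (E ^ 10 * (K ^ (4 / 3 : ℝ) * (√Y₂ / T + 1) + Y₂ ^ (3 / 2 : ℝ) +
        W * √Y₂ * g3K N K)) := by
  obtain ⟨C₁, h1⟩ := csmooth
  obtain ⟨C₂, c2, h2⟩ := ncms_ss hmp hn
  refine ⟨max C₁ (2 + 2 * C₂), fun E R h hC T T₀ H K N W Y₁ Y₂ t M m hT hT₀ hTR ht hY₁ hY₂ hK hW hN
    hNR hH hm hM hmK hHN hR Y w Q y1 y2 hw hQ => ?_⟩
  have E1 := h.one
  have hC1 := (le_max_left _ _).trans hC
  have hC2 := (le_max_right _ _).trans hC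
  have Y1 : 1 ≤ Y := hY₁.trans y1
  have T1 : 1 ≤ T := E1.trans hT
  have W0 : 0 ≤ W := (Nat.cast_nonneg _).trans hQ
  have hK0 : 0 ≤ K := by linarith
  have g0 : 0 ≤ g3K N K := g3K_nonneg (by linarith) hK0
  have Y20 : 0 ≤ Y₂ := by linarith
  rw [show E ^ 10 = E ^ 2 * E ^ 8 by ring, mul_assoc]
  refine h.cred hw (hQ.trans hW) fun w' hw' => ?_
  have a1 := h1 E R h hC1 T Y K M m t w' hT Y1 (by linarith) hK hm hM hmK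
  have a2 := h2 E R T T₀ H K N W Y t M m w' Q h T1 hT₀ hTR ht Y1 hK hN hNR hH hm hM hmK
    (hHN.trans (by gcongr)) hR hw' hQ
  have a3 : ∑ p ∈ prq Q M m, ‖LL (2 * Y) (pc Y w' t) p.1 p.2 - SS T Y w' t p.1 p.2‖ ^ 2 ≤
      E ^ 5 * (K ^ (4 / 3 : ℝ) * (√Y₂ / T + 1)) := by
    refine (Finset.sum_le_sum_of_subset_of_nonneg (ncms_sub Q M m) fun _ _ _ => sq_nonneg _).trans
      (a1.trans ?_)
    rw [mul_assoc]
    gcongr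
  have a4 : ∑ p ∈ prq Q M m, ‖SS T Y w' t p.1 p.2‖ ^ 2 ≤
      C₂ * E ^ 5 * (Y₂ ^ (3 / 2 : ℝ) + W * √Y₂ * g3K N K) := a2.trans (by gcongr)
  have a5 : ∀ p ∈ prq Q M m, ‖LL (2 * Y) (pc Y w' t) p.1 p.2‖ ^ 2 ≤
      2 * ‖LL (2 * Y) (pc Y w' t) p.1 p.2 - SS T Y w' t p.1 p.2‖ ^ 2 +
        2 * ‖SS T Y w' t p.1 p.2‖ ^ 2 := fun p _ => by
    have b := norm_le_norm_sub_add (LL (2 * Y) (pc Y w' t) p.1 p.2) (SS T Y w' t p.1 p.2)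
    refine (pow_le_pow_left₀ (norm_nonneg _) b 2).trans ?_
    generalize ‖LL (2 * Y) (pc Y w' t) p.1 p.2 - SS T Y w' t p.1 p.2‖ = u
    generalize ‖SS T Y w' t p.1 p.2‖ = v
    nlinarith [sq_nonneg (u - v)]
  refine (Finset.sum_le_sum a5).trans ?_
  rw [Finset.sum_add_distrib, ← Finset.mul_sum, ← Finset.mul_sum, add_assoc]
  have p1 : 0 ≤ K ^ (4 / 3 : ℝ) * (√Y₂ / T + 1) := by positivity
  have p2 : 0 ≤ Y₂ ^ (3 / 2 : ℝ) + W * √Y₂ * g3K N K := by positivity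
  generalize K ^ (4 / 3 : ℝ) * (√Y₂ / T + 1) = a at *
  generalize Y₂ ^ (3 / 2 : ℝ) + W * √Y₂ * g3K N K = b at *
  have E3 : E ≤ E ^ 3 := le_self_pow₀ E1 (by norm_num)
  calc _ ≤ 2 * (E ^ 5 * a) + 2 * C₂ * (E ^ 5 * b) := by linarith
    _ ≤ E ^ 3 * (E ^ 5 * a) + E ^ 3 * (E ^ 5 * b) := by gcongr <;> linarith
    _ = _ := by ring

end Vale.Agent.P006
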