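import Vale.Agent.P006.NBas
import Vale.Agent.P026.RecAux

/-! N3: products of forms, large common divisors, Möbius.
Plans: `bil`: `c n = ∑ (a, b) ∈ (ball N₁ ×ˢ ball N₂).filter (a * b = n), F a b`; the non-zero terms inject into `pdiv n` by `(a, b) ↦ a`
(`Env.tau`); `Finset.sum_fiberwise_of_maps_to` after dropping zero terms.  `bigD`: `MS_mink` with `S d = √(3 E³ A² N K^{4/3}) (N d)^{-4/3}`
(`MS_smul`, `Env.ms3`, `Env.l2`, `g3K_le`; `Co.LL_eq_zero` when the length is `< 1`), then `sum_rpow_tail`.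
`nmob`: `ind_coprime` (primary `n₁`), `mu d = 0` off squarefree `d`, reindex `nᵢ = d nᵢ'`.
`cp_bound`: split `qball N₁` at `N d ≤ D` (`MS_add`); small `d`: `MS_sum_le`, `Co.shift`, `Co.LL_eq`, `Prd`; large `d`: `Env.mul`, `bigD`. -/

namespace Vale.Agent.P006

open Vale.Agent.P026 Filter
open scoped ComplexConjugate Real

theorem Env.bil {E R A N : ℝ} (h : Env E R) (hN : N ≤ R) (N₁ N₂ : ℝ) {F : O → O → ℂ}
    (hA : ∀ a b, ‖F a b‖ ≤ A)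
    (hF : ∀ a b, F a b ≠ 0 → Prim a ∧ Prim b ∧ (nm a : ℝ) * nm b ≤ N) :
    ∃ c, Co (E * A) N c ∧
      ∀ x y, ∑ a ∈ ball N₁, ∑ b ∈ ball N₂, F a b * ch (a * b) x y = LL N c x y := by
  classical
  have hA0 : 0 ≤ A := (norm_nonneg _).trans (hA 0 0)
  have hE := h.one
  set P := (ball N₁ ×ˢ ball N₂).filter fun p : O × O => F p.1 p.2 ≠ 0 with hP
  have hmem : ∀ p ∈ P, Prim p.1 ∧ Prim (p.1 * p.2) ∧ (nm (p.1 * p.2) : ℝ) ≤ N := fun p hp => by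
    obtain ⟨h1, h2, h3⟩ := hF _ _ (Finset.mem_filter.1 hp).2
    exact ⟨h1, h1.mul h2, by rwa [nm_mul, Nat.cast_mul]⟩
  refine ⟨fun n => ∑ p ∈ P.filter fun p => p.1 * p.2 = n, F p.1 p.2, fun n => ?_, fun x y => ?_⟩
  · rcases (P.filter fun p => p.1 * p.2 = n).eq_empty_or_nonempty with he | ⟨p, hp⟩
    · simp only [he, Finset.sum_empty, norm_zero, ne_eq, not_true_eq_false, false_imp_iff, and_true]
      positivity
    obtain ⟨hp1, hp2⟩ := Finset.mem_filter.1 hp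
    obtain ⟨-, hn, hn'⟩ := hp2 ▸ hmem p hp1
    refine ⟨?_, fun _ => ⟨hn, hn'⟩⟩
    have hc : (P.filter fun p => p.1 * p.2 = n).card ≤ (pdiv n).card := by
      refine Finset.card_le_card_of_injOn Prod.fst (fun q hq => ?_) fun q hq q' hq' e => ?_
      · obtain ⟨h1, h2⟩ := Finset.mem_filter.1 (Finset.mem_coe.1 hq)
        exact Finset.mem_coe.2 ((mem_pdiv hn.ne_zero).2 ⟨(hmem q h1).1, h2 ▸ dvd_mul_right _ _⟩)
      · obtain ⟨h1, h2⟩ := Finset.mem_filter.1 (Finset.mem_coe.1 hq)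
        obtain ⟨-, h4⟩ := Finset.mem_filter.1 (Finset.mem_coe.1 hq')
        refine Prod.ext e (mul_left_cancel₀ (hmem q h1).1.ne_zero ?_)
        rw [h2, e, h4]
    have ht := h.tau n hn.ne_zero (hn'.trans hN)
    calc _ ≤ _ := norm_sum_le _ _
      _ ≤ _ := Finset.sum_le_card_nsmul _ _ A fun q _ => hA _ _
      _ ≤ E * A := by
          rw [nsmul_eq_mul]
          refine mul_le_mul_of_nonneg_right (le_trans ?_ ht) hA0
          rw [P026.tau]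
          exact_mod_cast hc
  · rw [← Finset.sum_product', ← Finset.sum_filter_of_ne (p := fun p : O × O => F p.1 p.2 ≠ 0)
      fun p _ hp => left_ne_zero_of_mul hp, ← hP,
      ← Finset.sum_fiberwise_of_maps_to (t := ball N) (g := fun p : O × O => p.1 * p.2)
        fun p hp => mem_ball.2 (hmem p hp).2.2, LL]
    refine Finset.sum_congr rfl fun n _ => ?_
    rw [Finset.sum_mul]
    exact Finset.sum_congr rfl fun p hp => by rw [(Finset.mem_filter.1 hp).2]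
theorem Env.mul {E R A₁ A₂ N₁ N₂ : ℝ} {a₁ a₂ : O → ℂ} (h : Env E R) (h₁ : Co A₁ N₁ a₁)
    (h₂ : Co A₂ N₂ a₂) (hN : N₁ * N₂ ≤ R) : ∃ c, Co (E * (A₁ * A₂)) (N₁ * N₂) c ∧
      ∀ x y, LL N₁ a₁ x y * LL N₂ a₂ x y = LL (N₁ * N₂) c x y := by
  obtain ⟨c, hc, he⟩ := h.bil hN N₁ N₂ (F := fun a b => a₁ a * a₂ b) (A := A₁ * A₂)
    (fun a b => by
      rw [norm_mul]
      exact mul_le_mul (h₁ a).1 (h₂ b).1 (norm_nonneg _) h₁.nonneg)
    fun a b hab => by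
      obtain ⟨k1, k2⟩ := (h₁ a).2 (left_ne_zero_of_mul hab)
      obtain ⟨k3, k4⟩ := (h₂ b).2 (right_ne_zero_of_mul hab)
      exact ⟨k1, k3, mul_le_mul k2 k4 (Nat.cast_nonneg _) ((Nat.cast_nonneg _).trans k2)⟩
  refine ⟨c, hc, fun x y => ?_⟩
  rw [← he, LL, LL, Finset.sum_mul_sum]
  refine Finset.sum_congr rfl fun a _ => Finset.sum_congr rfl fun b _ => ?_
  rw [ch_mul]
  ring
theorem Env.pow {E R N : ℝ} {a : O → ℂ} (h : Env E R) (ha : Co 1 N a) (h1 : 1 ≤ N) (j : ℕ)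
    (hN : N ^ (j + 1) ≤ R) : ∃ c, Co (E ^ j) (N ^ (j + 1)) c ∧
      ∀ x y, LL N a x y ^ (j + 1) = LL (N ^ (j + 1)) c x y := by
  induction j with
  | zero => exact ⟨a, by simpa using ha, fun x y => by simp⟩
  | succ j ih =>
    obtain ⟨c, hc, he⟩ := ih ((pow_le_pow_right₀ h1 (by omega)).trans hN)
    obtain ⟨c', hc', he'⟩ := h.mul hc ha (by rwa [← pow_succ])
    rw [← pow_succ, mul_one, ← pow_succ'] at hc'
    exact ⟨c', hc', fun x y => by rw [pow_succ, he, he', ← pow_succ]⟩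
theorem bigD : ∃ C : ℝ, ∀ E R : ℝ, Env E R → C ≤ E → ∀ (A N K D M m : ℝ) (s : Finset O)
    (u : O → O → O → ℂ) (c : O → O → ℂ), 0 < D → 1 ≤ m → m ≤ M → m ^ 2 * M ≤ K → 0 ≤ N → N ≤ K →
    K ≤ R → (∀ d ∈ s, D < nm d) → (∀ d x y, ‖u d x y‖ ≤ 1) →
    (∀ d ∈ s, Co A (N / (nm d : ℝ) ^ 2) (c d)) →
      MS M m (fun x y => ∑ d ∈ s, u d x y * LL (N / (nm d : ℝ) ^ 2) (c d) x y) ≤
        E ^ 4 * A ^ 2 * N * K ^ (4 / 3 : ℝ) * D ^ (-2 / 3 : ℝ) := by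
  obtain ⟨C, hC, ht⟩ := sum_rpow_tail (σ := 4 / 3) (by norm_num)
  refine ⟨3 * C ^ 2, fun E R h hE A N K D M m s u c hD hm hM hK hN hNK hKR hs hu hc => ?_⟩
  have hE0 : 0 ≤ E := zero_le_one.trans h.one
  have hK0 : 0 ≤ K := hN.trans hNK
  set Q := 3 * E ^ 3 * A ^ 2 * N * K ^ (4 / 3 : ℝ) with hQ
  have hQ0 : 0 ≤ Q := by positivity
  have key : ∀ d ∈ s, MS M m (fun x y => u d x y * LL (N / (nm d : ℝ) ^ 2) (c d) x y) ≤
      (√Q * (nm d : ℝ) ^ (-(4 / 3) : ℝ)) ^ 2 := by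
    intro d hd
    have hd0 : (0 : ℝ) < nm d := hD.trans (hs d hd)
    have hd1 : (1 : ℝ) ≤ nm d := by
      have : 0 < nm d := by exact_mod_cast hd0
      exact_mod_cast this
    refine (MS_smul (hu d) _).trans ?_
    rw [one_pow, one_mul]
    rcases lt_or_ge (N / (nm d : ℝ) ^ 2) 1 with h1 | h1
    · have : MS M m (LL (N / (nm d : ℝ) ^ 2) (c d)) = 0 :=
        Finset.sum_eq_zero fun p _ => by rw [(hc d hd).LL_eq_zero h1]; simp
      rw [this]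
      positivity
    have h2 : N / (nm d : ℝ) ^ 2 ≤ R :=
      (div_le_self hN (one_le_pow₀ hd1)).trans (hNK.trans hKR)
    have h3 := h.ms3 (c d) h1 h2 hm hM hK hKR
    have h4 := h.l2 (hc d hd) h1
    have h5 := g3K_le (K := K) (zero_le_one.trans h1) hd1 (by gcongr)
    have h6 : ((nm d : ℝ) ^ (-(4 / 3) : ℝ)) ^ 2 = (nm d : ℝ) ^ (-2 / 3 : ℝ) / (nm d : ℝ) ^ 2 := by
      rw [← Real.rpow_natCast, ← Real.rpow_natCast, ← Real.rpow_mul hd0.le, ← Real.rpow_sub hd0]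
      norm_num
    calc _ ≤ _ := h3
      _ ≤ E ^ 2 * (3 * K ^ (4 / 3 : ℝ) * (nm d : ℝ) ^ (-2 / 3 : ℝ)) *
          (E * A ^ 2 * (N / (nm d : ℝ) ^ 2)) := by gcongr
      _ = _ := by rw [mul_pow, Real.sq_sqrt hQ0, h6, hQ]; ring
  refine (MS_mink s (fun d _ => by positivity) key).trans ?_
  have h7 := ht D s hD hs
  have h8 : (D ^ (1 - 4 / 3 : ℝ)) ^ 2 = D ^ (-2 / 3 : ℝ) := by
    rw [← Real.rpow_natCast, ← Real.rpow_mul hD.le]
    norm_num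
  rw [← Finset.mul_sum, mul_pow, Real.sq_sqrt hQ0]
  calc _ ≤ Q * (C * D ^ (1 - 4 / 3 : ℝ)) ^ 2 := by gcongr
    _ = 3 * C ^ 2 * (E ^ 3 * A ^ 2 * N * K ^ (4 / 3 : ℝ) * D ^ (-2 / 3 : ℝ)) := by
        rw [mul_pow, h8, hQ]; ring
    _ ≤ E * (E ^ 3 * A ^ 2 * N * K ^ (4 / 3 : ℝ) * D ^ (-2 / 3 : ℝ)) := by gcongr
    _ = _ := by ring

theorem nbil_cop {N : ℝ} {n₁ : O} (h : Prim n₁) (hN : (nm n₁ : ℝ) ≤ N) (n₂ : O) :
    ind (IsCoprime n₁ n₂) = ∑ d ∈ qball N, mu d * (ind (d ∣ n₁) * ind (d ∣ n₂)) := by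
  classical
  rw [show ind (IsCoprime n₁ n₂) = ind (IsCoprime n₂ n₁) by rw [isCoprime_comm], ind_coprime h]
  refine (Finset.sum_subset (Finset.inter_subset_left (s₁ := pdiv n₁) (s₂ := qball N))
    fun d h1 h2 => ?_).symm.trans
    (Finset.sum_subset_zero_on_sdiff Finset.inter_subset_right (fun d hd => ?_) fun d hd => ?_)
  · obtain ⟨h3, h4⟩ := (mem_pdiv h.ne_zero).1 h1
    rw [mu_eq_zero fun h5 => h2 (Finset.mem_inter.2 ⟨h1, mem_qball.2 ⟨⟨h3, h5⟩,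
      le_trans (by exact_mod_cast nm_le_of_dvd h.ne_zero h4) hN⟩⟩), zero_mul]
  · obtain ⟨h1, h2⟩ := Finset.mem_sdiff.1 hd
    have h3 : ¬d ∣ n₁ := fun h3 => h2 (Finset.mem_inter.2
      ⟨(mem_pdiv h.ne_zero).2 ⟨(mem_qball.1 h1).1.1, h3⟩, h1⟩)
    rw [ind_of_not h3, zero_mul, mul_zero]
  · rw [ind_of ((mem_pdiv h.ne_zero).1 (Finset.mem_inter.1 hd).1).2, one_mul]

theorem nbil_dvd {d : O} (hd : d ≠ 0) (N : ℝ) (f : O → ℂ) :
    ∑ n ∈ ball N, ind (d ∣ n) * f n = ∑ n ∈ ball (N / nm d), f (d * n) := by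
  classical
  have hd0 : (0 : ℝ) < nm d := by exact_mod_cast nm_pos hd
  have hm : ∀ n : O, n ∈ ball (N / nm d) ↔ d * n ∈ ball N := fun n => by
    rw [mem_ball, mem_ball, le_div_iff₀ hd0, nm_mul, Nat.cast_mul, mul_comm]
  symm
  refine Finset.sum_of_injOn (fun n => d * n) (fun a _ b _ e => mul_left_cancel₀ hd e)
    (fun n hn => (hm n).1 hn) (fun n hn h => ?_) fun n _ => ?_
  · rw [ind_of_not, zero_mul]
    rintro ⟨k, rfl⟩
    exact h ⟨k, (hm k).2 hn, rfl⟩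
  · rw [ind_of (dvd_mul_right d n), one_mul]

theorem nbil_LL {d : O} (hd : d ≠ 0) (N : ℝ) (b : O → ℂ) (x y : O) :
    ∑ n ∈ ball N, ind (d ∣ n) * (b n * ch n x y) =
      ch d x y * LL (N / nm d) (fun n => b (d * n)) x y := by
  rw [nbil_dvd hd, LL, Finset.mul_sum]
  refine Finset.sum_congr rfl fun n _ => ?_
  rw [ch_mul]
  ring

theorem nmob {A₁ A₂ N₁ N₂ : ℝ} {b₁ b₂ : O → ℂ} (h₁ : Co A₁ N₁ b₁) (h₂ : Co A₂ N₂ b₂) (x y : O) :
    CP N₁ N₂ b₁ b₂ x y = ∑ d ∈ qball N₁, mu d * ch (d ^ 2) x y *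
      (LL (N₁ / nm d) (fun n => b₁ (d * n)) x y * LL (N₂ / nm d) (fun n => b₂ (d * n)) x y) := by
  have _ := h₂
  have e1 : ∀ n₁ n₂ : O, ind (IsCoprime n₁ n₂) * (b₁ n₁ * b₂ n₂) * ch (n₁ * n₂) x y =
      ∑ d ∈ qball N₁, mu d * (ind (d ∣ n₁) * (b₁ n₁ * ch n₁ x y) *
        (ind (d ∣ n₂) * (b₂ n₂ * ch n₂ x y))) := fun n₁ n₂ => by
    by_cases h : b₁ n₁ = 0
    · simp [h]
    · rw [nbil_cop ((h₁ n₁).2 h).1 ((h₁ n₁).2 h).2, Finset.sum_mul, Finset.sum_mul, ch_mul]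
      exact Finset.sum_congr rfl fun d _ => by ring
  simp only [CP, e1]
  rw [Finset.sum_congr rfl fun n₁ _ => Finset.sum_comm, Finset.sum_comm]
  refine Finset.sum_congr rfl fun d hd => ?_
  have hd0 := (mem_qball.1 hd).1.ne_zero
  simp only [← Finset.mul_sum]
  rw [← Finset.sum_mul, nbil_LL hd0, nbil_LL hd0, pow_two, ch_mul]
  ring
theorem cp_bound : ∃ C : ℝ, ∀ E R : ℝ, Env E R → C ≤ E → ∀ (N₁ N₂ M m K D S : ℝ) (b₁ b₂ : O → ℂ),
    1 ≤ N₁ → 1 ≤ N₂ → 1 ≤ D → 1 ≤ m → m ≤ M → m ^ 2 * M ≤ K → N₁ * N₂ ≤ K → K ≤ R →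
    Prd N₁ N₂ M m S → Co 1 N₁ b₁ → Sf b₁ → Co 1 N₂ b₂ → Sf b₂ →
      MS M m (CP N₁ N₂ b₁ b₂) ≤
        E ^ 7 * (D ^ 2 * S + N₁ * N₂ * K ^ (4 / 3 : ℝ) * D ^ (-2 / 3 : ℝ)) := by
  classical
  obtain ⟨C, hC⟩ := bigD
  refine ⟨max C 2, fun E R h hE N₁ N₂ M m K D S b₁ b₂ hN₁ hN₂ hD hm hM hK hNK hKR hP h₁ s₁ h₂ s₂ =>
    ?_⟩
  have hE2 : 2 ≤ E := (le_max_right _ _).trans hE
  have hS : 0 ≤ S := (MS_nonneg _ _ _).trans (hP b₁ b₂ h₁ s₁ h₂ s₂)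
  have hu : ∀ d x y : O, ‖mu d * ch (d ^ 2) x y‖ ≤ 1 := fun d x y => by
    rw [norm_mul]
    exact mul_le_one₀ (norm_mu_le _) (norm_nonneg _) (norm_ch_le _ _ _)
  have hdiv : ∀ {N : ℝ} {d : O}, 1 ≤ N → Prim d → N / nm d ≤ N := fun hN hd =>
    div_le_self (by linarith) (one_le_nm hd.ne_zero)
  have hex : ∀ d : O, ∃ c : O → ℂ, Prim d → Co E (N₁ * N₂ / (nm d : ℝ) ^ 2) c ∧ ∀ x y,
      LL (N₁ / nm d) (fun n => b₁ (d * n)) x y * LL (N₂ / nm d) (fun n => b₂ (d * n)) x y =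
        LL (N₁ * N₂ / (nm d : ℝ) ^ 2) c x y := fun d => by
    by_cases hd : Prim d
    · obtain ⟨c, hc⟩ := h.mul (h₁.shift hd) (h₂.shift hd) ((mul_le_mul (hdiv hN₁ hd) (hdiv hN₂ hd)
        (by positivity) (by positivity)).trans (hNK.trans hKR))
      rw [mul_one, mul_one, div_mul_div_comm, ← pow_two] at hc
      exact ⟨c, fun _ => hc⟩
    · exact ⟨0, fun h => (hd h).elim⟩
  choose c hc using hex
  have e1 : CP N₁ N₂ b₁ b₂ = fun x y =>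
      ∑ d ∈ (qball N₁).filter fun d => (nm d : ℝ) ≤ D, mu d * ch (d ^ 2) x y *
        (LL N₁ (fun n => b₁ (d * n)) x y * LL N₂ (fun n => b₂ (d * n)) x y) +
      ∑ d ∈ (qball N₁).filter fun d => ¬(nm d : ℝ) ≤ D, mu d * ch (d ^ 2) x y *
        LL (N₁ * N₂ / (nm d : ℝ) ^ 2) (c d) x y := by
    funext x y
    rw [nmob h₁ h₂, ← Finset.sum_filter_add_sum_filter_not _ fun d => (nm d : ℝ) ≤ D]
    congr 1
    · refine Finset.sum_congr rfl fun d hd => ?_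
      have hd' := (mem_qball.1 (Finset.mem_filter.1 hd).1).1.1
      rw [(h₁.shift hd').LL_eq (hdiv hN₁ hd'), (h₂.shift hd').LL_eq (hdiv hN₂ hd')]
    · refine Finset.sum_congr rfl fun d hd => ?_
      rw [(hc d (mem_qball.1 (Finset.mem_filter.1 hd).1).1.1).2]
  have k1 := MS_sum_le (M := M) (m := m) (c := E * D)
    ((qball N₁).filter fun d => (nm d : ℝ) ≤ D) (F := fun d x y => mu d * ch (d ^ 2) x y *
      (LL N₁ (fun n => b₁ (d * n)) x y * LL N₂ (fun n => b₂ (d * n)) x y)) hS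
    (le_trans (by
      exact_mod_cast Finset.card_le_card fun d hd => mem_qball.2
        ⟨(mem_qball.1 (Finset.mem_filter.1 hd).1).1, (Finset.mem_filter.1 hd).2⟩) (h.card_qball hD))
    fun d hd => by
      have hd' := (mem_qball.1 (Finset.mem_filter.1 hd).1).1.1
      refine (MS_smul (hu d) _).trans ?_
      rw [one_pow, one_mul]
      exact hP _ _ ((h₁.shift hd').mono le_rfl (hdiv hN₁ hd')) (s₁.shift d)
        ((h₂.shift hd').mono le_rfl (hdiv hN₂ hd')) (s₂.shift d)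
  have k2 := hC E R h ((le_max_left _ _).trans hE) E (N₁ * N₂) K D M m
    ((qball N₁).filter fun d => ¬(nm d : ℝ) ≤ D) (fun d x y => mu d * ch (d ^ 2) x y) c
    (by linarith) hm hM hK (by positivity) hNK hKR (fun d hd => not_le.1 (Finset.mem_filter.1 hd).2)
    hu fun d hd => (hc d (mem_qball.1 (Finset.mem_filter.1 hd).1).1.1).1
  rw [e1]
  refine (MS_add _ _ _ _).trans ?_
  have hK0 : 0 ≤ K := le_trans (by positivity) hNK
  have k3 : 2 * E ^ 2 ≤ E ^ 7 := by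
    have : 2 ≤ E ^ 5 := hE2.trans (le_self_pow₀ h.one (by norm_num))
    calc 2 * E ^ 2 ≤ E ^ 5 * E ^ 2 := by gcongr
      _ = _ := by ring
  have k4 : 2 * E ^ 6 ≤ E ^ 7 := by
    calc 2 * E ^ 6 ≤ E * E ^ 6 := by gcongr
      _ = _ := by ring
  have k5 := mul_le_mul_of_nonneg_right k3 (show 0 ≤ D ^ 2 * S by positivity)
  have k6 := mul_le_mul_of_nonneg_right k4
    (show 0 ≤ N₁ * N₂ * K ^ (4 / 3 : ℝ) * D ^ (-2 / 3 : ℝ) by positivity)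
  nlinarith [k1, k2, k5, k6]

end Vale.Agent.P006
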