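import Vale.Agent.P006.NCId
import Vale.Agent.P006.NBil

/-! N9: reduction of the third mean square to pure character sums.
Plan: `cid`, `MS_sum_le` over `g₁` (`Env.tau`), `MS_add` at `N d ≤ D`.  Small `d`: `MS_sum_le` over `d` and `n₁` (`Env.card`, `1 ≤ 4 B₁`), `MS_smul`
with `co_bf`; if `bf … n₁ ≠ 0` use `Pure` with `Q = w g n₁`.  Large `d`: `Env.bil` for
`F n₁ h = bf n₁ * cub (w g³ n₁³) (d²) * wt (d²) * pc … h` (bound `A (G/B₁)^{1/4} (G/B₂)^{1/4}` by `wt_mul`, `norm_wt_le`; length `8 B₁ B₂ / N d²`),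
then `bigD` with `u d x y = mu d * ch (d²) x y`, `N = 8 B₁ B₂` (choose the coefficients by `choose`). -/

namespace Vale.Agent.P006

open Vale.Agent.P026 Filter
open scoped ComplexConjugate Real

theorem NCSplit_mul_le {a b : ℂ} {A : ℝ} (ha : ‖a‖ ≤ A) (hb : ‖b‖ ≤ 1) : ‖a * b‖ ≤ A := by
  rw [norm_mul]
  exact (mul_le_of_le_one_right (norm_nonneg _) hb).trans ha

theorem NCSplit_small {E R A G B₁ B₂ D S t M m : ℝ} {β₁ : O → ℂ} {g g₁ w : O} (hE : Env E R)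
    (h1 : 1 / 4 ≤ B₁) (h2 : 0 < B₂) (hD : 1 ≤ D) (hS : 0 ≤ S) (hs : Supp 4 B₁ β₁) (hb : Bd A β₁)
    (hg : Sq g) (hG : (nm g : ℝ) ≤ G) (hw : w ≠ 0) (hg₁ : g₁ ∈ pdiv g)
    (hP : Pure (B₂ / (G * D ^ 2)) B₂ (nm w * G * (4 * B₁)) t M m S) :
    MS M m (fun x y => ∑ d ∈ (qball (2 * B₂)).filter (fun d => (nm d : ℝ) ≤ D),
      ∑ n₁ ∈ ball (4 * B₁), mu d * bf β₁ g g₁ w t n₁ * cub (w * g ^ 3 * n₁ ^ 3) (d ^ 2) *
        wt t (d ^ 2) * ch (d ^ 2 * n₁) x y * LL (2 * (B₂ / (nm (g / g₁) * (nm d : ℝ) ^ 2)))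
          (pc (B₂ / (nm (g / g₁) * (nm d : ℝ) ^ 2)) (w * g ^ 3 * n₁ ^ 3) t) x y) ≤
      (E * D) ^ 2 * ((E * (4 * B₁)) ^ 2 * ((A * (G / B₁) ^ (1 / 4 : ℝ)) ^ 2 * S)) := by
  have hB₁ : 0 < B₁ := by linarith
  obtain ⟨-, hq, hm⟩ := hg.div hg₁
  have hco := (co_bf hs hb hB₁ hg ((mem_pdiv hg.ne_zero).1 hg₁).2 hG w t).1
  have hq1 := hq.one_le
  have hqG : (nm (g / g₁) : ℝ) ≤ G := by
    refine le_trans ?_ hG
    exact_mod_cast nm_le_of_dvd hg.ne_zero (Dvd.intro_left _ hm)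
  have hG0 : 0 < G := by linarith
  refine MS_sum_le _ (by positivity) (le_trans ?_ (hE.card_qball hD)) fun d hd => ?_
  · exact_mod_cast Finset.card_le_card fun d hd =>
      mem_qball.2 ⟨(mem_qball.1 (Finset.mem_filter.1 hd).1).1, (Finset.mem_filter.1 hd).2⟩
  have hd1 := (mem_qball.1 (Finset.mem_filter.1 hd).1).1
  have hd2 := (Finset.mem_filter.1 hd).2
  have hd3 := hd1.one_le
  refine MS_sum_le _ (by positivity) (hE.card _ (by linarith)) fun n₁ _ => ?_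
  by_cases h0 : bf β₁ g g₁ w t n₁ = 0
  · simp only [h0, mul_zero, zero_mul, MS, norm_zero]
    simp only [ne_eq, OfNat.ofNat_ne_zero, not_false_eq_true, zero_pow, Finset.sum_const_zero]
    positivity
  obtain ⟨hn1, hn2⟩ := (hco n₁).2 h0
  refine (MS_smul (A := A * (G / B₁) ^ (1 / 4 : ℝ)) (fun x y => ?_) _).trans
    (mul_le_mul_of_nonneg_left (hP _ _ (w * g * n₁) ?_ ?_ ?_ ?_) (sq_nonneg _))
  · refine NCSplit_mul_le (NCSplit_mul_le (NCSplit_mul_le ?_ (norm_cub_le _ _))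
      (norm_wt_le_one (pow_ne_zero 2 hd1.ne_zero) t)) (norm_ch_le _ _ _)
    rw [mul_comm]
    exact NCSplit_mul_le (hco n₁).1 (norm_mu_le d)
  · gcongr
  · exact div_le_self h2.le (one_le_mul_of_one_le_of_one_le hq1 (one_le_pow₀ hd3))
  · refine ⟨mul_ne_zero (mul_ne_zero hw (pow_ne_zero _ hg.ne_zero)) (pow_ne_zero _ hn1.ne_zero),
      mul_ne_zero (mul_ne_zero hw hg.ne_zero) hn1.ne_zero, fun p hp h => ?_⟩
    rcases hp.dvd_or_dvd h with h | h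
    · rcases hp.dvd_or_dvd h with h | h
      · exact (h.mul_right _).mul_right _
      · exact ((hp.dvd_of_dvd_pow h).mul_left _).mul_right _
    · exact (hp.dvd_of_dvd_pow h).mul_left _
  · rw [nm_mul, nm_mul]
    push_cast
    gcongr

theorem NCSplit_one {E R A G B₁ B₂ t : ℝ} {β₁ : O → ℂ} {g g₁ d : O} (w : O) (hE : Env E R)
    (hB₁ : 0 < B₁) (h2 : 0 < B₂) (hR : 8 * (B₁ * B₂) ≤ R) (hs : Supp 4 B₁ β₁) (hb : Bd A β₁)
    (hg : Sq g) (hG : (nm g : ℝ) ≤ G) (hg₁ : g₁ ∈ pdiv g) (hd : d ≠ 0) :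
    ∃ c, Co (E * (A * (G / B₁) ^ (1 / 4 : ℝ) * (G / B₂) ^ (1 / 4 : ℝ)))
      (8 * (B₁ * B₂) / (nm d : ℝ) ^ 2) c ∧ ∀ x y,
      ∑ n₁ ∈ ball (4 * B₁), mu d * bf β₁ g g₁ w t n₁ * cub (w * g ^ 3 * n₁ ^ 3) (d ^ 2) *
        wt t (d ^ 2) * ch (d ^ 2 * n₁) x y * LL (2 * (B₂ / (nm (g / g₁) * (nm d : ℝ) ^ 2)))
          (pc (B₂ / (nm (g / g₁) * (nm d : ℝ) ^ 2)) (w * g ^ 3 * n₁ ^ 3) t) x y =
        mu d * ch (d ^ 2) x y * LL (8 * (B₁ * B₂) / (nm d : ℝ) ^ 2) c x y := by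
  obtain ⟨-, hq, hm⟩ := hg.div hg₁
  have hco := (co_bf hs hb hB₁ hg ((mem_pdiv hg.ne_zero).1 hg₁).2 hG w t).1
  have hq1 := hq.one_le
  have hqG : (nm (g / g₁) : ℝ) ≤ G := by
    refine le_trans ?_ hG
    exact_mod_cast nm_le_of_dvd hg.ne_zero (Dvd.intro_left _ hm)
  have hG0 : 0 < G := by linarith
  have hd1 := one_le_nm hd
  have hd2 : (1 : ℝ) ≤ (nm d : ℝ) ^ 2 := one_le_pow₀ hd1
  have hA := hco.nonneg
  set Y := B₂ / (nm (g / g₁) * (nm d : ℝ) ^ 2) with hY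
  have hpc : ∀ (v h : O), pc Y v t h ≠ 0 → Prim h ∧ Y < nm h ∧ (nm h : ℝ) ≤ 2 * Y := by
    intro v h h0
    by_contra hc
    apply h0
    by_cases hp : Prim h
    · rw [pc, win, ind_of_not (fun h' => hc ⟨hp, h'⟩), mul_zero, mul_zero]
    · rw [pc, psi, ind_of_not hp, zero_mul, zero_mul]
  obtain ⟨c, hc1, hc2⟩ := hE.bil (A := A * (G / B₁) ^ (1 / 4 : ℝ) * (G / B₂) ^ (1 / 4 : ℝ))
    (N := 8 * (B₁ * B₂) / (nm d : ℝ) ^ 2) ((div_le_self (by positivity) hd2).trans hR)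
    (4 * B₁) (2 * Y) (F := fun n₁ h => bf β₁ g g₁ w t n₁ * cub (w * g ^ 3 * n₁ ^ 3) (d ^ 2) *
      (wt t (d ^ 2) * pc Y (w * g ^ 3 * n₁ ^ 3) t h)) (fun n₁ h => by
      by_cases h0 : pc Y (w * g ^ 3 * n₁ ^ 3) t h = 0
      · simp only [h0, mul_zero, norm_zero]; positivity
      obtain ⟨p1, p2, -⟩ := hpc _ _ h0
      rw [norm_mul]
      refine mul_le_mul (NCSplit_mul_le (hco n₁).1 (norm_cub_le _ _)) ?_ (norm_nonneg _) hA
      have e : wt t (d ^ 2) * pc Y (w * g ^ 3 * n₁ ^ 3) t h = wt t (d ^ 2 * h) * ind (Prim h) *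
          cub (w * g ^ 3 * n₁ ^ 3) h * win Y (2 * Y) h := by
        rw [wt_mul (pow_ne_zero 2 hd) p1.ne_zero, pc, psi]; ring
      rw [e]
      refine NCSplit_mul_le (NCSplit_mul_le (NCSplit_mul_le (norm_wt_le
        (mul_ne_zero (pow_ne_zero 2 hd) p1.ne_zero) h2 ?_ t) (norm_ind_le _)) (norm_cub_le _ _))
        (norm_win_le _ _ _)
      rw [hY, div_lt_iff₀ (by positivity)] at p2
      rw [nm_mul, nm_pow]
      push_cast
      calc B₂ ≤ nm h * (nm (g / g₁) * (nm d : ℝ) ^ 2) := p2.le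
        _ ≤ nm h * (G * (nm d : ℝ) ^ 2) := by gcongr
        _ = _ := by ring) (fun n₁ h h0 => by
      obtain ⟨p1, -, p3⟩ := hpc _ _ (right_ne_zero_of_mul (right_ne_zero_of_mul h0))
      obtain ⟨q1, q2⟩ := (hco n₁).2 (left_ne_zero_of_mul (left_ne_zero_of_mul h0))
      refine ⟨q1, p1, ?_⟩
      have hY' : Y ≤ B₂ / (nm d : ℝ) ^ 2 := by
        rw [hY]
        exact div_le_div_of_nonneg_left h2.le (by positivity)
          (le_mul_of_one_le_left (by positivity) hq1)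
      calc (nm n₁ : ℝ) * nm h ≤ 4 * B₁ * (2 * (B₂ / (nm d : ℝ) ^ 2)) :=
            mul_le_mul q2 (by linarith) (Nat.cast_nonneg _) (by positivity)
        _ = _ := by ring)
  refine ⟨c, hc1, fun x y => ?_⟩
  rw [← hc2, Finset.mul_sum]
  refine Finset.sum_congr rfl fun n₁ _ => ?_
  rw [LL, Finset.mul_sum, Finset.mul_sum]
  refine Finset.sum_congr rfl fun h _ => ?_
  rw [ch_mul, ch_mul n₁ h]
  ring

theorem NCSplit_num {E A G B₁ B₂ D S Z : ℝ} (hE : 32 ≤ E) (hG : 1 ≤ G) (h1 : 0 < B₁) (h2 : 0 < B₂)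
    (hS : 0 ≤ S) (hZ : 0 ≤ Z) :
    E ^ 2 * (2 * ((E * D) ^ 2 * ((E * (4 * B₁)) ^ 2 * ((A * (G / B₁) ^ (1 / 4 : ℝ)) ^ 2 * S))) +
      2 * (E ^ 4 * (E * (A * (G / B₁) ^ (1 / 4 : ℝ) * (G / B₂) ^ (1 / 4 : ℝ))) ^ 2 *
        (8 * (B₁ * B₂)) * Z)) ≤
      E ^ 9 * A ^ 2 * G * (D ^ 2 * B₁ ^ (3 / 2 : ℝ) * S + √(B₁ * B₂) * Z) := by
  have hG0 : 0 < G := by linarith
  have hE0 : 0 < E := by linarith
  have q : ∀ B : ℝ, 0 < B → ((G / B) ^ (1 / 4 : ℝ)) ^ 2 = √G / √B := fun B hB => by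
    rw [← Real.sqrt_div hG0.le, Real.sqrt_eq_rpow, ← Real.rpow_natCast,
      ← Real.rpow_mul (by positivity)]
    norm_num
  have e1 : B₁ ^ (3 / 2 : ℝ) = B₁ * √B₁ := by
    rw [Real.sqrt_eq_rpow, show (3 / 2 : ℝ) = 1 + 1 / 2 by norm_num, Real.rpow_add h1, Real.rpow_one]
  obtain ⟨a, ha, rfl⟩ : ∃ a, 0 < a ∧ B₁ = a ^ 2 := ⟨√B₁, by positivity, (Real.sq_sqrt h1.le).symm⟩
  obtain ⟨b, hb, rfl⟩ : ∃ b, 0 < b ∧ B₂ = b ^ 2 := ⟨√B₂, by positivity, (Real.sq_sqrt h2.le).symm⟩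
  obtain ⟨u, hu, rfl⟩ : ∃ u, 1 ≤ u ∧ G = u ^ 2 :=
    ⟨√G, Real.one_le_sqrt.2 hG, (Real.sq_sqrt hG0.le).symm⟩
  have hu0 : 0 < u := by linarith
  simp only [mul_pow, q _ h1, q _ h2, e1, Real.sqrt_mul (sq_nonneg a), Real.sqrt_sq ha.le,
    Real.sqrt_sq hb.le, Real.sqrt_sq hu0.le]
  have f1 : 32 * u ≤ E ^ 3 * u ^ 2 := by
    have : E ≤ E ^ 3 := le_self_pow₀ (by linarith) (by norm_num)
    have : u ≤ u ^ 2 := le_self_pow₀ hu (by norm_num)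
    exact mul_le_mul (by linarith) this hu0.le (by positivity)
  have g1 := mul_le_mul_of_nonneg_right f1
    (by positivity : 0 ≤ E ^ 6 * A ^ 2 * D ^ 2 * a ^ 3 * S)
  have g2 := mul_le_mul_of_nonneg_right (by linarith : 16 ≤ E)
    (by positivity : 0 ≤ E ^ 8 * A ^ 2 * u ^ 2 * (a * b) * Z)
  refine le_trans (le_of_eq ?_) ((add_le_add g1 g2).trans (le_of_eq ?_))
  · field_simp; ring
  · ring

theorem csplit : ∃ C : ℝ, ∀ E R : ℝ, Env E R → C ≤ E → ∀ (A G B₁ B₂ K D S t M m : ℝ) (β₁ : O → ℂ)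
    (g w : O), 1 / 4 ≤ B₁ → 0 < B₂ → 1 ≤ D → 0 ≤ S → 1 ≤ m → m ≤ M → m ^ 2 * M ≤ K →
    8 * (B₁ * B₂) ≤ K → K ≤ R → G ≤ R → Supp 4 B₁ β₁ → Bd A β₁ → Sq g → (nm g : ℝ) ≤ G → w ≠ 0 →
    Pure (B₂ / (G * D ^ 2)) B₂ (nm w * G * (4 * B₁)) t M m S →
      MS M m (LL (16 * (B₁ * B₂)) (cf (cv β₁ (win B₂ (2 * B₂))) g w t)) ≤ E ^ 9 * A ^ 2 * G *
        (D ^ 2 * B₁ ^ (3 / 2 : ℝ) * S + √(B₁ * B₂) * K ^ (4 / 3 : ℝ) * D ^ (-2 / 3 : ℝ)) := by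
  classical
  obtain ⟨C, hC⟩ := bigD
  refine ⟨max C 32, fun E R hE hCE A G B₁ B₂ K D S t M m β₁ g w h1 h2 hD hS hm hM hK h8 hR hGR hs hb
    hg hG hw hP => ?_⟩
  have hB₁ : 0 < B₁ := by linarith
  have hE32 : 32 ≤ E := (le_max_right _ _).trans hCE
  have hG1 : 1 ≤ G := hg.one_le.trans hG
  have hK0 : 0 ≤ K := le_trans (by positivity) h8
  rw [MS_congr fun x y _ _ _ => cid hs h2 hg w t x y]
  refine le_trans (MS_sum_le _ ?_ (hE.tau g hg.ne_zero (hG.trans hGR)) fun g₁ hg₁ => ?_)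
    ((NCSplit_num (A := A) (D := D) (Z := K ^ (4 / 3 : ℝ) * D ^ (-2 / 3 : ℝ)) hE32 hG1 hB₁ h2 hS
      (by positivity)).trans (le_of_eq (by ring)))
  · positivity
  choose! c hc using fun (d : O) (hd : d ≠ 0) =>
    NCSplit_one (t := t) w hE hB₁ h2 (h8.trans hR) hs hb hg hG hg₁ hd
  simp only [← Finset.sum_filter_add_sum_filter_not (qball (2 * B₂)) (fun d => (nm d : ℝ) ≤ D)]
  refine (MS_add _ _ _ _).trans (add_le_add (mul_le_mul_of_nonneg_left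
    (NCSplit_small hE h1 h2 hD hS hs hb hg hG hw hg₁ hP) zero_le_two)
    (mul_le_mul_of_nonneg_left ?_ zero_le_two))
  have hne : ∀ d ∈ (qball (2 * B₂)).filter (fun d => ¬ (nm d : ℝ) ≤ D), d ≠ 0 := fun d hd =>
    (mem_qball.1 (Finset.mem_filter.1 hd).1).1.ne_zero
  rw [MS_congr fun x y _ _ _ => Finset.sum_congr rfl fun d hd => (hc d (hne d hd)).2 x y]
  refine (hC E R hE ((le_max_left _ _).trans hCE) _ (8 * (B₁ * B₂)) K D M m _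
    (fun d x y => mu d * ch (d ^ 2) x y) c (by linarith) hm hM hK (by positivity) h8 hR
    (fun d hd => not_le.1 (Finset.mem_filter.1 hd).2)
    (fun d x y => NCSplit_mul_le (norm_mu_le d) (norm_ch_le _ _ _))
    fun d hd => (hc d (hne d hd)).1).trans (le_of_eq (by ring))

end Vale.Agent.P006
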