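import Vale.Agent.P006.NProdX
import Vale.Agent.P006.NCSplit
import Vale.Agent.P006.NCMs

/-! N15: the extra boxes. -/

namespace Vale.Agent.P006

open Vale.Agent.P026 Filter
open scoped ComplexConjugate Real

theorem NX_V {w : O} (hw : w ≠ 0) {M m K : ℝ} (h1 : 1 ≤ m) (h2 : m ≤ M)
    (h : √(nm w) * (m ^ 2 * M) ≤ K) : m ^ 2 * M ≤ K := by
  have : 0 ≤ M := by linarith
  exact (le_mul_of_one_le_left (by positivity) (Real.one_le_sqrt.2 (one_le_nm hw))).trans h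

theorem NX_cp {A₁ A₂ N₁ N₂ M m S : ℝ} {b₁ b₂ : O → ℂ} (h₁ : 0 < A₁) (h₂ : 0 < A₂)
    (h : MS M m (CP N₁ N₂ (fun n => (A₁ : ℂ)⁻¹ * b₁ n) fun n => (A₂ : ℂ)⁻¹ * b₂ n) ≤ S) :
    MS M m (CP N₁ N₂ b₁ b₂) ≤ (A₁ * A₂) ^ 2 * S := by
  have e : CP N₁ N₂ b₁ b₂ = fun x y => ((A₁ * A₂ : ℝ) : ℂ) *
      CP N₁ N₂ (fun n => (A₁ : ℂ)⁻¹ * b₁ n) (fun n => (A₂ : ℂ)⁻¹ * b₂ n) x y := by
    funext x y
    have : (A₁ : ℂ) ≠ 0 := by exact_mod_cast h₁.ne'
    have : (A₂ : ℂ) ≠ 0 := by exact_mod_cast h₂.ne'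
    rw [CP_smul]; push_cast; field_simp
  rw [e]
  refine (MS_smul (u := fun _ _ => ((A₁ * A₂ : ℝ) : ℂ)) (A := A₁ * A₂) (fun _ _ => ?_) _).trans
    (by gcongr)
  rw [Complex.norm_real, Real.norm_of_nonneg (by positivity)]

theorem xtraB (he : EnvStmt) {η₀ : ℝ} (h0 : 0 < η₀) : ∃ θ : ℝ, 0 < θ ∧ ∀ᶠ X : ℝ in atTop,
    ∀ (B₁ B₂ : ℝ) (β₁ β₂ : O → ℂ), X ^ η₀ ≤ B₁ → X ^ η₀ ≤ B₂ → X ^ (0.4 : ℝ) ≤ B₁ * B₂ →
      B₁ * B₂ ≤ X ^ (0.6 : ℝ) → Supp 4 B₁ β₁ → Supp 4 B₂ β₂ → Bd (X ^ θ) β₁ → Bd (X ^ θ) β₂ →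
        Xtra X (B₁ * B₂) (B₁ * B₂ * X ^ θ) θ (cv β₁ β₂) := by
  obtain ⟨η, hη, e1, e2⟩ : ∃ η : ℝ, 0 < η ∧ η ≤ η₀ ∧ η ≤ 1 / 10 :=
    ⟨min η₀ (1 / 10), by positivity, min_le_left _ _, min_le_right _ _⟩
  obtain ⟨θ, hθ, e3⟩ : ∃ θ : ℝ, 0 < θ ∧ 20000 * (200 * θ) = η := ⟨η / 4000000, by positivity, by ring⟩
  obtain ⟨C, hC⟩ := cp_bound
  refine ⟨θ, hθ, ?_⟩
  filter_upwards [prodXB e2 (by positivity) e3.le, prodXU e2 (by positivity) e3.le, he θ hθ,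
    ev_const C hθ, ev_const 16 hθ, eventually_gt_atTop 1] with X hPB hPU henv hCX h16 hX B₁ B₂ β₁ β₂
    c1 c2 c3 c4 s1 s2 b1 b2 g w t M m hg hG hw ht hm1 hmM hV hV' hcase
  have hV1 := NX_V hw hm1 hmM hV
  have p1 : X ^ η ≤ B₁ := ((npow_le hX).2 e1).trans c1
  have p2 : X ^ η ≤ B₂ := ((npow_le hX).2 e1).trans c2
  have q0 : 1 ≤ X ^ η := (npow_one_le hX).2 hη.le
  have q1 : 0 < B₁ := by linarith
  have q2 : 0 < B₂ := by linarith
  have q3 : 4 * B₁ * (4 * B₂) = 16 * (B₁ * B₂) := by ring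
  have q4 : 16 * (B₁ * B₂) ≤ X ^ (θ + 0.6) := npow_mul_le hX h16 c4 (by positivity)
  have q5 : 1 ≤ X ^ θ := (npow_one_le hX).2 hθ.le
  have q6 : X ^ θ ≤ X ^ (200 * θ) := (npow_le hX).2 (by linarith)
  have q7 : m ^ 2 * M ≤ 16 * (B₁ * B₂) * X ^ θ := 
    hV1.trans (mul_le_mul_of_nonneg_right (by nlinarith [mul_pos q1 q2]) (by positivity))
  have hP : Prd (4 * B₁) (4 * B₂) M m (X ^ (-(200 * θ)) * (4 * B₁ * (4 * B₂)) ^ (7 / 3 : ℝ)) := by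
    have r1 : X ^ (0.4 : ℝ) ≤ 4 * B₁ * (4 * B₂) := by nlinarith [mul_pos q1 q2]
    have r2 : 4 * B₁ * (4 * B₂) ≤ X ^ (0.7 : ℝ) := by
      rw [q3]; exact npow_mono hX q4 (by linarith)
    have r3 : m ^ 2 * M ≤ 4 * B₁ * (4 * B₂) * X ^ (200 * θ) := by
      rw [q3]; exact q7.trans (by gcongr)
    rcases hcase with h | h
    · exact hPB _ _ _ M m henv q6 (by linarith) (by linarith) r1 r2 hm1 hmM r3
        (h.trans (by gcongr))
    · refine hPU _ _ _ M m henv q6 (by linarith) (by linarith) r1 r2 hm1 hmM r3 ?_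
      have r4 : m * (B₁ * B₂ * X ^ (-θ)) ≤ X ^ (θ + θ) * (B₁ * B₂ * X ^ (-θ)) := by
        calc _ ≤ m * (m * M) := by gcongr
          _ = m ^ 2 * M := by ring
          _ ≤ B₁ * B₂ * X ^ θ := hV1
          _ = B₁ * B₂ * (X ^ (θ + θ) * X ^ (-θ)) := by rw [npow_mul hX]; ring_nf
          _ = _ := by ring
      exact npow_mono hX (le_of_mul_le_mul_right r4 (by positivity)) (by linarith)
  have hK : 16 * (B₁ * B₂) * X ^ θ ≤ X ^ 3 := by
    rw [npow_three]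
    exact npow_mono hX (npow_mul_le hX q4 le_rfl (by positivity)) (by linarith)
  have hg3 : (nm g : ℝ) ≤ X ^ 3 := by
    rw [npow_three]; exact npow_mono hX hG (by linarith)
  rw [show LL (16 * (B₁ * B₂)) (cf (cv β₁ β₂) g w t) = _ from
    funext fun x => funext fun y => nsplit s1 s2 hg w t x y]
  refine (MS_sum_le (pdiv g) (by positivity) (henv.tau g hg.ne_zero hg3) fun g₁ hg₁ => ?_).trans
    (?_ : (X ^ θ) ^ 2 * ((X ^ θ * (X ^ θ / B₁) ^ (1 / 4 : ℝ) * (X ^ θ * (X ^ θ / B₂) ^ (1 / 4 : ℝ))) ^ 2 *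
      ((X ^ θ) ^ 7 * ((X ^ (50 * θ)) ^ 2 * (X ^ (-(200 * θ)) * (4 * B₁ * (4 * B₂)) ^ (7 / 3 : ℝ)) +
        4 * B₁ * (4 * B₂) * (16 * (B₁ * B₂) * X ^ θ) ^ (4 / 3 : ℝ) *
          (X ^ (50 * θ)) ^ (-2 / 3 : ℝ)))) ≤ _)
  · obtain ⟨-, -, d⟩ := hg.div hg₁
    obtain ⟨u1, v1⟩ := co_bf s1 b1 q1 hg (Dvd.intro _ d) hG w t
    obtain ⟨u2, v2⟩ := co_bf s2 b2 q2 hg (Dvd.intro_left _ d) hG w t
    exact NX_cp (by positivity) (by positivity) (hC _ _ henv hCX _ _ M m _ _ _ _ _ (by linarith)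
      (by linarith) ((npow_one_le hX).2 (by positivity)) hm1 hmM q7
      (by rw [q3]; exact le_mul_of_one_le_right (by positivity) q5) hK hP (u1.div (by positivity))
      (v1.smul _) (u2.div (by positivity)) (v2.smul _))
  obtain ⟨a₁, rfl⟩ := npow_ex hX q1
  obtain ⟨a₂, rfl⟩ := npow_ex hX q2
  rw [q3]
  have r1 : 16 * (X ^ a₁ * X ^ a₂) ≤ X ^ (θ + (a₁ + a₂)) :=
    npow_mul_le hX h16 (npow_mul hX _ _).le (by positivity)
  have r2 := npow_add2 (s := 7 / 3 * (a₁ + a₂) - 29 * θ) hX (by linarith : 2 ≤ X ^ θ)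
    (npow_mono hX (npow_mul_le hX (npow_pow hX (50 * θ) 2).le (npow_mul_le hX
      (le_refl (X ^ (-(200 * θ)))) (npow_rpow_le (p := 7 / 3) hX r1 (by positivity) (by norm_num))
      (by positivity)) (by positivity)) (by push_cast; linarith))
    (npow_mono hX (npow_mul_le hX (npow_mul_le hX r1 (npow_rpow_le (p := 4 / 3) hX
      (npow_mul_le hX r1 (le_refl (X ^ θ)) (by positivity)) (by positivity) (by norm_num))
      (by positivity)) (npow_rpow hX (50 * θ) (-2 / 3)).le (by positivity)) (by linarith))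
  refine le_trans (mul_le_mul_of_nonneg_left (mul_le_mul_of_nonneg_left
    (mul_le_mul_of_nonneg_left r2 (by positivity)) (by positivity)) (by positivity)) ?_
  simp only [npow_pow hX, npow_mul hX, npow_rpow hX, npow_div hX, npow_le hX]
  push_cast; linarith

theorem xtraC (he : EnvStmt) (hmp : MPStmt) : ∃ θ : ℝ, 0 < θ ∧ ∀ᶠ X : ℝ in atTop,
    ∀ (B₁ B₂ : ℝ) (β₁ : O → ℂ), 1 / 4 ≤ B₁ → B₁ ≤ X ^ (0.01 : ℝ) → X ^ (0.45 : ℝ) ≤ B₁ * B₂ →
      B₁ * B₂ ≤ X ^ (0.55 : ℝ) → Supp 4 B₁ β₁ → Bd (X ^ θ) β₁ →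
        Xtra X (B₁ * B₂) (B₁ * B₂ * X ^ θ) θ (cv β₁ (win B₂ (2 * B₂))) := by
  obtain ⟨θ, e⟩ : ∃ θ : ℝ, θ = 1 / 1000000 := ⟨_, rfl⟩
  have hθ : 0 < θ := by rw [e]; norm_num
  obtain ⟨C, hC⟩ := csplit
  obtain ⟨C', hC'⟩ := pure hmp (n := 14999) (by norm_num)
  refine ⟨θ, hθ, ?_⟩
  filter_upwards [he θ hθ, ev_const C hθ, ev_const C' hθ, ev_const 81 hθ, eventually_gt_atTop 1]
    with X henv hCX hCX' h81 hX B₁ B₂ β₁ c1 c2 c3 c4 s1 b1 g w t M m hg hG hw ht hm1 hmM hV hV' _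
  have hV1 := NX_V hw hm1 hmM hV
  have q1 : 0 < B₁ := by linarith
  have q0 : 0 < B₁ * B₂ := lt_of_lt_of_le (by positivity) c3
  have q2 : 0 < B₂ := pos_of_mul_pos_left (by linarith) q1.le
  have q5 : 1 ≤ X ^ θ := (npow_one_le hX).2 hθ.le
  have q6 : 16 * (B₁ * B₂) ≤ 16 * (B₁ * B₂) * X ^ θ := le_mul_of_one_le_right (by positivity) q5
  have q7 : m ^ 2 * M ≤ 16 * (B₁ * B₂) * X ^ θ := 
    hV1.trans (mul_le_mul_of_nonneg_right (by linarith) (by positivity))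
  have q8 : 4 * B₂ ≤ 16 * (B₁ * B₂) * X ^ θ := le_trans (by nlinarith) q6
  have hW : (nm w : ℝ) ≤ X ^ (4 * θ) := by
    have r4 : √(nm w) * (B₁ * B₂ * X ^ (-θ)) ≤ X ^ (θ + θ) * (B₁ * B₂ * X ^ (-θ)) := by
      calc _ ≤ √(nm w) * (m ^ 2 * M) := by gcongr
        _ ≤ B₁ * B₂ * X ^ θ := hV
        _ = B₁ * B₂ * (X ^ (θ + θ) * X ^ (-θ)) := by rw [npow_mul hX]; ring_nf
        _ = _ := by ring
    have r5 := npow_pow_le hX (le_of_mul_le_mul_right r4 (by positivity)) (by positivity) 2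
    rw [Real.sq_sqrt (by positivity)] at r5
    exact npow_mono hX r5 (by push_cast; linarith)
  obtain ⟨a₁, rfl⟩ := npow_ex hX q1
  obtain ⟨a₂, rfl⟩ := npow_ex hX q2
  have hK : 16 * (X ^ a₁ * X ^ a₂) * X ^ θ ≤ X ^ (θ + (a₁ + a₂) + θ) := npow_mul_le hX
    (npow_mul_le hX (by linarith) (npow_mul hX _ _).le (by positivity)) le_rfl (by positivity)
  have hW' : nm w * X ^ θ * (4 * X ^ a₁) ≤ X ^ (4 * θ + θ + (θ + a₁)) := npow_mul_le hX
    (npow_mul_le hX hW le_rfl (by positivity))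
    (npow_mul_le hX (by linarith) le_rfl (by positivity)) (by positivity)
  have hY : X ^ a₂ / (X ^ θ * (X ^ (0.0001 : ℝ)) ^ 2) = X ^ (a₂ - θ - 0.0002) := by
    rw [npow_pow hX, npow_mul hX, npow_div hX]; congr 1; push_cast; ring
  have r3 : ∀ {u a : ℝ}, u ≤ X ^ a → a ≤ 3 → u ≤ X ^ 3 := fun h h' => by
    rw [npow_three]; exact npow_mono hX h h'
  rw [npow_mul hX, npow_le hX] at c3 c4
  rw [npow_le hX] at c2
  have hP := hC' _ _ henv hCX' (X ^ (0.02 : ℝ)) (X ^ (0.18 : ℝ)) (X ^ (0.001 : ℝ)) _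
    (X ^ (0.383 : ℝ)) _ (X ^ a₂ / (X ^ θ * (X ^ (0.0001 : ℝ)) ^ 2)) _ t M m
    ((npow_le hX).2 (by linarith)) ((npow_le hX).2 (by norm_num)) (r3 le_rfl (by norm_num)) ht
    (by rw [hY, npow_one_le hX]; linarith) q8 (r3 hK (by linarith)) (r3 hW' (by linarith))
    ((npow_one_le hX).2 (by norm_num)) (r3 le_rfl (by norm_num)) (by positivity) hm1 hmM q7
    (by
      rw [hY, npow_mul hX (a₂ - θ - 0.0002)]
      exact npow_mono hX (npow_mul_le hX (npow_mul_le hX le_rfl (npow_pow hX _ 2).le (by positivity))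
        (npow_mul_le hX (npow_mul_le hX h81 hW' (by positivity)) hK (by positivity))
        (by positivity)) (by push_cast; linarith))
    (by rw [npow_three, npow_pow hX, npow_pow hX, npow_le hX]; norm_num)
  have hg0 := g3K_nonneg (N := X ^ (0.383 : ℝ)) (K := 16 * (X ^ a₁ * X ^ a₂) * X ^ θ)
    (by positivity) (by positivity)
  refine (hC _ _ henv hCX _ _ _ _ _ _ _ t M m β₁ g w c1 q2 ((npow_one_le hX).2 (by norm_num))
    (by positivity) hm1 hmM q7 (le_trans (by nlinarith) q6) (r3 hK (by linarith))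
    (r3 le_rfl (by linarith)) s1 b1 hg hG hw hP).trans ?_
  have hK0 : 0 ≤ 16 * (X ^ a₁ * X ^ a₂) * X ^ θ := by positivity
  generalize 16 * (X ^ a₁ * X ^ a₂) * X ^ θ = K at *
  have t0 := npow_rpow_le (p := 4 / 3) hX hK hK0 (by norm_num)
  have t1 : g3K (X ^ (0.383 : ℝ)) K ≤ X ^ (0.383 / 3 + (a₁ + a₂) + 2 * θ + θ) :=
    npow_add3 hX (by linarith)
      (npow_mono hX (npow_mul_le hX (npow_rpow hX _ _).le hK hK0) (by linarith))
      (npow_mono hX (npow_mul_le hX le_rfl (npow_rpow_le hX hK hK0 (by norm_num)) (by positivity))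
        (by linarith))
      (npow_mono hX (npow_rpow_le hX (npow_mul_le hX le_rfl hK hK0) (by positivity) (by norm_num))
        (by linarith))
  have t2 : √(X ^ a₂) / X ^ (0.02 : ℝ) + 1 ≤ X ^ (a₂ / 2 - 0.02 + θ) :=
    npow_add2 hX (by linarith) (by rw [npow_sqrt hX, npow_div hX]) ((npow_one_le hX).2 (by linarith))
  have t3 := npow_add3 (s := 11 / 6 * (a₁ + a₂) - 3 / 2 * a₁ - 0.001) hX (by linarith : 3 ≤ X ^ θ)
    (npow_mono hX (npow_mul_le hX t0 t2 (by positivity)) (by linarith))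
    (npow_mono hX (npow_rpow hX a₂ (3 / 2)).le (by linarith))
    (npow_mono hX (npow_mul_le hX (npow_mul_le hX hW' (npow_sqrt hX a₂).le (by positivity)) t1 hg0)
      (by linarith))
  have t4 := npow_add2 (s := 11 / 6 * (a₁ + a₂) - 0.00006) hX (by linarith : 2 ≤ X ^ θ)
    (npow_mono hX (npow_mul_le hX (npow_mul_le hX (npow_pow hX 0.0001 2).le
      (npow_rpow hX a₁ (3 / 2)).le (by positivity))
      (npow_mul_le hX (npow_pow hX θ 10).le t3 (by positivity)) (by positivity))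
      (by push_cast; linarith))
    (npow_mono hX (npow_mul_le hX (npow_mul_le hX (show √(X ^ a₁ * X ^ a₂) ≤ _ by
      rw [npow_mul hX, npow_sqrt hX]) t0 (by positivity)) (npow_rpow hX 0.0001 (-2 / 3)).le
      (by positivity)) (by linarith))
  refine le_trans (mul_le_mul_of_nonneg_left t4 (by positivity)) ?_
  simp only [npow_pow hX, npow_mul hX, npow_rpow hX, npow_le hX]
  push_cast; linarith

end Vale.Agent.P006
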