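import Vale.Agent.P006.NEnv
import Vale.Agent.P006.NX
import Vale.Agent.P006.NTop

/-! Part N: mean squares over non-cubes. -/

namespace Vale.Agent.P006

open Vale.Agent.P026 Filter
open scoped ComplexConjugate Real

theorem Xtra.mono {X B K K' θ : ℝ} {β : O → ℂ} (h : Xtra X B K θ β) (hK : K' ≤ K) :
    Xtra X B K' θ β :=
  fun g w t M m a b c d e f i j k => h g w t M m a b c d e f (i.trans hK) j k

theorem N_vac {X B K θ : ℝ} (β : O → ℂ) (hK : K < B * X ^ (-θ)) : Xtra X B K θ β := by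
  intro g w t M m _ _ hw _ h1 h2 h3 h4 _
  have h5 : 1 ≤ √(nm w : ℝ) := Real.one_le_sqrt.2 (one_le_nm hw)
  have h6 : 0 ≤ m ^ 2 * M := by have : 0 ≤ M := by linarith
                                positivity
  nlinarith

theorem N_bd {A A' : ℝ} {β : O → ℂ} (h : Bd A β) (hA : A ≤ A') : Bd A' β := fun b => (h b).trans hA

theorem N_cv {η : ℝ} (hη : 0 < η) : ∀ᶠ X : ℝ in atTop, ∀ (B : ℝ) (f g : O → ℂ), B ≤ X →
    Supp 16 B (cv f g) → Bd (X ^ η) f → Bd (X ^ η) g → Bd (X ^ (3 * η)) (cv f g) := by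
  filter_upwards [ev_tau 2 hη, eventually_ge_atTop 16] with X h1 h2 B f g hB hs hf hg n
  have hX : 1 < X := by linarith
  by_cases h0 : cv f g n = 0
  · rw [h0, norm_zero]; positivity
  obtain ⟨a, -, b⟩ := hs n h0
  have : (nm n : ℝ) ≤ X ^ (2 : ℝ) := by
    rw [Real.rpow_two]; nlinarith
  refine (norm_cv_le hf hg n).trans ?_
  calc tau n * (X ^ η * X ^ η) ≤ X ^ η * (X ^ η * X ^ η) :=
        mul_le_mul_of_nonneg_right (h1 n a.ne_zero this) (by positivity)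
    _ = X ^ (3 * η) := by rw [npow_mul hX, npow_mul hX]; ring_nf

theorem N_K {X B c θ : ℝ} (hX : 1 < X) (hB : 0 ≤ B) (h8 : 8 ≤ X ^ (θ / 3)) (hc : c ≤ θ / 3) :
    8 * X ^ c * (B * X ^ c) ≤ B * X ^ θ := by
  have h1 : X ^ c ≤ X ^ (θ / 3) := (npow_le hX).2 hc
  have h2 : X ^ θ = X ^ (θ / 3) * X ^ (θ / 3) * X ^ (θ / 3) := by
    rw [npow_mul hX, npow_mul hX]; ring_nf
  have h3 : 0 < X ^ c := by positivity
  rw [h2]
  calc 8 * X ^ c * (B * X ^ c) = B * (8 * X ^ c * X ^ c) := by ring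
    _ ≤ _ := by gcongr

theorem N_K2 {X B c a : ℝ} (hX : 1 < X) (hB : B ≤ X ^ a) (ha : a ≤ 1) (hc : c ≤ 1) :
    B ≤ X ∧ B * X ^ c ≤ X ^ 2 := by
  have h1 : B ≤ X := hB.trans (by simpa using (npow_le hX).2 ha)
  have h2 : X ^ c ≤ X := by simpa using (npow_le hX).2 hc
  have h3 : 0 < X ^ c := by positivity
  exact ⟨h1, by nlinarith⟩

theorem nca (h1 : LS1Stmt) (h3 : LS3Stmt) (hm : HMStmt) (hj : JLSStmt) : NCaStmt := by
  intro η₁ η₃ a1 a3
  obtain ⟨η₀, b0, H⟩ := ntop (env h1 h3 hm hj) a1 (half_pos a3)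
  have hη : 0 < min η₀ (η₃ / 4) := lt_min b0 (by linarith)
  refine ⟨_, hη, ?_⟩
  filter_upwards [H _ hη (min_le_left _ _), eventually_gt_atTop 1,
    ev_const 8 (show 0 < η₃ / 8 by linarith)] with X H hX h8 B β c1 c2 c3 c4 c5
  have hB : 1 ≤ B := le_trans ((npow_one_le hX).2 (by norm_num)) c1
  have hK : 8 * X ^ min η₀ (η₃ / 4) * (B * X ^ (-η₃)) < B * X ^ (-(η₃ / 2)) := by
    have : X ^ (η₃ / 8) * X ^ min η₀ (η₃ / 4) * X ^ (-η₃) < X ^ (-(η₃ / 2)) := by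
      rw [npow_mul hX, npow_mul hX]
      exact Real.rpow_lt_rpow_of_exponent_lt hX (by linarith [min_le_right η₀ (η₃ / 4)])
    calc _ = B * (8 * X ^ min η₀ (η₃ / 4) * X ^ (-η₃)) := by ring
      _ ≤ B * (X ^ (η₃ / 8) * X ^ min η₀ (η₃ / 4) * X ^ (-η₃)) := by gcongr
      _ < _ := by gcongr
  exact H B _ β hB c2 (N_K2 (a := 1) hX (by simpa using c2) le_rfl (by linarith)).2 c3
    (N_bd c4 ((npow_le hX).2 (by linarith))) c5 (N_vac _ hK) (N_vac _ hK)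

theorem ncb (h1 : LS1Stmt) (h3 : LS3Stmt) (hm : HMStmt) (hj : JLSStmt) : NCbStmt := by
  intro η₀ η₁ a0 a1
  obtain ⟨θ, hθ, G⟩ := xtraB (env h1 h3 hm hj) a0
  obtain ⟨η', b0, H⟩ := ntop (env h1 h3 hm hj) a1 hθ
  have hη : 0 < min (min η' 1) (θ / 3) := lt_min (lt_min b0 one_pos) (by linarith)
  have e1 := min_le_left (min η' 1) (θ / 3)
  have e2 := min_le_right (min η' 1) (θ / 3)
  generalize min (min η' 1) (θ / 3) = η at *
  refine ⟨η, η, hη, hη, ?_⟩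
  filter_upwards [H η hη (e1.trans (min_le_left _ _)), G, N_cv hη, eventually_gt_atTop 1,
    ev_const 8 (show 0 < θ / 3 by linarith)] with X H G Hc hX h8 B₁ B₂ β₁ β₂ c1 c2 c3 c4 c5 c6 c7
    c8 c9
  have p1 : 0 ≤ B₁ := le_trans (by positivity) c1
  have p2 : 0 ≤ B₂ := le_trans (by positivity) c2
  have hB : 1 ≤ B₁ * B₂ := le_trans ((npow_one_le hX).2 (by norm_num)) c3
  have hs : Supp 16 (B₁ * B₂) (cv β₁ β₂) := by
    have := Supp.cv p1 p2 c5 c6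
    norm_num at this; exact this
  obtain ⟨k1, k2⟩ := N_K2 hX c4 (by norm_num) (e1.trans (min_le_right _ _))
  have hθ' : X ^ η ≤ X ^ θ := (npow_le hX).2 (by linarith)
  have hK := N_K hX (mul_nonneg p1 p2) h8 e2
  refine H _ _ _ hB k1 k2 hs (Hc _ _ _ k1 hs c7 c8) c9
    ((G _ _ _ _ c1 c2 c3 c4 c5 c6 (N_bd c7 hθ') (N_bd c8 hθ')).mono hK) ?_
  rw [conj_cv]
  exact (G _ _ _ _ c1 c2 c3 c4 c5.conj c6.conj (N_bd c7 hθ').conj (N_bd c8 hθ').conj).mono hK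

theorem ncc (h1 : LS1Stmt) (h3 : LS3Stmt) (hm : HMStmt) (hj : JLSStmt) (hp : MPStmt) :
    NCcStmt := by
  intro η₁ a1
  obtain ⟨θ, hθ, G⟩ := xtraC (env h1 h3 hm hj) hp
  obtain ⟨η', b0, H⟩ := ntop (env h1 h3 hm hj) a1 hθ
  have hη : 0 < min (min η' 1) (θ / 3) := lt_min (lt_min b0 one_pos) (by linarith)
  have e1 := min_le_left (min η' 1) (θ / 3)
  have e2 := min_le_right (min η' 1) (θ / 3)
  generalize min (min η' 1) (θ / 3) = η at *
  refine ⟨η, η, hη, hη, ?_⟩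
  filter_upwards [H η hη (e1.trans (min_le_left _ _)), G, N_cv hη, eventually_gt_atTop 1,
    ev_const 8 (show 0 < θ / 3 by linarith)] with X H G Hc hX h8 B₁ B₂ β₁ c1 c2 c3 c4 c5 c7 c9
  have p1 : 0 < B₁ := by linarith
  have hB : 1 ≤ B₁ * B₂ := le_trans ((npow_one_le hX).2 (by norm_num)) c3
  have p2 : 0 < B₂ := pos_of_mul_pos_left (by linarith) p1.le
  have hs : Supp 16 (B₁ * B₂) (cv β₁ (win B₂ (2 * B₂))) := by
    intro n hn
    obtain ⟨q, a, b, -, -, rfl, ha, hb⟩ := cv_ne_zero hn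
    obtain ⟨-, r1, r2⟩ := c5 a ha
    have hb' : B₂ < nm b ∧ (nm b : ℝ) ≤ 2 * B₂ := by
      by_contra h; exact hb (ind_of_not h)
    rw [nm_mul, Nat.cast_mul]
    exact ⟨q, mul_lt_mul'' r1 hb'.1 p1.le p2.le, by nlinarith [mul_le_mul r2 hb'.2 (by positivity) (by positivity)]⟩
  obtain ⟨k1, k2⟩ := N_K2 hX c4 (by norm_num) (e1.trans (min_le_right _ _))
  have hθ' : X ^ η ≤ X ^ θ := (npow_le hX).2 (by linarith)
  have hK := N_K hX (mul_pos p1 p2).le h8 e2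
  have hw : Bd (X ^ η) (win B₂ (2 * B₂)) := fun b =>
    (norm_win_le _ _ b).trans ((npow_one_le hX).2 hη.le)
  refine H _ _ _ hB k1 k2 hs (Hc _ _ _ k1 hs c7 hw) c9
    ((G _ _ _ c1 c2 c3 c4 c5 (N_bd c7 hθ')).mono hK) ?_
  rw [conj_cv, conj_win]
  exact (G _ _ _ c1 c2 c3 c4 c5.conj (N_bd c7 hθ').conj).mono hK

end Vale.Agent.P006
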