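import Vale.Agent.P006.SKer

/-!
# Part S: Riesz means and sharp sums from a bound for the Dirichlet series  (TASK)

`riesz`: `∑ n ∈ ball u, a n * (u - N n) = u * ∑' n, a n * max (1 - N n / u) 0`; `perron1` on the line `2` at `x = N n / u`,
`x ^ (-s) = u ^ s * (N n) ^ (-s)`, swap sum and integral (`integral_tsum_of_summable_integral_norm`), insert `DS a s = G s + r / (s - 1)`;
the `r` part is `perron2` at `x = 1 / u`; the `G` part is shifted by `shift_line` with `H s = u ^ s * G s / (s (s + 1))` on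
`max σ₀ 0 < re s`, where `‖s (s + 1)‖ ≥ (1 + |im s|) ^ 2 / 16`; `C` is a multiple of `∫ y, (1 + |y|) ^ (-3/2)`.
`sharp_of_riesz`: with `R v` the Riesz mean, `R (u + h) - R u = h * ∑ n ∈ ball u, a n + ∑ n ∈ ball (u + h) \ ball u, a n * (u + h - N n)`, and
the annulus has at most `C h` points (`card_ball` twice).  `sharp`: combine, `(2 u) ^ (1 + σ) ≤ 4 u ^ (1 + σ)`.
-/

namespace Vale.Agent.P006.S

open Vale.Agent.P026 Filter MeasureTheory
open scoped ComplexConjugate Real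

theorem SRiesz_int : Integrable fun y : ℝ => (1 + |y|) ^ (-3 / 2 : ℝ) := by
  have := integrable_one_add_norm (E := ℝ) (μ := volume) (r := 3 / 2) (by simp; norm_num)
  simpa only [Real.norm_eq_abs, neg_div] using this

theorem SRiesz_bd {s g : ℂ} {M u : ℝ} (hs : 1 / 2 ≤ s.re) (hu : 0 < u)
    (hg : ‖g‖ ≤ M * √(1 + |s.im|)) :
    ‖(u : ℂ) ^ s * (1 / (s * (s + 1))) * g‖ ≤
      9 * M * u ^ s.re * (1 + |s.im|) ^ (-3 / 2 : ℝ) := by
  have h0 : 0 < 1 + |s.im| := by positivity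
  have h1 : (1 + |s.im|) / 3 ≤ ‖s‖ := by
    have := Complex.re_le_norm s
    have := Complex.abs_im_le_norm s
    linarith
  have h2 : (1 + |s.im|) / 3 ≤ ‖s + 1‖ := by
    have a1 := Complex.re_le_norm (s + 1)
    have a2 := Complex.abs_im_le_norm (s + 1)
    simp only [Complex.add_re, Complex.one_re, Complex.add_im, Complex.one_im, add_zero] at a1 a2
    linarith
  have h3 : ‖1 / (s * (s + 1))‖ ≤ 9 * (1 + |s.im|) ^ (-2 : ℝ) := by
    rw [norm_div, norm_one, norm_mul, Real.rpow_neg h0.le, Real.rpow_two, ← div_eq_mul_inv,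
      div_le_div_iff₀ (mul_pos (by linarith) (by linarith)) (by positivity)]
    have := mul_le_mul h1 h2 (by positivity) (norm_nonneg _)
    linarith
  have h4 : (1 + |s.im|) ^ (-3 / 2 : ℝ) = (1 + |s.im|) ^ (-2 : ℝ) * √(1 + |s.im|) := by
    rw [Real.sqrt_eq_rpow, ← Real.rpow_add h0]
    norm_num
  rw [norm_mul, norm_mul, Complex.norm_cpow_eq_rpow_re_of_pos hu, h4]
  calc u ^ s.re * ‖1 / (s * (s + 1))‖ * ‖g‖
      ≤ u ^ s.re * (9 * (1 + |s.im|) ^ (-2 : ℝ)) * (M * √(1 + |s.im|)) := by gcongr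
    _ = _ := by ring

theorem SRiesz_ne {s : ℂ} (hs : 0 < s.re) : s * (s + 1) ≠ 0 := by
  refine mul_ne_zero (fun h => ?_) fun h => ?_
  · rw [h] at hs
    simp at hs
  · have := congrArg Complex.re h
    simp only [Complex.add_re, Complex.one_re, Complex.zero_re] at this
    linarith

theorem SRiesz_line {g : ℝ → ℂ} {σ M u : ℝ} (hσ : 1 / 2 ≤ σ) (hu : 0 < u) (hc : Continuous g)
    (hb : ∀ y, ‖g y‖ ≤ M * √(1 + |y|)) :
    Integrable (fun y : ℝ => (u : ℂ) ^ (σ + y * Complex.I) *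
      (1 / ((σ + y * Complex.I) * (σ + y * Complex.I + 1))) * g y) ∧
    ∫ y : ℝ, ‖(u : ℂ) ^ (σ + y * Complex.I) *
      (1 / ((σ + y * Complex.I) * (σ + y * Complex.I + 1))) * g y‖ ≤
        9 * M * u ^ σ * ∫ y : ℝ, (1 + |y|) ^ (-3 / 2 : ℝ) := by
  have h1 : ∀ y : ℝ, ‖(u : ℂ) ^ (σ + y * Complex.I) *
      (1 / ((σ + y * Complex.I) * (σ + y * Complex.I + 1))) * g y‖ ≤
        9 * M * u ^ σ * (1 + |y|) ^ (-3 / 2 : ℝ) := fun y => by
    have := SRiesz_bd (s := σ + y * Complex.I) (g := g y) (M := M) (by simpa using hσ) hu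
      (by simpa using hb y)
    simpa using this
  have h2 : Continuous fun y : ℝ => (u : ℂ) ^ (σ + y * Complex.I) *
      (1 / ((σ + y * Complex.I) * (σ + y * Complex.I + 1))) * g y := by
    refine (Continuous.mul (Continuous.const_cpow (by fun_prop)
      (Or.inl (Complex.ofReal_ne_zero.2 hu.ne'))) ?_).mul hc
    refine continuous_const.div (by fun_prop) fun y => SRiesz_ne ?_
    simp only [Complex.add_re, Complex.ofReal_re, Complex.mul_re, Complex.I_re, mul_zero,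
      Complex.ofReal_im, Complex.I_im, zero_mul, sub_self, add_zero]
    linarith
  have h3 := SRiesz_int.const_mul (9 * M * u ^ σ)
  have h4 := h3.mono' h2.aestronglyMeasurable (Eventually.of_forall h1)
  refine ⟨h4, ?_⟩
  rw [← integral_const_mul]
  exact integral_mono h4.norm h3 h1

theorem SRiesz_sqrt (y : ℝ) : 1 ≤ √(1 + |y|) :=
  Real.one_le_sqrt.2 (le_add_of_nonneg_right (abs_nonneg y))

theorem SRiesz_sum {a : O → ℂ} {u : ℝ} (h0 : a 0 = 0)
    (hs : Summable fun n => ‖a n‖ * (nm n : ℝ) ^ (-2 : ℝ)) (hu : 0 < u) :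
    ∑ n ∈ ball u, a n * (u - nm n) = (u / (2 * π) : ℝ) * ∫ y : ℝ,
      (u : ℂ) ^ (((2 : ℝ) : ℂ) + y * Complex.I) * (1 / ((((2 : ℝ) : ℂ) + y * Complex.I) *
        (((2 : ℝ) : ℂ) + y * Complex.I + 1))) * DS a (((2 : ℝ) : ℂ) + y * Complex.I) := by
  haveI : Countable O := Function.Injective.countable (f := fun x : O => (x.re, x.im))
    fun _ _ h => QuadraticAlgebra.ext (Prod.ext_iff.1 h).1 (Prod.ext_iff.1 h).2
  set F : O → ℝ → ℂ := fun n y => (u : ℂ) ^ (((2 : ℝ) : ℂ) + y * Complex.I) *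
    (1 / ((((2 : ℝ) : ℂ) + y * Complex.I) * (((2 : ℝ) : ℂ) + y * Complex.I + 1))) *
      (a n * (nm n : ℂ) ^ (-(((2 : ℝ) : ℂ) + y * Complex.I))) with hF
  have hl : ∀ n, Integrable (F n) ∧ ∫ y, ‖F n y‖ ≤ 9 * (‖a n‖ * (nm n : ℝ) ^ (-2 : ℝ)) *
      u ^ (2 : ℝ) * ∫ y : ℝ, (1 + |y|) ^ (-3 / 2 : ℝ) := by
    intro n
    by_cases hn : n = 0
    · refine SRiesz_line (by norm_num) hu ?_ fun y => ?_
      · simp only [hn, h0, zero_mul]
        exact continuous_const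
      · simp [hn, h0]
    have h1 : (0 : ℝ) < nm n := Nat.cast_pos.2 (nm_pos hn)
    refine SRiesz_line (by norm_num) hu (continuous_const.mul (Continuous.const_cpow (by fun_prop)
      (Or.inl (Nat.cast_ne_zero.2 (nm_pos hn).ne')))) fun y => ?_
    rw [norm_mul, ← Complex.ofReal_natCast, Complex.norm_cpow_eq_rpow_re_of_pos h1]
    have h2 : (-(((2 : ℝ) : ℂ) + y * Complex.I)).re = -2 := by simp
    rw [h2]
    exact le_mul_of_one_le_right (by positivity) (SRiesz_sqrt y)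
  have h1 := integral_tsum_of_summable_integral_norm (F := F) (μ := volume) (fun n => (hl n).1)
    (Summable.of_nonneg_of_le (fun n => integral_nonneg fun y => norm_nonneg _)
      (fun n => (hl n).2) (((hs.mul_left 9).mul_right _).mul_right _))
  have h2 : ∀ n, ((u / (2 * π) : ℝ) : ℂ) * ∫ y, F n y =
      a n * ((u * max (1 - nm n / u) 0 : ℝ) : ℂ) := by
    intro n
    by_cases hn : n = 0
    · simp [hF, hn, h0]
    have h3 : (0 : ℝ) < nm n := Nat.cast_pos.2 (nm_pos hn)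
    rw [Complex.ofReal_mul, ← perron1 (σ := 2) two_pos (div_pos h3 hu), mellinInv,
      Complex.real_smul]
    have h4 : ∀ y : ℝ, F n y = a n * ((((nm n : ℝ) / u : ℝ) : ℂ) ^
        (-(((2 : ℝ) : ℂ) + y * Complex.I)) • (1 / ((((2 : ℝ) : ℂ) + y * Complex.I) *
          (((2 : ℝ) : ℂ) + y * Complex.I + 1)))) := fun y => by
      rw [div_eq_mul_inv (nm n : ℝ), Complex.ofReal_mul,
        Complex.mul_cpow_ofReal_nonneg h3.le (inv_pos.2 hu).le, Complex.ofReal_inv,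
        Complex.inv_cpow _ _ (by rw [Complex.arg_ofReal_of_nonneg hu.le]; exact Real.pi_ne_zero.symm),
        Complex.cpow_neg (u : ℂ), inv_inv, Complex.ofReal_natCast, smul_eq_mul, hF]
      ring
    simp only [h4, integral_const_mul]
    push_cast
    ring
  have h3 : ∀ y : ℝ, ∑' n, F n y = (u : ℂ) ^ (((2 : ℝ) : ℂ) + y * Complex.I) *
      (1 / ((((2 : ℝ) : ℂ) + y * Complex.I) * (((2 : ℝ) : ℂ) + y * Complex.I + 1))) *
        DS a (((2 : ℝ) : ℂ) + y * Complex.I) := fun y => tsum_mul_left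
  simp only [h3] at h1
  rw [← h1, ← tsum_mul_left, tsum_congr h2, tsum_eq_sum (s := ball u)]
  · refine Finset.sum_congr rfl fun n hn => ?_
    have h4 : 0 ≤ 1 - (nm n : ℝ) / u := sub_nonneg.2 ((div_le_one hu).2 (mem_ball.1 hn))
    have h5 : u * (1 - (nm n : ℝ) / u) = u - nm n := by field_simp
    rw [max_eq_left h4, h5]
    push_cast
    rfl
  · intro n hn
    have h4 : 1 - (nm n : ℝ) / u ≤ 0 :=
      sub_nonpos.2 ((one_le_div hu).2 (not_le.1 fun h => hn (mem_ball.2 h)).le)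
    rw [max_eq_right h4]
    simp

theorem SRiesz_pole {u : ℝ} (hu : 1 ≤ u) (r : ℂ) :
    ((u / (2 * π) : ℝ) : ℂ) * ∫ y : ℝ, (u : ℂ) ^ (((2 : ℝ) : ℂ) + y * Complex.I) *
      (1 / ((((2 : ℝ) : ℂ) + y * Complex.I) * (((2 : ℝ) : ℂ) + y * Complex.I + 1))) *
        (r / (((2 : ℝ) : ℂ) + y * Complex.I - 1)) = r * ((u - 1) ^ 2 / 2) := by
  have hu0 : 0 < u := by linarith
  have h1 := perron2 (σ := 2) (x := u⁻¹) one_lt_two (inv_pos.2 hu0) (inv_le_one_of_one_le₀ hu)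
  rw [mellinInv, Complex.real_smul] at h1
  have h2 : ∀ y : ℝ, (u : ℂ) ^ (((2 : ℝ) : ℂ) + y * Complex.I) *
      (1 / ((((2 : ℝ) : ℂ) + y * Complex.I) * (((2 : ℝ) : ℂ) + y * Complex.I + 1))) *
        (r / (((2 : ℝ) : ℂ) + y * Complex.I - 1)) = r * (((u⁻¹ : ℝ) : ℂ) ^
          (-(((2 : ℝ) : ℂ) + y * Complex.I)) • (1 / ((((2 : ℝ) : ℂ) + y * Complex.I - 1) *
            (((2 : ℝ) : ℂ) + y * Complex.I) * (((2 : ℝ) : ℂ) + y * Complex.I + 1)))) := fun y => by
    rw [Complex.ofReal_inv,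
      Complex.inv_cpow _ _ (by rw [Complex.arg_ofReal_of_nonneg hu0.le]; exact Real.pi_ne_zero.symm),
      Complex.cpow_neg (u : ℂ), inv_inv, smul_eq_mul]
    simp only [one_div, mul_inv, div_eq_mul_inv]
    ring
  have h3 : (u : ℂ) * (((1 - u⁻¹) ^ 2 / (2 * u⁻¹) : ℝ) : ℂ) = (u - 1) ^ 2 / 2 := by
    norm_cast
    field_simp
  simp only [h2, integral_const_mul]
  rw [← h3, ← h1]
  push_cast
  ring

theorem riesz : ∃ C : ℝ, 0 < C ∧ ∀ (a : O → ℂ) (G : ℂ → ℂ) (r : ℂ) (σ₀ σ M u : ℝ), a 0 = 0 →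
    (Summable fun n => ‖a n‖ * (nm n : ℝ) ^ (-2 : ℝ)) → σ₀ < σ → 1 / 2 ≤ σ → σ ≤ 1 →
    DifferentiableOn ℂ G {s | σ₀ < s.re} → (∀ s : ℂ, s.re = 2 → DS a s = G s + r / (s - 1)) →
    (∀ s : ℂ, σ ≤ s.re → s.re ≤ 2 → ‖G s‖ ≤ M * √(1 + |s.im|)) → 1 ≤ u →
      ‖∑ n ∈ ball u, a n * (u - nm n) - r * ((u - 1) ^ 2 / 2)‖ ≤ C * M * u ^ (1 + σ) := by
  have hI : 0 ≤ ∫ y : ℝ, (1 + |y|) ^ (-3 / 2 : ℝ) := integral_nonneg fun y => by positivity
  refine ⟨9 * (∫ y : ℝ, (1 + |y|) ^ (-3 / 2 : ℝ)) + 1, by positivity, ?_⟩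
  intro a G r σ₀ σ M u h0 hs h1 h2 h3 hG hD hb hu
  have hu0 : 0 < u := by linarith
  have hM : 0 ≤ M := by
    have := (norm_nonneg _).trans (hb σ (by simp) (by simpa using by linarith))
    exact nonneg_of_mul_nonneg_left this (by positivity)
  have hc : ∀ τ : ℝ, σ₀ < τ → Continuous fun y : ℝ => G (τ + y * Complex.I) := fun τ hτ =>
    hG.continuousOn.comp_continuous (by fun_prop) fun y => by simpa using hτ
  have l1 := SRiesz_line (σ := 2) (M := M) (by norm_num) hu0 (hc 2 (by linarith)) fun y => by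
    simpa using hb (((2 : ℝ) : ℂ) + y * Complex.I) (by simpa using by linarith) (by simp)
  have l2 := SRiesz_line (σ := σ) (M := M) h2 hu0 (hc σ h1) fun y => by
    simpa using hb (σ + y * Complex.I) (by simp) (by simpa using by linarith)
  have hn : ∀ y : ℝ, 1 ≤ ‖((2 : ℝ) : ℂ) + y * Complex.I - 1‖ := fun y => by
    refine le_trans ?_ (Complex.re_le_norm _)
    norm_num
  have l3 := SRiesz_line (σ := 2) (M := ‖r‖)
    (g := fun y => r / (((2 : ℝ) : ℂ) + y * Complex.I - 1)) (by norm_num) hu0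
    (continuous_const.div (by fun_prop) fun y => norm_pos_iff.1 (one_pos.trans_le (hn y)))
    fun y => by
      rw [norm_div]
      exact (div_le_self (norm_nonneg _) (hn y)).trans
        (le_mul_of_one_le_right (norm_nonneg _) (SRiesz_sqrt y))
  have l4 := shift_line (H := fun s => (u : ℂ) ^ s * (1 / (s * (s + 1))) * G s)
    (σ₀ := max σ₀ 0) (σ := σ) (τ := 2) (M := 9 * M * u ^ (2 : ℝ))
    (max_lt h1 (by linarith)) (by linarith) ?_ ?_
  · have e1 : ∀ y : ℝ, DS a (((2 : ℝ) : ℂ) + y * Complex.I) =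
        G (((2 : ℝ) : ℂ) + y * Complex.I) + r / (((2 : ℝ) : ℂ) + y * Complex.I - 1) :=
      fun y => hD _ (by simp)
    rw [SRiesz_sum h0 hs hu0]
    simp only [e1, fun (x : ℂ) (y : ℝ) => mul_add x (G (((2 : ℝ) : ℂ) + y * Complex.I))]
    rw [integral_add l1.1 l3.1, mul_add, SRiesz_pole hu, add_sub_cancel_right, l4, norm_mul,
      Complex.norm_real, Real.norm_of_nonneg (by positivity), Real.rpow_add hu0, Real.rpow_one]
    have e2 : u / (2 * π) ≤ u := div_le_self hu0.le (by linarith [Real.pi_gt_three])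
    have e3 := (norm_integral_le_integral_norm _).trans l2.2
    refine (mul_le_mul e2 e3 (norm_nonneg _) hu0.le).trans ?_
    have e4 : 0 ≤ M * (u * u ^ σ) := by positivity
    linarith
  · intro s hs
    have a1 : σ₀ < s.re := (le_max_left _ _).trans_lt hs
    have a2 : 0 < s.re := (le_max_right _ _).trans_lt hs
    refine DifferentiableAt.differentiableWithinAt (DifferentiableAt.mul
      ((differentiableAt_id.const_cpow (Or.inl (Complex.ofReal_ne_zero.2 hu0.ne'))).mul ?_) ?_)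
    · exact (differentiableAt_const _).div (by fun_prop) (SRiesz_ne a2)
    · exact hG.differentiableAt ((isOpen_lt continuous_const Complex.continuous_re).mem_nhds a1)
  · intro s s1 s2
    refine (SRiesz_bd (h2.trans s1) hu0 (hb s s1 s2)).trans ?_
    gcongr

theorem sharp_of_riesz : ∃ C : ℝ, 0 < C ∧ ∀ (a : O → ℂ) (r : ℂ) (R A u h : ℝ), 1 ≤ u → √u ≤ h →
    h ≤ u → 0 ≤ A → (∀ n : O, u < nm n → (nm n : ℝ) ≤ 2 * u → ‖a n‖ ≤ A) →
    (∀ v : ℝ, u ≤ v → v ≤ 2 * u →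
      ‖∑ n ∈ ball v, a n * (v - nm n) - r * ((v - 1) ^ 2 / 2)‖ ≤ R) →
      ‖∑ n ∈ ball u, a n - r * u‖ ≤ 2 * R / h + C * (A + ‖r‖) * h := by
  obtain ⟨C, hC, hcard⟩ := card_ball
  have hc0 : 0 < c0 := by unfold c0; positivity
  refine ⟨c0 + 5 * C + 2, by positivity, ?_⟩
  intro a r R A u h hu hh hhu hA ha hR
  have h1 : 1 ≤ h := (Real.one_le_sqrt.2 hu).trans hh
  have hsub : ball u ⊆ ball (u + h) := fun n hn => mem_ball.2 ((mem_ball.1 hn).trans (by linarith))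
  have c1 : ((ball (u + h) \ ball u).card : ℝ) ≤ (c0 + 5 * C) * h := by
    rw [Finset.card_sdiff_of_subset hsub, Nat.cast_sub (Finset.card_le_card hsub)]
    have a1 := (abs_le.1 (hcard (u + h) (by linarith))).2
    have a2 := (abs_le.1 (hcard u (by linarith))).1
    have a3 : √(u + h) ≤ 2 * h := by
      rw [Real.sqrt_le_left (by linarith)]
      have := Real.sq_sqrt (show 0 ≤ u by linarith)
      have := pow_le_pow_left₀ (Real.sqrt_nonneg u) hh 2
      nlinarith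
    have a4 : C * (1 + √(u + h)) + C * (1 + √u) ≤ C * (5 * h) := by
      rw [← mul_add]
      exact mul_le_mul_of_nonneg_left (by linarith) hC.le
    linarith
  have c2 : ‖∑ n ∈ ball (u + h) \ ball u, a n * (((u + h : ℝ) : ℂ) - nm n)‖ ≤
      (c0 + 5 * C) * h * (A * h) := by
    refine (norm_sum_le_of_le _ (n := fun _ => A * h) fun n hn => ?_).trans ?_
    · obtain ⟨b1, b2⟩ := Finset.mem_sdiff.1 hn
      have b3 := mem_ball.1 b1
      have b4 : u < nm n := not_le.1 fun h => b2 (mem_ball.2 h)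
      rw [norm_mul, ← Complex.ofReal_natCast, ← Complex.ofReal_sub, Complex.norm_real,
        Real.norm_of_nonneg (by linarith)]
      exact mul_le_mul (ha n b4 (by linarith)) (by linarith) (by linarith) hA
    · rw [Finset.sum_const, nsmul_eq_mul]
      exact mul_le_mul_of_nonneg_right c1 (by positivity)
  have c3 := hR (u + h) (by linarith) (by linarith)
  have c4 := hR u le_rfl (by linarith)
  have c5 : ‖r * ((h ^ 2 / 2 - h : ℝ) : ℂ)‖ ≤ ‖r‖ * (2 * h ^ 2) := by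
    rw [norm_mul, Complex.norm_real, Real.norm_eq_abs]
    refine mul_le_mul_of_nonneg_left (abs_le.2 ⟨?_, ?_⟩) (norm_nonneg _) <;> nlinarith
  have e1 : ∑ n ∈ ball u, a n * (((u + h : ℝ) : ℂ) - nm n) =
      ∑ n ∈ ball u, a n * (u - nm n) + h * ∑ n ∈ ball u, a n := by
    rw [Finset.mul_sum, ← Finset.sum_add_distrib]
    refine Finset.sum_congr rfl fun n _ => ?_
    push_cast
    ring
  have e2 : (h : ℂ) * (∑ n ∈ ball u, a n - r * u) =
      (∑ n ∈ ball (u + h), a n * (((u + h : ℝ) : ℂ) - nm n) -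
        r * ((((u + h : ℝ) : ℂ) - 1) ^ 2 / 2)) -
      (∑ n ∈ ball u, a n * (u - nm n) - r * ((u - 1) ^ 2 / 2)) -
      ∑ n ∈ ball (u + h) \ ball u, a n * (((u + h : ℝ) : ℂ) - nm n) +
        r * ((h ^ 2 / 2 - h : ℝ) : ℂ) := by
    rw [← Finset.sum_sdiff hsub, e1]
    push_cast
    ring
  have e3 : h * ‖∑ n ∈ ball u, a n - r * u‖ ≤
      R + R + (c0 + 5 * C) * h * (A * h) + ‖r‖ * (2 * h ^ 2) := by
    rw [← Real.norm_of_nonneg (show 0 ≤ h by linarith), ← Complex.norm_real, ← norm_mul, e2,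
      Complex.norm_real, Real.norm_of_nonneg (show 0 ≤ h by linarith)]
    exact (norm_add_le _ _).trans (add_le_add ((norm_sub_le _ _).trans
      (add_le_add ((norm_sub_le _ _).trans (add_le_add c3 c4)) c2)) c5)
  refine le_of_mul_le_mul_left (e3.trans ?_) (show 0 < h by linarith)
  have e4 : h * (2 * R / h) = 2 * R := by field_simp
  have e5 : 0 ≤ (c0 + 5 * C) * ‖r‖ * h ^ 2 := by positivity
  have e6 : 0 ≤ A * h ^ 2 := by positivity
  rw [mul_add, e4]
  nlinarith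

theorem sharp : ∃ C : ℝ, 0 < C ∧ ∀ (a : O → ℂ) (G : ℂ → ℂ) (r : ℂ) (σ₀ σ M A u h : ℝ), a 0 = 0 →
    (Summable fun n => ‖a n‖ * (nm n : ℝ) ^ (-2 : ℝ)) → σ₀ < σ → 1 / 2 ≤ σ → σ ≤ 1 →
    DifferentiableOn ℂ G {s | σ₀ < s.re} → (∀ s : ℂ, s.re = 2 → DS a s = G s + r / (s - 1)) →
    (∀ s : ℂ, σ ≤ s.re → s.re ≤ 2 → ‖G s‖ ≤ M * √(1 + |s.im|)) → 1 ≤ u → √u ≤ h → h ≤ u →
    0 ≤ A → (∀ n : O, u < nm n → (nm n : ℝ) ≤ 2 * u → ‖a n‖ ≤ A) →
      ‖∑ n ∈ ball u, a n - r * u‖ ≤ C * (M * u ^ (1 + σ) / h + (A + ‖r‖) * h) := by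
  obtain ⟨C₁, hC₁, H₁⟩ := riesz
  obtain ⟨C₂, hC₂, H₂⟩ := sharp_of_riesz
  refine ⟨8 * C₁ + C₂, by positivity, ?_⟩
  intro a G r σ₀ σ M A u h h0 hs h1 h2 h3 hG hD hb hu hh hhu hA ha
  have hu0 : 0 < u := by linarith
  have hh0 : 0 < h := (Real.sqrt_pos.2 hu0).trans_le hh
  have hM : 0 ≤ M := by
    have := (norm_nonneg _).trans (hb σ (by simp) (by simpa using by linarith))
    exact nonneg_of_mul_nonneg_left this (by positivity)
  refine (H₂ a r (C₁ * M * (4 * u ^ (1 + σ))) A u h hu hh hhu hA ha fun v v1 v2 => ?_).trans ?_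
  · refine (H₁ a G r σ₀ σ M v h0 hs h1 h2 h3 hG hD hb (hu.trans v1)).trans ?_
    refine mul_le_mul_of_nonneg_left ?_ (by positivity)
    have a1 : (2 : ℝ) ^ (1 + σ) ≤ 4 := by
      have := Real.rpow_le_rpow_of_exponent_le one_le_two (show 1 + σ ≤ 2 by linarith)
      rw [Real.rpow_two] at this
      linarith
    calc v ^ (1 + σ) ≤ (2 * u) ^ (1 + σ) := Real.rpow_le_rpow (by linarith) v2 (by linarith)
      _ = 2 ^ (1 + σ) * u ^ (1 + σ) := Real.mul_rpow (by norm_num) hu0.le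
      _ ≤ 4 * u ^ (1 + σ) := by gcongr
  · have a1 : 0 ≤ M * u ^ (1 + σ) / h := by positivity
    have a2 : 0 ≤ (A + ‖r‖) * h := by positivity
    have a3 : 2 * (C₁ * M * (4 * u ^ (1 + σ))) / h = 8 * C₁ * (M * u ^ (1 + σ) / h) := by ring
    rw [a3]
    nlinarith [mul_nonneg hC₁.le a2, mul_nonneg hC₂.le a1]

end Vale.Agent.P006.S
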