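import Vale.Agent.P006.SProd
import Vale.Agent.P006.SRiesz

/-!
# Part S: structured sums

`hf_sharp`: `sharp` with `G s = ∏ (1 + (-1) ^ j * (cub k p * N p ^ (-(s + 1/4 - I t))))`, `σ = 3/4 - 1/64000`, `h = u ^ (1 - 1/128000)`,
`A = u ^ (-1/4)`; `prod_bound` with `Q (1 + |im s|)` in place of `Q`.
-/

namespace Vale.Agent.P006.S

open Vale.Agent.P026 Filter
open scoped ComplexConjugate Real

theorem SHS_zero (j : ℕ) (Y₁ Y₂ : ℝ) : hf j Y₁ Y₂ 0 = 0 := by
  rw [hf, ind_of_not (p := Sq 0) fun h => h.1.ne_zero rfl, zero_mul, zero_mul]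

theorem SHS_norm (j : ℕ) (Y₁ Y₂ : ℝ) (n : O) : ‖hf j Y₁ Y₂ n‖ ≤ 1 := by
  rw [hf, norm_mul, norm_mul, norm_pow]
  exact mul_le_one₀ (mul_le_one₀ (norm_ind_le _) (by positivity)
    (pow_le_one₀ (norm_nonneg _) (norm_mu_le n))) (norm_nonneg _) (norm_ind_le _)

theorem SHS_np {n : O} (hn : n ≠ 0) (t : ℝ) :
    np n (-1 / 4 + Complex.I * t) = ((nm n : ℝ) ^ (-1 / 4 : ℝ) : ℝ) * nt n t := by
  rw [mul_comm _ (nt n t), Complex.ofReal_cpow (Nat.cast_nonneg _), Complex.ofReal_natCast,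
    show (((-1 / 4 : ℝ) : ℝ) : ℂ) = -(1 / 4) by push_cast; ring, nt_mul_cpow hn, np]
  congr 1
  ring

theorem SHS_win (a : O → ℂ) (ha : ∀ n, ¬Sq n → a n = 0) (u₁ u₂ : ℝ) :
    ∑ n ∈ qball u₂, a n * win u₁ u₂ n = ∑ n ∈ ball u₂, a n - ∑ n ∈ ball (min u₁ u₂), a n := by
  classical
  have h1 : ball (min u₁ u₂) ⊆ ball u₂ := fun n hn =>
    mem_ball.2 ((mem_ball.1 hn).trans (min_le_right _ _))
  rw [← Finset.sum_sdiff h1, add_sub_cancel_right, qball, Finset.sum_filter_of_ne fun n _ h => by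
    by_contra h'
    exact h (by rw [ha n h', zero_mul])]
  symm
  refine Finset.sum_subset_zero_on_sdiff Finset.sdiff_subset (fun n hn => ?_) fun n hn => ?_
  · rw [Finset.sdiff_sdiff_eq_self h1, mem_ball] at hn
    rw [win, ind_of_not fun h => h.1.not_ge (hn.trans (min_le_left _ _)), mul_zero]
  · rw [Finset.mem_sdiff, mem_ball, mem_ball, le_min_iff, and_iff_left hn.1, not_le] at hn
    rw [win, ind_of hn.symm, mul_one]

theorem SHS_ev (C : ℝ) {ε : ℝ} (hε : 0 < ε) : ∀ᶠ Q : ℝ in atTop, C * Q ^ (ε / 2) ≤ Q ^ ε := by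
  filter_upwards [(tendsto_rpow_atTop (half_pos hε)).eventually_ge_atTop C,
    eventually_gt_atTop 0] with Q h1 h2
  calc C * Q ^ (ε / 2) ≤ Q ^ (ε / 2) * Q ^ (ε / 2) :=
        mul_le_mul_of_nonneg_right h1 (by positivity)
    _ = Q ^ ε := by rw [← Real.rpow_add h2, add_halves]

theorem hf_sharp (h : PSE) {ε : ℝ} (hε : 0 < ε) : ∃ C : ℝ, 0 < C ∧
    ∀ (Q u t : ℝ) (k : O) (j : ℕ) (Y₁ Y₂ : ℝ), 16 ≤ Q → 1 ≤ u → |t| ≤ Q → k ≠ 0 →
      (nm k : ℝ) ≤ Q → ¬Cube k →
        ‖∑ n ∈ ball u, hf j Y₁ Y₂ n * cub k n * np n (-1 / 4 + Complex.I * t)‖ ≤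
          C * Q ^ ε * u ^ (3 / 4 - 1 / 128000 : ℝ) := by
  obtain ⟨C₁, hC₁, h₁⟩ := prod_bound h (lt_min hε one_half_pos)
  obtain ⟨C₂, hC₂, h₂⟩ := sharp
  refine ⟨C₂ * (C₁ + 1), by positivity, fun Q u t k j Y₁ Y₂ hQ hu ht hk hkQ hc => ?_⟩
  have u0 : 0 < u := by linarith
  have hn : ∀ n, n ≠ 0 → ‖hf j Y₁ Y₂ n * cub k n * np n (-1 / 4 + Complex.I * t)‖ ≤
      (nm n : ℝ) ^ (-1 / 4 : ℝ) := fun n hn => by
    rw [SHS_np hn, norm_mul, norm_mul, norm_mul, norm_nt, mul_one, Complex.norm_real,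
      Real.norm_of_nonneg (by positivity)]
    exact mul_le_of_le_one_left (by positivity)
      (mul_le_one₀ (SHS_norm j Y₁ Y₂ n) (norm_nonneg _) (norm_cub_le k n))
  have h3 := h₂ (fun n => hf j Y₁ Y₂ n * cub k n * np n (-1 / 4 + Complex.I * t))
    (fun s => ∏ p ∈ prw Y₁ Y₂,
      (1 + (-1) ^ j * (cub k p * (nm p : ℂ) ^ (-(s + 1 / 4 - Complex.I * t))))) 0 0
    (3 / 4 - 1 / 64000) (C₁ * Q ^ ε) (u ^ (-1 / 4 : ℝ)) u (u ^ (1 - 1 / 128000 : ℝ))
    (by rw [SHS_zero, zero_mul, zero_mul])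
    (Summable.of_nonneg_of_le (fun n => by positivity) (fun n => by
      refine mul_le_of_le_one_left (by positivity) ?_
      rcases eq_or_ne n 0 with rfl | h0
      · simp [SHS_zero]
      · exact (hn n h0).trans (Real.rpow_le_one_of_one_le_of_nonpos (one_le_nm h0) (by norm_num)))
      (summable_rpow one_lt_two))
    (by norm_num) (by norm_num) (by norm_num)
    (Differentiable.differentiableOn (Differentiable.fun_finsetProd fun p hp =>
      (((Differentiable.const_cpow (by fun_prop) (Or.inl (Nat.cast_ne_zero.2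
        (nm_pos (mem_prw.1 hp).1.1.ne_zero).ne'))).const_mul _).const_mul _).const_add 1))
    (fun s _ => by
      rw [zero_div, add_zero, ← (hasSum_hf j Y₁ Y₂
        (f := fun n => cub k n * (nm n : ℂ) ^ (-(s + 1 / 4 - Complex.I * t))) (fun a b ha hb => by
          rw [cub_mul_right ha.ne_zero hb.ne_zero, nm_mul, Nat.cast_mul,
            Complex.natCast_mul_natCast_cpow]
          ring) (by simp [cub_unit_right isUnit_one])).tsum_eq]
      refine tsum_congr fun n => ?_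
      rcases eq_or_ne n 0 with rfl | h0
      · simp only [SHS_zero, zero_mul]
      · simp only [np, mul_assoc]
        rw [← Complex.cpow_add _ _ (Nat.cast_ne_zero.2 (nm_pos h0).ne')]
        congr 3
        ring)
    (fun s hs1 hs2 => by
      have hy := abs_nonneg s.im
      have e1 : (s + 1 / 4 - Complex.I * t).re = s.re + 1 / 4 := by simp
      have e2 : (s + 1 / 4 - Complex.I * t).im = s.im - t := by simp
      refine (h₁ (Q * (1 + |s.im|)) k _ j Y₁ Y₂ (by nlinarith) hk (by nlinarith) hc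
        (by rw [e1]; linarith) (by rw [e1]; linarith) (by
          rw [e2]
          exact (abs_sub _ _).trans (by nlinarith))).trans ?_
      rw [Real.mul_rpow (by linarith) (by linarith), mul_assoc, Real.sqrt_eq_rpow]
      exact mul_le_mul_of_nonneg_left (mul_le_mul
        (Real.rpow_le_rpow_of_exponent_le (by linarith) (min_le_left _ _))
        (Real.rpow_le_rpow_of_exponent_le (by linarith) (min_le_right _ _)) (by positivity)
        (by positivity)) hC₁.le) hu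
    (by rw [Real.sqrt_eq_rpow]; exact Real.rpow_le_rpow_of_exponent_le hu (by norm_num))
    (Real.rpow_le_self_of_one_le hu (by norm_num)) (by positivity)
    (fun n h1 _ => (hn n (by rintro rfl; rw [nm_eq_zero.2 rfl] at h1; norm_num at h1; linarith)).trans
      (Real.rpow_le_rpow_of_nonpos u0 h1.le (by norm_num)))
  rw [zero_mul, sub_zero, norm_zero, add_zero, mul_div_assoc, ← Real.rpow_sub u0,
    ← Real.rpow_add u0, show (1 + (3 / 4 - 1 / 64000) - (1 - 1 / 128000) : ℝ) = 3 / 4 - 1 / 128000 by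
      norm_num, show (-1 / 4 + (1 - 1 / 128000) : ℝ) = 3 / 4 - 1 / 128000 by norm_num] at h3
  refine h3.trans ?_
  have h4 := mul_le_mul_of_nonneg_right (Real.one_le_rpow (show 1 ≤ Q by linarith) hε.le)
    (Real.rpow_nonneg u0.le (3 / 4 - 1 / 128000))
  rw [mul_assoc C₂, mul_assoc C₂]
  exact mul_le_mul_of_nonneg_left (by linarith) hC₂.le

theorem hs_of (h : PSE) : HSStmt := by
  refine ⟨1 / 128000, by norm_num, fun ε hε => ?_⟩
  obtain ⟨C₁, hC₁, h₁⟩ := hf_sharp h (half_pos hε)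
  obtain ⟨C₂, hC₂, h₂⟩ := abel_lam
  obtain ⟨C₃, hC₃, h₃⟩ := h
  filter_upwards [SHS_ev (2 * C₁) hε, SHS_ev (C₂ * C₃ / (ε / 2)) hε, eventually_ge_atTop 16]
    with Q e1 e2 hQ u₁ u₂ t k hu _ ht hk hkQ hc
  have p0 : 0 ≤ u₂ ^ (3 / 4 - 1 / 128000 : ℝ) := by positivity
  refine ⟨fun j Y₁ Y₂ => ?_, ?_⟩
  · have h4 := SHS_win (fun n => hf j Y₁ Y₂ n * cub k n * np n (-1 / 4 + Complex.I * t))
      (fun n hn => by simp only [hf, ind_of_not hn, zero_mul]) u₁ u₂
    rw [Finset.sum_congr rfl fun n _ => by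
      rw [mul_assoc (hf j Y₁ Y₂ n * _), mul_right_comm, ← mul_assoc], h4]
    have h5 := h₁ Q u₂ t k j Y₁ Y₂ hQ hu ht hk hkQ hc
    have h6 : ‖∑ n ∈ ball (min u₁ u₂), hf j Y₁ Y₂ n * cub k n * np n (-1 / 4 + Complex.I * t)‖ ≤
        C₁ * Q ^ (ε / 2) * u₂ ^ (3 / 4 - 1 / 128000 : ℝ) := by
      rcases le_or_gt 1 (min u₁ u₂) with h7 | h7
      · exact (h₁ Q _ t k j Y₁ Y₂ hQ h7 ht hk hkQ hc).trans (mul_le_mul_of_nonneg_left
          (Real.rpow_le_rpow (by linarith) (min_le_right _ _) (by norm_num)) (by positivity))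
      · rw [Finset.sum_eq_zero fun n hn => ?_, norm_zero]
        · positivity
        · rcases eq_or_ne n 0 with rfl | h0
          · rw [SHS_zero, zero_mul, zero_mul]
          · exact absurd ((one_le_nm h0).trans (mem_ball.1 hn)) h7.not_ge
    have h7 := mul_le_mul_of_nonneg_right e1 p0
    exact (norm_sub_le _ _).trans (by linarith)
  · have h4 := h₂ (fun n => cub k n * nt n t) (C₃ * Real.log Q) u₁ u₂ (fun u hu => by
      have h5 := h₃ Q u t k (by linarith) hu ht hk hkQ hc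
      simpa only [mul_assoc, mul_right_comm C₃, mul_comm (Real.log Q)] using h5) hu
    rw [Finset.sum_congr rfl fun n hn => by
      rw [SHS_np (mem_qball.1 hn).1.1.ne_zero, mul_comm _ (nt n t), ← mul_assoc,
        mul_assoc _ (cub k n)]]
    refine h4.trans (mul_le_mul (le_trans ?_ e2)
      (Real.rpow_le_rpow_of_exponent_le hu (by norm_num)) (by positivity) (by positivity))
    rw [← mul_assoc, div_mul_eq_mul_div, mul_div_assoc]
    exact mul_le_mul_of_nonneg_left (Real.log_le_rpow_div (by linarith) (half_pos hε))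
      (by positivity)

end Vale.Agent.P006.S
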