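import Vale.Agent.P006.SPS
import Vale.Agent.P006.SHS
import Vale.Agent.P026.QLS
import Vale.Agent.P026.ThB
import Vale.Agent.P026.ThC
import Vale.Agent.P026.VorMain
import Vale.Agent.P026.RecStep

/-! # Part S: Siegel-Walfisz with a power saving

`SPer`, `SCont` continue `L (s) = DS (ch k) s`; `SMob`, `SZero` give the zero-free half plane; `SZero`, `SConv`, `SL` bound `L' / L`;
`SKer`, `SRiesz` pass to sharp sums; `SVm`, `SPS` treat primes; `SAbel`, `SProd`, `SHS` treat the structured sums. -/

namespace Vale.Agent.P006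

open Vale.Agent.P026

theorem S.pst : PStmt 72 (1 / 10000) :=
  rec_main (vb qls (theta thB)) (fun h => by
    have := congrArg QuadraticAlgebra.re h
    revert this
    decide) dvd_rfl (by norm_num)

theorem ps : PSStmt := by
  obtain ⟨C, hC, h⟩ := S.pse S.pst
  exact ⟨1 / 16000, C, by norm_num, hC, h⟩

theorem pnt : PNTStmt := S.pnt_of S.pst

theorem hs : HSStmt := S.hs_of (S.pse S.pst)

end Vale.Agent.P006
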