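import Vale.Agent.P006.TLocB

/-! # P006 part T: Type II in the narrow range. -/

namespace Vale.Agent.P006

open Vale.Agent.P026 Filter
open scoped ComplexConjugate Real

theorem tn_split (s : Finset O) (B : ℝ) (α β W S S' : O → ℂ) :
    bl s B α β aq W = bl s B α β aq (fun n => W n - S n) + bl s B α β aq S' +
      bl s B α β gq (fun n => S n - S' n) - bl s B α β md (fun n => S n - S' n) := by
  simp only [bl, ← Finset.sum_add_distrib, ← Finset.sum_sub_distrib]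
  refine Finset.sum_congr rfl fun a _ => Finset.sum_congr rfl fun b _ => ?_
  rw [tb_aq_eq]
  ring

theorem tn_rpow {X : ℝ} (hX : 0 < X) (a b c : ℝ) (h : a + b = c) : X ^ a * X ^ b = X ^ c := by
  rw [← Real.rpow_add hX, h]

/-- the error of the sharp cutoff -/
theorem tn_err : ∀ᶠ X : ℝ in atTop, ∀ (B x₁ x₂ : ℝ) (α β : O → ℂ),
    1 ≤ B → B ≤ X ^ (0.34 : ℝ) → X / 2 ≤ x₁ → x₁ ≤ x₂ → x₂ ≤ X → Supp 16 B β →
    Bd (Real.log X ^ 2) α → Bd (Real.log X ^ 2) β →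
      ‖bl (ar (X / B)) B α β aq fun n => win x₁ x₂ n - smc (X ^ (0.175 : ℝ)) x₁ x₂ n‖ ≤
        X ^ (0.83 : ℝ) := by
  obtain ⟨C, hC, h⟩ := tbl_err
  filter_upwards [tas_log (3 * C * (1 + kst)) 5 (show (0 : ℝ) < 0.005 by norm_num), tas_logC 1,
    tas_log 1 1 (show (0 : ℝ) < 0.175 by norm_num), tas_exp_log 1, eventually_ge_atTop 1]
    with X h1 hl h2 h3 hX1 B x₁ x₂ α β hB1 hB2 hx1 hx12 hx2 hβ hα1 hβ1
  have hX : 0 < X := by linarith
  set l := Real.log X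
  rw [one_mul, pow_one] at h2
  have hk := tb_kst_pos
  have hx₁ : 0 < x₁ := (half_pos hX).trans_le hx1
  have hBX : B ≤ X := hB2.trans (by
    simpa using Real.rpow_le_rpow_of_exponent_le hX1 (show (0.34 : ℝ) ≤ 1 by norm_num))
  refine (h X B (X ^ (0.175 : ℝ)) l x₁ x₂ (l ^ 2) (1 + kst) α β aq _ hB1 hBX (by positivity)
    (by linarith) h2 hx₁ (hx12.trans hx2) (hx₁.trans_le hx12) hx2 (by positivity) hβ hα1 hβ1
    (fun n _ => tb_aq n) fun n hn => ?_).trans ?_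
  · refine (tker_win (by positivity) hx₁ hx12 hn).trans ?_
    linarith [tb_Gs_pos (X ^ (0.175 : ℝ)) (nm n / x₁), tb_Gs_pos (X ^ (0.175 : ℝ)) (nm n / x₂)]
  have hp : 1 ≤ X ^ (0.825 : ℝ) := Real.one_le_rpow hX1 (by norm_num)
  have b1 : X * l / X ^ (0.175 : ℝ) = X ^ (0.825 : ℝ) * l := by
    rw [div_eq_iff (by positivity), mul_right_comm, tn_rpow hX _ _ 1 (by norm_num), Real.rpow_one]
  have b2 : √(X * B) ≤ X ^ (0.825 : ℝ) := by
    refine Real.sqrt_le_iff.2 ⟨by positivity, ?_⟩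
    rw [sq, tn_rpow hX _ _ 1.65 (by norm_num), ← tn_rpow hX 1 0.65 _ (by norm_num), Real.rpow_one]
    exact mul_le_mul_of_nonneg_left
      (hB2.trans (Real.rpow_le_rpow_of_exponent_le hX1 (by norm_num))) hX.le
  have b3 : X * Real.exp (-l ^ 2) ≤ 1 := by
    rw [Real.rpow_neg_one] at h3
    exact (mul_le_mul_of_nonneg_left h3 hX.le).trans_eq (mul_inv_cancel₀ hX.ne')
  have b4 : X * l / X ^ (0.175 : ℝ) + √(X * B) + X * Real.exp (-l ^ 2) ≤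
      3 * (X ^ (0.825 : ℝ) * l) := by
    rw [b1]
    nlinarith
  calc _ ≤ C * ((l ^ 2) ^ 2 * (1 + kst) * (3 * (X ^ (0.825 : ℝ) * l))) := by gcongr
    _ = X ^ (0.825 : ℝ) * (3 * C * (1 + kst) * l ^ 5) := by ring
    _ ≤ X ^ (0.825 : ℝ) * X ^ (0.005 : ℝ) := by gcongr
    _ = _ := tn_rpow hX _ _ _ (by norm_num)

/-- the model part of the difference of the two smoothings -/
theorem tn_model : ∀ᶠ X : ℝ in atTop, ∀ (B x₁ x₂ : ℝ) (α β : O → ℂ),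
    1 ≤ B → B ≤ X ^ (0.34 : ℝ) → X / 2 ≤ x₁ → x₁ ≤ x₂ → x₂ ≤ X → Supp 16 B β →
    Bd (Real.log X ^ 2) α → Bd (Real.log X ^ 2) β →
      ‖bl (ar (X / B)) B α β md
        fun n => smc (X ^ (0.175 : ℝ)) x₁ x₂ n - smc (Real.log X ^ 40) x₁ x₂ n‖ ≤
        X ^ (5 / 6 : ℝ) / Real.log X ^ 11 := by
  obtain ⟨C, hC, h⟩ := tbl_err
  filter_upwards [tas_logC (3 * C * kst * (32 : ℝ) ^ (1 / 6 : ℝ)), tas_logC 1,
    tas_log 1 40 (show (0 : ℝ) < 0.175 by norm_num), tas_exp_log 1, eventually_ge_atTop 1]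
    with X h1 hl h2 h3 hX1 B x₁ x₂ α β hB1 hB2 hx1 hx12 hx2 hβ hα1 hβ1
  have hX : 0 < X := by linarith
  set l := Real.log X
  have hl0 : 0 < l := by linarith
  rw [one_mul] at h2
  have hk := tb_kst_pos
  have hx₁ : 0 < x₁ := (half_pos hX).trans_le hx1
  have hBX : B ≤ X := hB2.trans (by
    simpa using Real.rpow_le_rpow_of_exponent_le hX1 (show (0.34 : ℝ) ≤ 1 by norm_num))
  refine (h X B (l ^ 40) l x₁ x₂ (l ^ 2) (kst * (X / 32) ^ (-1 / 6 : ℝ)) α β md _ hB1 hBX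
    (by positivity) hl0.le (le_self_pow₀ hl (by norm_num)) hx₁ (hx12.trans hx2)
    (hx₁.trans_le hx12) hx2 (by positivity) hβ hα1 hβ1 (fun n hn => tb_md (by positivity) hn)
    fun n hn => tloc_K (by positivity) h2 hx₁ hx12 hn).trans ?_
  have b0 : X ^ (0.825 : ℝ) ≤ X * l / l ^ 40 := by
    rw [le_div_iff₀ (by positivity)]
    calc X ^ (0.825 : ℝ) * l ^ 40 ≤ X ^ (0.825 : ℝ) * X ^ (0.175 : ℝ) := by gcongr
      _ = X * 1 := by rw [tn_rpow hX _ _ 1 (by norm_num), Real.rpow_one, mul_one]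
      _ ≤ _ := by gcongr
  have hp : 1 ≤ X ^ (0.825 : ℝ) := Real.one_le_rpow hX1 (by norm_num)
  have b2 : √(X * B) ≤ X ^ (0.825 : ℝ) := by
    refine Real.sqrt_le_iff.2 ⟨by positivity, ?_⟩
    rw [sq, tn_rpow hX _ _ 1.65 (by norm_num), ← tn_rpow hX 1 0.65 _ (by norm_num), Real.rpow_one]
    exact mul_le_mul_of_nonneg_left
      (hB2.trans (Real.rpow_le_rpow_of_exponent_le hX1 (by norm_num))) hX.le
  have b3 : X * Real.exp (-l ^ 2) ≤ 1 := by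
    rw [Real.rpow_neg_one] at h3
    exact (mul_le_mul_of_nonneg_left h3 hX.le).trans_eq (mul_inv_cancel₀ hX.ne')
  have b4 : X * l / l ^ 40 + √(X * B) + X * Real.exp (-l ^ 2) ≤ 3 * (X * l / l ^ 40) := by
    linarith only [b0, hp, b2, b3]
  have b5 : (X / 32) ^ (-1 / 6 : ℝ) * X = (32 : ℝ) ^ (1 / 6 : ℝ) * X ^ (5 / 6 : ℝ) := by
    rw [Real.div_rpow hX.le (by norm_num), show (-1 / 6 : ℝ) = -(1 / 6) by norm_num,
      Real.rpow_neg (show (0 : ℝ) ≤ 32 by norm_num), div_inv_eq_mul,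
      ← tn_rpow hX (-(1 / 6)) 1 (5 / 6) (by norm_num), Real.rpow_one]
    ring
  calc _ ≤ C * ((l ^ 2) ^ 2 * (kst * (X / 32) ^ (-1 / 6 : ℝ)) * (3 * (X * l / l ^ 40))) := by gcongr
    _ = 3 * C * kst * ((X / 32) ^ (-1 / 6 : ℝ) * X) / l ^ 35 := by field_simp
    _ = (3 * C * kst * (32 : ℝ) ^ (1 / 6 : ℝ) / l ^ 24) * (X ^ (5 / 6 : ℝ) / l ^ 11) := by
        rw [b5]
        field_simp
    _ ≤ _ := mul_le_of_le_one_left (by positivity) ((div_le_one (by positivity)).2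
        (h1.trans (le_self_pow₀ hl (by norm_num))))

theorem tn_sqrt {P Q r w : ℝ} (hP : 0 ≤ P) (hQ : 0 ≤ Q) (hr : 0 ≤ r) (hw : 0 < w) :
    √((P * (1 + r ^ 2) + Q) / w) ≤ √(P / w) * (1 + r) + √(Q / w) := by
  refine Real.sqrt_le_iff.2 ⟨by positivity, ?_⟩
  have e : (P * (1 + r ^ 2) + Q) / w = P / w * (1 + r ^ 2) + Q / w := by ring
  have h1 := Real.sq_sqrt (show 0 ≤ P / w by positivity)
  have h2 := Real.sq_sqrt (show 0 ≤ Q / w by positivity)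
  have h3 : 0 ≤ √(P / w) * (1 + r) * √(Q / w) := by positivity
  have h4 : 0 ≤ P / w * r := by positivity
  rw [e, add_sq, mul_pow, h1, h2]
  nlinarith

theorem tn_num {X B l C₁ C₂ C₃ τ w η' Sα' Sα Sβ e : ℝ} (hX : 0 < X) (hB : 0 < B) (hl : 3 ≤ l)
    (hC₁ : 0 < C₁) (hC₂ : 0 < C₂) (hw : 0 < w) (hSα0 : 0 ≤ Sα) (hSβ : 0 ≤ Sβ) (s3 : √Sα' ≤ √Sα)
    (hSα : Sα ≤ C₃ * (l ^ 2) ^ 2 * (X / B)) (b1 : e ≤ X⁻¹)
    (g4 : 2 * C₂ * (1 + kst) * l ^ 15 ≤ X ^ (5 / 6 : ℝ))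
    (g5 : 246 ^ 2 * C₃ / w * l ^ 28 ≤ X ^ η') :
    3 * Real.log (3 * l ^ 40) * (√Sα' * √((C₁ * τ ^ 4 * (X / B) *
      (1 + (B ^ 2 / (X / B)) ^ (1 / 5 : ℝ)) * Sβ +
      X ^ (-η') * (X / B) ^ (2 / 3 : ℝ) * B ^ (5 / 3 : ℝ)) / w)) +
      C₂ * (e * ((l ^ 2) ^ 2 * (1 + kst) * X)) ≤
    (123 * √(C₁ * τ ^ 4 / w) + 1) * Real.log l * √Sα * √Sβ * √(X / B) *
      (1 + (B ^ 3 / X) ^ (1 / 10 : ℝ)) + X ^ (5 / 6 : ℝ) / l ^ 11 := by
  have hl0 : 0 < l := by linarith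
  have hk := tb_kst_pos
  have hA : 0 < X / B := by positivity
  have hAB : X / B * B = X := div_mul_cancel₀ _ hB.ne'
  have hr : (B ^ 2 / (X / B)) ^ (1 / 5 : ℝ) = ((B ^ 3 / X) ^ (1 / 10 : ℝ)) ^ 2 := by
    rw [sq ((B ^ 3 / X) ^ (1 / 10 : ℝ)), tn_rpow (by positivity) _ _ (1 / 5) (by norm_num)]
    congr 1
    field_simp
  have hr0 : 0 ≤ (B ^ 3 / X) ^ (1 / 10 : ℝ) := by positivity
  rw [hr]
  generalize (B ^ 3 / X) ^ (1 / 10 : ℝ) = r at hr0 ⊢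
  set Q := X ^ (-η') * (X / B) ^ (2 / 3 : ℝ) * B ^ (5 / 3 : ℝ) with hQ
  have s1 : √((C₁ * τ ^ 4 * (X / B) * (1 + r ^ 2) * Sβ + Q) / w) ≤
      √(C₁ * τ ^ 4 / w) * √Sβ * √(X / B) * (1 + r) + √(Q / w) := by
    rw [show C₁ * τ ^ 4 * (X / B) * (1 + r ^ 2) * Sβ =
      C₁ * τ ^ 4 * Sβ * (X / B) * (1 + r ^ 2) by ring]
    refine (tn_sqrt (by positivity) (by positivity) hr0 hw).trans (le_of_eq ?_)
    rw [← Real.sqrt_mul (by positivity), ← Real.sqrt_mul (by positivity)]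
    congr 3
    ring
  have hll : 1 ≤ Real.log l := by
    rw [Real.le_log_iff_exp_le hl0]
    linarith only [Real.exp_one_lt_d9, hl]
  have s2 : 3 * Real.log (3 * l ^ 40) ≤ 123 * Real.log l := by
    rw [Real.log_mul (by norm_num) (by positivity), Real.log_pow]
    have := Real.log_le_log (by norm_num) hl
    push_cast
    linarith only [this]
  have hp : 0 < X ^ (5 / 6 : ℝ) := Real.rpow_pos_of_pos hX _
  have s4 : √Sα * √(Q / w) ≤ X ^ (5 / 6 : ℝ) / (246 * l ^ 12) := by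
    rw [← Real.sqrt_mul hSα0]
    refine Real.sqrt_le_iff.2 ⟨by positivity, ?_⟩
    refine (mul_le_mul_of_nonneg_right hSα (by positivity)).trans ?_
    have e1 : X / B * ((X / B) ^ (2 / 3 : ℝ) * B ^ (5 / 3 : ℝ)) = (X ^ (5 / 6 : ℝ)) ^ 2 := by
      rw [sq, tn_rpow hX _ _ (5 / 3) (by norm_num), ← mul_assoc]
      nth_rw 1 [← Real.rpow_one (X / B)]
      rw [tn_rpow hA _ _ (5 / 3) (by norm_num), ← Real.mul_rpow hA.le hB.le, hAB]
    have hq : 0 < X ^ η' := Real.rpow_pos_of_pos hX _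
    have e2 : C₃ * (l ^ 2) ^ 2 * (X / B) * (Q / w) =
        (246 ^ 2 * C₃ / w * l ^ 28 / X ^ η') * (X ^ (5 / 6 : ℝ) / (246 * l ^ 12)) ^ 2 := by
      rw [div_pow, ← e1, hQ, Real.rpow_neg hX.le]
      field_simp
    rw [e2]
    exact mul_le_of_le_one_left (by positivity) ((div_le_one hq).2 g5)
  have m2 : C₂ * (e * ((l ^ 2) ^ 2 * (1 + kst) * X)) ≤ X ^ (5 / 6 : ℝ) / (2 * l ^ 11) := by
    calc _ ≤ C₂ * (X⁻¹ * ((l ^ 2) ^ 2 * (1 + kst) * X)) := by gcongr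
      _ = C₂ * (1 + kst) * l ^ 4 := by field_simp
      _ ≤ _ := by
          rw [le_div_iff₀ (by positivity)]
          exact le_trans (le_of_eq (by ring)) g4
  have m1 : 123 * Real.log l * (√Sα * √(Q / w)) ≤ X ^ (5 / 6 : ℝ) / (2 * l ^ 11) := by
    calc _ ≤ 123 * l * (X ^ (5 / 6 : ℝ) / (246 * l ^ 12)) := by
          have := Real.log_le_self hl0.le
          gcongr
      _ = _ := by
          field_simp
          norm_num
  have m0 : 0 ≤ Real.log l * √Sα * √Sβ * √(X / B) * (1 + r) := by positivity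
  have e3 : X ^ (5 / 6 : ℝ) / l ^ 11 = 2 * (X ^ (5 / 6 : ℝ) / (2 * l ^ 11)) := by field_simp
  have m3 := mul_le_mul s2 (mul_le_mul s3 s1 (Real.sqrt_nonneg _) (Real.sqrt_nonneg _))
    (by positivity) (by positivity)
  rw [e3]
  refine (add_le_add m3 m2).trans ?_
  have e4 : 123 * Real.log l * (√Sα * (√(C₁ * τ ^ 4 / w) * √Sβ * √(X / B) * (1 + r) + √(Q / w))) =
      123 * √(C₁ * τ ^ 4 / w) * (Real.log l * √Sα * √Sβ * √(X / B) * (1 + r)) +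
        123 * Real.log l * (√Sα * √(Q / w)) := by ring
  have e5 : (123 * √(C₁ * τ ^ 4 / w) + 1) * Real.log l * √Sα * √Sβ * √(X / B) * (1 + r) =
      123 * √(C₁ * τ ^ 4 / w) * (Real.log l * √Sα * √Sβ * √(X / B) * (1 + r)) +
        Real.log l * √Sα * √Sβ * √(X / B) * (1 + r) := by ring
  rw [e4, e5]
  linarith only [m0, m1]

/-- the smooth part -/
theorem tn_main (hDA : DAStmt) (hNC : NCaStmt) {η : ℝ} (τ : ℝ) (hη : 0 < η) :
    ∃ C : ℝ, 0 < C ∧ ∀ᶠ X : ℝ in atTop, ∀ (B x₁ x₂ : ℝ) (α β : O → ℂ),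
      X ^ (1 / 3 : ℝ) / 100 ≤ B → B ≤ X ^ (0.34 : ℝ) → X / 2 ≤ x₁ → x₁ ≤ x₂ → x₂ ≤ X →
      Supp 16 B β → Bd (Real.log X ^ 2) α → Bd (Real.log X ^ 2) β →
      (∀ b, β b ≠ 0 → tau b ≤ τ) → SW X B η β →
        ‖bl (ar (X / B)) B α β aq (smc (Real.log X ^ 40) x₁ x₂)‖ ≤
          C * Real.log (Real.log X) * √(∑ a ∈ qball (X / B), ‖α a‖ ^ 2) *
          √(∑ b ∈ qball (16 * B), ‖β b‖ ^ 2) * √(X / B) * (1 + (B ^ 3 / X) ^ (1 / 10 : ℝ)) +
          X ^ (5 / 6 : ℝ) / Real.log X ^ 11 := by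
  obtain ⟨ηa, hηa, hNC⟩ := hNC η (1 / 10) hη (by norm_num)
  obtain ⟨η', C₁, hη', hC₁, hDA⟩ := hDA (min ηa (1 / 100)) (by positivity) (min_le_right _ _)
  obtain ⟨C₂, hC₂, h₂⟩ := tbl_sm
  obtain ⟨C₃, hC₃, h₃⟩ := tb_sq_le
  have hw : 0 < Real.exp (-4 ^ 2) := Real.exp_pos _
  set w := Real.exp (-4 ^ 2) with hw_def
  refine ⟨123 * √(C₁ * τ ^ 4 / w) + 1, by positivity, ?_⟩
  filter_upwards [hNC, hDA, tas_logC 3, tas_log 1 2 hηa, tas_log 1 2 hη',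
    tas_log 1 40 (show (0 : ℝ) < 0.175 by norm_num), tas_tail 1,
    tas_pow 100 (show (0.33 : ℝ) < 1 / 3 by norm_num),
    tas_log (2 * C₂ * (1 + kst)) 15 (show (0 : ℝ) < 5 / 6 by norm_num),
    tas_log (246 ^ 2 * C₃ / w) 28 hη', eventually_ge_atTop 1]
    with X hnc hda hl g1 g2 hLT htail g3 g4 g5 hX1 B x₁ x₂ α β hB1 hB2 hx1 hx12 hx2 hβ hα1 hβ1 hτ hSW
  have hX : 0 < X := by linarith
  set l := Real.log X
  rw [one_mul] at g1 g2 hLT
  have hl0 : 0 < l := by linarith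
  have hl1 : 1 ≤ l := by linarith
  have hk := tb_kst_pos
  have hB : 0 < B := lt_of_lt_of_le (by positivity) hB1
  have hA : 0 < X / B := by positivity
  have hAB : X / B * B = X := div_mul_cancel₀ _ hB.ne'
  have hB33 : X ^ (0.33 : ℝ) ≤ B := by linarith only [g3, hB1]
  have hBX : B ≤ X := hB2.trans (by
    simpa using Real.rpow_le_rpow_of_exponent_le hX1 (show (0.34 : ℝ) ≤ 1 by norm_num))
  have hBB : B * B ≤ X ^ (0.68 : ℝ) := by
    rw [← tn_rpow hX 0.34 0.34 _ (by norm_num)]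
    exact mul_le_mul hB2 hB2 hB.le (by positivity)
  have hN : NCH X B (X ^ min ηa (1 / 100) * B ^ 2 / (X / B)) (min ηa (1 / 100)) β := by
    refine tb_NCH hX1 hB.le ?_ (min_le_left _ _) (hnc B β ((Real.rpow_le_rpow_of_exponent_le hX1
      (by norm_num)).trans hB33) hBX hβ (tb_Bd g1 hβ1) hSW)
    rw [div_le_iff₀ hA]
    calc X ^ min ηa (1 / 100) * B ^ 2 ≤ X ^ (1 / 100 : ℝ) * X ^ (0.68 : ℝ) :=
          mul_le_mul (Real.rpow_le_rpow_of_exponent_le hX1 (min_le_right _ _))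
            (by rw [sq]; exact hBB) (by positivity) (by positivity)
      _ = X ^ (0.69 : ℝ) := tn_rpow hX _ _ _ (by norm_num)
      _ ≤ X ^ (0.9 : ℝ) := Real.rpow_le_rpow_of_exponent_le hX1 (by norm_num)
      _ = X ^ (-(1 / 10) : ℝ) * X := by
          rw [← tn_rpow hX (-(1 / 10)) 1 _ (by norm_num), Real.rpow_one]
      _ = _ := by field_simp
  have hBA : B ≤ X / B * X ^ (min ηa (1 / 100) / 40) := by
    refine le_trans ?_ (le_mul_of_one_le_right hA.le (Real.one_le_rpow hX1 (by positivity)))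
    rw [le_div_iff₀ hB]
    exact hBB.trans (by
      simpa using Real.rpow_le_rpow_of_exponent_le hX1 (show (0.68 : ℝ) ≤ 1 by norm_num))
  have he4 : 32 ≤ Real.exp 4 := by
    have e : Real.exp 4 = Real.exp 1 ^ 4 := by rw [← Real.exp_nat_mul]; norm_num
    rw [e]
    exact le_trans (by norm_num) (pow_le_pow_left₀ (by norm_num) Real.exp_one_gt_d9.le 4)
  have key := h₂ (l ^ 40) x₁ x₂ (X ^ (0.179 : ℝ)) B (X / B) (l ^ 2) (1 + kst) w _ (ar (X / B)) α β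
    aq (fun a => Gs 1 (nm a / (X / B))) (one_le_pow₀ hl1) ((half_pos hX).trans_le hx1) hx12
    (by linarith only [hx1, hx2]) (by positivity) hw hB.le hA.le ?_ hα1 hβ1 tb_aq
    fun t ht => hda (X / B) B τ t β (ar (X / B)) hB33 hBA (by linarith only [hAB, hX]) hAB.le hβ
      (tb_Bd g2 hβ1) hτ hN ht
  swap
  · intro a ha
    obtain ⟨a1, a2, a3⟩ := tb_mem_ar.1 ha
    have b0 : (0 : ℝ) < nm a := lt_trans (by positivity) a2
    refine ⟨a1.1.ne_zero, a3, tb_Gs_ge zero_le_one ?_⟩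
    have b1 : Real.log (nm a / (X / B)) ≤ 0 :=
      Real.log_nonpos (by positivity) ((div_le_one hA).2 a3)
    have b2 : -4 ≤ Real.log (nm a / (X / B)) := by
      rw [Real.le_log_iff_exp_le (by positivity), le_div_iff₀ hA, Real.exp_neg,
        inv_mul_le_iff₀ (Real.exp_pos _)]
      nlinarith only [a2, he4, b0]
    rw [abs_of_nonpos b1]
    linarith only [b2]
  have s3 : √(∑ a ∈ ar (X / B), ‖α a‖ ^ 2) ≤ √(∑ a ∈ qball (X / B), ‖α a‖ ^ 2) :=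
    Real.sqrt_le_sqrt (Finset.sum_le_sum_of_subset_of_nonneg (fun a ha =>
      tb_mem_qball.2 ⟨(tb_mem_ar.1 ha).1, (tb_mem_ar.1 ha).2.2⟩) fun _ _ _ => by positivity)
  have b1 := htail (l ^ 40) (by positivity) hLT
  rw [Real.rpow_neg_one] at b1
  rw [hAB] at key
  exact key.trans (tn_num hX hB hl hC₁ hC₂ hw (Finset.sum_nonneg fun _ _ => by positivity)
    (Finset.sum_nonneg fun _ _ => by positivity) s3 (h₃ _ _ _ α hA.le
    (fun a ha => ⟨(tb_mem_qball.1 ha).1.1.ne_zero, (tb_mem_qball.1 ha).2⟩) hα1) b1 g4 g5)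

theorem t2n (hDA : DAStmt) (hDB : DBStmt) (hNC : NCaStmt) : T2NStmt := by
  intro η τ hη
  obtain ⟨C, hC, hmain⟩ := tn_main hDA hNC τ hη
  refine ⟨C, hC, ?_⟩
  filter_upwards [hmain, tn_err, tn_model, tloc hDB hNC τ hη, tas_logC 4,
    tas_log 1 11 (show (0 : ℝ) < 1 / 300 by norm_num),
    tas_pow 100 (show (0 : ℝ) < 1 / 3 by norm_num), eventually_gt_atTop 0]
    with X h1 h2 h3 h4 hl g1 g2 hX B x₁ x₂ α β hB1 hB2 hx1 hx2 hβ hα1 hβ1 hτ hSW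
  set l := Real.log X
  have hl0 : 0 < l := by linarith
  have hll : 0 ≤ Real.log l := Real.log_nonneg (by linarith)
  rw [Real.rpow_zero] at g2
  have hB : 1 ≤ B := by linarith only [g2, hB1]
  have hB0 : 0 < B := by linarith
  rcases lt_or_ge x₂ x₁ with hx | hx12
  · rw [tb_S1_zero hx, norm_zero]
    positivity
  have hSW0 : SW X B η β := by
    have e : (fun b => β b * win B (16 * B) b) = β := by
      funext b
      by_cases h : β b = 0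
      · rw [h, zero_mul]
      · rw [win, ind_of (hβ b h).2, mul_one]
    rw [← e]
    exact hSW _ _
  rw [tb_S1 α hB0 hβ hx1 hx2, tn_split _ _ _ _ _ (smc (X ^ (0.175 : ℝ)) x₁ x₂) (smc (l ^ 40) x₁ x₂)]
  have b1 := h1 B x₁ x₂ α β hB1 hB2 hx1 hx12 hx2 hβ hα1 hβ1 hτ hSW0
  have b2 := h2 B x₁ x₂ α β hB hB2 hx1 hx12 hx2 hβ hα1 hβ1
  have b3 := h3 B x₁ x₂ α β hB hB2 hx1 hx12 hx2 hβ hα1 hβ1
  have b4 := h4 B x₁ x₂ α β hB1 hB2 hx1 hx12 hx2 hβ hα1 hβ1 hτ hSW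
  have b5 : X ^ (0.83 : ℝ) ≤ X ^ (5 / 6 : ℝ) / l ^ 11 := by
    rw [le_div_iff₀ (by positivity), ← tn_rpow hX 0.83 (1 / 300) (5 / 6) (by norm_num)]
    rw [one_mul] at g1
    gcongr
  have b6 : 4 * (X ^ (5 / 6 : ℝ) / l ^ 11) ≤ X ^ (5 / 6 : ℝ) / l ^ 10 := by
    calc _ ≤ l * (X ^ (5 / 6 : ℝ) / l ^ 11) := by gcongr
      _ = _ := by field_simp
  refine (norm_sub_le _ _).trans ((add_le_add norm_add₃_le le_rfl).trans ?_)
  linarith only [b1, b2, b3, b4, b5, b6]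

end Vale.Agent.P006
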