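import Vale.Agent.P006.TP
import Vale.Agent.P006.TN

/-! # P006 part T: final theorems `t2p` (TP.lean), `t2n` (TN.lean), `tiia`, `tiib`, `tiic`.

Plan.  All three: `NC?Stmt`, `tb_NCH`, `T2PStmt`.
* `tiia`: `NCaStmt` at `(η₁, c)` gives `ηa`; `T2PStmt` at `(δ, η₀)`, `η₀ = min ηa (min c (1/100))`, gives `η'`; `η = min η' ηa`.
  `B² ≤ X^{1-2c}` gives `X^η₀ B³/X ≤ B X^{-c}`.
* `tiib`: `NCbStmt` at `(η₀, η₁)` gives `cb, ηb`; `η₂ = min ηb (min (cb/2) (1/100))`, `T2PStmt` at `(1/15, η₂)` gives `η'`;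
  `c = η₂/80`, `η = min (η'/3) ηb`.  `t_supp_cv`, `t_bd_cv`.
* `tiic`: the same with `NCcStmt`, `δ = 0.45 - 1/3`; `win B₂ (2 B₂)` is bounded by `1 ≤ X^η`. -/

namespace Vale.Agent.P006

open Vale.Agent.P026 Filter
open scoped ComplexConjugate Real

theorem t_supp_cv {B₁ B₂ : ℝ} {β₁ β₂ : O → ℂ} (hB₁ : 0 < B₁) (hB₂ : 0 < B₂)
    (h₁ : ∀ b, β₁ b ≠ 0 → B₁ < nm b ∧ (nm b : ℝ) ≤ 4 * B₁)
    (h₂ : ∀ b, β₂ b ≠ 0 → B₂ < nm b ∧ (nm b : ℝ) ≤ 4 * B₂) : Supp 16 (B₁ * B₂) (cv β₁ β₂) := by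
  intro n hn
  have hS : Sq n := by
    by_contra h
    exact hn (by rw [cv, ind_of_not h, zero_mul])
  have hs : ∑ d ∈ pdiv n, β₁ d * β₂ (n / d) ≠ 0 := fun h => hn (by rw [cv, h, mul_zero])
  obtain ⟨d, hd, hd0⟩ := Finset.exists_ne_zero_of_sum_ne_zero hs
  obtain ⟨hdp, hdn⟩ := (mem_pdiv hS.1.ne_zero).1 hd
  obtain ⟨a1, a2⟩ := h₁ d (left_ne_zero_of_mul hd0)
  obtain ⟨b1, b2⟩ := h₂ (n / d) (right_ne_zero_of_mul hd0)
  have e : (nm n : ℝ) = nm d * nm (n / d) := by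
    conv_lhs => rw [← EuclideanDomain.mul_div_cancel' hdp.ne_zero hdn]
    rw [nm_mul]
    push_cast
    rfl
  refine ⟨hS, ?_, ?_⟩
  · rw [e]
    exact mul_lt_mul'' a1 b1 hB₁.le hB₂.le
  · rw [e]
    calc (nm d : ℝ) * nm (n / d) ≤ (4 * B₁) * (4 * B₂) :=
          mul_le_mul a2 b2 (Nat.cast_nonneg _) (by positivity)
      _ = 16 * (B₁ * B₂) := by ring

theorem t_bd_cv {η : ℝ} (hη : 0 < η) : ∀ᶠ X : ℝ in atTop, ∀ (B : ℝ) (β₁ β₂ : O → ℂ), B ≤ X →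
    Supp 16 B (cv β₁ β₂) → Bd (X ^ η) β₁ → Bd (X ^ η) β₂ → Bd (X ^ (3 * η)) (cv β₁ β₂) := by
  obtain ⟨C, hC, hτ⟩ := card_pdiv_le (η / 2) (by positivity)
  filter_upwards [tas_pow (C * 16 ^ (η / 2)) (show η / 2 < η by linarith),
    eventually_ge_atTop (1 : ℝ)] with X hX hX1 B β₁ β₂ hB hS h₁ h₂ n
  have hX0 : 0 < X := by linarith
  by_cases hn : cv β₁ β₂ n = 0
  · rw [hn, norm_zero]
    positivity
  obtain ⟨hq, -, hb⟩ := hS n hn
  have a1 : ((pdiv n).card : ℝ) ≤ X ^ η := by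
    refine (hτ n hq.1.ne_zero).trans (le_trans ?_ hX)
    rw [mul_assoc, ← Real.mul_rpow (by norm_num) hX0.le]
    exact mul_le_mul_of_nonneg_left
      (Real.rpow_le_rpow (Nat.cast_nonneg _) (by linarith) (by positivity)) hC.le
  have a2 : ‖∑ d ∈ pdiv n, β₁ d * β₂ (n / d)‖ ≤ (pdiv n).card * (X ^ η * X ^ η) := by
    refine (norm_sum_le _ _).trans ?_
    rw [← nsmul_eq_mul]
    refine Finset.sum_le_card_nsmul _ _ _ fun d _ => ?_
    rw [norm_mul]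
    exact mul_le_mul (h₁ d) (h₂ _) (norm_nonneg _) (by positivity)
  rw [cv, ind_of hq, one_mul]
  refine a2.trans ?_
  have e : X ^ (3 * η) = X ^ η * (X ^ η * X ^ η) := by
    rw [← Real.rpow_add hX0, ← Real.rpow_add hX0]
    congr 1
    ring
  rw [e]
  exact mul_le_mul_of_nonneg_right a1 (by positivity)

theorem t_sq {X B a b : ℝ} (hX : 1 ≤ X) (hB : 0 ≤ B) (h : B ≤ X ^ a) (hb : 2 * a ≤ b) :
    B ^ 2 ≤ X ^ b := by
  refine (pow_le_pow_left₀ hB h 2).trans ?_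
  rw [← Real.rpow_mul_natCast (by linarith)]
  exact Real.rpow_le_rpow_of_exponent_le hX (by push_cast; linarith)

theorem t_key {X B a η c : ℝ} (hX : 1 ≤ X) (hB : 0 ≤ B) (h : B ≤ X ^ a)
    (hc : η + 2 * a - 1 ≤ c) : X ^ η * B ^ 3 / X ≤ B * X ^ c := by
  have hX0 : 0 < X := by linarith
  have a1 : B ^ 2 ≤ X ^ (c + 1 - η) := t_sq hX hB h (by linarith)
  have e : X ^ η * X ^ (c + 1 - η) = X ^ c * X := by
    rw [← Real.rpow_add hX0, ← Real.rpow_add_one hX0.ne']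
    congr 1
    ring
  rw [div_le_iff₀ hX0]
  calc X ^ η * B ^ 3 = B * (X ^ η * B ^ 2) := by ring
    _ ≤ B * (X ^ η * X ^ (c + 1 - η)) := by gcongr
    _ = B * X ^ c * X := by rw [e, mul_assoc]

theorem t_le_one {X B a : ℝ} (hX : 1 ≤ X) (h : B ≤ X ^ a) (ha : a ≤ 1) : B ≤ X := by
  refine h.trans ((Real.rpow_le_rpow_of_exponent_le hX ha).trans_eq (Real.rpow_one X))

theorem tiia (hP : T2PStmt) (hNC : NCaStmt) : TIIaStmt := by
  intro δ c η₁ hδ hc hη₁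
  obtain ⟨ηa, ha, hA⟩ := hNC η₁ c hη₁ hc
  have m1 : min ηa (min c (1 / 100)) ≤ ηa := min_le_left _ _
  have m2 : min ηa (min c (1 / 100)) ≤ c := (min_le_right _ _).trans (min_le_left _ _)
  have m3 : min ηa (min c (1 / 100)) ≤ 1 / 100 := (min_le_right _ _).trans (min_le_right _ _)
  have m0 : 0 < min ηa (min c (1 / 100)) := lt_min ha (lt_min hc (by norm_num))
  generalize min ηa (min c (1 / 100)) = η₀ at m0 m1 m2 m3
  obtain ⟨η', h', hT⟩ := hP δ η₀ hδ m0 m3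
  refine ⟨min η' ηa, lt_min h' ha, ?_⟩
  have n1 := min_le_left η' ηa
  have n2 := min_le_right η' ηa
  generalize min η' ηa = η at n1 n2
  filter_upwards [hA, hT, eventually_ge_atTop (1 : ℝ)] with X hA hT hX B x₁ x₂ α β b1 b2 k1 k2
    hS hα hβ hW
  have mono : ∀ {a b : ℝ}, a ≤ b → X ^ a ≤ X ^ b := Real.rpow_le_rpow_of_exponent_le hX
  have hB : 0 ≤ B := le_trans (by positivity) b1
  have c1 := hA B β ((mono (by norm_num; linarith)).trans b1) (t_le_one hX b2 (by linarith)) hS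
    (tb_Bd (mono n2) hβ) hW
  have c2 := tb_NCH hX hB (t_key (η := η₀) hX hB b2 (by linarith)) m1 c1
  exact (hT B x₁ x₂ α β b1 (t_sq hX hB b2 (by linarith)) k1 k2 hS (tb_Bd (mono n1) hα)
    (tb_Bd (mono n1) hβ) c2).trans (mono (by linarith))

theorem tiib (hP : T2PStmt) (hNC : NCbStmt) : TIIbStmt := by
  intro η₀ η₁ hη₀ hη₁
  obtain ⟨cb, ηb, hc, hb, hA⟩ := hNC η₀ η₁ hη₀ hη₁
  have m1 : min ηb (min (cb / 2) (1 / 100)) ≤ ηb := min_le_left _ _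
  have m2 : min ηb (min (cb / 2) (1 / 100)) ≤ cb / 2 := (min_le_right _ _).trans (min_le_left _ _)
  have m3 : min ηb (min (cb / 2) (1 / 100)) ≤ 1 / 100 :=
    (min_le_right _ _).trans (min_le_right _ _)
  have m0 : 0 < min ηb (min (cb / 2) (1 / 100)) := lt_min hb (lt_min (by positivity) (by norm_num))
  generalize min ηb (min (cb / 2) (1 / 100)) = η₂ at m0 m1 m2 m3
  obtain ⟨η', h', hT⟩ := hP (1 / 15) η₂ (by norm_num) m0 m3
  have n0 : 0 < min (η' / 3) ηb := lt_min (by positivity) hb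
  refine ⟨η₂ / 80, min (η' / 3) ηb, by positivity, n0, ?_⟩
  have n1 := min_le_left (η' / 3) ηb
  have n2 := min_le_right (η' / 3) ηb
  generalize min (η' / 3) ηb = η at n0 n1 n2
  filter_upwards [hA, hT, t_bd_cv n0, eventually_ge_atTop (1 : ℝ)] with X hA hT hD hX B₁ B₂ x₁ x₂
    α β₁ β₂ l1 l2 b1 b2 k1 k2 s1 s2 hα h1 h2 hW
  have mono : ∀ {a b : ℝ}, a ≤ b → X ^ a ≤ X ^ b := Real.rpow_le_rpow_of_exponent_le hX
  have hX0 : 0 < X := by linarith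
  have p1 : 0 < B₁ := lt_of_lt_of_le (by positivity) l1
  have p2 : 0 < B₂ := lt_of_lt_of_le (by positivity) l2
  have hB : 0 ≤ B₁ * B₂ := by positivity
  have hS : Supp 16 (B₁ * B₂) (cv β₁ β₂) :=
    t_supp_cv p1 p2 (fun b h => (s1 b h).2) fun b h => (s2 b h).2
  have c1 := hA B₁ B₂ β₁ β₂ l1 l2 b1 (b2.trans (mono (by norm_num; linarith))) s1 s2
    (tb_Bd (mono n2) h1) (tb_Bd (mono n2) h2) hW
  have c2 := tb_NCH hX hB (t_key (η := η₂) hX hB b2 (by linarith)) m1 c1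
  have c3 := hD (B₁ * B₂) β₁ β₂ (t_le_one hX b2 (by linarith)) hS h1 h2
  exact (hT (B₁ * B₂) x₁ x₂ α (cv β₁ β₂) ((mono (by norm_num)).trans b1)
    (t_sq hX hB b2 (by linarith)) k1 k2 hS (tb_Bd (mono (by linarith)) hα)
    (tb_Bd (mono (by linarith)) c3) c2).trans (mono (by linarith))

theorem tiic (hP : T2PStmt) (hNC : NCcStmt) : TIIcStmt := by
  intro η₁ hη₁
  obtain ⟨cb, ηb, hc, hb, hA⟩ := hNC η₁ hη₁
  have m1 : min ηb (min (cb / 2) (1 / 100)) ≤ ηb := min_le_left _ _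
  have m2 : min ηb (min (cb / 2) (1 / 100)) ≤ cb / 2 := (min_le_right _ _).trans (min_le_left _ _)
  have m3 : min ηb (min (cb / 2) (1 / 100)) ≤ 1 / 100 :=
    (min_le_right _ _).trans (min_le_right _ _)
  have m0 : 0 < min ηb (min (cb / 2) (1 / 100)) := lt_min hb (lt_min (by positivity) (by norm_num))
  generalize min ηb (min (cb / 2) (1 / 100)) = η₂ at m0 m1 m2 m3
  obtain ⟨η', h', hT⟩ := hP (0.45 - 1 / 3) η₂ (by norm_num) m0 m3
  have n0 : 0 < min (η' / 3) ηb := lt_min (by positivity) hb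
  refine ⟨η₂ / 80, min (η' / 3) ηb, by positivity, n0, ?_⟩
  have n1 := min_le_left (η' / 3) ηb
  have n2 := min_le_right (η' / 3) ηb
  generalize min (η' / 3) ηb = η at n0 n1 n2
  filter_upwards [hA, hT, t_bd_cv n0, eventually_ge_atTop (1 : ℝ)] with X hA hT hD hX B₁ B₂ x₁ x₂
    α β₁ l1 l2 b1 b2 k1 k2 s1 hα h1 hW
  have mono : ∀ {a b : ℝ}, a ≤ b → X ^ a ≤ X ^ b := Real.rpow_le_rpow_of_exponent_le hX
  have hX0 : 0 < X := by linarith
  have p1 : 0 < B₁ := by linarith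
  have hB' : 0 < B₁ * B₂ := lt_of_lt_of_le (by positivity) b1
  have p2 : 0 < B₂ := (pos_iff_pos_of_mul_pos hB').1 p1
  have hB := hB'.le
  have hS : Supp 16 (B₁ * B₂) (cv β₁ (win B₂ (2 * B₂))) := by
    refine t_supp_cv p1 p2 (fun b h => (s1 b h).2) fun b h => ?_
    have : B₂ < nm b ∧ (nm b : ℝ) ≤ 2 * B₂ := by
      by_contra h'
      exact h (ind_of_not h')
    exact ⟨this.1, by linarith [this.2]⟩
  have h2 : Bd (X ^ η) (win B₂ (2 * B₂)) := fun b =>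
    (tb_win _ _ b).trans (Real.one_le_rpow hX n0.le)
  have c1 := hA B₁ B₂ β₁ l1 l2 b1 (b2.trans (mono (by norm_num; linarith))) s1
    (tb_Bd (mono n2) h1) hW
  have c2 := tb_NCH hX hB (t_key (η := η₂) hX hB b2 (by linarith)) m1 c1
  have c3 := hD (B₁ * B₂) β₁ _ (t_le_one hX b2 (by linarith)) hS h1 h2
  exact (hT (B₁ * B₂) x₁ x₂ α _ ((mono (by norm_num)).trans b1)
    (t_sq hX hB b2 (by linarith)) k1 k2 hS (tb_Bd (mono (by linarith)) hα)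
    (tb_Bd (mono (by linarith)) c3) c2).trans (mono (by linarith))

end Vale.Agent.P006
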