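import Vale.Agent.P006.VDefs

/-! V9: mean square of theta coefficients on multiples of `d`.
Plan. For `ν ∈ s` with `τ ν ≠ 0` choose `ν = u λ^j c e³` (`ThCoef`); put `d₁ = gcd (d, c)` (`exists_prim_gcd`), `d = d₁ d₂`; since `d` is squarefree `d₂ ∣ e`.  So `ν = u λ^j (d₁ c') (d₂ e')³` and
`‖τ ν‖² N ν^(-2/3-ε) ≤ C₀² 3^(-ε j) N c^(-1-ε) N e^(-2) ≤ C₀² 3^(-ε j) (N d)⁻¹ N c'^(-1-ε) N e'^(-2)`.  The map `ν ↦ (d₁, u, j, c', e')` is injective; bound the sum over the image by the product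
`tau d * #(ball 1) * ∑ 3^(-ε j) * ∑ N^(-1-ε) * ∑ N^(-2)` (`Finset.sum_le_sum_of_subset_of_nonneg`, `Finset.sum_product`, `summable_rpow`, `Summable.sum_le_tsum`; cf. `db_decomp`, `dual_bound` in P026/VorDualB). -/

namespace Vale.Agent.P006

open Vale.Agent.P026 Filter
open scoped ComplexConjugate Real

theorem vcoef_num {ε t j a b x y : ℝ} (hε : 0 < ε) (C₀ : ℝ) (ht : 0 ≤ t) (ha : 1 ≤ a) (hb : 1 ≤ b)
    (hx : 1 ≤ x) (hy : 1 ≤ y) (h : t ≤ C₀ * 3 ^ (j / 3) * (a * x) ^ (-1 / 6 : ℝ)) :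
    t ^ 2 * (3 ^ j * (a * x) * (b * y) ^ 3) ^ (-2 / 3 - ε) ≤
      C₀ ^ 2 / (a * b) * ((3 ^ (-ε)) ^ j * (x ^ (-(1 + ε)) * y ^ (-2 : ℝ))) := by
  obtain ⟨a, rfl⟩ : ∃ s, a = Real.exp s := ⟨_, (Real.exp_log (by linarith)).symm⟩
  obtain ⟨b, rfl⟩ : ∃ s, b = Real.exp s := ⟨_, (Real.exp_log (by linarith)).symm⟩
  obtain ⟨x, rfl⟩ : ∃ s, x = Real.exp s := ⟨_, (Real.exp_log (by linarith)).symm⟩
  obtain ⟨y, rfl⟩ : ∃ s, y = Real.exp s := ⟨_, (Real.exp_log (by linarith)).symm⟩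
  obtain ⟨l, hl⟩ : ∃ s, (3 : ℝ) = Real.exp s := ⟨_, (Real.exp_log (by norm_num)).symm⟩
  rw [Real.one_le_exp_iff] at ha hb hx hy
  refine (mul_le_mul_of_nonneg_right (pow_le_pow_left₀ ht h 2) (by positivity)).trans ?_
  have e1 : (3 : ℝ) ^ (j / 3) = Real.exp (l * (j / 3)) := by
    rw [Real.exp_mul, ← hl]
  have e2 : (3 : ℝ) ^ j = Real.exp (l * j) := by
    rw [Real.exp_mul, ← hl]
  have e3 : (3 : ℝ) ^ (-ε) = Real.exp (l * -ε) := by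
    rw [Real.exp_mul, ← hl]
  rw [e1, e2, e3, mul_assoc C₀, mul_pow, mul_assoc, div_eq_mul_inv (C₀ ^ 2), mul_assoc (C₀ ^ 2)]
  refine mul_le_mul_of_nonneg_left ?_ (sq_nonneg _)
  simp only [← Real.exp_add, ← Real.exp_mul, ← Real.exp_nat_mul, ← Real.exp_neg]
  refine Real.exp_le_exp.2 ?_
  push_cast
  nlinarith [mul_nonneg hε.le ha, mul_nonneg hε.le hb, mul_nonneg hε.le hy]

theorem vcoef_dec {ε C₀ : ℝ} (hε : 0 < ε) {τ : O → ℂ} (h : ThCoef C₀ τ) {d : O} (hd : Sq d) (ν : O) :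
    ∃ p : O × O × ℕ × O × O, ν ≠ 0 → τ ν ≠ 0 → d ∣ ν → p.1 ∈ pdiv d ∧ p.2.1 ∈ ball 1 ∧
      ν = p.2.1 * lam ^ p.2.2.1 * (p.1 * p.2.2.2.1) * (d / p.1 * p.2.2.2.2) ^ 3 ∧
      ‖τ ν‖ ^ 2 * (nm ν : ℝ) ^ (-2 / 3 - ε) ≤ C₀ ^ 2 / nm d * ((3 ^ (-ε)) ^ p.2.2.1 *
        ((nm p.2.2.2.1 : ℝ) ^ (-(1 + ε)) * (nm p.2.2.2.2 : ℝ) ^ (-2 : ℝ))) := by
  by_cases h0 : ν ≠ 0 ∧ τ ν ≠ 0 ∧ d ∣ ν
  swap
  · exact ⟨0, fun a b c => absurd ⟨a, b, c⟩ h0⟩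
  obtain ⟨u, j, c, e, hu, hc, -, he, rfl, hb⟩ := h ν h0.1 h0.2.1
  have h1 : IsCoprime d (u * lam ^ j) :=
    (isCoprime_mul_unit_left_right hu _ _).2 (coprime_lam hd.1).symm.pow_right
  have h2 : d ∣ c * e ^ 3 := h1.dvd_of_dvd_mul_left (by rw [← mul_assoc]; exact h0.2.2)
  have h3 : d ∣ c * e := (hd.2.dvd_pow_iff_dvd three_ne_zero).1
    (h2.trans ⟨c ^ 2, by ring⟩)
  obtain ⟨d₁, d₂, h4, h5, h6⟩ := exists_dvd_and_dvd_of_dvd_mul h3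
  obtain ⟨v, d₁, hv, hd₁, rfl⟩ := exists_prim (n := d₁) fun h => hc.not_lam_dvd (h.trans h4)
  obtain ⟨c', rfl⟩ := (dvd_mul_left d₁ v).trans h4
  obtain ⟨e', rfl⟩ := (hv.mul_left_dvd).2 h5
  have h7 : d = d₁ * (v * d₂) := by rw [h6]; ring
  have h8 : d / d₁ = v * d₂ := by rw [h7, mul_div_cancel_left₀ _ hd₁.ne_zero]
  refine ⟨(d₁, u, j, c', e'), fun _ _ _ => ⟨(mem_pdiv hd.1.ne_zero).2 ⟨hd₁, h7 ▸ dvd_mul_right _ _⟩,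
    mem_ball.2 (by rw [isUnit_iff_nm.1 hu, Nat.cast_one]), by rw [h8], ?_⟩⟩
  rw [nm_mul, Nat.cast_mul] at hb
  have h9 := vcoef_num hε C₀ (norm_nonneg _) (one_le_nm hd₁.ne_zero)
    (one_le_nm (left_ne_zero_of_mul he.ne_zero)) (one_le_nm (right_ne_zero_of_mul hc.ne_zero))
    (one_le_nm (right_ne_zero_of_mul he.ne_zero)) hb
  rw [Real.rpow_natCast, Real.rpow_natCast, ← Nat.cast_mul (nm d₁) (nm (v * d₂)), ← nm_mul,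
    ← h7] at h9
  refine le_trans (le_of_eq ?_) h9
  rw [nm_mul, nm_mul, nm_mul, nm_pow, nm_pow, nm_mul d₁, nm_mul _ e', isUnit_iff_nm.1 hu, nm_lam]
  push_cast
  rw [one_mul]

theorem vcoef_fin {C₀ N B P a b c A₁ A₂ A₃ : ℝ} (hN : 0 ≤ N) (hB : 0 ≤ B) (hP : 0 ≤ P) (h1 : 0 ≤ A₁)
    (hb : 0 ≤ b) (hc : 0 ≤ c) (u1 : a ≤ A₁) (u2 : b ≤ A₂) (u3 : c ≤ A₃) :
    C₀ ^ 2 / N * (a * (b * (B * (P * c)))) ≤ (B * (A₁ * (A₂ * A₃)) + 1) * C₀ ^ 2 * (P / N) := by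
  have h2 := hb.trans u2
  calc _ ≤ C₀ ^ 2 / N * (A₁ * (A₂ * (B * (P * A₃)))) := by gcongr
    _ = B * (A₁ * (A₂ * A₃)) * C₀ ^ 2 * (P / N) := by ring
    _ ≤ _ := by
        gcongr
        exact le_add_of_nonneg_right zero_le_one

theorem coef_bound {ε : ℝ} (hε : 0 < ε) : ∃ C : ℝ, 0 < C ∧ ∀ (C₀ : ℝ) (τ : O → ℂ) (d : O)
    (s : Finset O), ThCoef C₀ τ → Sq d → (∀ ν ∈ s, ν ≠ 0 ∧ d ∣ ν) →
      ∑ ν ∈ s, ‖τ ν‖ ^ 2 * (nm ν : ℝ) ^ (-2 / 3 - ε) ≤ C * C₀ ^ 2 * (tau d / nm d) := by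
  classical
  have hr0 : (0 : ℝ) ≤ 3 ^ (-ε) := by positivity
  have hr1 : (3 : ℝ) ^ (-ε) < 1 := Real.rpow_lt_one_of_one_lt_of_neg (by norm_num) (by linarith)
  have s1 := summable_geometric_of_lt_one hr0 hr1
  have s2 := summable_rpow (σ := 1 + ε) (by linarith)
  have s3 := summable_rpow (σ := 2) (by norm_num)
  have t1 : 0 ≤ ∑' j : ℕ, ((3 : ℝ) ^ (-ε)) ^ j := tsum_nonneg fun _ => by positivity
  have t2 : 0 ≤ ∑' n : O, (nm n : ℝ) ^ (-(1 + ε)) := tsum_nonneg fun _ => by positivity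
  have t3 : 0 ≤ ∑' n : O, (nm n : ℝ) ^ (-2 : ℝ) := tsum_nonneg fun _ => by positivity
  refine ⟨(ball 1).card * ((∑' j : ℕ, ((3 : ℝ) ^ (-ε)) ^ j) *
    ((∑' n : O, (nm n : ℝ) ^ (-(1 + ε))) * ∑' n : O, (nm n : ℝ) ^ (-2 : ℝ))) + 1, by positivity,
    fun C₀ τ d s h hd hs => ?_⟩
  choose p hp using vcoef_dec hε h hd
  rw [← Finset.sum_filter_of_ne (p := fun ν => τ ν ≠ 0) fun ν _ h0 h1 => h0 (by simp [h1])]
  set t := s.filter fun ν => τ ν ≠ 0 with ht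
  have hp' := fun ν (hν : ν ∈ t) => hp ν (hs ν (Finset.mem_filter.1 hν).1).1
    (Finset.mem_filter.1 hν).2 (hs ν (Finset.mem_filter.1 hν).1).2
  have hinj : Set.InjOn p t := fun a ha b hb e => by
    rw [(hp' a ha).2.2.1, e, ← (hp' b hb).2.2.1]
  have hsub : t.image p ⊆ pdiv d ×ˢ ball 1 ×ˢ (t.image fun ν => (p ν).2.2.1) ×ˢ
      (t.image fun ν => (p ν).2.2.2.1) ×ˢ (t.image fun ν => (p ν).2.2.2.2) := fun q hq => by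
    obtain ⟨ν, hν, rfl⟩ := Finset.mem_image.1 hq
    simp only [Finset.mem_product]
    exact ⟨(hp' ν hν).1, (hp' ν hν).2.1, Finset.mem_image_of_mem _ hν,
      Finset.mem_image_of_mem _ hν, Finset.mem_image_of_mem _ hν⟩
  refine (Finset.sum_le_sum fun ν hν => (hp' ν hν).2.2.2).trans ?_
  rw [← Finset.mul_sum, ← Finset.sum_image (f := fun q : O × O × ℕ × O × O =>
    ((3 : ℝ) ^ (-ε)) ^ q.2.2.1 * ((nm q.2.2.2.1 : ℝ) ^ (-(1 + ε)) * (nm q.2.2.2.2 : ℝ) ^ (-2 : ℝ)))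
    hinj]
  refine (mul_le_mul_of_nonneg_left (Finset.sum_le_sum_of_subset_of_nonneg hsub
    fun _ _ _ => by positivity) (by positivity)).trans ?_
  simp only [Finset.sum_product, ← Finset.mul_sum, ← Finset.sum_mul, Finset.sum_const, nsmul_eq_mul]
  have u1 := s1.sum_le_tsum (t.image fun ν => (p ν).2.2.1) fun _ _ => by positivity
  have u2 := s2.sum_le_tsum (t.image fun ν => (p ν).2.2.2.1) fun _ _ => by positivity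
  have u3 := s3.sum_le_tsum (t.image fun ν => (p ν).2.2.2.2) fun _ _ => by positivity
  have v2 : 0 ≤ ∑ n ∈ t.image fun ν => (p ν).2.2.2.1, (nm n : ℝ) ^ (-(1 + ε)) :=
    Finset.sum_nonneg fun _ _ => by positivity
  have v3 : 0 ≤ ∑ n ∈ t.image fun ν => (p ν).2.2.2.2, (nm n : ℝ) ^ (-2 : ℝ) :=
    Finset.sum_nonneg fun _ _ => by positivity
  rw [tau]
  exact vcoef_fin (Nat.cast_nonneg _) (Nat.cast_nonneg _) (Nat.cast_nonneg _) t1 v2 v3 u1 u2 u3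

end Vale.Agent.P006
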