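import Vale.Agent.P006.VDefs
import Vale.Agent.P006.KCv

/-! V8: mean values of Dirichlet polynomials over `O`.
Plans. `lat_gauss`: split `s` by `j = ⌊T log (N n / y)⌋ ∈ ℤ` (`Finset.sum_fiberwise_of_maps_to`); the fibre lies in an annulus `y e^(j/T) ≤ N n < y e^((j+1)/T)` with `≤ C (y e^(|j|+1) / T + √y e^(|j|+1) + 1)` points
(`card_annulus` or `card_ball`; `e^(1/T) - 1 ≤ 2/T`), the weight is `≤ exp (-4 min(j², (j+1)²)) ≤ e^4 exp (-2 |j|)`-like; sum the geometric series over `j` (`∑_{j ∈ ℤ} e^(-|j|) ≤ 3`).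
`gauss_schur`: expand the square; `∫ (1/T) e^(-t²/16T²) e^(i t L) dt = 4 √π e^(-4 T² L²)` (`fourierIntegral_gaussian`/`integral_cexp_quadratic`), `|a a'| ≤ (|a|² + |a'|²)/2`, symmetry,
and `lat_gauss` for `n = ν' / d`, `y = N ν / N d` (`4 T² L² = (2T)² L²`). -/

namespace Vale.Agent.P006

open Vale.Agent.P026 Filter MeasureTheory
open scoped ComplexConjugate Real

theorem vmean_win {v w : ℝ} (hv : 0 ≤ v) (hw : v ≤ w) :
    Real.exp v - Real.exp (-v) ≤ 2 * v * Real.exp w := by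
  have h1 : Real.exp (-v) = Real.exp v * Real.exp (-(2 * v)) := by
    rw [← Real.exp_add]
    ring_nf
  have h2 := mul_le_mul_of_nonneg_left (Real.add_one_le_exp (-(2 * v))) (Real.exp_pos v).le
  have h3 := mul_le_mul_of_nonneg_left (Real.exp_le_exp.2 hw) hv
  linarith

theorem vmean_num (j : ℕ) :
    2 * (j + 1) * Real.exp (j + 1) * Real.exp (-(4 * j ^ 2)) ≤ 6 * (1 / 2 : ℝ) ^ j := by
  have h1 : Real.exp (-1) ≤ 1 / 2 := by
    rw [Real.exp_neg, one_div]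
    exact inv_anti₀ two_pos (by linarith [Real.add_one_le_exp 1])
  have h2 := pow_le_pow_left₀ (Real.exp_pos _).le h1 j
  have h3 : (j : ℝ) ≤ j ^ 2 := by exact_mod_cast Nat.le_self_pow two_ne_zero j
  have h4 : Real.exp j * (Real.exp (j + 1) * Real.exp (-(4 * j ^ 2))) ≤
      Real.exp 1 * Real.exp (-1) ^ j := by
    rw [← Real.exp_add, ← Real.exp_add, ← Real.exp_nat_mul, ← Real.exp_add]
    exact Real.exp_le_exp.2 (by linarith [Nat.cast_nonneg (α := ℝ) j])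
  have h5 := mul_le_mul_of_nonneg_right (Real.add_one_le_exp j)
    (show 0 ≤ Real.exp (j + 1) * Real.exp (-(4 * j ^ 2)) by positivity)
  have h6 := mul_le_mul (show Real.exp 1 ≤ 3 by linarith [Real.exp_one_lt_d9]) h2 (by positivity)
    (by norm_num)
  linarith

theorem vmean_sqrt {T : ℝ} (hT : 0 < T) : 1 / T * √(π / (1 / (16 * T ^ 2))) ≤ 8 := by
  rw [one_div T, inv_mul_le_iff₀ hT, div_div_eq_mul_div, div_one]
  refine Real.sqrt_le_iff.2 ⟨by positivity, ?_⟩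
  nlinarith [Real.pi_le_four, sq_nonneg T]

theorem vmean_w {T : ℝ} (hT : 0 < T) :
    Integrable (fun t : ℝ => 1 / T * Real.exp (-(t ^ 2 / (16 * T ^ 2)))) ∧
      ∫ t : ℝ, 1 / T * Real.exp (-(t ^ 2 / (16 * T ^ 2))) ≤ 8 := by
  have e : ∀ t : ℝ, -(t ^ 2 / (16 * T ^ 2)) = -(1 / (16 * T ^ 2)) * t ^ 2 := fun t => by ring
  simp only [e]
  refine ⟨(integrable_exp_neg_mul_sq (by positivity)).const_mul _, ?_⟩
  rw [integral_const_mul, integral_gaussian]
  exact vmean_sqrt hT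

theorem vmean_ker {T : ℝ} (hT : 0 < T) (L : ℝ) :
    Integrable (fun t : ℝ => ((1 / T * Real.exp (-(t ^ 2 / (16 * T ^ 2))) : ℝ) : ℂ) *
      Complex.exp (Complex.I * L * t)) ∧
    ‖∫ t : ℝ, ((1 / T * Real.exp (-(t ^ 2 / (16 * T ^ 2))) : ℝ) : ℂ) *
      Complex.exp (Complex.I * L * t)‖ ≤ 8 * Real.exp (-(4 * T ^ 2 * L ^ 2)) := by
  refine ⟨(vmean_w hT).1.ofReal.mul_bdd (c := 1) (by fun_prop) (Eventually.of_forall fun t => ?_),
    ?_⟩
  · rw [mul_assoc, ← Complex.ofReal_mul, mul_comm, Complex.norm_exp_ofReal_mul_I]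
  have hb : 0 < 1 / (16 * T ^ 2) := by positivity
  have e : ∀ t : ℝ, ((1 / T * Real.exp (-(t ^ 2 / (16 * T ^ 2))) : ℝ) : ℂ) *
      Complex.exp (Complex.I * L * t) = ((1 / T : ℝ) : ℂ) * (Complex.exp (Complex.I * L * t) *
        Complex.exp (-((1 / (16 * T ^ 2) : ℝ) : ℂ) * t ^ 2)) := by
    intro t
    push_cast
    ring_nf
  have e2 : -(L : ℂ) ^ 2 / (4 * ((1 / (16 * T ^ 2) : ℝ) : ℂ)) = (-(4 * T ^ 2 * L ^ 2) : ℝ) := by
    have : (T : ℂ) ≠ 0 := by exact_mod_cast hT.ne'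
    push_cast
    field_simp
    ring
  have e3 : ‖((π : ℂ) / ((1 / (16 * T ^ 2) : ℝ) : ℂ)) ^ (1 / 2 : ℂ)‖ = √(π / (1 / (16 * T ^ 2))) := by
    rw [← Complex.ofReal_div, Complex.norm_cpow_eq_rpow_re_of_pos (by positivity),
      Real.sqrt_eq_rpow]
    norm_num
  simp only [e]
  rw [integral_const_mul, fourierIntegral_gaussian (by rwa [Complex.ofReal_re]), norm_mul, norm_mul,
    e2, e3, Complex.norm_exp_ofReal, Complex.norm_real, Real.norm_of_nonneg (by positivity),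
    ← mul_assoc]
  exact mul_le_mul_of_nonneg_right (vmean_sqrt hT) (Real.exp_pos _).le

theorem lat_gauss : ∃ C : ℝ, 0 < C ∧ ∀ (T y : ℝ) (s : Finset O), 1 ≤ T → 0 < y → (∀ n ∈ s, n ≠ 0) →
    ∑ n ∈ s, Gs (2 * T) (nm n / y) ≤ C * (1 + y / T + √y) := by
  classical
  obtain ⟨C, hC, h⟩ := card_annulus
  refine ⟨12 * C, by positivity, fun T y s hT hy hs => ?_⟩
  have hT0 : 0 < T := by linarith
  have hQ : 0 ≤ 1 + y / T + √y := by positivity
  set φ : O → ℕ := fun n => ⌊T * |Real.log (nm n / y)|⌋₊ with hφ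
  rw [← Finset.sum_fiberwise_of_maps_to (g := φ) (t := Finset.range (s.sup φ + 1))
    fun n hn => Finset.mem_range.2 (Nat.lt_succ_of_le (Finset.le_sup hn))]
  refine (Finset.sum_le_sum (g := fun j => 6 * C * (1 + y / T + √y) * (1 / 2) ^ j)
    fun j _ => ?_).trans ?_
  · have hv : 0 < ((j : ℝ) + 1) / T := by positivity
    have hv1 : ((j : ℝ) + 1) / T ≤ j + 1 := div_le_self (by positivity) hT
    have h1 : ∀ n ∈ s.filter fun n => φ n = j, Gs (2 * T) (nm n / y) ≤ Real.exp (-(4 * j ^ 2)) := by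
      intro n hn
      have h2 : (j : ℝ) ≤ T * |Real.log (nm n / y)| := by
        rw [← (Finset.mem_filter.1 hn).2]
        exact Nat.floor_le (by positivity)
      have h3 := pow_le_pow_left₀ (Nat.cast_nonneg j) h2 2
      rw [mul_pow, sq_abs] at h3
      refine Real.exp_le_exp.2 ?_
      linarith
    have h2 : s.filter (fun n => φ n = j) ⊆ (ball (y * Real.exp (-((j + 1) / T)) +
        (y * Real.exp ((j + 1) / T) - y * Real.exp (-((j + 1) / T))))).filter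
          fun n => y * Real.exp (-((j + 1) / T)) < (nm n : ℝ) := by
      intro n hn
      obtain ⟨hn, hj⟩ := Finset.mem_filter.1 hn
      have h3 : T * |Real.log (nm n / y)| < j + 1 := by
        rw [← hj]
        exact Nat.lt_floor_add_one _
      have h4 : 0 < (nm n : ℝ) / y := div_pos (by linarith [one_le_nm (hs n hn)]) hy
      rw [← lt_div_iff₀' hT0, abs_lt, Real.lt_log_iff_exp_lt h4, Real.log_lt_iff_lt_exp h4,
        lt_div_iff₀' hy, div_lt_iff₀' hy] at h3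
      exact Finset.mem_filter.2 ⟨mem_ball.2 (by linarith [h3.2]), h3.1⟩
    have h3 := vmean_win hv.le hv1
    have h4 : Real.exp (-((j + 1) / T)) ≤ 1 := Real.exp_le_one_iff.2 (by linarith)
    have h5 := (Nat.cast_le.2 (Finset.card_le_card h2)).trans (h _ _ (by positivity) (by
      rw [← mul_sub]
      exact mul_nonneg hy.le (sub_nonneg.2 (Real.exp_le_exp.2 (by linarith)))))
    have h6 : √(y * Real.exp (-((j + 1) / T))) ≤ √y :=
      Real.sqrt_le_sqrt (mul_le_of_le_one_right hy.le h4)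
    have h7 : (1 : ℝ) ≤ 2 * (j + 1) * Real.exp (j + 1) :=
      one_le_mul_of_one_le_of_one_le (by linarith [Nat.cast_nonneg (α := ℝ) j])
        (Real.one_le_exp (by positivity))
    have h8 : y * Real.exp ((j + 1) / T) - y * Real.exp (-((j + 1) / T)) ≤
        2 * (j + 1) * Real.exp (j + 1) * (y / T) := by
      rw [← mul_sub]
      refine (mul_le_mul_of_nonneg_left h3 hy.le).trans (le_of_eq ?_)
      ring
    have h9 := mul_le_mul_of_nonneg_right h7 (show 0 ≤ 1 + √y by positivity)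
    have h10 : ((s.filter fun n => φ n = j).card : ℝ) ≤
        C * (2 * (j + 1) * Real.exp (j + 1) * (1 + y / T + √y)) :=
      h5.trans (mul_le_mul_of_nonneg_left (by linarith) hC.le)
    refine (Finset.sum_le_card_nsmul _ _ _ h1).trans ?_
    rw [nsmul_eq_mul]
    refine (mul_le_mul_of_nonneg_right h10 (Real.exp_pos _).le).trans ?_
    have h11 := mul_le_mul_of_nonneg_left (vmean_num j) (mul_nonneg hC.le hQ)
    linarith
  · rw [← Finset.mul_sum]
    have h1 := mul_le_mul_of_nonneg_left (sum_geometric_two_le (s.sup φ + 1))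
      (show 0 ≤ 6 * C * (1 + y / T + √y) by positivity)
    linarith

theorem gauss_schur : ∃ C : ℝ, 0 < C ∧ ∀ (T : ℝ) (d : O) (s : Finset O) (a : O → ℂ), 1 ≤ T →
    (∀ ν ∈ s, ν ≠ 0 ∧ d ∣ ν) →
    Integrable (fun t : ℝ => 1 / T * Real.exp (-(t ^ 2 / (16 * T ^ 2))) *
      ‖∑ ν ∈ s, a ν * nt ν (-t)‖ ^ 2) ∧
    ∫ t : ℝ, 1 / T * Real.exp (-(t ^ 2 / (16 * T ^ 2))) * ‖∑ ν ∈ s, a ν * nt ν (-t)‖ ^ 2 ≤
      C * ∑ ν ∈ s, ‖a ν‖ ^ 2 * (1 + nm ν / nm d / T + √(nm ν / nm d)) := by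
  classical
  obtain ⟨C, hC, h⟩ := lat_gauss
  refine ⟨8 * C, by positivity, fun T d s a hT hs => ?_⟩
  have hT0 : 0 < T := by linarith
  have e : ∀ t : ℝ, ((1 / T * Real.exp (-(t ^ 2 / (16 * T ^ 2))) *
      ‖∑ ν ∈ s, a ν * nt ν (-t)‖ ^ 2 : ℝ) : ℂ) = ∑ ν ∈ s, ∑ μ ∈ s, a ν * conj (a μ) *
        (((1 / T * Real.exp (-(t ^ 2 / (16 * T ^ 2))) : ℝ) : ℂ) * Complex.exp (Complex.I *
          (Real.log (nm μ) - Real.log (nm ν) : ℝ) * t)) := by
    intro t
    rw [Complex.ofReal_mul, ← Complex.normSq_eq_norm_sq, ← Complex.mul_conj, map_sum,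
      Finset.sum_mul_sum, Finset.mul_sum]
    refine Finset.sum_congr rfl fun ν _ => ?_
    rw [Finset.mul_sum]
    refine Finset.sum_congr rfl fun μ _ => ?_
    have e1 : Complex.exp (Complex.I * (Real.log (nm μ) - Real.log (nm ν) : ℝ) * t) =
        nt ν (-t) * nt μ t := by
      rw [nt, nt, ← Complex.exp_add, Complex.ofReal_sub, Complex.ofReal_neg]
      ring_nf
    rw [map_mul, conj_nt, neg_neg, e1]
    ring
  have hi : ∀ ν μ : O, Integrable fun t : ℝ => a ν * conj (a μ) *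
      (((1 / T * Real.exp (-(t ^ 2 / (16 * T ^ 2))) : ℝ) : ℂ) * Complex.exp (Complex.I *
        (Real.log (nm μ) - Real.log (nm ν) : ℝ) * t)) := fun ν μ =>
    (vmean_ker hT0 _).1.const_mul _
  have hi2 := integrable_finsetSum s fun ν _ => integrable_finsetSum s fun μ _ => hi ν μ
  simp only [← e] at hi2
  refine ⟨hi2.re, (Real.le_norm_self _).trans ?_⟩
  rw [← Complex.norm_real, ← integral_complex_ofReal]
  simp only [e]
  rw [integral_finsetSum _ fun ν _ => integrable_finsetSum s fun μ _ => hi ν μ]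
  simp only [fun ν => integral_finsetSum s fun μ _ => hi ν μ, integral_const_mul]
  set G : O → O → ℝ := fun ν μ =>
    Real.exp (-(4 * T ^ 2 * (Real.log (nm μ) - Real.log (nm ν)) ^ 2)) with hG
  have hsym : ∀ ν μ, G ν μ = G μ ν := fun ν μ => by
    simp only [hG]
    ring_nf
  have h1 : ∀ ν ∈ s, ∑ μ ∈ s, G ν μ ≤ C * (1 + nm ν / nm d / T + √(nm ν / nm d)) := by
    intro ν hν
    choose! q hq using fun μ hμ => (hs μ hμ).2
    have hd : d ≠ 0 := ne_zero_of_dvd_ne_zero (hs ν hν).1 (hs ν hν).2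
    have hd1 := one_le_nm hd
    have hν1 := one_le_nm (hs ν hν).1
    refine le_trans (le_of_eq ?_) (h T (nm ν / nm d) (s.image q) hT (by positivity) fun n hn => ?_)
    · rw [Finset.sum_image fun x hx y hy hxy => by rw [hq x hx, hq y hy, hxy]]
      refine Finset.sum_congr rfl fun μ hμ => ?_
      have hμ1 := one_le_nm (hs μ hμ).1
      have e1 : (nm (q μ) : ℝ) / (nm ν / nm d) = nm μ / nm ν := by
        conv_rhs => rw [hq μ hμ, nm_mul]
        push_cast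
        field_simp
      rw [Gs, e1, Real.log_div (by positivity) (by positivity)]
      simp only [hG]
      ring_nf
    · obtain ⟨μ, hμ, rfl⟩ := Finset.mem_image.1 hn
      exact fun h0 => (hs μ hμ).1 (by rw [hq μ hμ, h0, mul_zero])
  refine (norm_sum_le_of_le _ fun ν _ => norm_sum_le_of_le _
    (n := fun μ => 4 * (‖a ν‖ ^ 2 * G ν μ) + 4 * (‖a μ‖ ^ 2 * G μ ν)) fun μ _ => ?_).trans ?_
  · rw [norm_mul, norm_mul, Complex.norm_conj, hsym μ ν]
    refine (mul_le_mul_of_nonneg_left (vmean_ker hT0 _).2 (by positivity)).trans ?_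
    have h2 := mul_nonneg (sq_nonneg (‖a ν‖ - ‖a μ‖)) (show 0 ≤ G ν μ from (Real.exp_pos _).le)
    change _ * (8 * G ν μ) ≤ _
    linarith
  · simp only [Finset.sum_add_distrib]
    rw [Finset.sum_comm (f := fun ν μ => 4 * (‖a μ‖ ^ 2 * G μ ν)), ← two_mul, Finset.mul_sum,
      Finset.mul_sum]
    refine Finset.sum_le_sum fun ν hν => ?_
    rw [← Finset.mul_sum, ← Finset.mul_sum]
    have h2 := mul_le_mul_of_nonneg_left (h1 ν hν) (sq_nonneg ‖a ν‖)
    linarith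

/-- first-moment form (Cauchy–Schwarz; `∫ (1/T) e^(-t²/16T²) = 4 √π`) -/
theorem gauss_mean : ∃ C : ℝ, 0 < C ∧ ∀ (T : ℝ) (d : O) (s : Finset O) (a : O → ℂ), 1 ≤ T →
    (∀ ν ∈ s, ν ≠ 0 ∧ d ∣ ν) →
    Integrable (fun t : ℝ => 1 / T * Real.exp (-(t ^ 2 / (16 * T ^ 2))) *
      ‖∑ ν ∈ s, a ν * nt ν (-t)‖) ∧
    ∫ t : ℝ, 1 / T * Real.exp (-(t ^ 2 / (16 * T ^ 2))) * ‖∑ ν ∈ s, a ν * nt ν (-t)‖ ≤
      C * √(∑ ν ∈ s, ‖a ν‖ ^ 2 * (1 + nm ν / nm d / T + √(nm ν / nm d))) := by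
  obtain ⟨C, hC, h⟩ := gauss_schur
  refine ⟨C + 4, by positivity, fun T d s a hT hs => ?_⟩
  have hT0 : 0 < T := by linarith
  obtain ⟨h1, h2⟩ := h T d s a hT hs
  obtain ⟨h3, h4⟩ := vmean_w hT0
  have hc : Continuous fun t : ℝ => 1 / T * Real.exp (-(t ^ 2 / (16 * T ^ 2))) *
      ‖∑ ν ∈ s, a ν * nt ν (-t)‖ := by
    unfold nt
    fun_prop
  have key : ∀ l : ℝ, 0 < l → ∀ t : ℝ, 1 / T * Real.exp (-(t ^ 2 / (16 * T ^ 2))) *
      ‖∑ ν ∈ s, a ν * nt ν (-t)‖ ≤ 1 / l * (1 / T * Real.exp (-(t ^ 2 / (16 * T ^ 2))) *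
        ‖∑ ν ∈ s, a ν * nt ν (-t)‖ ^ 2) + l / 2 * (1 / T * Real.exp (-(t ^ 2 / (16 * T ^ 2)))) := by
    intro l hl t
    generalize ‖∑ ν ∈ s, a ν * nt ν (-t)‖ = x
    have h5 : x ≤ 1 / l * x ^ 2 + l / 2 := by
      rw [one_div, inv_mul_eq_div, div_add' _ _ _ hl.ne', le_div_iff₀ hl]
      nlinarith [sq_nonneg (x - l), sq_nonneg x]
    have h6 := mul_le_mul_of_nonneg_left h5
      (show 0 ≤ 1 / T * Real.exp (-(t ^ 2 / (16 * T ^ 2))) by positivity)
    linarith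
  have h5 : Integrable fun t : ℝ => 1 / T * Real.exp (-(t ^ 2 / (16 * T ^ 2))) *
      ‖∑ ν ∈ s, a ν * nt ν (-t)‖ :=
    ((h1.const_mul (1 / 1)).add (h3.const_mul (1 / 2))).mono' hc.aestronglyMeasurable
      (Eventually.of_forall fun t => by
        rw [Real.norm_of_nonneg (by positivity)]
        exact key 1 one_pos t)
  refine ⟨h5, le_of_forall_pos_le_add fun ε hε => ?_⟩
  generalize ∑ ν ∈ s, ‖a ν‖ ^ 2 * (1 + nm ν / nm d / T + √(nm ν / nm d)) = Q at h2 ⊢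
  have hl : 0 < √Q + ε / 4 := by positivity
  refine (integral_mono h5 ((h1.const_mul _).add (h3.const_mul _)) (key _ hl)).trans ?_
  rw [integral_add' (h1.const_mul _) (h3.const_mul _), integral_const_mul, integral_const_mul]
  have h6 := mul_le_mul_of_nonneg_left h4 (half_pos hl).le
  have h7 : 1 / (√Q + ε / 4) * (C * Q) ≤ C * √Q := by
    rw [one_div, inv_mul_le_iff₀ hl]
    have h8 : Q ≤ √Q ^ 2 := by
      rw [Real.sq_sqrt']
      exact le_max_left _ _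
    have h9 := mul_le_mul_of_nonneg_left h8 hC.le
    have h10 : 0 ≤ ε / 4 * (C * √Q) := by positivity
    linarith
  have h8 := mul_le_mul_of_nonneg_left h2 (one_div_pos.2 hl).le
  linarith

end Vale.Agent.P006
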