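import Vale.Agent.P006.VVor
import Vale.Agent.P006.VMean
import Vale.Agent.P006.VCoef

/-! V10: the dual sum.
Plans. `dual_fin`: `W y = 1 + y / N d / T + √(y / N d)`; split `s` at `N ν ≤ M`.  Small `ν`: `mellinInv_shift` from `2` to `1/2` (`expG_gr`, `holS_gr`, `Dec.mul`, `Dec.refl`, `CT.dec`), `sum_mellinInv`,
`(ξ N)^(-(σ + it)) = ξ^(-(σ+it)) N^(-σ) nt ν (-t)`, `norm_gr_half`, `‖ϕ (1 - w)‖ ≤ (1/T) e^(-t²/8T²)`, `gauss_mean` with `a ν = τ ν N^(1/6 - 1/2)`, `N^(-2/3) W N ≤ N^(-2/3-2ε) M^(2ε) W M`, `coef_bound`.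
Large `ν`: line `2`, `norm_gr_two`, `(5 + |t|)^6 e^(-t²/16T²) ≤ C T^6`, `a ν = τ ν N^(1/6 - 2)`, `N^(-11/3) W N ≤ N^(-2/3-2ε) M^(-3+2ε) W M` (`W y / y` decreases, `ε ≤ 1`), `ξ^(-2) T^6 M^(-3/2) ≤ ξ^(-1/2)`.
`dual_tot`: bound finite partial sums (drop `ν = 0` by `n6_zero`), then `le_of_tendsto'`/`tsum_of_norm_bounded`-type limit (`hs.hasSum`); expand `cr`, swap, `dual_fin` with `d = r / e` (`Sq.div`), `ξ = (kk/Q)² x`, `Q = N r`,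
`M = 1 + T⁴ Q² / (kk² x) ≤ C (x Q T)^4`; `√(N d) √(W M) ≤ √Q + √(M / T) + (M Q)^(1/4)`, `√M ≤ 1 + T² Q / (kk √x)`, `M^(1/4) ≤ 1 + T √Q / (√kk x^(1/4))`, `tau ≤ C Q^ε` (`card_pdiv_le`, `card_pdiv_mono`). -/

namespace Vale.Agent.P006

open Vale.Agent.P026 Filter MeasureTheory
open scoped ComplexConjugate Real

theorem vdual_part {ε : ℝ} (hε : 0 < ε) : ∃ C : ℝ, 0 < C ∧ ∀ (C₀ T ξ σ K B : ℝ) (τ : O → ℂ)
    (d : O) (ϕ : ℂ → ℂ) (s : Finset O), ThCoef C₀ τ → Sq d → 1 ≤ T → 0 < ξ → 1 / 2 ≤ σ → σ ≤ 2 →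
    0 ≤ K → 0 ≤ B → CT T ϕ → (∀ ν ∈ s, ν ≠ 0 ∧ d ∣ ν) →
    (∀ t : ℝ, ‖gr (σ + t * Complex.I)‖ ≤ K * Real.exp (t ^ 2 / (16 * T ^ 2))) →
    (∀ ν ∈ s, (K * ((nm ν : ℝ) ^ (1 / 6 : ℝ) * (ξ * nm ν) ^ (-σ))) ^ 2 *
      (1 + nm ν / nm d / T + √(nm ν / nm d)) ≤ (nm ν : ℝ) ^ (-2 / 3 - ε) * B ^ 2) →
      ‖∑ ν ∈ s, τ ν * n6 ν * vdk ϕ (ξ * nm ν)‖ ≤ C * |C₀| * B * √(tau d / nm d) := by
  obtain ⟨C₁, hC₁, h₁⟩ := gauss_mean
  obtain ⟨C₂, hC₂, h₂⟩ := coef_bound hε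
  refine ⟨C₁ * √C₂, by positivity,
    fun C₀ T ξ σ K B τ d ϕ s hτ hd hT hξ h1 h2 hK hB hϕ hs hg hb => ?_⟩
  have hp : ∀ ν ∈ s, (0 : ℝ) < nm ν := fun ν h => by exact_mod_cast nm_pos (hs ν h).1
  have d1 : Dec (1 / 2) 2 fun w => gr w * ϕ (1 - w) :=
    Dec.mul expG_gr (((hϕ.dec (by linarith)).refl (κ := 1)).mono (by norm_num) (by norm_num))
  have d2 : HolS (1 / 2) 2 fun w => gr w * ϕ (1 - w) := fun w h1 h2 =>
    (holS_gr w h1 h2).mul ((hϕ.1 (1 - w)).comp w (by fun_prop))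
  obtain ⟨i1, i2⟩ := h₁ T d s
    (fun ν => τ ν * (K * ((nm ν : ℝ) ^ (1 / 6 : ℝ) * (ξ * nm ν) ^ (-σ)) : ℝ)) hT hs
  rw [Finset.sum_congr rfl fun ν hν => by
      rw [vdk, mellinInv_shift d1 d2 (by norm_num) le_rfl h1 h2 (mul_pos hξ (hp ν hν))],
    sum_mellinInv s _ _ (fun ν hν => mul_pos hξ (hp ν hν)) (d1.mono h1 h2)
      fun w h3 h4 => d2 w (h1.trans h3) (h4.trans h2), norm_mul]
  refine (mul_le_of_le_one_left (norm_nonneg _) ?_).trans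
    ((norm_integral_le_of_norm_le i1 (Eventually.of_forall fun t => ?_)).trans (i2.trans ?_))
  · rw [Complex.norm_real, Real.norm_of_nonneg (by positivity), div_le_one (by positivity)]
    linarith [Real.pi_gt_three]
  · have e : ∑ ν ∈ s, τ ν * (K * ((nm ν : ℝ) ^ (1 / 6 : ℝ) * (ξ * nm ν) ^ (-σ)) : ℝ) * nt ν (-t) =
        K * Complex.exp (Complex.I * (t * Real.log ξ : ℝ)) *
          ∑ ν ∈ s, τ ν * n6 ν * ((ξ * nm ν : ℝ) : ℂ) ^ (-(σ + t * Complex.I)) := by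
      rw [Finset.mul_sum]
      refine Finset.sum_congr rfl fun ν hν => ?_
      have h0 := mul_pos hξ (hp ν hν)
      have e1 : ((ξ * nm ν : ℝ) : ℂ) ^ (-(σ : ℂ)) * nt ν (-t) =
          Complex.exp (Complex.I * (t * Real.log ξ : ℝ)) *
            ((ξ * nm ν : ℝ) : ℂ) ^ (-(σ + t * Complex.I)) := by
        rw [vvor_cpow h0, vvor_cpow h0, nt, ← Complex.exp_add, ← Complex.exp_add,
          Real.log_mul hξ.ne' (hp ν hν).ne']
        push_cast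
        congr 1
        ring
      rw [Complex.ofReal_mul, Complex.ofReal_mul, Complex.ofReal_cpow h0.le, Complex.ofReal_neg, n6]
      linear_combination (τ ν * K * ((nm ν : ℝ) ^ (1 / 6 : ℝ) : ℝ)) * e1
    have h5 := hϕ.2 (1 - (σ + t * Complex.I)) (by simp; linarith) (by simp; linarith)
    have h6 : (1 - (σ + t * Complex.I) : ℂ).im ^ 2 = t ^ 2 := by simp
    rw [h6] at h5
    rw [e, norm_mul, norm_mul, norm_mul, norm_mul, Complex.norm_exp_I_mul_ofReal, mul_one,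
      Complex.norm_real, Real.norm_of_nonneg hK, ← mul_assoc]
    refine mul_le_mul_of_nonneg_right ((mul_le_mul (hg t) h5 (norm_nonneg _)
      (by positivity)).trans (le_of_eq ?_)) (norm_nonneg _)
    rw [show -(t ^ 2 / (16 * T ^ 2)) = t ^ 2 / (16 * T ^ 2) + -(t ^ 2 / (8 * T ^ 2)) by ring,
      Real.exp_add]
    ring
  · rw [mul_assoc, mul_assoc, mul_assoc]
    refine mul_le_mul_of_nonneg_left (Real.sqrt_le_iff.2 ⟨by positivity, ?_⟩) hC₁.le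
    have h7 := mul_le_mul_of_nonneg_right (h₂ C₀ τ d s hτ hd hs) (sq_nonneg B)
    rw [mul_pow, mul_pow, mul_pow, Real.sq_sqrt hC₂.le, sq_abs,
      Real.sq_sqrt (div_nonneg (zero_le_one.trans (one_le_tau hd.ne_zero)) (Nat.cast_nonneg _))]
    refine le_trans ?_ (h7.trans (le_of_eq (by ring)))
    rw [Finset.sum_mul]
    refine Finset.sum_le_sum fun ν hν => ?_
    rw [norm_mul, mul_pow, Complex.norm_real, Real.norm_eq_abs, sq_abs, mul_assoc, mul_assoc]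
    exact mul_le_mul_of_nonneg_left (hb ν hν) (sq_nonneg _)

theorem vdual_gr {T : ℝ} (hT : 1 ≤ T) (t : ℝ) :
    (5 + |t|) ^ 6 ≤ (30 * T) ^ 6 * Real.exp (t ^ 2 / (16 * T ^ 2)) := by
  have h0 : 0 < T := by linarith
  obtain ⟨u, rfl⟩ : ∃ u, t = T * u := ⟨t / T, by field_simp⟩
  rw [show (T * u) ^ 2 / (16 * T ^ 2) = (6 : ℕ) * (|u| ^ 2 / 96) by
    rw [sq_abs]; push_cast; field_simp; ring, Real.exp_nat_mul, ← mul_pow, abs_mul, abs_of_pos h0]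
  refine pow_le_pow_left₀ (by positivity) ?_ 6
  have h1 := Real.add_one_le_exp (|u| ^ 2 / 96)
  have h2 : 5 + |u| ≤ 30 * Real.exp (|u| ^ 2 / 96) := by nlinarith [sq_nonneg (|u| - 2)]
  nlinarith

theorem vdual_W {M N D T : ℝ} (hM : 0 < M) (h : M ≤ N) :
    1 + N / D / T + √(N / D) ≤ N / M * (1 + M / D / T + √(M / D)) := by
  obtain ⟨u, rfl⟩ : ∃ u, N = u * M := ⟨N / M, by field_simp⟩
  have hu : 1 ≤ u := by nlinarith
  have h1 : √u ≤ u := Real.sqrt_le_iff.2 ⟨by linarith, by nlinarith⟩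
  have h2 := mul_le_mul_of_nonneg_right h1 (Real.sqrt_nonneg (M / D))
  rw [mul_div_cancel_right₀ _ hM.ne', mul_div_assoc, Real.sqrt_mul (by linarith), mul_div_assoc]
  linarith

theorem vdual_sq {ξ N : ℝ} (hξ : 0 < ξ) (hN : 0 < N) (K σ ε : ℝ) :
    (K * (N ^ (1 / 6 : ℝ) * (ξ * N) ^ (-σ))) ^ 2 =
      N ^ (-2 / 3 - ε) * (ξ⁻¹ * (N ^ ε * (K ^ 2 * (ξ * N) ^ (1 - 2 * σ)))) := by
  simp only [mul_pow, Real.rpow_def_of_pos hN, Real.rpow_def_of_pos (mul_pos hξ hN),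
    ← Real.exp_nat_mul]
  rw [← Real.exp_log (inv_pos.2 hξ), Real.log_inv, Real.log_mul hξ.ne' hN.ne',
    mul_left_comm _ (K ^ 2), mul_left_comm _ (K ^ 2), mul_left_comm _ (K ^ 2)]
  simp only [← Real.exp_add]
  congr 2
  push_cast
  ring

theorem dual_fin {ε : ℝ} (hε : 0 < ε) (hε' : ε ≤ 1) : ∃ C : ℝ, 0 < C ∧ ∀ (C₀ T ξ M : ℝ) (τ : O → ℂ)
    (d : O) (ϕ : ℂ → ℂ) (s : Finset O), ThCoef C₀ τ → Sq d → 1 ≤ T → 0 < ξ → 1 ≤ M → T ^ 4 / ξ ≤ M →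
    CT T ϕ → (∀ ν ∈ s, ν ≠ 0 ∧ d ∣ ν) →
      ‖∑ ν ∈ s, τ ν * n6 ν * vdk ϕ (ξ * nm ν)‖ ≤ C * |C₀| * (√ξ)⁻¹ * M ^ ε * √(tau d / nm d) *
        √(1 + M / nm d / T + √(M / nm d)) := by
  classical
  obtain ⟨C, hC, h⟩ := vdual_part (ε := 2 * ε) (by positivity)
  refine ⟨C * (1 + 30 ^ 6), by positivity, fun C₀ T ξ M τ d ϕ s hτ hd hT hξ hM hTM hϕ hs => ?_⟩
  have hp : ∀ ν ∈ s, (0 : ℝ) < nm ν := fun ν h => by exact_mod_cast nm_pos (hs ν h).1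
  have hT0 : 0 < T := by linarith
  have hM0 : 0 < M := by linarith
  set W := 1 + M / nm d / T + √(M / nm d) with hW
  have hW0 : 0 ≤ W := by positivity
  have hB : ((√ξ)⁻¹ * M ^ ε * √W) ^ 2 = ξ⁻¹ * (M ^ (2 * ε) * W) := by
    rw [mul_pow, mul_pow, inv_pow, Real.sq_sqrt hξ.le, Real.sq_sqrt hW0, mul_comm 2 ε,
      Real.rpow_mul hM0.le, Real.rpow_two, mul_assoc]
  have h1 := h C₀ T ξ (1 / 2) 1 ((√ξ)⁻¹ * M ^ ε * √W) τ d ϕ (s.filter fun ν => (nm ν : ℝ) ≤ M) hτ hd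
    hT hξ le_rfl (by norm_num) zero_le_one (by positivity) hϕ
    (fun ν hν => hs ν (Finset.mem_filter.1 hν).1)
    (fun t => (norm_gr_half t).trans (by rw [one_mul]; exact Real.one_le_exp (by positivity)))
    fun ν hν => by
      obtain ⟨h2, h3⟩ := Finset.mem_filter.1 hν
      have := hp ν h2
      rw [vdual_sq hξ this 1 (1 / 2) (2 * ε), hB, show 1 - 2 * (1 / 2 : ℝ) = 0 by norm_num,
        Real.rpow_zero, one_pow, mul_one, mul_one, mul_assoc, mul_assoc, hW]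
      gcongr
  have h2 := h C₀ T ξ 2 ((30 * T) ^ 6) (30 ^ 6 * ((√ξ)⁻¹ * M ^ ε * √W)) τ d ϕ
    (s.filter fun ν => ¬(nm ν : ℝ) ≤ M) hτ hd hT hξ (by norm_num) le_rfl (by positivity)
    (by positivity) hϕ (fun ν hν => hs ν (Finset.mem_filter.1 hν).1)
    (fun t => (norm_gr_two t).trans (vdual_gr hT t)) fun ν hν => by
      obtain ⟨h2, h3⟩ := Finset.mem_filter.1 hν
      have h0 := hp ν h2
      have h4 := vdual_W (D := nm d) (T := T) hM0 (not_le.1 h3).le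
      have h5 : 1 ≤ (nm ν : ℝ) / M := (one_le_div hM0).2 (not_le.1 h3).le
      have h6 : (nm ν : ℝ) ^ (2 * ε) ≤ M ^ (2 * ε) * (nm ν / M) ^ 2 := by
        rw [← Real.rpow_two]
        refine le_trans (le_of_eq ?_) (mul_le_mul_of_nonneg_left
          (Real.rpow_le_rpow_of_exponent_le h5 (by linarith : 2 * ε ≤ 2)) (by positivity))
        rw [← Real.mul_rpow hM0.le (by positivity), mul_div_cancel₀ _ hM0.ne']
      have h7 : ((30 * T) ^ 6) ^ 2 * (ξ * nm ν) ^ (1 - 2 * 2 : ℝ) ≤ (30 ^ 6) ^ 2 * (M / nm ν) ^ 3 := by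
        rw [show (1 - 2 * 2 : ℝ) = -(3 : ℕ) by norm_num, Real.rpow_neg (by positivity),
          Real.rpow_natCast]
        refine le_trans (le_of_eq ?_) (mul_le_mul_of_nonneg_left (pow_le_pow_left₀
          (by positivity) (div_le_div_of_nonneg_right hTM h0.le) 3) (by positivity))
        field_simp
      rw [vdual_sq hξ h0 _ 2 (2 * ε), mul_pow (30 ^ 6 : ℝ), hB, mul_assoc, mul_assoc,
        mul_left_comm ((30 ^ 6 : ℝ) ^ 2) ξ⁻¹]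
      refine mul_le_mul_of_nonneg_left (mul_le_mul_of_nonneg_left ((mul_le_mul (mul_le_mul h6 h7
        (by positivity) (by positivity)) h4 (by positivity) (by positivity)).trans (le_of_eq ?_))
        (by positivity)) (by positivity)
      rw [← hW]
      field_simp
  rw [← Finset.sum_filter_add_sum_filter_not s fun ν => (nm ν : ℝ) ≤ M]
  exact (norm_add_le _ _).trans ((add_le_add h1 h2).trans (le_of_eq (by ring)))

theorem vdual_num {x Q T K : ℝ} (hx : 1 ≤ x) (hQ : 1 ≤ Q) (hT : 1 ≤ T) (hK : 0 < K) :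
    (√Q)⁻¹ * (K / Q * x) * (√((K / Q) ^ 2 * x))⁻¹ * √(Q + (1 + T ^ 4 / ((K / Q) ^ 2 * x)) / T +
      √((1 + T ^ 4 / ((K / Q) ^ 2 * x)) * Q)) ≤
      (2 + K⁻¹) * (√x + √Q * T ^ (3 / 2 : ℝ) + (x * Q) ^ (1 / 4 : ℝ) * T) := by
  have e1 : (√Q * T ^ (3 / 2 : ℝ)) ^ 2 = Q * T ^ 3 := by
    rw [mul_pow, Real.sq_sqrt (by linarith), ← Real.rpow_mul_natCast (by linarith),
      ← Real.rpow_natCast]
    norm_num
  have e2 : ((x * Q) ^ (1 / 4 : ℝ) * T) ^ 2 = √x * √Q * T ^ 2 := by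
    rw [mul_pow, ← Real.rpow_mul_natCast (by positivity), ← Real.sqrt_mul (by linarith),
      Real.sqrt_eq_rpow]
    norm_num
  have p1 : 0 ≤ √Q * T ^ (3 / 2 : ℝ) := by positivity
  have p2 : 0 ≤ (x * Q) ^ (1 / 4 : ℝ) * T := by positivity
  generalize √Q * T ^ (3 / 2 : ℝ) = b at *
  generalize (x * Q) ^ (1 / 4 : ℝ) * T = c at *
  obtain ⟨y, hy, rfl⟩ : ∃ y, 1 ≤ y ∧ x = y ^ 2 :=
    ⟨√x, Real.one_le_sqrt.2 hx, (Real.sq_sqrt (by linarith)).symm⟩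
  obtain ⟨q, hq, rfl⟩ : ∃ q, 1 ≤ q ∧ Q = q ^ 2 :=
    ⟨√Q, Real.one_le_sqrt.2 hQ, (Real.sq_sqrt (by linarith)).symm⟩
  obtain ⟨k, hk, rfl⟩ : ∃ k, 0 < k ∧ K = k⁻¹ := ⟨K⁻¹, by positivity, (inv_inv K).symm⟩
  have hy0 : 0 < y := by linarith
  have hq0 : 0 < q := by linarith
  have hT0 : 0 < T := by linarith
  rw [Real.sqrt_sq hy0.le, Real.sqrt_sq hq0.le] at *
  have e3 : √((1 + T ^ 4 / ((k⁻¹ / q ^ 2) ^ 2 * y ^ 2)) * q ^ 2) ≤ q + k * T ^ 2 * q ^ 3 / y := by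
    refine Real.sqrt_le_iff.2 ⟨by positivity, ?_⟩
    have : (1 + T ^ 4 / ((k⁻¹ / q ^ 2) ^ 2 * y ^ 2)) * q ^ 2 =
        q ^ 2 + (k * T ^ 2 * q ^ 3 / y) ^ 2 := by field_simp
    rw [this]
    have : 0 ≤ q * (k * T ^ 2 * q ^ 3 / y) := by positivity
    nlinarith
  rw [← mul_pow, Real.sqrt_sq (by positivity), inv_inv,
    show q⁻¹ * (k⁻¹ / q ^ 2 * y ^ 2) * (k⁻¹ / q ^ 2 * y)⁻¹ = y / q by field_simp,
    ← le_div_iff₀' (by positivity)]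
  refine Real.sqrt_le_iff.2 ⟨by positivity, ?_⟩
  rw [mul_pow (k⁻¹ / q ^ 2)]
  refine (add_le_add le_rfl e3).trans ?_
  rw [div_pow _ (y / q), le_div_iff₀ (by positivity)]
  have e4 : (q ^ 2 + (1 + T ^ 4 / ((k⁻¹ / q ^ 2) ^ 2 * y ^ 2)) / T + (q + k * T ^ 2 * q ^ 3 / y)) *
      (y / q) ^ 2 = y ^ 2 * (1 + 1 / (T * q ^ 2) + 1 / q) + k ^ 2 * b ^ 2 + k * c ^ 2 := by
    rw [e1, e2]
    field_simp
    ring
  have e5 : 1 / (T * q ^ 2) ≤ 1 := (div_le_one (by positivity)).2 (by nlinarith)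
  have e6 : 1 / q ≤ 1 := (div_le_one hq0).2 hq
  have e7 : y ^ 2 + b ^ 2 + c ^ 2 ≤ (y + b + c) ^ 2 := by nlinarith [mul_nonneg p1 p2]
  have e8 : y ^ 2 * (1 + 1 / (T * q ^ 2) + 1 / q) ≤ y ^ 2 * 3 := by gcongr; linarith
  rw [e4, mul_pow]
  refine le_trans ?_ (mul_le_mul_of_nonneg_left e7 (sq_nonneg _))
  nlinarith [mul_nonneg hk.le (sq_nonneg y), mul_nonneg hk.le (sq_nonneg b), sq_nonneg (k * c),
    sq_nonneg (k * y), sq_nonneg b, sq_nonneg c, sq_nonneg y, mul_nonneg hk.le (sq_nonneg c)]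

theorem dual_tot {ε : ℝ} (hε : 0 < ε) : ∃ C : ℝ, 0 < C ∧ ∀ (C₀ T x : ℝ) (τ : O → ℂ) (r : O)
    (ϕ : ℂ → ℂ), ThCoef C₀ τ → Sq r → 1 ≤ T → 1 ≤ x → CT T ϕ →
    Summable (fun ν => τ ν * cr r ν * n6 ν * vdk ϕ ((kk / nm r) ^ 2 * x * nm ν)) →
      (√(nm r))⁻¹ * (kk / nm r * x) *
          ‖∑' ν, τ ν * cr r ν * n6 ν * vdk ϕ ((kk / nm r) ^ 2 * x * nm ν)‖ ≤
        C * |C₀| * (x * nm r * T) ^ ε *
          (√x + √(nm r) * T ^ (3 / 2 : ℝ) + (x * nm r) ^ (1 / 4 : ℝ) * T) := by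
  classical
  obtain ⟨δ, h0, h1, h2⟩ : ∃ δ : ℝ, 0 < δ ∧ δ ≤ 1 ∧ 6 * δ ≤ ε :=
    ⟨min 1 (ε / 6), by positivity, min_le_left _ _, by linarith [min_le_right 1 (ε / 6)]⟩
  obtain ⟨C₁, hC₁, h₁⟩ := dual_fin h0 h1
  obtain ⟨C₂, hC₂, h₂⟩ := card_pdiv_le δ h0
  have hk := kk_pos
  refine ⟨C₁ * C₂ ^ 2 * (1 + kk⁻¹ ^ 2) * (2 + kk⁻¹), by positivity,
    fun C₀ T x τ r ϕ hτ hr hT hx hϕ hs => ?_⟩
  have hQ := hr.one_le
  have hn := vdual_num hx hQ hT hk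
  have ht : tau r ≤ C₂ * (nm r : ℝ) ^ δ := h₂ r hr.ne_zero
  have ht1 := one_le_tau hr.ne_zero
  have hξ : 0 < (kk / nm r) ^ 2 * x := by positivity
  have hP : 1 ≤ x * nm r * T := one_le_mul_of_one_le_of_one_le (by nlinarith) hT
  have hM : 1 + T ^ 4 / ((kk / nm r) ^ 2 * x) ≤ (1 + kk⁻¹ ^ 2) * (x * nm r * T) ^ 4 := by
    rw [add_mul, one_mul]
    refine add_le_add (one_le_pow₀ hP) ?_
    have : T ^ 4 / ((kk / nm r) ^ 2 * x) * (x ^ 5 * (nm r : ℝ) ^ 2) =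
        kk⁻¹ ^ 2 * (x * nm r * T) ^ 4 := by field_simp
    rw [← this]
    exact le_mul_of_one_le_right (by positivity)
      (one_le_mul_of_one_le_of_one_le (one_le_pow₀ hx) (one_le_pow₀ hQ))
  have hM1 : 1 ≤ 1 + T ^ 4 / ((kk / nm r) ^ 2 * x) := le_add_of_nonneg_right (by positivity)
  have hM2 : T ^ 4 / ((kk / nm r) ^ 2 * x) ≤ 1 + T ^ 4 / ((kk / nm r) ^ 2 * x) := by linarith
  generalize 1 + T ^ 4 / ((kk / nm r) ^ 2 * x) = M at *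
  generalize (kk / nm r) ^ 2 * x = ξ at *
  have key : ∀ s : Finset O, ‖∑ ν ∈ s, τ ν * cr r ν * n6 ν * vdk ϕ (ξ * nm ν)‖ ≤
      tau r * (C₁ * |C₀| * (√ξ)⁻¹ * M ^ δ * (tau r * √(nm r + M / T + √(M * nm r)))) := by
    intro s
    have e : ∑ ν ∈ s, τ ν * cr r ν * n6 ν * vdk ϕ (ξ * nm ν) = ∑ e ∈ pdiv r, mu e * nm (r / e) *
        ∑ ν ∈ s.filter (fun ν => ν ≠ 0 ∧ r / e ∣ ν), τ ν * n6 ν * vdk ϕ (ξ * nm ν) := by
      simp only [cr, Finset.mul_sum, Finset.sum_mul, Finset.sum_filter]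
      rw [Finset.sum_comm]
      refine Finset.sum_congr rfl fun e _ => Finset.sum_congr rfl fun ν _ => ?_
      split_ifs with h
      · rw [ind_of h.2]
        ring
      · by_cases h' : ν = 0
        · rw [h', n6_zero]
          simp
        · rw [ind_of_not fun h'' => h ⟨h', h''⟩]
          simp
    rw [e, tau, ← nsmul_eq_mul]
    refine (norm_sum_le _ _).trans (Finset.sum_le_card_nsmul _ _ _ fun e he => ?_)
    obtain ⟨-, hd, hed⟩ := hr.div he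
    have hdv : r / e ∣ r := Dvd.intro_left _ hed
    have h3 := h₁ C₀ T ξ M τ (r / e) ϕ (s.filter fun ν => ν ≠ 0 ∧ r / e ∣ ν) hτ hd hT hξ hM1 hM2 hϕ
      fun ν hν => (Finset.mem_filter.1 hν).2
    have hD := hd.one_le
    have hDQ : (nm (r / e) : ℝ) ≤ nm r := by exact_mod_cast nm_le_of_dvd hr.ne_zero hdv
    have h4 : tau (r / e) ≤ tau r := Nat.cast_le.2 (card_pdiv_mono hr.ne_zero hdv)
    have h5 := one_le_tau hd.ne_zero
    rw [norm_mul, norm_mul, Complex.norm_natCast]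
    refine (mul_le_mul (mul_le_of_le_one_left (by positivity) (norm_mu_le e)) h3 (norm_nonneg _)
      (by positivity)).trans ?_
    rw [mul_assoc _ (√_), mul_left_comm]
    refine mul_le_mul_of_nonneg_left (abs_le_of_sq_le_sq' ?_ (by positivity)).2 (by positivity)
    generalize (nm (r / e) : ℝ) = D at *
    have h6 : D * √(M / D) = √(M * D) := by
      rw [← Real.sqrt_sq (by linarith : 0 ≤ D), ← Real.sqrt_mul (sq_nonneg D),
        Real.sqrt_sq (by linarith : 0 ≤ D)]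
      congr 1
      field_simp
    rw [mul_pow, mul_pow, mul_pow, Real.sq_sqrt (by positivity), Real.sq_sqrt (by positivity),
      Real.sq_sqrt (by positivity), show D ^ 2 * (tau (r / e) / D * (1 + M / D / T + √(M / D))) =
        tau (r / e) * (D + M / T + D * √(M / D)) by field_simp, h6]
    change _ ≤ tau r ^ 2 * _
    gcongr
    nlinarith
  have h3 := le_of_tendsto' hs.hasSum.norm key
  have h4 : M ^ δ ≤ (1 + kk⁻¹ ^ 2) * (x * nm r * T) ^ (4 * δ) := by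
    refine (Real.rpow_le_rpow (by linarith) hM h0.le).trans ?_
    rw [Real.mul_rpow (by positivity) (by positivity), ← Real.rpow_natCast_mul (by positivity)]
    refine mul_le_mul_of_nonneg_right ?_ (by positivity)
    exact Real.rpow_le_self_of_one_le (le_add_of_nonneg_right (by positivity)) h1
  have h5 : tau r ≤ C₂ * (x * nm r * T) ^ δ := by
    refine ht.trans ?_
    gcongr
    nlinarith [mul_le_mul hx hT zero_le_one (by linarith)]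
  have h6 : (x * nm r * T) ^ δ * (x * nm r * T) ^ δ * (x * nm r * T) ^ (4 * δ) ≤
      (x * nm r * T) ^ ε := by
    rw [← Real.rpow_add (by linarith), ← Real.rpow_add (by linarith)]
    exact Real.rpow_le_rpow_of_exponent_le hP (by linarith)
  calc _ ≤ (√(nm r))⁻¹ * (kk / nm r * x) * (tau r * (C₁ * |C₀| * (√ξ)⁻¹ * M ^ δ *
        (tau r * √(nm r + M / T + √(M * nm r))))) := by gcongr
    _ = C₁ * |C₀| * (tau r * tau r * M ^ δ) * ((√(nm r))⁻¹ * (kk / nm r * x) * (√ξ)⁻¹ *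
        √(nm r + M / T + √(M * nm r))) := by ring
    _ ≤ C₁ * |C₀| * (C₂ * (x * nm r * T) ^ δ * (C₂ * (x * nm r * T) ^ δ) *
        ((1 + kk⁻¹ ^ 2) * (x * nm r * T) ^ (4 * δ))) * ((2 + kk⁻¹) *
          (√x + √(nm r) * T ^ (3 / 2 : ℝ) + (x * nm r) ^ (1 / 4 : ℝ) * T)) := by gcongr
    _ = C₁ * C₂ ^ 2 * (1 + kk⁻¹ ^ 2) * (2 + kk⁻¹) * |C₀| * ((x * nm r * T) ^ δ *
        (x * nm r * T) ^ δ * (x * nm r * T) ^ (4 * δ)) *
          (√x + √(nm r) * T ^ (3 / 2 : ℝ) + (x * nm r) ^ (1 / 4 : ℝ) * T) := by ring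
    _ ≤ _ := by gcongr

end Vale.Agent.P006
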