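import Vale.Agent.P006.VSign
import Vale.Agent.P006.VDual

/-! V: Voronoi summation for the cubic theta function, with the exact main term. -/

namespace Vale.Agent.P006

open Vale.Agent.P026 Filter
open scoped ComplexConjugate Real

theorem v_conj_cr (r ν : O) : conj (cr r ν) = cr r ν := by
  simp only [cr, map_sum, map_mul, conj_mu, map_natCast]
  refine Finset.sum_congr rfl fun e _ => ?_
  by_cases h : r / e ∣ ν
  · simp [ind_of h]
  · simp [ind_of_not h]

theorem v_coef {r : O} (hr : Prim r) (ν : O) :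
    conj (rho (Ps (1 * lam ^ 1) 1) ν * cub ν r) * n6 ν =
      9 * conj (RR lam) * (vth ν * conj (cub r ν)) := by
  rw [rho_Ps isUnit_one]
  by_cases h : Prim ν
  · have hN : (0 : ℝ) < nm ν := by exact_mod_cast nm_pos h.ne_zero
    have h1 : (((nm ν : ℝ) ^ (-1 / 6 : ℝ) : ℝ) : ℂ) * n6 ν = 1 := by
      rw [n6, ← Complex.ofReal_mul, ← Real.rpow_add hN]
      norm_num
    rw [ind_of (show (3 : O) ∣ ν - 1 from h), RR_formula isUnit_one 1 h, cub_recip h hr, vth]
    simp only [one_mul, pow_one, map_mul, Complex.conj_ofReal, mul_one, map_ofNat]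
    linear_combination (9 * conj (RR lam) * conj (cub lam ν) * conj (th0 ν) * conj (cub r ν)) * h1
  · have h2 : vth ν = 0 := by
      by_contra h3
      obtain ⟨c, d, hc, hd, rfl⟩ := vth_ne_zero h3
      exact h (hc.1.mul (hd.pow 3))
    rw [ind_of_not (show ¬(3 : O) ∣ ν - 1 from h), h2]
    simp

theorem v0 : V0Stmt := by
  intro ε hε
  obtain ⟨C₀, hC₀, hco⟩ := thCoef_rho
  obtain ⟨C₁, hC₁, hd⟩ := dual_tot hε
  have hz : (0 : ℝ) < z2 := by linarith [one_le_z2]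
  have hc0 := c0_pos
  obtain ⟨R, hR⟩ : ∃ R : ℝ, R = kst * (c0 / 9) / z2 := ⟨_, rfl⟩
  have hR0 : 0 < R := by have := kst_pos; rw [hR]; positivity
  have hRR : RR lam = R := by rw [hR]; exact RR_lam
  refine ⟨C₁ * C₀ / (9 * R), by positivity, fun r T x ϕ hr hT hx hϕ => ?_⟩
  have hN : (0 : ℝ) < nm r := by linarith [hr.one_le]
  have hx0 : 0 < x := by linarith
  have hsN : 0 < √(nm r : ℝ) := Real.sqrt_pos.2 hN
  have hA : 0 < kk / nm r := div_pos kk_pos hN
  have hid := (vid_twist isUnit_one 1 hr).conj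
  have ha : Grow fun ν => conj (rho (Ps (1 * lam ^ 1) 1) ν * cub ν r) :=
    grow_conj ((hco _ (cls_Ps isUnit_one 1 1)).grow.mul_bdd (M := 1) fun ν => norm_cub_le _ _)
  have hb : Grow fun ν => conj (rho (PsS (1 * lam ^ 1)) ν * cr r ν) :=
    grow_conj ((hco _ (cls_PsS isUnit_one 1)).grow.mul_bdd fun ν => norm_cr_le hr.1 ν)
  have hγ : conj (gt3 r * conj (cub (1 * lam ^ 1) r) / (√(nm r) : ℝ)) =
      conj (gl r) / (√(nm r) : ℝ) := by
    rw [gl_eq hr.1, map_div₀, Complex.conj_ofReal, one_mul, pow_one, mul_comm]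
  have hγn : ‖conj (gl r) / ((√(nm r) : ℝ) : ℂ)‖ = (√(nm r))⁻¹ := by
    rw [norm_div, Complex.norm_conj, norm_gl hr, Complex.norm_real, Real.norm_of_nonneg hsN.le,
      one_div]
  rw [hγ] at hid
  obtain ⟨L, hL⟩ := exists_feq ha hb (by
      rw [rho_Ps isUnit_one, ind_of_not (show ¬(3 : O) ∣ 0 - 1 from fun h => Prim.ne_zero h rfl)]; simp)
    (by rw [← norm_ne_zero_iff, hγn]; positivity) hA hid
  obtain ⟨hs, hv⟩ := vor_id ha hb hA hL ((hϕ.dec (by linarith)).mono (by norm_num) (by norm_num))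
    (hϕ.holS _ _) hx0
  simp only [v_coef hr.1] at hv
  simp only [map_mul, v_conj_cr] at hs hv
  have hb0 := rho_PsS_zero (i := 0) (k := 1) (by norm_num) (by norm_num)
  have hg := gram (i := 0) (k := 1) (by norm_num) (by norm_num)
  rw [pow_zero] at hb0 hg
  rw [one_mul, pow_one, hRR, Complex.norm_real, Real.norm_of_nonneg hR0.le] at hg
  have hbd := hd C₀ T x _ r ϕ (thCoef_conj (hco _ (cls_PsS isUnit_one 1))) hr hT hx hϕ hs
  rw [hb0, cr_zero hr.1, hRR, Complex.conj_ofReal, Complex.conj_ofReal] at hv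
  simp only [mul_assoc (9 * (R : ℂ)), tsum_mul_left] at hv
  have hm : 9 * z0 * EE 0 1 * nm r * (Real.Gamma (1 / 3) / Real.Gamma (2 / 3) *
      (kk / nm r) ^ (2 / 3 : ℝ) * x ^ (5 / 6 : ℝ)) / √(nm r) =
      9 * R * (kst * (c0 / 9) * (nm r : ℝ) ^ (-1 / 6 : ℝ) * x ^ (5 / 6 : ℝ)) := by
    have e1 : (nm r : ℝ) / (nm r : ℝ) ^ (2 / 3 : ℝ) / √(nm r) = (nm r : ℝ) ^ (-1 / 6 : ℝ) := by
      rw [Real.sqrt_eq_rpow, div_div, ← Real.rpow_add hN, div_eq_iff (by positivity),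
        ← Real.rpow_add hN]
      norm_num
    have e2 : kst * (c0 / 9) = R * z2 := by rw [hR]; field_simp
    rw [Real.div_rpow kk_pos.le hN.le, ← e1, e2]
    have h3 : (0 : ℝ) < (nm r : ℝ) ^ (2 / 3 : ℝ) := by positivity
    calc _ = 9 * (z0 * EE 0 1 * (Real.Gamma (1 / 3) / Real.Gamma (2 / 3) * kk ^ (2 / 3 : ℝ))) *
          ((nm r : ℝ) / (nm r : ℝ) ^ (2 / 3 : ℝ) / √(nm r) * x ^ (5 / 6 : ℝ)) := by ring
      _ = _ := by rw [← hg]; ring
  have hm' := congrArg (fun y : ℝ => (y : ℂ)) hm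
  have h9 : (9 * (R : ℂ)) ≠ 0 := mul_ne_zero (by norm_num) (by exact_mod_cast hR0.ne')
  set S := ∑' n : O, vth n * conj (cub r n) * mellinInv 2 ϕ (nm n / x) with hS
  set D := ∑' ν, conj (rho (PsS (1 * lam ^ 1)) ν) * cr r ν * n6 ν *
    vdk ϕ ((kk / nm r) ^ 2 * x * nm ν) with hD
  have key : 9 * (R : ℂ) * (S - conj (gl r) *
      (kst * (c0 / 9) * (nm r : ℝ) ^ (-1 / 6 : ℝ) * x ^ (5 / 6 : ℝ) : ℝ) * phiS r * ϕ (5 / 6)) =
      conj (gl r) / (√(nm r) : ℝ) * (kk / nm r * x : ℝ) * D := by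
    simp only [Complex.ofReal_div, Complex.ofReal_mul, Complex.ofReal_ofNat,
      Complex.ofReal_natCast] at hm' hv ⊢
    linear_combination hv + conj (gl r) * phiS r * ϕ (5 / 6) * hm'
  have key2 := congrArg norm key
  rw [norm_mul, norm_mul, norm_mul, norm_mul, hγn, Complex.norm_real, Complex.norm_real,
    Real.norm_of_nonneg hR0.le, Real.norm_of_nonneg (by positivity), Complex.norm_ofNat] at key2
  rw [abs_of_pos hC₀, ← key2] at hbd
  rw [div_mul_eq_mul_div, div_mul_eq_mul_div, le_div_iff₀ (by positivity)]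
  linarith

end Vale.Agent.P006
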