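import Vale.Agent.P006.KMP
import Vale.Agent.P006.KLC
import Vale.Agent.P006.L
import Vale.Agent.P006.S
import Vale.Agent.P006.V
import Vale.Agent.P006.I
import Vale.Agent.P006.N
import Vale.Agent.P006.D
import Vale.Agent.P006.T
import Vale.Agent.P006.C
import Vale.Agent.P006.F

/-! Patterson's first moment: assembly of all parts. -/

namespace Vale.Agent.P006

theorem patterson : PatStmt := by
  have hda := da mp lc ls2 (tc v0 ls1 lc)
  have hna := nca ls1 ls3 hm jls
  have hP := t2p hda
  exact pat (mainS (ti v0 ls1 lc) (tiia hP hna) (tiib hP (ncb ls1 ls3 hm jls))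
    (tiic hP (ncc ls1 ls3 hm jls mp)) (t2n hda (db mp ls2) hna) hs pnt) pnt

end Vale.Agent.P006
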