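import Vale.Agent.P006.NDefs

/-! N1: basic facts on `ch`, `LL`, `Co`, `MS`.
Plans: `ch_eq`: `cub_recip`, `conj_cub`, `cub_mul_left`, `cub_pow_left`.  `MS_mink`: Minkowski (e.g. `norm_sum_le` in `EuclideanSpace ℂ (prs M m)`, or
induction with Cauchy–Schwarz); `MS_sum_le` from it.  `MS_swap`: `Finset.sum_nbij'` with `Prod.swap`.  `Env.ms3`: `Env.MS_le`, `Env.ls3` and
`m M ≤ K`, `m ^ 3 ≤ K`, `m ^ 3 M ^ 2 ≤ K ^ 2`. -/

namespace Vale.Agent.P006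

open Vale.Agent.P026 Filter
open scoped ComplexConjugate Real

theorem ch_mul (a b x y : O) : ch (a * b) x y = ch a x y * ch b x y := by
  simp only [ch, cub_mul_left, map_mul]
  ring
theorem norm_ch_le (n x y : O) : ‖ch n x y‖ ≤ 1 := by
  rw [ch, norm_mul, Complex.norm_conj]
  exact mul_le_one₀ (norm_cub_le _ _) (norm_nonneg _) (norm_cub_le _ _)
theorem conj_ch (n x y : O) : conj (ch n x y) = ch n y x := by
  rw [ch, ch, map_mul, Complex.conj_conj, mul_comm]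
theorem ch_eq {n x y : O} (hn : Prim n) (hx : Prim x) (hy : Prim y) :
    ch n x y = cub (x * y ^ 2) n := by
  rw [ch, conj_cub, cub_mul_left, cub_pow_left, cub_recip hn hx, cub_recip hn hy]
theorem mem_prs {M m : ℝ} {p : O × O} : p ∈ prs M m ↔
    (Sq p.1 ∧ (nm p.1 : ℝ) ≤ M) ∧ (Sq p.2 ∧ (nm p.2 : ℝ) ≤ m) ∧ IsCoprime p.1 p.2 := by
  classical
  rw [prs, Finset.mem_filter, Finset.mem_product, mem_qball, mem_qball, and_assoc]
theorem mem_prq {Q : O} {M m : ℝ} {p : O × O} :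
    p ∈ prq Q M m ↔ p ∈ prs M m ∧ IsCoprime (p.1 * p.2) Q := by
  classical
  rw [prq, Finset.mem_filter]
theorem Env.card_qball {E R N : ℝ} (h : Env E R) (hN : 1 ≤ N) : ((qball N).card : ℝ) ≤ E * N :=
  le_trans (by exact_mod_cast Finset.card_le_card (qball_subset N)) (h.card N hN)
theorem Env.card_prs {E R M m : ℝ} (h : Env E R) (hM : 1 ≤ M) (hm : 1 ≤ m) :
    ((prs M m).card : ℝ) ≤ E ^ 2 * (M * m) := by
  classical
  have h1 : ((prs M m).card : ℝ) ≤ (qball M).card * (qball m).card := by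
    rw [← Nat.cast_mul, ← Finset.card_product]
    exact_mod_cast Finset.card_filter_le _ _
  have h2 := h.one
  calc _ ≤ _ := h1
    _ ≤ E * M * (E * m) := mul_le_mul (h.card_qball hM) (h.card_qball hm) (Nat.cast_nonneg _)
        (by positivity)
    _ = _ := by ring

theorem Co.nonneg {A N : ℝ} {a : O → ℂ} (h : Co A N a) : 0 ≤ A := (norm_nonneg _).trans (h 0).1
theorem Co.mono {A A' N N' : ℝ} {a : O → ℂ} (h : Co A N a) (hA : A ≤ A') (hN : N ≤ N') :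
    Co A' N' a := fun n => ⟨(h n).1.trans hA, fun h0 => ⟨((h n).2 h0).1, ((h n).2 h0).2.trans hN⟩⟩
theorem Co.LL_eq_zero {A N : ℝ} {a : O → ℂ} (h : Co A N a) (hN : N < 1) (x y : O) :
    LL N a x y = 0 := by
  refine Finset.sum_eq_zero fun n _ => mul_eq_zero_of_left ?_ _
  by_contra h0
  have h1 := (h n).2 h0
  linarith [one_le_nm h1.1.ne_zero, h1.2]
theorem Co.LL_eq {A N N' : ℝ} {a : O → ℂ} (h : Co A N a) (hN : N ≤ N') : LL N' a = LL N a := by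
  funext x y
  refine (Finset.sum_subset (fun n hn => mem_ball.2 ((mem_ball.1 hn).trans hN))
    fun n _ hn => mul_eq_zero_of_left ?_ _).symm
  by_contra h0
  exact hn (mem_ball.2 ((h n).2 h0).2)
theorem Co.div {A N : ℝ} {a : O → ℂ} (h : Co A N a) (hA : 0 < A) :
    Co 1 N fun n => (A : ℂ)⁻¹ * a n := by
  refine fun n => ⟨?_, fun h0 => (h n).2 (right_ne_zero_of_mul h0)⟩
  rw [norm_mul, norm_inv, Complex.norm_real, Real.norm_of_nonneg hA.le, inv_mul_le_iff₀ hA, mul_one]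
  exact (h n).1
theorem Co.shift {A N : ℝ} {a : O → ℂ} (h : Co A N a) {d : O} (hd : Prim d) :
    Co A (N / nm d) fun n => a (d * n) := by
  refine fun n => ⟨(h _).1, fun h0 => ⟨hd.of_mul ((h _).2 h0).1, ?_⟩⟩
  have h1 := ((h _).2 h0).2
  rw [nm_mul, Nat.cast_mul] at h1
  rwa [le_div_iff₀' (zero_lt_one.trans_le (one_le_nm hd.ne_zero))]
theorem Sf.smul {a : O → ℂ} (h : Sf a) (c : ℂ) : Sf fun n => c * a n :=
  fun n h0 => h n (right_ne_zero_of_mul h0)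
theorem Sf.shift {a : O → ℂ} (h : Sf a) (d : O) : Sf fun n => a (d * n) :=
  fun _ h0 => (h _ h0).of_mul_right
theorem LL_smul (N : ℝ) (c : ℂ) (a : O → ℂ) (x y : O) :
    LL N (fun n => c * a n) x y = c * LL N a x y := by
  simp only [LL, Finset.mul_sum, mul_assoc]
theorem conj_LL (N : ℝ) (a : O → ℂ) (x y : O) :
    conj (LL N a x y) = LL N (fun n => conj (a n)) y x := by
  simp only [LL, map_sum, map_mul, conj_ch]
theorem Env.l2 {E R A N : ℝ} {a : O → ℂ} (h : Env E R) (ha : Co A N a) (hN : 1 ≤ N) :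
    ∑ n ∈ ball N, ‖a n‖ ^ 2 ≤ E * A ^ 2 * N := by
  refine (Finset.sum_le_card_nsmul _ _ (A ^ 2) fun n _ =>
    pow_le_pow_left₀ (norm_nonneg _) (ha n).1 2).trans ?_
  rw [nsmul_eq_mul, mul_right_comm]
  exact mul_le_mul_of_nonneg_right (h.card N hN) (sq_nonneg _)

theorem MS_nonneg (M m : ℝ) (F : O → O → ℂ) : 0 ≤ MS M m F :=
  Finset.sum_nonneg fun _ _ => sq_nonneg _
theorem MS_mono {M m : ℝ} {F G : O → O → ℂ}
    (h : ∀ x y, Sq x → Sq y → IsCoprime x y → ‖F x y‖ ≤ ‖G x y‖) : MS M m F ≤ MS M m G :=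
  Finset.sum_le_sum fun _ hp => pow_le_pow_left₀ (norm_nonneg _)
    (h _ _ (mem_prs.1 hp).1.1 (mem_prs.1 hp).2.1.1 (mem_prs.1 hp).2.2) 2
theorem MS_congr {M m : ℝ} {F G : O → O → ℂ}
    (h : ∀ x y, Sq x → Sq y → IsCoprime x y → F x y = G x y) : MS M m F = MS M m G :=
  le_antisymm (MS_mono fun x y a b c => by rw [h x y a b c])
    (MS_mono fun x y a b c => by rw [h x y a b c])
theorem MS_smul {M m A : ℝ} {u : O → O → ℂ} (h : ∀ x y, ‖u x y‖ ≤ A) (F : O → O → ℂ) :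
    MS M m (fun x y => u x y * F x y) ≤ A ^ 2 * MS M m F := by
  rw [MS, MS, Finset.mul_sum]
  refine Finset.sum_le_sum fun p _ => ?_
  rw [norm_mul, mul_pow]
  exact mul_le_mul_of_nonneg_right (pow_le_pow_left₀ (norm_nonneg _) (h _ _) 2) (sq_nonneg _)
theorem MS_add (M m : ℝ) (F G : O → O → ℂ) :
    MS M m (fun x y => F x y + G x y) ≤ 2 * MS M m F + 2 * MS M m G := by
  simp only [MS, Finset.mul_sum, ← Finset.sum_add_distrib]
  refine Finset.sum_le_sum fun p _ => ?_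
  have h1 := pow_le_pow_left₀ (norm_nonneg _) (norm_add_le (F p.1 p.2) (G p.1 p.2)) 2
  nlinarith [sq_nonneg (‖F p.1 p.2‖ - ‖G p.1 p.2‖)]
/-- the vector of values -/
noncomputable def NBas_vec (M m : ℝ) (F : O → O → ℂ) : EuclideanSpace ℂ (prs M m) :=
  WithLp.toLp 2 fun p => F p.1.1 p.1.2
theorem NBas_MS (M m : ℝ) (F : O → O → ℂ) : MS M m F = ‖NBas_vec M m F‖ ^ 2 := by
  rw [EuclideanSpace.norm_sq_eq, MS, ← Finset.sum_coe_sort]
  rfl
theorem MS_mink {ι : Type*} {M m : ℝ} (s : Finset ι) {F : ι → O → O → ℂ} {S : ι → ℝ}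
    (h0 : ∀ i ∈ s, 0 ≤ S i) (h : ∀ i ∈ s, MS M m (F i) ≤ S i ^ 2) :
    MS M m (fun x y => ∑ i ∈ s, F i x y) ≤ (∑ i ∈ s, S i) ^ 2 := by
  have h1 := norm_sum_le s fun i => NBas_vec M m (F i)
  have h2 : ∑ i ∈ s, NBas_vec M m (F i) = NBas_vec M m fun x y => ∑ i ∈ s, F i x y := by
    ext p
    simp [NBas_vec]
  rw [h2] at h1
  rw [NBas_MS]
  refine pow_le_pow_left₀ (norm_nonneg _) (h1.trans (Finset.sum_le_sum fun i hi => ?_)) 2
  exact (abs_le_of_sq_le_sq' ((NBas_MS M m (F i)).symm.trans_le (h i hi)) (h0 i hi)).2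
theorem MS_sum_le {ι : Type*} {M m S c : ℝ} (s : Finset ι) {F : ι → O → O → ℂ} (hS : 0 ≤ S)
    (hc : (s.card : ℝ) ≤ c) (h : ∀ i ∈ s, MS M m (F i) ≤ S) :
    MS M m (fun x y => ∑ i ∈ s, F i x y) ≤ c ^ 2 * S := by
  refine (MS_mink s (S := fun _ => √S) (fun _ _ => Real.sqrt_nonneg _) fun i hi => ?_).trans ?_
  · rw [Real.sq_sqrt hS]
    exact h i hi
  · rw [Finset.sum_const, nsmul_eq_mul, mul_pow, Real.sq_sqrt hS]
    exact mul_le_mul_of_nonneg_right (pow_le_pow_left₀ (Nat.cast_nonneg _) hc 2) hS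
theorem MS_swap (M m N : ℝ) (a : O → ℂ) :
    MS M m (LL N a) = MS m M (LL N fun n => conj (a n)) := by
  have key : ∀ {M m : ℝ} (p : O × O), p ∈ prs M m → p.swap ∈ prs m M := fun p hp =>
    mem_prs.2 ⟨(mem_prs.1 hp).2.1, (mem_prs.1 hp).1, (mem_prs.1 hp).2.2.symm⟩
  refine Finset.sum_nbij' Prod.swap Prod.swap key key (fun _ _ => rfl) (fun _ _ => rfl)
    fun p _ => ?_
  rw [← Complex.norm_conj, conj_LL]
  rfl
theorem Env.MS_le {E R M m S : ℝ} {F : O → O → ℂ} (h : Env E R) (hm : 1 ≤ m) (hS : 0 ≤ S)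
    (hF : ∀ y, ∑ x ∈ qball M, ‖F x y‖ ^ 2 ≤ S) : MS M m F ≤ E * m * S := by
  classical
  have h1 : MS M m F ≤ ∑ p ∈ qball M ×ˢ qball m, ‖F p.1 p.2‖ ^ 2 :=
    Finset.sum_le_sum_of_subset_of_nonneg (Finset.filter_subset _ _) fun _ _ _ => sq_nonneg _
  rw [Finset.sum_product_right] at h1
  refine h1.trans ((Finset.sum_le_card_nsmul _ _ S fun y _ => hF y).trans ?_)
  rw [nsmul_eq_mul]
  exact mul_le_mul_of_nonneg_right (h.card_qball hm) hS
theorem f3_nonneg {N M : ℝ} (hN : 0 ≤ N) (hM : 0 ≤ M) : 0 ≤ f3 N M := by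
  unfold f3
  positivity
theorem g3K_nonneg {N K : ℝ} (hN : 0 ≤ N) (hK : 0 ≤ K) : 0 ≤ g3K N K := by
  unfold g3K
  positivity
theorem g3K_le {N K u : ℝ} (hN : 0 ≤ N) (hu : 1 ≤ u) (h : N ≤ K / u ^ 2) :
    g3K N K ≤ 3 * K ^ (4 / 3 : ℝ) * u ^ (-2 / 3 : ℝ) := by
  have hu0 : 0 < u := by linarith
  have hK : 0 ≤ K := by
    have := hN.trans h
    rwa [le_div_iff₀ (by positivity), zero_mul] at this
  have c3 : ∀ {x : ℝ}, 0 ≤ x → ∀ k : ℕ, x ^ (k / 3 : ℝ) = (x ^ (1 / 3 : ℝ)) ^ k := fun hx k => by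
    rw [← Real.rpow_natCast, ← Real.rpow_mul hx]
    congr 1
    ring
  set v := u ^ (-2 / 3 : ℝ) with hv
  have hv1 : v ≤ 1 := Real.rpow_le_one_of_one_le_of_nonpos hu (by norm_num)
  have hv0 : 0 ≤ v := by positivity
  have h1 : N ^ (1 / 3 : ℝ) ≤ K ^ (1 / 3 : ℝ) * v := by
    refine (Real.rpow_le_rpow hN h (by norm_num)).trans_eq ?_
    rw [Real.div_rpow hK (by positivity), div_eq_mul_inv, ← Real.rpow_neg (by positivity),
      ← Real.rpow_natCast, ← Real.rpow_mul hu0.le, hv]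
    norm_num
  have e1 := c3 hN 3
  have e2 := c3 hK 3
  have e3 := c3 hN 2
  have e4 := c3 hK 2
  have e5 := c3 hK 4
  norm_num only [Nat.cast_ofNat, div_self, Real.rpow_one] at e1 e2 e3 e4 e5
  rw [g3K, Real.mul_rpow hN hK, e3, e4, e5]
  generalize N ^ (1 / 3 : ℝ) = n at *
  generalize K ^ (1 / 3 : ℝ) = k at *
  have hn : 0 ≤ n := (Odd.pow_nonneg_iff (by decide : Odd 3)).1 (e1 ▸ hN)
  have hk : 0 ≤ k := (Odd.pow_nonneg_iff (by decide : Odd 3)).1 (e2 ▸ hK)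
  have h2 : n ≤ k := h1.trans (mul_le_of_le_one_right hk hv1)
  rw [e1, e2]
  calc n * k ^ 3 + n ^ 3 * k + n ^ 2 * k ^ 2 = n * (k ^ 3 + n ^ 2 * k + n * k ^ 2) := by ring
    _ ≤ k * v * (k ^ 3 + k ^ 2 * k + k * k ^ 2) := by gcongr
    _ = _ := by ring
theorem Env.ls3c {E R A N M : ℝ} {a : O → ℂ} (h : Env E R) (ha : Co A N a) (y : O) (h1 : 1 ≤ N)
    (h2 : N ≤ R) (h3 : 1 ≤ M) (h4 : M ≤ R) :
    ∑ x ∈ qball M, ‖LL N a x y‖ ^ 2 ≤ E ^ 2 * A ^ 2 * N * f3 N M := by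
  have h5 := f3_nonneg (zero_le_one.trans h1) (zero_le_one.trans h3)
  have h6 := h.one
  calc _ ≤ _ := h.ls3 N M a y h1 h2 h3 h4
    _ ≤ E * f3 N M * (E * A ^ 2 * N) := mul_le_mul_of_nonneg_left (h.l2 ha h1) (by positivity)
    _ = _ := by ring
theorem Env.ms3 {E R N M m K : ℝ} (h : Env E R) (a : O → ℂ) (h1 : 1 ≤ N) (h2 : N ≤ R) (h3 : 1 ≤ m)
    (h4 : m ≤ M) (h5 : m ^ 2 * M ≤ K) (h6 : K ≤ R) :
    MS M m (LL N a) ≤ E ^ 2 * g3K N K * ∑ n ∈ ball N, ‖a n‖ ^ 2 := by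
  have hM : 1 ≤ M := h3.trans h4
  have hE := h.one
  have a1 : m * M ≤ K := le_trans (by gcongr; nlinarith) h5
  have a2 : M ≤ K := le_trans (le_mul_of_one_le_left (by linarith) h3) a1
  have a3 : m ^ 3 ≤ K := le_trans (by rw [pow_succ]; gcongr) h5
  have a4 : m ≤ K ^ (1 / 3 : ℝ) := by
    rw [one_div]
    exact (Real.le_rpow_inv_iff_of_pos (by linarith) (by linarith) three_pos).2 (by exact_mod_cast a3)
  have a5 : m * (N * M) ^ (2 / 3 : ℝ) ≤ (N * K) ^ (2 / 3 : ℝ) := by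
    calc _ ≤ (m ^ 2) ^ (2 / 3 : ℝ) * (N * M) ^ (2 / 3 : ℝ) := by
          refine mul_le_mul_of_nonneg_right ?_ (by positivity)
          rw [← Real.rpow_natCast, ← Real.rpow_mul (by linarith)]
          exact Real.self_le_rpow_of_one_le h3 (by norm_num)
      _ = (N * (m ^ 2 * M)) ^ (2 / 3 : ℝ) := by
          rw [← Real.mul_rpow (by positivity) (by positivity), mul_left_comm]
      _ ≤ _ := by gcongr
  have a6 : m * f3 N M ≤ g3K N K := by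
    have b1 : N ^ (1 / 3 : ℝ) * (m * M) ≤ N ^ (1 / 3 : ℝ) * K := by gcongr
    have b2 : N * m ≤ N * K ^ (1 / 3 : ℝ) := by gcongr
    unfold f3 g3K
    linarith
  have a7 : 0 ≤ ∑ n ∈ ball N, ‖a n‖ ^ 2 := Finset.sum_nonneg fun _ _ => sq_nonneg _
  have a8 := f3_nonneg (zero_le_one.trans h1) (zero_le_one.trans hM)
  calc _ ≤ _ := h.MS_le h3 (by positivity) fun y => h.ls3 N M a y h1 h2 hM (a2.trans h6)
    _ = E ^ 2 * (m * f3 N M) * ∑ n ∈ ball N, ‖a n‖ ^ 2 := by ring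
    _ ≤ _ := by gcongr

end Vale.Agent.P006
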