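import Vale.Agent.P006.NLf
import Vale.Agent.P026.RecAux

/-! N8: opening `cv β₁ (win B₂ (2 B₂))`.
Plans: `ind_sqf`: `n = l² a` with `a` squarefree (`exists_sq_mul_sqf`, `exists_prim`), for squarefree `d`: `d² ∣ n ↔ d ∣ l`; `sum_mu_pdiv`.
`cid`: `cv_congr` replaces `win` by `ind (Sq n) * win n` (which has `Supp 4 B₂`), `nsplit`; if `bf … n₁ ≠ 0` then `Sq n₁`, and
`ind (IsCoprime n₁ n₂) * ind (Sq (g n₂)) * ind (Sq (g / g₁ * n₂)) * cub w n₂ = ind (Prim n₂) * ind (Squarefree n₂) * cub (w g³ n₁³) n₂`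
(`cub_cube`, `cub_eq_zero`); `ind_sqf` with `Z = 2 B₂` (on the support of `win`), swap, reindex `n₂ = d² h`. -/

namespace Vale.Agent.P006

open Vale.Agent.P026 Filter
open scoped ComplexConjugate Real

theorem ind_sqf {n : O} (hn : Prim n) {Z : ℝ} (hZ : (nm n : ℝ) ≤ Z) :
    ind (Squarefree n) = ∑ d ∈ qball Z, mu d * ind (d ^ 2 ∣ n) := by
  obtain ⟨a, l, e, ha⟩ := exists_sq_mul_sqf hn.ne_zero
  have hl : l ∣ n := ⟨l * a, by rw [← e]; ring⟩
  obtain ⟨u, c, hu, hc, rfl⟩ := exists_prim fun h => hn.not_lam_dvd (h.trans hl)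
  have h1 : c ^ 2 ∣ n := ⟨u ^ 2 * a, by rw [← e]; ring⟩
  have h2 : ∀ d, Squarefree d → d ^ 2 ∣ n → d ∣ c := fun d hd h => by
    rw [← e, sq d, mul_comm _ a] at h
    exact hu.dvd_mul_left.1 ((hd.dvd_pow_iff_dvd two_ne_zero).1
      (ha.dvd_of_squarefree_of_mul_dvd_mul_right h))
  have h3 : Squarefree n ↔ c = 1 := by
    refine ⟨fun h => hc.eq_one_of_isUnit (h c (sq c ▸ h1)), fun h => ?_⟩
    rw [← e, h, mul_one]
    exact (Associated.squarefree_iff (associated_unit_mul_left a _ (hu.pow 2))).2 ha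
  rw [h3, ← sum_mu_pdiv hc]
  refine Finset.sum_congr_of_eq_on_inter (fun d hd hd' => mu_eq_zero fun h => hd' ?_)
    (fun d hd hd' => ?_) fun d hd _ => ?_
  · obtain ⟨b1, b2⟩ := (mem_pdiv hc.ne_zero).1 hd
    refine mem_qball.2 ⟨⟨b1, h⟩, le_trans ?_ hZ⟩
    exact_mod_cast nm_le_of_dvd hn.ne_zero (b2.trans ((dvd_mul_left c u).trans hl))
  · have b := (mem_qball.1 hd).1
    rw [ind_of_not fun h => hd' ((mem_pdiv hc.ne_zero).2 ⟨b.1, h2 d b.2 h⟩), mul_zero]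
  · rw [ind_of ((pow_dvd_pow_of_dvd ((mem_pdiv hc.ne_zero).1 hd).2 2).trans h1), mul_one]

theorem NCId_dvd {e : O} (he : e ≠ 0) {s s' : Finset O} {F : O → ℂ}
    (h : ∀ n, F (e * n) ≠ 0 → n ∈ s' ∧ e * n ∈ s) :
    ∑ n ∈ s, ind (e ∣ n) * F n = ∑ n ∈ s', F (e * n) := by
  refine (Finset.sum_bij_ne_zero (fun n _ _ => e * n) (fun n _ h2 => (h n h2).2)
    (fun _ _ _ _ _ _ h => mul_left_cancel₀ he h) (fun n _ h2 => ?_) fun n _ _ => ?_).symm
  · obtain ⟨m, rfl⟩ : e ∣ n := by_contra fun h' => h2 (by rw [ind_of_not h', zero_mul])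
    exact ⟨m, (h m (right_ne_zero_of_mul h2)).1, right_ne_zero_of_mul h2, rfl⟩
  · rw [ind_of (dvd_mul_right e n), one_mul]

theorem NCId_cube {n : O} (hn : Prim n) (a : O) : cub (a ^ 3) n = ind (IsCoprime a n) := by
  rw [cub_pow_left]
  by_cases h : IsCoprime a n
  · rw [cub_cube h, ind_of h]
  · rw [cub_eq_zero hn.not_lam_dvd h, ind_of_not h, zero_pow three_ne_zero]

theorem NCId_a {g g₂ : O} (hg : Sq g) (h2 : Prim g₂) (hd : g₂ ∣ g) (β : O → ℂ) (w : O) (t : ℝ)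
    (n₁ n : O) : ind (IsCoprime n₁ n) * bf (fun n => ind (Sq n) * β n) g g₂ w t n =
      ind (Squarefree n) * (psi (w * g ^ 3 * n₁ ^ 3) n * (wt t n * β (g₂ * n))) := by
  rw [bf, psi]
  by_cases hn : Prim n
  · rw [ind_of hn, cub_mul_left, cub_mul_left, NCId_cube hn, NCId_cube hn]
    by_cases h : Sq (g * n)
    · rw [ind_of h, ind_of (h.of_dvd (h2.mul hn) (mul_dvd_mul_right hd n)), ind_of h.coprime,
        ind_of h.2.of_mul_right]
      ring
    · rw [ind_of_not h]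
      by_cases h' : Squarefree n
      · rw [ind_of_not fun hc => h (hg.mul ⟨hn, h'⟩ hc)]
        ring
      · rw [ind_of_not h']
        ring
  · rw [ind_of_not hn, ind_of_not fun h : Sq (g * n) => hn (hg.1.of_mul h.1)]
    ring

theorem NCId_b {B : ℝ} {g₂ d : O} (h2 : g₂ ≠ 0) (hd : Prim d) (W : O) (t : ℝ) (n : O) :
    psi W (d ^ 2 * n) * (wt t (d ^ 2 * n) * win B (2 * B) (g₂ * (d ^ 2 * n))) =
      cub W (d ^ 2) * wt t (d ^ 2) * pc (B / (nm g₂ * (nm d : ℝ) ^ 2)) W t n := by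
  have hd2 : Prim (d ^ 2) := sq d ▸ hd.mul hd
  rw [pc, psi, psi]
  by_cases hn : Prim n
  · have h0 : (0 : ℝ) < nm g₂ * (nm d : ℝ) ^ 2 :=
      mul_pos (one_pos.trans_le (one_le_nm h2)) (pow_pos (one_pos.trans_le (one_le_nm hd.ne_zero)) 2)
    have h1 : (nm (g₂ * (d ^ 2 * n)) : ℝ) = nm n * (nm g₂ * (nm d : ℝ) ^ 2) := by
      rw [sq d, nm_mul, nm_mul, nm_mul]
      push_cast
      ring
    rw [ind_of hn, ind_of (hd2.mul hn), cub_mul_right hd2.ne_zero hn.ne_zero,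
      wt_mul hd2.ne_zero hn.ne_zero, win, win, h1, ← mul_div_assoc, div_lt_iff₀ h0, le_div_iff₀ h0]
    ring
  · rw [ind_of_not hn, ind_of_not fun h => hn (hd2.of_mul h)]
    ring

theorem NCId_c {B : ℝ} (hB : 0 < B) {g₂ : O} (h2 : g₂ ≠ 0) (W : O) (t : ℝ) (x y : O) :
    ∑ n ∈ ball (4 * B), ind (Squarefree n) * (psi W n * (wt t n * win B (2 * B) (g₂ * n))) *
      ch n x y = ∑ d ∈ qball (2 * B), mu d * cub W (d ^ 2) * wt t (d ^ 2) * ch (d ^ 2) x y *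
        LL (2 * (B / (nm g₂ * (nm d : ℝ) ^ 2))) (pc (B / (nm g₂ * (nm d : ℝ) ^ 2)) W t) x y := by
  have h1 : ∀ n, psi W n * (wt t n * win B (2 * B) (g₂ * n)) ≠ 0 →
      Prim n ∧ (nm n : ℝ) ≤ 2 * B := fun n h => by
    have a1 : Prim n := by_contra fun h' => h (by rw [psi, ind_of_not h', zero_mul, zero_mul])
    have a2 : (nm (g₂ * n) : ℝ) ≤ 2 * B := by_contra fun h' => h (by
      rw [win, ind_of_not fun h'' => h' h''.2, mul_zero, mul_zero])
    refine ⟨a1, le_trans ?_ a2⟩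
    exact_mod_cast nm_le_of_dvd (mul_ne_zero h2 a1.ne_zero) (dvd_mul_left n g₂)
  have h3 : ∀ n ∈ ball (4 * B), ind (Squarefree n) * (psi W n * (wt t n * win B (2 * B) (g₂ * n))) *
      ch n x y = ∑ d ∈ qball (2 * B), mu d * (ind (d ^ 2 ∣ n) *
        (psi W n * (wt t n * win B (2 * B) (g₂ * n)) * ch n x y)) := fun n _ => by
    by_cases h : psi W n * (wt t n * win B (2 * B) (g₂ * n)) = 0
    · simp only [h, zero_mul, mul_zero, Finset.sum_const_zero]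
    · rw [ind_sqf (h1 n h).1 (h1 n h).2, mul_assoc, Finset.sum_mul]
      exact Finset.sum_congr rfl fun d _ => mul_assoc _ _ _
  rw [Finset.sum_congr rfl h3, Finset.sum_comm]
  refine Finset.sum_congr rfl fun d hd => ?_
  have hd' := (mem_qball.1 hd).1.1
  rw [← Finset.mul_sum, NCId_dvd (s' := ball (2 * (B / (nm g₂ * (nm d : ℝ) ^ 2))))
    (pow_ne_zero 2 hd'.ne_zero) fun n h => ⟨?_, mem_ball.2
      ((h1 _ (left_ne_zero_of_mul h)).2.trans (by linarith))⟩, LL, Finset.mul_sum, Finset.mul_sum]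
  · refine Finset.sum_congr rfl fun n _ => ?_
    rw [NCId_b h2 hd', ch_mul]
    ring
  · rw [NCId_b h2 hd'] at h
    exact mem_ball.2 (by_contra fun h' => h (by
      rw [pc, win, ind_of_not fun h'' => h' h''.2, mul_zero, mul_zero, mul_zero, zero_mul]))

theorem cid {B₁ B₂ : ℝ} {β₁ : O → ℂ} (h₁ : Supp 4 B₁ β₁) (h₂ : 0 < B₂) {g : O} (hg : Sq g) (w : O)
    (t : ℝ) (x y : O) : LL (16 * (B₁ * B₂)) (cf (cv β₁ (win B₂ (2 * B₂))) g w t) x y =
      ∑ g₁ ∈ pdiv g, ∑ d ∈ qball (2 * B₂), ∑ n₁ ∈ ball (4 * B₁),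
        mu d * bf β₁ g g₁ w t n₁ * cub (w * g ^ 3 * n₁ ^ 3) (d ^ 2) * wt t (d ^ 2) *
          ch (d ^ 2 * n₁) x y * LL (2 * (B₂ / (nm (g / g₁) * (nm d : ℝ) ^ 2)))
            (pc (B₂ / (nm (g / g₁) * (nm d : ℝ) ^ 2)) (w * g ^ 3 * n₁ ^ 3) t) x y := by
  have hs : Supp 4 B₂ fun n => ind (Sq n) * win B₂ (2 * B₂) n := fun n hn => by
    have a1 : Sq n := by_contra fun h => hn (by simp only [ind_of_not h, zero_mul])
    have a2 : B₂ < nm n ∧ (nm n : ℝ) ≤ 2 * B₂ :=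
      by_contra fun h => hn (by simp only [win, ind_of_not h, mul_zero])
    exact ⟨a1, a2.1, by linarith [a2.2]⟩
  rw [cv_congr (g' := fun n => ind (Sq n) * win B₂ (2 * B₂) n) (fun _ _ => rfl)
    fun n hn => by rw [ind_of hn, one_mul], nsplit h₁ hs hg]
  refine Finset.sum_congr rfl fun g₁ h1 => ?_
  obtain ⟨-, a1, a2⟩ := hg.div h1
  rw [Finset.sum_comm]
  refine Finset.sum_congr rfl fun n₁ _ => ?_
  calc _ = bf β₁ g g₁ w t n₁ * ch n₁ x y * ∑ n ∈ ball (4 * B₂), ind (Squarefree n) *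
        (psi (w * g ^ 3 * n₁ ^ 3) n * (wt t n * win B₂ (2 * B₂) (g / g₁ * n))) * ch n x y := by
        rw [Finset.mul_sum]
        refine Finset.sum_congr rfl fun n _ => ?_
        rw [← NCId_a hg a1.1 (Dvd.intro_left _ a2), ch_mul]
        ring
    _ = _ := by
        rw [NCId_c h₂ a1.ne_zero, Finset.mul_sum]
        refine Finset.sum_congr rfl fun d _ => ?_
        rw [ch_mul]
        ring

end Vale.Agent.P006
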