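import Vale.Agent.P006.NDefs
import Vale.Agent.P006.KGam
import Vale.Agent.P006.KGs

/-! N12: the dual kernel far out.
Plan: `shp_far`: `shp_line` at `σ = (n+1)/2`, `norm_mellinInv_le`, `norm_gam_half`; `‖Pm T Y (2Y) w‖ ≤ Y ^ Re w * exp ((Re w² - Im w²)/(4T²))` for
`Re w ≤ 1` (`intervalIntegral.norm_integral_le_of_norm_le_const`); with `u = τ - t`: `2n + |τ| ≤ T₀ (2n+1) (1 + |u|/T)`; translate, substitute `u = T v`
(`integral_add_right_eq_self`, `Measure.integral_comp_div`), `gauss_moment` at `T = 1`.  `shp_tail`: `tsum_of_norm_bounded`/`norm_tsum_le_tsum_norm`,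
`sum_rpow_tail`, `Real.tsum_le_of_sum_le`. -/

namespace Vale.Agent.P006

open Vale.Agent.P026 Filter MeasureTheory
open scoped ComplexConjugate Real

/-- Mellin transform of `y^{-1/4+it} Sm T Y (2Y) y` -/
noncomputable def ph (T Y t : ℝ) (s : ℂ) : ℂ := Pm T Y (2 * Y) (s + (-1 / 4 + Complex.I * t))

theorem gd_ph {T Y : ℝ} (hT : 0 < T) (hY : 0 < Y) (t : ℝ) : GD (ph T Y t) :=
  (gd_Pm hT hY (by positivity)).shift _
theorem mellinInv_ph {T Y : ℝ} (hT : 0 < T) (hY : 0 < Y) (t : ℝ) {h : O} (hh : h ≠ 0) :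
    mellinInv 2 (ph T Y t) (nm h / 1) = wt t h * (Sm T Y (2 * Y) (nm h) : ℝ) := by
  have h0 : (0 : ℝ) < nm h := by exact_mod_cast nm_pos hh
  have h1 := (gd_Pm hT hY (by positivity : 0 < 2 * Y)).twist 2 (-1 / 4 + Complex.I * t) h0
  rw [mellinInv_Pm hT hY (by positivity) 2 h0] at h1
  rw [div_one]
  exact h1.symm

theorem NCTail_Pm {T Y : ℝ} (hT : 1 ≤ T) (hY : 0 < Y) {w : ℂ} (hw : w.re ≤ 1) :
    ‖Pm T Y (2 * Y) w‖ ≤
      Y ^ w.re * Real.exp (w.re ^ 2 / 4) * Real.exp (-(w.im ^ 2 / (4 * T ^ 2))) := by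
  have h1 : ‖∫ s in Y..2 * Y, (s : ℂ) ^ (w - 1)‖ ≤ Y ^ w.re := by
    refine (intervalIntegral.norm_integral_le_of_norm_le_const (C := Y ^ (w.re - 1))
      fun s hs => ?_).trans (le_of_eq ?_)
    · rw [Set.uIoc_of_le (by linarith)] at hs
      rw [Complex.norm_cpow_eq_rpow_re_of_pos (hY.trans hs.1), Complex.sub_re, Complex.one_re]
      exact Real.rpow_le_rpow_of_nonpos hY hs.1.le (by linarith)
    · rw [show 2 * Y - Y = Y by ring, abs_of_pos hY, Real.rpow_sub_one hY.ne']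
      field_simp
  have h2 : (w ^ 2 / (4 * T ^ 2)).re = (w.re ^ 2 - w.im ^ 2) / (4 * T ^ 2) := by
    rw [show (4 * (T : ℂ) ^ 2) = ((4 * T ^ 2 : ℝ) : ℂ) by push_cast; ring, Complex.div_ofReal_re,
      pow_two, Complex.mul_re]
    ring
  rw [Pm, norm_mul, Complex.norm_exp, h2, mul_assoc, ← Real.exp_add]
  refine mul_le_mul h1 (Real.exp_le_exp.2 ?_) (Real.exp_pos _).le (by positivity)
  have h3 : w.re ^ 2 / (4 * T ^ 2) ≤ w.re ^ 2 / 4 :=
    div_le_div_of_nonneg_left (sq_nonneg _) (by norm_num) (by nlinarith)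
  rw [sub_div]
  linarith

theorem NCTail_poly (n : ℕ) {T T₀ t u : ℝ} (hT : 1 ≤ T) (h0 : T ≤ T₀) (ht : |t| ≤ T₀) :
    (2 * n + |u + t|) ^ n * Real.exp (-(u ^ 2 / (4 * T ^ 2))) ≤
      ((2 * n + 1) ^ n * Real.exp (2 * n ^ 2) * T₀ ^ n) *
        ((1 + |u|) ^ 0 * Real.exp (-(1 / 8 * u ^ 2 / T ^ 2))) := by
  have hT0 : 0 < T := by linarith
  have hx : 0 ≤ |u| / T := by positivity
  have h1 : 2 * n + |u + t| ≤ (2 * n + 1) * T₀ * (1 + |u| / T) := by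
    have h2 : |u| ≤ T₀ * (|u| / T) := by
      rw [← mul_div_assoc, le_div_iff₀ hT0]; nlinarith [abs_nonneg u]
    have h3 : (0 : ℝ) ≤ n := Nat.cast_nonneg n
    have h4 := abs_add_le u t
    nlinarith [mul_nonneg h3 (show 0 ≤ T₀ - 1 by linarith),
      mul_nonneg h3 (mul_nonneg (show 0 ≤ T₀ by linarith) hx)]
  have h5 : (1 + |u| / T) ^ n ≤ Real.exp (2 * n ^ 2 + 1 / 8 * u ^ 2 / T ^ 2) := by
    calc _ ≤ Real.exp (|u| / T) ^ n := by
          gcongr; linarith [Real.add_one_le_exp (|u| / T)]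
      _ = Real.exp (n * (|u| / T)) := (Real.exp_nat_mul _ _).symm
      _ ≤ _ := by
          refine Real.exp_le_exp.2 ?_
          rw [show 1 / 8 * u ^ 2 / T ^ 2 = (|u| / T) ^ 2 / 8 by rw [div_pow, sq_abs]; ring]
          nlinarith [sq_nonneg (|u| / T - 4 * n)]
  have h6 : 0 < T₀ := by linarith
  calc _ ≤ ((2 * n + 1) * T₀ * (1 + |u| / T)) ^ n * Real.exp (-(u ^ 2 / (4 * T ^ 2))) := by gcongr
    _ ≤ ((2 * n + 1) ^ n * T₀ ^ n * Real.exp (2 * n ^ 2 + 1 / 8 * u ^ 2 / T ^ 2)) *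
        Real.exp (-(u ^ 2 / (4 * T ^ 2))) := by
        rw [mul_pow, mul_pow]; gcongr
    _ = _ := by
        rw [pow_zero, one_mul, mul_assoc, ← Real.exp_add, mul_right_comm _ _ (T₀ ^ n), mul_assoc _ (Real.exp _),
          ← Real.exp_add]
        congr 2
        field_simp
        ring

theorem shp_far (n : ℕ) : ∃ C : ℝ, 0 < C ∧ ∀ T T₀ Y t ξ : ℝ, 1 ≤ T → T ≤ T₀ → |t| ≤ T₀ → 0 < Y →
    0 < ξ → ‖shp (ph T Y t) ξ‖ ≤
      C * Y ^ (3 / 4 : ℝ) * (T₀ ^ 2 / (ξ * Y)) ^ ((n + 1) / 2 : ℝ) := by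
  obtain ⟨C, hC, hg⟩ := gauss_moment 0 (c := 1 / 8) (by norm_num)
  obtain ⟨σ, hσ⟩ : ∃ σ : ℝ, σ = (n + 1) / 2 := ⟨_, rfl⟩
  have hσ0 : 0 < σ := by rw [hσ]; positivity
  refine ⟨Real.exp ((3 / 4 - σ) ^ 2 / 4) * ((2 * n + 1) ^ n * Real.exp (2 * n ^ 2)) * C,
    by positivity, fun T T₀ Y t ξ hT h0 ht hY hξ => ?_⟩
  have hT₀ : 0 < T₀ := by linarith
  obtain ⟨hi, hb⟩ := hg T hT
  rw [shp_line (gd_ph (by linarith) hY t) hσ0 hξ, ← hσ]
  refine (norm_mellinInv_le σ _ hξ).trans ?_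
  set K := Y ^ (3 / 4 - σ) * Real.exp ((3 / 4 - σ) ^ 2 / 4) *
    ((2 * n + 1) ^ n * Real.exp (2 * n ^ 2) * T₀ ^ n) with hK
  have h1 : ∫ τ : ℝ, ‖gam (σ + τ * Complex.I) * ph T Y t (1 - (σ + τ * Complex.I))‖ ≤
      K * (C * T ^ (0 + 1)) := by
    rw [← integral_add_right_eq_self _ t]
    refine le_trans (integral_mono_of_nonneg (Eventually.of_forall fun _ => norm_nonneg _)
      (hi.const_mul K) (Eventually.of_forall fun u => ?_)) ?_
    · have e1 : (1 - (σ + ((u + t : ℝ) : ℂ) * Complex.I) + (-1 / 4 + Complex.I * t)).re =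
          3 / 4 - σ := by simp; ring
      have e2 : (1 - (σ + ((u + t : ℝ) : ℂ) * Complex.I) + (-1 / 4 + Complex.I * t)).im = -u := by
        simp
      have h2 := NCTail_Pm hT hY (e1.le.trans (by linarith))
      have h3 := norm_gam_half n (u + t)
      rw [e1, e2, neg_sq] at h2
      rw [← hσ] at h3
      simp only [ph, norm_mul]
      calc _ ≤ (2 * n + |u + t|) ^ n * (Y ^ (3 / 4 - σ) * Real.exp ((3 / 4 - σ) ^ 2 / 4) *
            Real.exp (-(u ^ 2 / (4 * T ^ 2)))) := by gcongr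
        _ = Y ^ (3 / 4 - σ) * Real.exp ((3 / 4 - σ) ^ 2 / 4) *
            ((2 * n + |u + t|) ^ n * Real.exp (-(u ^ 2 / (4 * T ^ 2)))) := by ring
        _ ≤ _ := by
            rw [hK, mul_assoc (_ * _)]
            gcongr _ * ?_
            exact NCTail_poly n hT h0 ht
    · rw [integral_const_mul]
      gcongr
  have h2 : (T₀ ^ 2 / (ξ * Y)) ^ σ = T₀ ^ n * T₀ * ξ ^ (-σ) * Y ^ (-σ) := by
    rw [Real.div_rpow (by positivity) (by positivity), Real.mul_rpow hξ.le hY.le,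
      ← Real.rpow_natCast, ← Real.rpow_mul hT₀.le, Real.rpow_neg hξ.le, Real.rpow_neg hY.le,
      show ((2 : ℕ) : ℝ) * σ = ((n + 1 : ℕ) : ℝ) by rw [hσ]; push_cast; ring, Real.rpow_natCast,
      pow_succ]
    field_simp
  have h3 : ξ ^ (-σ) / (2 * π) ≤ ξ ^ (-σ) :=
    div_le_self (by positivity) (by linarith [Real.pi_gt_three])
  calc _ ≤ ξ ^ (-σ) * (K * (C * T₀)) := by
        refine mul_le_mul h3 (h1.trans ?_) (integral_nonneg fun _ => norm_nonneg _) (by positivity)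
        rw [zero_add, pow_one]
        gcongr
    _ = _ := by
        rw [h2, hK, sub_eq_add_neg (3 / 4 : ℝ) σ, Real.rpow_add hY]
        ring

theorem shp_tail {n : ℕ} (hn : 2 ≤ n) : ∃ C : ℝ, 0 < C ∧ ∀ (T T₀ Y t a H N : ℝ) (c : O → ℂ),
    1 ≤ T → T ≤ T₀ → |t| ≤ T₀ → 0 < Y → 0 < a → 0 < H → 1 ≤ N → H * T₀ ^ 2 ≤ a * Y * N →
    (∀ k, ‖c k‖ ≤ 1) → ‖∑' k : O, ind (N < nm k) * c k * shp (ph T Y t) (a * nm k)‖ ≤
      C * Y ^ (3 / 4 : ℝ) * N * H ^ (-((n + 1) / 2) : ℝ) := by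
  classical
  obtain ⟨C, hC, hf⟩ := shp_far n
  obtain ⟨σ, hσ⟩ : ∃ σ : ℝ, σ = (n + 1) / 2 := ⟨_, rfl⟩
  have hσ1 : 1 < σ := by
    have : (2 : ℝ) ≤ n := by exact_mod_cast hn
    rw [hσ]; linarith
  obtain ⟨C', hC', hs⟩ := sum_rpow_tail hσ1
  rw [← hσ] at hf ⊢
  refine ⟨C * C', by positivity, fun T T₀ Y t a H N c hT h0 ht hY ha hH hN hle hc => ?_⟩
  have hN0 : 0 < N := by linarith
  set K := C * Y ^ (3 / 4 : ℝ) * (N / H) ^ σ with hK
  have hb : ∀ k : O, ‖ind (N < nm k) * c k * shp (ph T Y t) (a * nm k)‖ ≤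
      K * if N < nm k then (nm k : ℝ) ^ (-σ) else 0 := fun k => by
    by_cases hk : N < nm k
    swap
    · rw [ind_of_not hk, if_neg hk]; simp
    have hk0 : (0 : ℝ) < nm k := hN0.trans hk
    rw [ind_of hk, one_mul, if_pos hk, norm_mul]
    refine (mul_le_of_le_one_left (norm_nonneg _) (hc k)).trans
      ((hf T T₀ Y t _ hT h0 ht hY (by positivity)).trans ?_)
    rw [hK, mul_assoc _ ((N / H) ^ σ), Real.rpow_neg hk0.le, ← div_eq_mul_inv,
      ← Real.div_rpow (by positivity) hk0.le]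
    gcongr _ * ?_ ^ σ
    rw [div_div, div_le_div_iff₀ (by positivity) (by positivity)]
    nlinarith [mul_le_mul_of_nonneg_right hle hk0.le]
  have hsum : Summable fun k : O => if N < nm k then (nm k : ℝ) ^ (-σ) else 0 :=
    Summable.of_nonneg_of_le (fun k => by split_ifs <;> positivity)
      (fun k => by split_ifs <;> [exact le_rfl; positivity]) (summable_rpow hσ1)
  refine (tsum_of_norm_bounded (hsum.mul_left K).hasSum hb).trans ?_
  rw [tsum_mul_left]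
  have h2 : ∑' k : O, (if N < nm k then (nm k : ℝ) ^ (-σ) else 0) ≤ C' * N ^ (1 - σ) :=
    hsum.tsum_le_of_sum_le fun s => by
      rw [← Finset.sum_filter]
      exact hs N _ hN0 fun k hk => (Finset.mem_filter.1 hk).2
  calc _ ≤ K * (C' * N ^ (1 - σ)) := by gcongr
    _ = _ := by
        rw [hK, Real.div_rpow hN0.le hH.le, Real.rpow_sub hN0, Real.rpow_one, Real.rpow_neg hH.le]
        field_simp

end Vale.Agent.P006
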