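import Vale.Agent.P006.NCFt
import Vale.Agent.P006.NCTail

/-! N13: Poisson summation for one pair `(x, y)`.
Plan: `q = 9 Q (x y)`, `f h = psi w h * ch h x y`; `SS = ∑' f h * mellinInv 2 (ph T Y t) (N h / 1)` (`mellinInv_ph`, `psi_zero`); `MPStmt` with `Y = 1`.
`k = 0`: `ft_psi_ch`, `ch_zero`, `norm_ft_le`, `norm_Pm_le`.  Split the dual series (`summable_shp`, `norm_ft_le`) into `ball N` and `N < N k`
(`shp_tail`, `a = c0² / N q`, `1 ≤ c0`).  Finite part: `shp_line` at `1/2`, `sum_mellinInv` over `(ball N).erase 0`, `norm_gam_le`, `norm_Pm_le` at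
`1/4 + i (t - τ)`; `‖∑ ft q f k (a N k)^{-1/2-iτ}‖ ≤ a^{-1/2} (N x N y)^{-1/2} ‖LL N (dk Q w τ) x y‖` by conjugating, and
`a^{-1/2} (N x N y)^{-1/2} = 9 √(N Q) / c0`.  `norm_integral_le_of_norm_le` needs integrability of `Gk * ‖LL‖` (`continuous_dk`, `norm_dk_le`). -/

namespace Vale.Agent.P006

open Vale.Agent.P026 Filter MeasureTheory
open scoped ComplexConjugate Real

/-- the majorant on the critical line -/
noncomputable def Gk (T t τ : ℝ) : ℝ :=
  1 / (1 + |t - τ|) * Real.exp (-((t - τ) ^ 2 / (4 * T ^ 2)))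

theorem Gk_nonneg (T t τ : ℝ) : 0 ≤ Gk T t τ := by
  unfold Gk
  positivity

theorem integral_Gk : ∃ C : ℝ, 0 < C ∧ ∀ T t : ℝ, 1 ≤ T →
    Integrable (Gk T t) ∧ ∫ τ, Gk T t τ ≤ C * Real.log (2 * T) := by
  obtain ⟨C, hC, h⟩ := integral_log_le
  refine ⟨C, hC, fun T t hT => ⟨(h T hT).1.comp_sub_left t, le_of_eq_of_le ?_ (h T hT).2⟩⟩
  exact integral_sub_left_eq_self
    (fun u : ℝ => 1 / (1 + |u|) * Real.exp (-(u ^ 2 / (4 * T ^ 2)))) volume t

theorem ncps_c0 : 1 ≤ c0 := by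
  have h := PoissonAux.c0_sq
  have h1 := c0_pos
  have h2 := Real.pi_gt_three
  nlinarith

theorem ncps_Pm {T Y : ℝ} (hT : 1 ≤ T) (hY : 0 < Y) {w : ℂ} (h0 : 0 ≤ w.re) (h1 : w.re ≤ 1) :
    ‖Pm T Y (2 * Y) w‖ ≤
      600000 * Y ^ w.re * (1 / (1 + |w.im|) * Real.exp (-(w.im ^ 2 / (4 * T ^ 2)))) := by
  refine (norm_Pm_le hT hY (by linarith) (by linarith) (abs_le.2 ⟨by linarith, by linarith⟩)).trans ?_
  have h2 : (2 : ℝ) ^ w.re ≤ 2 := by
    simpa using Real.rpow_le_rpow_of_exponent_le one_le_two h1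
  rw [Real.mul_rpow zero_le_two hY.le, ← mul_assoc, ← mul_assoc, mul_one_div]
  gcongr
  linarith

theorem ncps_split {N : ℝ} (hN : 0 ≤ N) {F s : O → ℂ} (hF : ∀ k, ‖F k‖ ≤ 1)
    (hs : Summable fun k : O => ‖ind (k ≠ 0) * s k‖) :
    ∑' k : O, ind (k ≠ 0) * F k * s k =
      ∑ k ∈ (ball N).erase 0, F k * s k + ∑' k : O, ind (N < nm k) * F k * s k := by
  classical
  have h1 : Summable fun k : O => ind (N < nm k) * F k * s k := by
    refine Summable.of_norm_bounded hs fun k => ?_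
    by_cases hk : k = 0
    · rw [ind_of_not (by simpa [hk] using hN), zero_mul, zero_mul, norm_zero]
      exact norm_nonneg _
    · rw [ind_of hk, one_mul, norm_mul, norm_mul]
      exact mul_le_of_le_one_left (norm_nonneg _)
        (mul_le_one₀ (norm_ind_le _) (norm_nonneg _) (hF k))
  have h2 := hasSum_sum_of_ne_finset_zero (s := (ball N).erase 0) (L := SummationFilter.unconditional O)
    (f := fun k => if k ∈ (ball N).erase 0 then F k * s k else 0) fun k hk => if_neg hk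
  rw [Finset.sum_congr rfl fun k hk => if_pos hk] at h2
  refine Eq.trans (tsum_congr fun k => ?_) (h2.add h1.hasSum).tsum_eq
  simp only [Finset.mem_erase, mem_ball]
  by_cases hk : k = 0
  · rw [ind_of_not (not_not.2 hk), if_neg fun h => h.1 hk,
      ind_of_not (by simpa [hk] using hN), zero_add]
  · by_cases h : (nm k : ℝ) ≤ N
    · rw [ind_of hk, if_pos ⟨hk, h⟩, ind_of_not (not_lt.2 h), one_mul, zero_mul, zero_mul, add_zero]
    · rw [ind_of hk, if_neg fun h' => h h'.2, ind_of (not_le.1 h), zero_add]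

theorem ncps_int {T : ℝ} (hT : 1 ≤ T) (t N : ℝ) {Q : O} (hQ : Q ≠ 0) (w x y : O) :
    Integrable fun τ => Gk T t τ * ‖LL N (dk Q w τ) x y‖ := by
  obtain ⟨C, -, h⟩ := integral_Gk
  refine (h T t hT).1.mul_bdd (c := (ball N).card) (Continuous.aestronglyMeasurable ?_)
    (Eventually.of_forall fun τ => ?_)
  · exact (continuous_finsetSum _ fun k _ => (continuous_dk Q w k).mul continuous_const).norm
  · rw [norm_norm]
    refine (norm_sum_le _ _).trans ((Finset.sum_le_card_nsmul _ _ 1 fun k _ => ?_).trans (by simp))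
    rw [norm_mul]
    refine mul_le_one₀ ((sq_le_one_iff₀ (norm_nonneg _)).1 ((norm_dk_le hQ τ k).trans ?_))
      (norm_nonneg _) (norm_ch_le _ _ _)
    exact Nat.cast_inv_le_one _

theorem ncps_sum {a : ℝ} (ha : 0 < a) (N τ : ℝ) (κ : ℂ) (w Q x y : O) :
    ‖∑ k ∈ (ball N).erase 0, κ * (ft (9 * Q) (psi w) k * conj (ch k x y)) *
      ((a * nm k : ℝ) : ℂ) ^ (-(((1 / 2 : ℝ) : ℂ) + τ * Complex.I))‖ =
      ‖κ‖ * (√a)⁻¹ * ‖LL N (dk Q w τ) x y‖ := by
  classical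
  have e : ∑ k ∈ (ball N).erase 0, κ * (ft (9 * Q) (psi w) k * conj (ch k x y)) *
      ((a * nm k : ℝ) : ℂ) ^ (-(((1 / 2 : ℝ) : ℂ) + τ * Complex.I)) =
      κ * (a : ℂ) ^ (-(((1 / 2 : ℝ) : ℂ) + τ * Complex.I)) * conj (LL N (dk Q w τ) x y) := by
    rw [LL, ← Finset.sum_erase (a := 0) (ball N) (f := fun k => dk Q w τ k * ch k x y)
      (by rw [dk, ind_of_not (not_not.2 rfl)]; simp), map_sum, Finset.mul_sum]
    refine Finset.sum_congr rfl fun k hk => ?_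
    have e1 : conj (-1 / 2 + Complex.I * τ) = -(((1 / 2 : ℝ) : ℂ) + τ * Complex.I) := by
      simp only [map_add, map_mul, map_div₀, map_neg, map_one, map_ofNat, Complex.conj_I,
        Complex.conj_ofReal]
      push_cast
      ring
    rw [dk, ind_of (Finset.ne_of_mem_erase hk), one_mul, map_mul, map_mul, Complex.conj_conj,
      conj_np, e1, np, Complex.ofReal_mul,
      Complex.mul_cpow_ofReal_nonneg ha.le (Nat.cast_nonneg _), Complex.ofReal_natCast]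
    ring
  rw [e, norm_mul, norm_mul, Complex.norm_conj, kmel_norm _ _ ha, Real.rpow_neg ha.le,
    Real.sqrt_eq_rpow]

theorem ncps_fin : ∃ C : ℝ, 0 < C ∧ ∀ (T Y t N a : ℝ) (κ : ℂ) (w Q x y : O), 1 ≤ T → 0 < Y → 0 < a →
    Q ≠ 0 → ‖∑ k ∈ (ball N).erase 0, κ * (ft (9 * Q) (psi w) k * conj (ch k x y)) *
      shp (ph T Y t) (a * nm k)‖ ≤ C * (‖κ‖ * (√a)⁻¹ * Y ^ (1 / 4 : ℝ) *
        ∫ τ, Gk T t τ * ‖LL N (dk Q w τ) x y‖) := by
  obtain ⟨C, hC, h⟩ := norm_gam_le (a := 1 / 2) (by norm_num)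
  refine ⟨C * 600000, by positivity, fun T Y t N a κ w Q x y hT hY ha hQ => ?_⟩
  have hϕ := gd_ph (one_pos.trans_le hT) hY t
  have hp : ∀ k ∈ (ball N).erase 0, 0 < a * nm k := fun k hk =>
    mul_pos ha (one_pos.trans_le (one_le_nm (Finset.ne_of_mem_erase hk)))
  obtain ⟨h1, h2⟩ := hϕ.dec_gam (a := 1 / 2) (by norm_num) (1 / 2)
  have h3 : ‖(((1 / (2 * π) : ℝ)) : ℂ)‖ ≤ 1 := by
    rw [Complex.norm_real, Real.norm_of_nonneg (by positivity), div_le_one (by positivity)]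
    linarith [Real.pi_gt_three]
  rw [Finset.sum_congr rfl fun k hk => by rw [shp_line hϕ (σ := 1 / 2) (by norm_num) (hp k hk)],
    sum_mellinInv _ _ _ hp h1 h2, norm_mul, ← integral_const_mul, ← integral_const_mul]
  refine (mul_le_of_le_one_left (norm_nonneg _) h3).trans (norm_integral_le_of_norm_le
    (((ncps_int hT t N hQ w x y).const_mul _).const_mul _) (Eventually.of_forall fun τ => ?_))
  have e1 : (1 - (((1 / 2 : ℝ) : ℂ) + τ * Complex.I) + (-1 / 4 + Complex.I * t)).re = 1 / 4 := by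
    simp
    norm_num
  have e2 : (1 - (((1 / 2 : ℝ) : ℂ) + τ * Complex.I) + (-1 / 4 + Complex.I * t)).im = t - τ := by
    simp
    ring
  have h4 := ncps_Pm hT hY (e1.ge.trans' (by norm_num)) (e1.le.trans (by norm_num))
  rw [e1, e2] at h4
  have h5 := h (((1 / 2 : ℝ) : ℂ) + τ * Complex.I) (by simp) (by simp)
  rw [norm_mul, norm_mul, ncps_sum ha]
  refine (mul_le_mul_of_nonneg_right (mul_le_mul h5 h4 (norm_nonneg _) hC.le)
    (by positivity)).trans (le_of_eq ?_)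
  rw [Gk]
  ring

theorem cps (hmp : MPStmt) {n : ℕ} (hn : 2 ≤ n) : ∃ C : ℝ, 0 < C ∧
    ∀ (T T₀ Y t H N : ℝ) (w Q x y : O), 1 ≤ T → T ≤ T₀ → |t| ≤ T₀ → 1 ≤ Y → 0 < H → 1 ≤ N →
    Rad w Q → Sq x → Sq y → IsCoprime x y → IsCoprime (x * y) Q →
    H * T₀ ^ 2 * (81 * nm Q * (nm x * nm y)) ≤ Y * N →
      ‖SS T Y w t x y‖ ≤ C * (‖ind (x = 1 ∧ y = 1)‖ * Y ^ (3 / 4 : ℝ) +
        √(nm Q) * Y ^ (1 / 4 : ℝ) * (∫ τ, Gk T t τ * ‖LL N (dk Q w τ) x y‖) +
        Y ^ (3 / 4 : ℝ) * N * H ^ (-((n + 1) / 2) : ℝ)) := by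
  obtain ⟨C₁, hC₁, h₁⟩ := ncps_fin
  obtain ⟨C₂, hC₂, h₂⟩ := shp_tail hn
  have hc := ncps_c0
  refine ⟨c0 * (600000 + 9 * C₁ + C₂), by positivity,
    fun T T₀ Y t H N w Q x y hT hT₀ ht hY hH hN hw hx hy hxy hQ hle => ?_⟩
  have hY0 : 0 < Y := by linarith
  have hT0 : 0 < T := by linarith
  have hϕ := gd_ph hT0 hY0 t
  have hQ0 := hw.2.1
  have hq : 9 * Q * (x * y) ≠ 0 :=
    mul_ne_zero (mul_ne_zero (by norm_num) hQ0) (mul_ne_zero hx.ne_zero hy.ne_zero)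
  have n1 := one_le_nm hQ0
  have n2 : (0 : ℝ) < nm x * nm y := by have := hx.one_le; have := hy.one_le; positivity
  have nq : (nm (9 * Q * (x * y)) : ℝ) = 81 * nm Q * (nm x * nm y) := by
    rw [nm_mul, nm_mul, nm_mul, show nm 9 = 81 by decide]
    push_cast
    rfl
  obtain ⟨a, ha⟩ : ∃ a : ℝ, a = c0 ^ 2 / (81 * nm Q * (nm x * nm y)) := ⟨_, rfl⟩
  have ha0 : 0 < a := by rw [ha]; positivity
  have hF : ∀ k, ‖ft (9 * Q * (x * y)) (fun h => psi w h * ch h x y) k‖ ≤ 1 := fun k =>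
    norm_ft_le hq (fun h => by
      rw [norm_mul]
      exact mul_le_one₀ (norm_psi_le _ _) (norm_nonneg _) (norm_ch_le _ _ _)) k
  obtain ⟨κ, hκ, hft⟩ := ft_psi_ch hw hx hy hxy hQ
  have key := hmp _ _ _ 1 hq (per_psi_ch hw x y) hϕ one_pos
  have e1 : ∀ k : O, c0 ^ 2 * 1 * nm k / (81 * nm Q * (nm x * nm y)) = a * nm k := fun k => by
    rw [ha]
    ring
  have e2 : SS T Y w t x y = ∑' h : O, psi w h * ch h x y * mellinInv 2 (ph T Y t) (nm h / 1) := by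
    refine tsum_congr fun h => ?_
    by_cases h0 : h = 0
    · simp only [h0, psi_zero, zero_mul]
    · rw [mellinInv_ph hT0 hY0 t h0]
  simp only [nq, e1] at key
  rw [ncps_split (by linarith : 0 ≤ N) hF (summable_shp hϕ ha0)] at key
  have b1 : ‖ft (9 * Q * (x * y)) (fun h => psi w h * ch h x y) 0‖ ≤ ‖ind (x = 1 ∧ y = 1)‖ := by
    by_cases h : x = 1 ∧ y = 1
    · rw [ind_of h, norm_one]
      exact hF 0
    · simp only [hft, ch_zero hx hy h, map_zero, mul_zero, norm_zero, norm_nonneg]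
  have b2 : ‖ph T Y t 1‖ ≤ 600000 * Y ^ (3 / 4 : ℝ) := by
    have e3 : (1 + (-1 / 4 + Complex.I * t)).re = 3 / 4 := by
      simp
      norm_num
    have h4 := ncps_Pm hT hY0 (e3.ge.trans' (by norm_num)) (e3.le.trans (by norm_num))
    rw [e3] at h4
    refine h4.trans (mul_le_of_le_one_right (by positivity) (mul_le_one₀ ?_ (by positivity) ?_))
    · exact (div_le_one (by positivity)).2 (le_add_of_nonneg_right (abs_nonneg _))
    · exact Real.exp_le_one_iff.2 (neg_nonpos.2 (by positivity))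
  have b3 := h₂ T T₀ Y t a H N _ hT hT₀ ht hY0 ha0 hH hN (by
    rw [ha, div_mul_eq_mul_div, div_mul_eq_mul_div, le_div_iff₀ (by positivity),
      mul_assoc (c0 ^ 2)]
    exact hle.trans (le_mul_of_one_le_left (by positivity) (one_le_pow₀ hc))) hF
  have b4 := h₁ T Y t N a (κ / (√(nm x * nm y) : ℝ)) w Q x y hT hY0 ha0 hQ0
  have b5 : ‖κ / (√(nm x * nm y) : ℝ)‖ * (√a)⁻¹ ≤ 9 * √(nm Q) := by
    have e3 : √a = c0 / (9 * √(nm Q) * √(nm x * nm y)) := by
      rw [ha, Real.sqrt_div (sq_nonneg _), Real.sqrt_sq (by linarith),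
        Real.sqrt_mul (by positivity), Real.sqrt_mul (by norm_num),
        show (81 : ℝ) = 9 ^ 2 by norm_num, Real.sqrt_sq (by norm_num)]
    have h3 := Real.sqrt_pos.2 n2
    rw [e3, norm_div, Complex.norm_real, Real.norm_of_nonneg h3.le, inv_div, div_mul_div_comm,
      div_le_iff₀ (by positivity), ← mul_assoc]
    exact mul_le_mul (mul_le_of_le_one_left (by positivity) hκ)
      (le_mul_of_one_le_right h3.le hc) h3.le (by positivity)
  simp only [← hft] at b4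
  have j0 : 0 ≤ ∫ τ, Gk T t τ * ‖LL N (dk Q w τ) x y‖ :=
    integral_nonneg fun τ => mul_nonneg (Gk_nonneg _ _ _) (norm_nonneg _)
  generalize ∫ τ, Gk T t τ * ‖LL N (dk Q w τ) x y‖ = J at b4 j0 ⊢
  have b6 := b4.trans (mul_le_mul_of_nonneg_left (mul_le_mul_of_nonneg_right
    (mul_le_mul_of_nonneg_right b5 (by positivity)) j0) hC₁.le)
  have b7 := mul_le_mul b1 b2 (norm_nonneg _) (norm_nonneg _)
  rw [← norm_mul] at b7
  rw [e2, key, norm_mul, Complex.norm_real, mul_one, Real.norm_of_nonneg c0_pos.le, mul_assoc c0]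
  refine mul_le_mul_of_nonneg_left ((norm_add_le_of_le b7 (norm_add_le_of_le b6 b3)).trans ?_)
    (by linarith)
  have p1 : 0 ≤ ‖ind (x = 1 ∧ y = 1)‖ * Y ^ (3 / 4 : ℝ) := by positivity
  have p2 : 0 ≤ √(nm Q) * Y ^ (1 / 4 : ℝ) * J := by positivity
  have p3 : 0 ≤ Y ^ (3 / 4 : ℝ) * N * H ^ (-((n + 1) / 2) : ℝ) := by positivity
  nlinarith [mul_nonneg hC₁.le p1, mul_nonneg hC₁.le p3, mul_nonneg hC₂.le p1, mul_nonneg hC₂.le p2]

end Vale.Agent.P006
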