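import Vale.Agent.P006.KCv

/-! N0: definitions for part N (mean squares over non-cubes).  `E` is always the `X ^ ε` loss, `R` the range of all parameters. -/

namespace Vale.Agent.P006

open Vale.Agent.P026 Filter
open scoped ComplexConjugate Real

/-- the character `χ_x conj χ_y` -/
noncomputable def ch (n x y : O) : ℂ := cub n x * conj (cub n y)
/-- linear form -/
noncomputable def LL (N : ℝ) (a : O → ℂ) (x y : O) : ℂ := ∑ n ∈ ball N, a n * ch n x y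
/-- coefficients bounded by `A`, on primary elements of norm at most `N` -/
def Co (A N : ℝ) (a : O → ℂ) : Prop := ∀ n, ‖a n‖ ≤ A ∧ (a n ≠ 0 → Prim n ∧ (nm n : ℝ) ≤ N)
/-- squarefree support -/
def Sf (a : O → ℂ) : Prop := ∀ n, a n ≠ 0 → Squarefree n
/-- coprime pairs -/
noncomputable def prs (M m : ℝ) : Finset (O × O) :=
  open Classical in (qball M ×ˢ qball m).filter fun p => IsCoprime p.1 p.2
/-- coprime pairs, coprime to `Q` -/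
noncomputable def prq (Q : O) (M m : ℝ) : Finset (O × O) :=
  open Classical in (prs M m).filter fun p => IsCoprime (p.1 * p.2) Q
/-- mean square over coprime pairs -/
noncomputable def MS (M m : ℝ) (F : O → O → ℂ) : ℝ := ∑ p ∈ prs M m, ‖F p.1 p.2‖ ^ 2
/-- the large sieve factor of `LS3Stmt` -/
noncomputable def f3 (N M : ℝ) : ℝ := N ^ (1 / 3 : ℝ) * M + N + (N * M) ^ (2 / 3 : ℝ)
/-- the same after summing over the short variable -/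
noncomputable def g3K (N K : ℝ) : ℝ :=
  N ^ (1 / 3 : ℝ) * K + N * K ^ (1 / 3 : ℝ) + (N * K) ^ (2 / 3 : ℝ)

/-- all large sieves with loss `E` in the range `R` -/
structure Env (E R : ℝ) : Prop where
  one : 1 ≤ E
  log : Real.log R ≤ E
  tau : ∀ n : O, n ≠ 0 → (nm n : ℝ) ≤ R → tau n ≤ E
  card : ∀ N : ℝ, 1 ≤ N → ((ball N).card : ℝ) ≤ E * N
  ls1 : ∀ (A N M : ℝ) (a : O → ℂ) (y : O), Co A N a → Sf a → 1 ≤ N → N ≤ R → 1 ≤ M → M ≤ R →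
    ∑ x ∈ qball M, ‖LL N a x y‖ ^ 2 ≤ E * A ^ 2 * N * (M + N + (M * N) ^ (2 / 3 : ℝ))
  ls3 : ∀ (N M : ℝ) (a : O → ℂ) (y : O), 1 ≤ N → N ≤ R → 1 ≤ M → M ≤ R →
    ∑ x ∈ qball M, ‖LL N a x y‖ ^ 2 ≤ E * f3 N M * ∑ n ∈ ball N, ‖a n‖ ^ 2
  hm : ∀ (A N M : ℝ) (a : O → ℂ) (y : O) (s : Finset O), Co A N a → 1 ≤ N → N ≤ R → 1 ≤ M →
    M ≤ R → s ⊆ qball M → ∑ x ∈ s, ‖LL N a x y‖ ^ 2 ≤ E * A ^ 2 * N *
      (N + N ^ (1 / 6 : ℝ) * M ^ (2 / 3 : ℝ) * s.card + N ^ (5 / 6 : ℝ) * M ^ (1 / 3 : ℝ) +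
        N ^ (1 / 6 : ℝ) * M ^ (4 / 3 : ℝ))
  jls : ∀ (A N M m : ℝ) (a : O → ℂ), Co A N a → 1 ≤ N → N ≤ R → 1 ≤ M → M ≤ R → 1 ≤ m → m ≤ R →
    MS M m (LL N a) ≤ E * A ^ 2 * N * (N + (M * m) ^ 2)

/-- `Env` holds eventually -/
def EnvStmt : Prop := ∀ ε : ℝ, 0 < ε → ∀ᶠ X : ℝ in atTop, Env (X ^ ε) (X ^ 3)

/-- the weight `N(n)^{-1/4+it}` -/
noncomputable def wt (t : ℝ) (n : O) : ℂ := np n (-1 / 4 + Complex.I * t)
/-- coefficients of `lf` -/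
noncomputable def cf (β : O → ℂ) (g w : O) (t : ℝ) (n : O) : ℂ :=
  ind (Sq n) * (β (g * n) * cub w n * wt t n)
/-- coefficients of one factor of a convolution -/
noncomputable def bf (β : O → ℂ) (g g' w : O) (t : ℝ) (n : O) : ℂ :=
  ind (Sq (g * n)) * (β (g' * n) * cub w n * wt t n)
/-- product of two forms with a coprimality condition -/
noncomputable def CP (N₁ N₂ : ℝ) (b₁ b₂ : O → ℂ) (x y : O) : ℂ :=
  ∑ n₁ ∈ ball N₁, ∑ n₂ ∈ ball N₂, ind (IsCoprime n₁ n₂) * (b₁ n₁ * b₂ n₂) * ch (n₁ * n₂) x y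
/-- mean square bound for products of two forms -/
def Prd (N₁ N₂ M m S : ℝ) : Prop :=
  ∀ b₁ b₂ : O → ℂ, Co 1 N₁ b₁ → Sf b₁ → Co 1 N₂ b₂ → Sf b₂ →
    MS M m (fun x y => LL N₁ b₁ x y * LL N₂ b₂ x y) ≤ S

/-- the character `cub w` on primary elements -/
noncomputable def psi (w h : O) : ℂ := ind (Prim h) * cub w h
/-- coefficients of the pure character sum -/
noncomputable def pc (Y : ℝ) (w : O) (t : ℝ) (h : O) : ℂ := psi w h * (wt t h * win Y (2 * Y) h)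
/-- its smooth version -/
noncomputable def SS (T Y : ℝ) (w : O) (t : ℝ) (x y : O) : ℂ :=
  ∑' h : O, psi w h * ch h x y * (wt t h * (Sm T Y (2 * Y) (nm h) : ℝ))
/-- every prime of `w` divides `Q` -/
def Rad (w Q : O) : Prop := w ≠ 0 ∧ Q ≠ 0 ∧ ∀ p, Prime p → p ∣ w → p ∣ Q
/-- dual coefficients -/
noncomputable def dk (Q w : O) (τ : ℝ) (k : O) : ℂ :=
  ind (k ≠ 0) * conj (ft (9 * Q) (psi w) k) * np k (-1 / 2 + Complex.I * τ)
/-- mean square bound for the pure character sums -/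
def Pure (Y₁ Y₂ W t M m S : ℝ) : Prop :=
  ∀ (Y : ℝ) (w Q : O), Y₁ ≤ Y → Y ≤ Y₂ → Rad w Q → (nm Q : ℝ) ≤ W →
    MS M m (LL (2 * Y) (pc Y w t)) ≤ S

/-- the boxes not covered by the large sieves alone -/
def Xtra (X B K θ : ℝ) (β : O → ℂ) : Prop :=
  ∀ (g w : O) (t M m : ℝ), Sq g → (nm g : ℝ) ≤ X ^ θ → w ≠ 0 → |t| ≤ X ^ (0.18 : ℝ) → 1 ≤ m →
    m ≤ M → √(nm w) * (m ^ 2 * M) ≤ K → B * X ^ (-θ) ≤ m ^ 2 * M →
    (M ≤ X ^ θ * m ∨ B * X ^ (-θ) ≤ m * M) →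
      MS M m (LL (16 * B) (cf β g w t)) ≤ X ^ (-θ) * B ^ (11 / 6 : ℝ)

end Vale.Agent.P006
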