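import Vale.Agent.P006.NBas

/-! N2: the large sieves, uniformly in `X`.
Plan: take each statement with `ε / 20`; `(M N) ^ (ε / 20) ≤ X ^ (6 ε / 20)`; constants by `ev_const`, `ev_log`, `ev_tau`, `card_ball_le`
(`1 + N ≤ 2 N`).  Absorb `conj (cub n y)` into the coefficients (`norm_cub_le`); for `ls1` restrict `ball N` to `qball N` (`Co`, `Sf`) and use
`cub_recip`; `∑ ‖a n‖ ^ 2 ≤ A ^ 2 * card (ball N)`; for `jls` rewrite `prs` by `Finset.sum_filter`, `Finset.sum_product`. -/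

namespace Vale.Agent.P006

open Vale.Agent.P026 Filter
open scoped ComplexConjugate Real

theorem nenv_abs {X ε K u v : ℝ} (hε : 0 < ε) (hX : 1 ≤ X) (hK : K ≤ X ^ (ε / 2)) (hu : 1 ≤ u)
    (hu' : u ≤ X ^ 3) (hv : 1 ≤ v) (hv' : v ≤ X ^ 3) : K * (u * v) ^ (ε / 20) ≤ X ^ ε := by
  have hX0 : 0 < X := by linarith
  have h1 : u * v ≤ X ^ (6 : ℝ) := by
    rw [show (6 : ℝ) = ((6 : ℕ) : ℝ) by norm_num, Real.rpow_natCast,
      show X ^ 6 = X ^ 3 * X ^ 3 by ring]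
    exact mul_le_mul hu' hv' (by linarith) (by positivity)
  have h2 : (u * v) ^ (ε / 20) ≤ X ^ (ε / 2) := by
    refine (Real.rpow_le_rpow (by positivity) h1 (by positivity)).trans ?_
    rw [← Real.rpow_mul hX0.le]
    exact Real.rpow_le_rpow_of_exponent_le hX (by linarith)
  calc K * (u * v) ^ (ε / 20) ≤ X ^ (ε / 2) * X ^ (ε / 2) :=
        mul_le_mul hK h2 (by positivity) (by positivity)
    _ = X ^ ε := by rw [← Real.rpow_add hX0, add_halves]

theorem nenv_l2 {D A N : ℝ} {a : O → ℂ} (hD : ((ball N).card : ℝ) ≤ D * N) (ha : Co A N a) :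
    ∑ n ∈ ball N, ‖a n‖ ^ 2 ≤ D * N * A ^ 2 := by
  refine (Finset.sum_le_card_nsmul _ _ (A ^ 2) fun n _ =>
    pow_le_pow_left₀ (norm_nonneg _) (ha n).1 2).trans ?_
  rw [nsmul_eq_mul]
  exact mul_le_mul_of_nonneg_right hD (sq_nonneg _)

theorem nenv_tw (s : Finset O) (a : O → ℂ) (y : O) :
    ∑ n ∈ s, ‖a n * conj (cub n y)‖ ^ 2 ≤ ∑ n ∈ s, ‖a n‖ ^ 2 := by
  refine Finset.sum_le_sum fun n _ => pow_le_pow_left₀ (norm_nonneg _) ?_ 2
  rw [norm_mul, Complex.norm_conj]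
  exact mul_le_of_le_one_right (norm_nonneg _) (norm_cub_le n y)

theorem nenv_LL (N : ℝ) (a : O → ℂ) (x y : O) :
    LL N a x y = ∑ n ∈ ball N, a n * conj (cub n y) * cub n x :=
  Finset.sum_congr rfl fun n _ => by unfold ch; ring

theorem nenv_LL1 {A N : ℝ} {a : O → ℂ} (ha : Co A N a) (hs : Sf a) {x : O} (hx : Prim x) (y : O) :
    LL N a x y = ∑ n ∈ qball N, a n * conj (cub n y) * cub x n := by
  rw [nenv_LL, ← Finset.sum_subset (qball_subset N)]
  · refine Finset.sum_congr rfl fun n hn => ?_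
    rw [cub_recip (mem_qball.1 hn).1.1 hx]
  · intro n hn hn'
    have h : a n = 0 := by
      by_contra h
      exact hn' (mem_qball.2 ⟨⟨((ha n).2 h).1, hs n h⟩, ((ha n).2 h).2⟩)
    rw [h, zero_mul, zero_mul]

open Classical in
theorem nenv_MS (M m : ℝ) (F : O → O → ℂ) : MS M m F =
    ∑ x ∈ qball M, ∑ y ∈ (qball m).filter (fun y => IsCoprime x y), ‖F x y‖ ^ 2 := by
  unfold MS prs
  rw [Finset.sum_filter, Finset.sum_product]
  exact Finset.sum_congr rfl fun x _ => (Finset.sum_filter _ _).symm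

theorem nenv_fin {S C P G L D N A E : ℝ} (h : S ≤ C * P * G * L) (hL : L ≤ D * N * A ^ 2)
    (hE : C * D * P ≤ E) (hC : 0 ≤ C) (hP : 0 ≤ P) (hG : 0 ≤ G) (hN : 0 ≤ N) :
    S ≤ E * A ^ 2 * N * G :=
  calc S ≤ C * P * G * (D * N * A ^ 2) := h.trans (mul_le_mul_of_nonneg_left hL (by positivity))
    _ = C * D * P * (A ^ 2 * N * G) := by ring
    _ ≤ E * (A ^ 2 * N * G) := mul_le_mul_of_nonneg_right hE (by positivity)
    _ = _ := by ring

theorem env (h1 : LS1Stmt) (h3 : LS3Stmt) (hm : HMStmt) (hj : JLSStmt) : EnvStmt := by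
  intro ε hε
  obtain ⟨C₁, c1, h1⟩ := h1 (ε / 20) (by positivity)
  obtain ⟨C₃, c3, h3⟩ := h3 (ε / 20) (by positivity)
  obtain ⟨C₄, c4, hm⟩ := hm (ε / 20) (by positivity)
  obtain ⟨C₅, c5, hj⟩ := hj (ε / 20) (by positivity)
  obtain ⟨D, hD, hc⟩ := card_ball_le
  have hc' : ∀ N : ℝ, 1 ≤ N → ((ball N).card : ℝ) ≤ 2 * D * N := fun N hN => by
    have := hc N (by linarith)
    nlinarith
  filter_upwards [eventually_ge_atTop (1 : ℝ), ev_log 3 1 hε, ev_tau 3 hε, ev_const (2 * D) hε,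
    ev_const (C₁ * (2 * D)) (half_pos hε), ev_const C₃ (half_pos hε),
    ev_const (C₄ * (2 * D)) (half_pos hε), ev_const (C₅ * (2 * D)) (half_pos hε)]
    with X hX e1 e2 e3 e4 e5 e6 e7
  refine ⟨Real.one_le_rpow hX hε.le, ?_, fun n hn h => e2 n hn ?_,
    fun N hN => (hc' N hN).trans (mul_le_mul_of_nonneg_right e3 (by linarith)),
    fun A N M a y ha hs n1 n2 m1 m2 => ?_, fun N M a y n1 n2 m1 m2 => ?_,
    fun A N M a y s ha n1 n2 m1 m2 hs => ?_, fun A N M m a ha n1 n2 m1 m2 k1 k2 => ?_⟩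
  · rw [Real.log_pow]
    simpa using e1
  · rw [show (3 : ℝ) = ((3 : ℕ) : ℝ) by norm_num, Real.rpow_natCast]
    exact h
  · rw [Finset.sum_congr rfl fun x hx => by rw [nenv_LL1 ha hs (mem_qball.1 hx).1.1]]
    refine nenv_fin (h1 M N _ m1 n1) ((nenv_tw _ a y).trans (le_trans ?_ (nenv_l2 (hc' N n1) ha)))
      (nenv_abs hε hX e4 m1 m2 n1 n2) c1.le (by positivity) (by positivity) (by linarith)
    exact Finset.sum_le_sum_of_subset_of_nonneg (qball_subset N) fun _ _ _ => sq_nonneg _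
  · simp only [nenv_LL]
    refine (h3 N M _ n1 m1).trans ?_
    have h0 : 0 ≤ f3 N M := f3_nonneg (by linarith) (by linarith)
    exact mul_le_mul (mul_le_mul_of_nonneg_right (nenv_abs hε hX e5 n1 n2 m1 m2) h0)
      (nenv_tw _ a y) (Finset.sum_nonneg fun _ _ => sq_nonneg _) (by positivity)
  · simp only [nenv_LL]
    exact nenv_fin (hm N M _ s n1 m1 hs) ((nenv_tw _ a y).trans (nenv_l2 (hc' N n1) ha))
      (nenv_abs hε hX e6 n1 n2 m1 m2) c4.le (by positivity) (by positivity) (by linarith)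
  · rw [nenv_MS]
    exact nenv_fin (hj N M m a n1 m1 k1) (nenv_l2 (hc' N n1) ha)
      (nenv_abs hε hX e7 m1 m2 k1 k2) c5.le (by positivity) (by positivity) (by linarith)

end Vale.Agent.P006
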