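import Vale.Agent.P006.NBil

/-! N6: mean squares of products by large values.
Plans (`Lᵢ = LL Nᵢ bᵢ`): `prodB`: pointwise `|L₁L₂|² ≤ |L₁L₂²|²/V₂² + |L₁²L₂|²/V₁² + V₁²V₂²`; `Env.mul` twice, `Env.jls`, `Env.card_prs`.
`lv`: on the set `s`, `#s V^{2(j+1)} ≤ ∑ |L^{j+1}|²`; `Env.pow`, `Env.hm`; the term with `#s` is at most half of the left side.
`prodU`: `Env.MS_le`; for fixed `y` pointwise `|L₁L₂|² ≤ V²|L₁|² + |L₁L₂²|²/V'² + V'² 1[V ≤ |L₂|] |L₁|²`; `Env.ls1`, `Env.ls3c`, and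
Cauchy–Schwarz `∑_s |L₁|² ≤ √#s √(∑ |L₁²|²)`. -/

namespace Vale.Agent.P006

open Vale.Agent.P026 Filter
open scoped ComplexConjugate Real

open Classical in
/-- large value count -/
def LV (N M V r : ℝ) : Prop := ∀ (b : O → ℂ) (y : O), Co 1 N b →
  (((qball M).filter fun x => V ≤ ‖LL N b x y‖).card : ℝ) ≤ r

theorem Prd.symm {N₁ N₂ M m S : ℝ} (h : Prd N₁ N₂ M m S) : Prd N₂ N₁ M m S := by
  intro b₁ b₂ a1 a2 a3 a4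
  simpa only [mul_comm] using h b₂ b₁ a3 a4 a1 a2
theorem Prd.mono {N₁ N₂ M m S S' : ℝ} (h : Prd N₁ N₂ M m S) (hS : S ≤ S') : Prd N₁ N₂ M m S' :=
  fun b₁ b₂ a1 a2 a3 a4 => (h b₁ b₂ a1 a2 a3 a4).trans hS
theorem NProd_cube {E R N₁ N₂ : ℝ} {b₁ b₂ : O → ℂ} (h : Env E R) (h1 : 1 ≤ N₁) (h2 : 1 ≤ N₂)
    (h3 : N₁ * N₂ ^ 2 ≤ R) (a1 : Co 1 N₁ b₁) (a2 : Co 1 N₂ b₂) :
    ∃ c, Co (E ^ 2) (N₁ * N₂ ^ 2) c ∧ ∀ x y, ‖LL (N₁ * N₂ ^ 2) c x y‖ =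
      ‖LL N₁ b₁ x y‖ * ‖LL N₂ b₂ x y‖ ^ 2 := by
  obtain ⟨c, c1, c2⟩ := h.pow a2 h2 1 ((le_mul_of_one_le_left (by positivity) h1).trans h3)
  obtain ⟨d, d1, d2⟩ := h.mul a1 c1 h3
  refine ⟨d, d1.mono (le_of_eq (by ring)) le_rfl, fun x y => ?_⟩
  rw [← norm_pow, ← norm_mul]
  exact congrArg norm ((d2 x y).symm.trans (by rw [← c2]))
theorem NProd_big {u v V : ℝ} (hV : 0 < V) (h : V ≤ v) : (u * v) ^ 2 ≤ (u * v ^ 2) ^ 2 / V ^ 2 := by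
  rw [le_div_iff₀ (by positivity), show (u * v ^ 2) ^ 2 = (u * v) ^ 2 * v ^ 2 by ring]
  gcongr
theorem NProd_ptB {u v V₁ V₂ : ℝ} (hu : 0 ≤ u) (hv : 0 ≤ v) (hV₁ : 0 < V₁) (hV₂ : 0 < V₂) :
    (u * v) ^ 2 ≤ (u * v ^ 2) ^ 2 / V₂ ^ 2 + (v * u ^ 2) ^ 2 / V₁ ^ 2 + V₁ ^ 2 * V₂ ^ 2 := by
  have p1 : 0 ≤ (u * v ^ 2) ^ 2 / V₂ ^ 2 := by positivity
  have p2 : 0 ≤ (v * u ^ 2) ^ 2 / V₁ ^ 2 := by positivity
  have p3 : 0 ≤ V₁ ^ 2 * V₂ ^ 2 := by positivity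
  rcases le_total V₂ v with h | h
  · linarith [NProd_big (u := u) hV₂ h]
  rcases le_total V₁ u with h' | h'
  · have := NProd_big (u := v) hV₁ h'
    rw [mul_comm v u] at this
    linarith
  · have : (u * v) ^ 2 ≤ V₁ ^ 2 * V₂ ^ 2 := by
      rw [mul_pow]
      gcongr
    linarith
theorem NProd_ptU {u v V V' : ℝ} (hv : 0 ≤ v) (hV' : 0 < V') :
    (u * v) ^ 2 ≤ V ^ 2 * u ^ 2 + (u * v ^ 2) ^ 2 / V' ^ 2 +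
      V' ^ 2 * (if V ≤ v then u ^ 2 else 0) := by
  have p1 : 0 ≤ V ^ 2 * u ^ 2 := by positivity
  have p2 : 0 ≤ (u * v ^ 2) ^ 2 / V' ^ 2 := by positivity
  split_ifs with h
  · have p3 : 0 ≤ V' ^ 2 * u ^ 2 := by positivity
    rcases le_total V' v with h' | h'
    · linarith [NProd_big (u := u) hV' h']
    · have : (u * v) ^ 2 ≤ V' ^ 2 * u ^ 2 := by
        rw [mul_pow, mul_comm]
        gcongr
      linarith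
  · have h' := (not_le.1 h).le
    have : (u * v) ^ 2 ≤ V ^ 2 * u ^ 2 := by
      rw [mul_pow, mul_comm]
      gcongr
    linarith
theorem Env.prodB {E R N₁ N₂ M m V₁ V₂ : ℝ} (h : Env E R) (h1 : 1 ≤ N₁) (h2 : 1 ≤ N₂)
    (h3 : N₁ * N₂ ^ 2 ≤ R) (h4 : N₁ ^ 2 * N₂ ≤ R) (h5 : 1 ≤ M) (h6 : M ≤ R) (h7 : 1 ≤ m)
    (h8 : m ≤ R) (hV₁ : 0 < V₁) (hV₂ : 0 < V₂) :
    Prd N₁ N₂ M m (E ^ 5 * (N₁ * N₂ ^ 2 * (N₁ * N₂ ^ 2 + (M * m) ^ 2) / V₂ ^ 2 +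
      N₁ ^ 2 * N₂ * (N₁ ^ 2 * N₂ + (M * m) ^ 2) / V₁ ^ 2 + V₁ ^ 2 * V₂ ^ 2 * (M * m))) := by
  intro b₁ b₂ a1 _ a2 _
  have hE := h.one
  have h4' : N₂ * N₁ ^ 2 ≤ R := by rwa [mul_comm]
  obtain ⟨c, c1, c2⟩ := NProd_cube h h1 h2 h3 a1 a2
  obtain ⟨d, d1, d2⟩ := NProd_cube h h2 h1 h4' a2 a1
  have j1 := h.jls _ _ M m c c1 (one_le_mul_of_one_le_of_one_le h1 (one_le_pow₀ h2)) h3 h5 h6 h7 h8
  have j2 := h.jls _ _ M m d d1 (one_le_mul_of_one_le_of_one_le h2 (one_le_pow₀ h1)) h4' h5 h6 h7 h8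
  have j3 : ((prs M m).card : ℝ) ≤ E ^ 5 * (M * m) := (h.card_prs h5 h7).trans
    (mul_le_mul_of_nonneg_right (pow_le_pow_right₀ hE (by norm_num)) (by positivity))
  calc _ ≤ ∑ p ∈ prs M m, (‖LL (N₁ * N₂ ^ 2) c p.1 p.2‖ ^ 2 / V₂ ^ 2 +
          ‖LL (N₂ * N₁ ^ 2) d p.1 p.2‖ ^ 2 / V₁ ^ 2 + V₁ ^ 2 * V₂ ^ 2) := by
        refine Finset.sum_le_sum fun p _ => ?_
        rw [c2, d2, norm_mul]
        exact NProd_ptB (norm_nonneg _) (norm_nonneg _) hV₁ hV₂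
    _ = MS M m (LL (N₁ * N₂ ^ 2) c) / V₂ ^ 2 + MS M m (LL (N₂ * N₁ ^ 2) d) / V₁ ^ 2 +
          (prs M m).card * (V₁ ^ 2 * V₂ ^ 2) := by
        rw [Finset.sum_add_distrib, Finset.sum_add_distrib, ← Finset.sum_div, ← Finset.sum_div,
          Finset.sum_const, nsmul_eq_mul, MS, MS]
    _ ≤ E * (E ^ 2) ^ 2 * (N₁ * N₂ ^ 2) * (N₁ * N₂ ^ 2 + (M * m) ^ 2) / V₂ ^ 2 +
          E * (E ^ 2) ^ 2 * (N₂ * N₁ ^ 2) * (N₂ * N₁ ^ 2 + (M * m) ^ 2) / V₁ ^ 2 +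
          E ^ 5 * (M * m) * (V₁ ^ 2 * V₂ ^ 2) := by gcongr
    _ = _ := by ring
theorem Env.lv {E R N M V Z : ℝ} {j : ℕ} (h : Env E R) (h1 : 1 ≤ N) (hZ : Z = N ^ (j + 1))
    (h2 : Z ≤ R) (h3 : 1 ≤ M) (h4 : M ≤ R) (hV : 0 < V)
    (h5 : 2 * E ^ (2 * j + 1) * Z ^ (7 / 6 : ℝ) * M ^ (2 / 3 : ℝ) ≤ V ^ (2 * (j + 1))) :
    LV N M V (2 * E ^ (2 * j + 1) * Z *
      (Z + Z ^ (5 / 6 : ℝ) * M ^ (1 / 3 : ℝ) + Z ^ (1 / 6 : ℝ) * M ^ (4 / 3 : ℝ)) /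
        V ^ (2 * (j + 1))) := by
  classical
  intro b y hb
  subst hZ
  obtain ⟨c, c1, c2⟩ := h.pow hb h1 j h2
  have hZ1 : 1 ≤ N ^ (j + 1) := one_le_pow₀ h1
  have k1 := h.hm _ _ M c y ((qball M).filter fun x => V ≤ ‖LL N b x y‖) c1 hZ1 h2 h3 h4
    (Finset.filter_subset _ _)
  have k2 := Finset.card_nsmul_le_sum ((qball M).filter fun x => V ≤ ‖LL N b x y‖)
    (fun x => ‖LL (N ^ (j + 1)) c x y‖ ^ 2) (V ^ (2 * (j + 1))) fun x hx => by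
      rw [← c2, norm_pow, ← pow_mul, mul_comm (j + 1)]
      exact pow_le_pow_left₀ hV.le (Finset.mem_filter.1 hx).2 _
  rw [nsmul_eq_mul] at k2
  generalize N ^ (j + 1) = Z at *
  have k3 : Z ^ (7 / 6 : ℝ) = Z * Z ^ (1 / 6 : ℝ) := by
    rw [show (7 / 6 : ℝ) = 1 + 1 / 6 by norm_num, Real.rpow_add (by linarith), Real.rpow_one]
  have k4 : E * (E ^ j) ^ 2 = E ^ (2 * j + 1) := by ring
  rw [k3] at h5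
  rw [k4] at k1
  have k5 := mul_le_mul_of_nonneg_left h5
    (Nat.cast_nonneg ((qball M).filter fun x => V ≤ ‖LL N b x y‖).card)
  rw [le_div_iff₀ (by positivity)]
  linarith
theorem Env.prodU {E R N₁ N₂ M m V V' r : ℝ} (h : Env E R) (h1 : 1 ≤ N₁) (h2 : 1 ≤ N₂)
    (h3 : N₁ * N₂ ^ 2 ≤ R) (h4 : N₁ ^ 2 ≤ R) (h5 : 1 ≤ M) (h6 : M ≤ R) (h7 : 1 ≤ m) (hV : 0 < V)
    (hV' : 0 < V') (hr : LV N₂ M V r) :
    Prd N₁ N₂ M m (E ^ 7 * m * (V ^ 2 * N₁ * (M + N₁ + (M * N₁) ^ (2 / 3 : ℝ)) +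
      N₁ * N₂ ^ 2 * f3 (N₁ * N₂ ^ 2) M / V' ^ 2 + V' ^ 2 * √r * √(N₁ ^ 2 * f3 (N₁ ^ 2) M))) := by
  classical
  intro b₁ b₂ a1 s1 a2 _
  have hE := h.one
  have _ := hV
  obtain ⟨c, c1, c2⟩ := NProd_cube h h1 h2 h3 a1 a2
  obtain ⟨d, d1, d2⟩ := h.pow a1 h1 1 h4
  have f1 := f3_nonneg (N := N₁ * N₂ ^ 2) (M := M) (by positivity) (by positivity)
  have f2 := f3_nonneg (N := N₁ ^ 2) (M := M) (by positivity) (by positivity)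
  rw [show E ^ 7 * m = E * m * E ^ 6 by ring, mul_assoc _ (E ^ 6)]
  refine h.MS_le h7 (by positivity) fun y => ?_
  have j1 := h.ls1 _ _ M b₁ y a1 s1 h1 ((le_self_pow₀ h1 two_ne_zero).trans h4) h5 h6
  have j2 := h.ls3c c1 y (one_le_mul_of_one_le_of_one_le h1 (one_le_pow₀ h2)) h3 h5 h6
  have j3 : ∑ x ∈ qball M, ‖LL (N₁ ^ 2) d x y‖ ^ 2 ≤ E ^ 2 * (E ^ 1) ^ 2 * N₁ ^ 2 * f3 (N₁ ^ 2) M :=
    h.ls3c d1 y (one_le_pow₀ h1) h4 h5 h6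
  have j4 : ∑ x ∈ (qball M).filter fun x => V ≤ ‖LL N₂ b₂ x y‖, ‖LL N₁ b₁ x y‖ ^ 2 ≤
      √r * (E ^ 2 * √(N₁ ^ 2 * f3 (N₁ ^ 2) M)) := by
    have k1 := Real.sum_mul_le_sqrt_mul_sqrt ((qball M).filter fun x => V ≤ ‖LL N₂ b₂ x y‖)
      (fun _ => 1) fun x => ‖LL N₁ b₁ x y‖ ^ 2
    simp only [one_mul, one_pow, Finset.sum_const, nsmul_eq_mul, mul_one] at k1
    refine k1.trans (mul_le_mul (Real.sqrt_le_sqrt ?_) ?_ (Real.sqrt_nonneg _) (Real.sqrt_nonneg _))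
    · convert hr b₂ y a2
    · rw [← Real.sqrt_sq (pow_nonneg (zero_le_one.trans hE) 2), ← Real.sqrt_mul (sq_nonneg _)]
      refine Real.sqrt_le_sqrt (le_trans ?_ (j3.trans_eq (by ring)))
      refine (Finset.sum_le_sum_of_subset_of_nonneg (Finset.filter_subset _ _)
        fun _ _ _ => sq_nonneg _).trans_eq (Finset.sum_congr rfl fun x _ => ?_)
      rw [← norm_pow]
      exact congrArg (fun z => ‖z‖ ^ 2) (d2 x y)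
  have e1 : E ≤ E ^ 6 := le_self_pow₀ hE (by norm_num)
  have e2 : E ^ 2 ≤ E ^ 6 := pow_le_pow_right₀ hE (by norm_num)
  calc _ ≤ ∑ x ∈ qball M, (V ^ 2 * ‖LL N₁ b₁ x y‖ ^ 2 + ‖LL (N₁ * N₂ ^ 2) c x y‖ ^ 2 / V' ^ 2 +
          V' ^ 2 * (if V ≤ ‖LL N₂ b₂ x y‖ then ‖LL N₁ b₁ x y‖ ^ 2 else 0)) := by
        refine Finset.sum_le_sum fun x _ => ?_
        rw [c2, norm_mul]
        exact NProd_ptU (norm_nonneg _) hV'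
    _ = V ^ 2 * ∑ x ∈ qball M, ‖LL N₁ b₁ x y‖ ^ 2 +
          (∑ x ∈ qball M, ‖LL (N₁ * N₂ ^ 2) c x y‖ ^ 2) / V' ^ 2 +
          V' ^ 2 * ∑ x ∈ (qball M).filter fun x => V ≤ ‖LL N₂ b₂ x y‖, ‖LL N₁ b₁ x y‖ ^ 2 := by
        rw [Finset.sum_add_distrib, Finset.sum_add_distrib, ← Finset.sum_div, ← Finset.mul_sum,
          ← Finset.mul_sum, Finset.sum_filter]
    _ ≤ V ^ 2 * (E ^ 6 * 1 ^ 2 * N₁ * (M + N₁ + (M * N₁) ^ (2 / 3 : ℝ))) +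
          E ^ 2 * (E ^ 2) ^ 2 * (N₁ * N₂ ^ 2) * f3 (N₁ * N₂ ^ 2) M / V' ^ 2 +
          V' ^ 2 * (√r * (E ^ 6 * √(N₁ ^ 2 * f3 (N₁ ^ 2) M))) := by
        gcongr
        · exact j1.trans (by gcongr)
        · exact j4.trans (by gcongr)
    _ = _ := by ring

end Vale.Agent.P006
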