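import Vale.Agent.P006.NProd
import Vale.Agent.P006.NPow

/-! N7: the product estimate, exponents.  Write every parameter as a power of `X` (`npow_ex`), collect with `npow_mul` etc., finish by `linarith`/`nlinarith`;
a sum of `k` terms each `≤ X^{a-δ}` is `≤ X^a` by `ev_const`.  `N = N₁ N₂`.
`prodXB`: `Env.prodB` with `Vᵢ = Nᵢ^{5/6 - η₀/10}`; `M m ≤ X^κ N^{2/3}`; `N₂ ≤ N X^{-η₀}`, `N₂^{η₀/5} ≤ X^{0.14 η₀}`; every term is `≤ X^{7κ - 0.08 η₀} N^{7/3}`.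
`prodXL` (`N₂ ≤ N₁`, `M ≤ N X^κ`): `j + 1` minimal with `N^{1.4} ≤ N₂^{j+1}`, so `Z ≤ N^{1.9}`, `(j+1) η₀ ≤ 1.33`, `E^{2j+1} ≤ X^{0.00014}`; `Env.lv`.
`prodXU`: by `Prd.symm` assume `N₂ ≤ N₁`; `Env.prodU` with `V = N₂^{5/6 - 1/2000}`, `V' = N₂^{5/6 + 1/2000}`, `r = N^{0.663}`; the first six terms are
`≤ X^{9κ - η₀/1000} N^{7/3}`, `f3 (N₁²) M ≤ 3 X^κ N₁^{4/3} N^{2/3}`, the last term is `≤ 2 X^{9κ} N^{2.332}`. -/

namespace Vale.Agent.P006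

open Vale.Agent.P026 Filter
open scoped ComplexConjugate Real

theorem NProdX_pos {X c y : ℝ} (hX : 1 < X) (h : X ^ c ≤ y) : 0 < y :=
  (Real.rpow_pos_of_pos (by linarith) c).trans_le h

theorem NProdX_fin {X κ d k : ℝ} (hX : 1 < X) (hk : k ≤ X ^ κ) :
    k * X ^ (d - κ) ≤ X ^ d := by
  refine (mul_le_mul_of_nonneg_right hk (Real.rpow_nonneg (by linarith) _)).trans_eq ?_
  rw [npow_mul hX, add_sub_cancel]

theorem prodXB {η₀ κ : ℝ} (h0 : η₀ ≤ 1 / 10) (hκ : 0 < κ) (h : 20000 * κ ≤ η₀) :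
    ∀ᶠ X : ℝ in atTop, ∀ E N₁ N₂ M m : ℝ, Env E (X ^ 3) → E ≤ X ^ κ → X ^ η₀ ≤ N₁ → X ^ η₀ ≤ N₂ →
      X ^ (0.4 : ℝ) ≤ N₁ * N₂ → N₁ * N₂ ≤ X ^ (0.7 : ℝ) → 1 ≤ m → m ≤ M →
      m ^ 2 * M ≤ N₁ * N₂ * X ^ κ → M ≤ X ^ κ * m →
        Prd N₁ N₂ M m (X ^ (-κ) * (N₁ * N₂) ^ (7 / 3 : ℝ)) := by
  filter_upwards [eventually_gt_atTop 1, ev_const 5 hκ]
    with X hX h5 E N₁ N₂ M m hE he ha hb hn hn' hm hM hp hq
  obtain ⟨e, rfl⟩ := npow_ex hX (one_pos.trans_le hE.one)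
  obtain ⟨a, rfl⟩ := npow_ex hX (NProdX_pos hX ha)
  obtain ⟨b, rfl⟩ := npow_ex hX (NProdX_pos hX hb)
  obtain ⟨μ, rfl⟩ := npow_ex hX (one_pos.trans_le (hm.trans hM))
  obtain ⟨ν, rfl⟩ := npow_ex hX (one_pos.trans_le hm)
  have hX0 : 0 < X := by linarith
  simp only [npow_mul hX, npow_pow hX, npow_le hX, npow_one_le hX, Nat.cast_ofNat]
    at he ha hb hn hn' hm hM hp hq
  have hη : 0 < η₀ := by linarith
  have p1 : η₀ * a ≤ η₀ * 0.7 := mul_le_mul_of_nonneg_left (by linarith) hη.le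
  have p2 : η₀ * b ≤ η₀ * 0.7 := mul_le_mul_of_nonneg_left (by linarith) hη.le
  have p3 : η₀ * 0.4 ≤ η₀ * (a + b) := mul_le_mul_of_nonneg_left hn hη.le
  have hR : ∀ c : ℝ, c ≤ 3 → X ^ c ≤ X ^ 3 := fun c hc => by rwa [npow_three, npow_le hX]
  refine (hE.prodB (V₁ := X ^ (a * (5 / 6 - η₀ / 10))) (V₂ := X ^ (b * (5 / 6 - η₀ / 10)))
    ((npow_one_le hX).2 (by linarith)) ((npow_one_le hX).2 (by linarith)) ?_ ?_
    ((npow_one_le hX).2 (by linarith)) (hR _ (by linarith)) ((npow_one_le hX).2 hm)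
    (hR _ (by linarith)) (by positivity) (by positivity)).mono ?_
  · simp only [npow_mul hX, npow_pow hX, Nat.cast_ofNat]
    exact hR _ (by linarith)
  · simp only [npow_mul hX, npow_pow hX, Nat.cast_ofNat]
    exact hR _ (by linarith)
  · simp only [mul_add, add_div, npow_mul hX, npow_pow hX, npow_div hX, npow_rpow hX,
      Nat.cast_ofNat]
    refine le_trans ?_ (NProdX_fin hX h5)
    obtain ⟨d, hd⟩ : ∃ d, d = -κ + (a + b) * (7 / 3) - κ := ⟨_, rfl⟩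
    rw [← hd]
    calc _ ≤ X ^ d + X ^ d + (X ^ d + X ^ d) + X ^ d := by
          gcongr <;> first | exact hX.le | linarith
      _ = _ := by ring

theorem prodXL {η₀ κ : ℝ} (h0 : η₀ ≤ 1 / 10) (hκ : 0 < κ) (h : 20000 * κ ≤ η₀) :
    ∀ᶠ X : ℝ in atTop, ∀ E N₁ N₂ M : ℝ, Env E (X ^ 3) → E ≤ X ^ κ → X ^ η₀ ≤ N₂ → N₂ ≤ N₁ →
      X ^ (0.4 : ℝ) ≤ N₁ * N₂ → N₁ * N₂ ≤ X ^ (0.7 : ℝ) → 1 ≤ M → M ≤ N₁ * N₂ * X ^ κ →
        LV N₂ M (N₂ ^ (5 / 6 - 1 / 2000 : ℝ)) ((N₁ * N₂) ^ (0.663 : ℝ)) := by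
  filter_upwards [eventually_gt_atTop 1, ev_const 6 (by norm_num : (0 : ℝ) < 0.001)]
    with X hX h6 E N₁ N₂ M hE he hb hab hn hn' hM hp
  obtain ⟨e, rfl⟩ := npow_ex hX (one_pos.trans_le hE.one)
  obtain ⟨a, rfl⟩ := npow_ex hX (NProdX_pos hX (hb.trans hab))
  obtain ⟨b, rfl⟩ := npow_ex hX (NProdX_pos hX hb)
  obtain ⟨μ, rfl⟩ := npow_ex hX (one_pos.trans_le hM)
  have hX0 : 0 < X := by linarith
  have he0 := (npow_one_le hX).1 hE.one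
  simp only [npow_mul hX, npow_le hX, npow_one_le hX] at he hb hab hn hn' hM hp
  have hb0 : 0 < b := by linarith
  obtain ⟨j, hj1, hj2⟩ : ∃ j : ℕ, 1.4 * (a + b) ≤ b * (j + 1) ∧ b * (j + 1) ≤ 1.9 * (a + b) := by
    have h1 : 0 ≤ 1.4 * (a + b) / b := by positivity
    refine ⟨⌊1.4 * (a + b) / b⌋₊, ?_, ?_⟩
    · rw [mul_comm b, ← div_le_iff₀ hb0]
      exact (Nat.lt_floor_add_one _).le
    · have h2 := (le_div_iff₀ hb0).1 (Nat.floor_le h1)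
      linarith
  have hj0 : (0 : ℝ) ≤ j := Nat.cast_nonneg j
  have p1 : e * (2 * j + 1) ≤ 0.00014 := by
    have h1 : e * (j + 1) ≤ b / 20000 * (j + 1) :=
      mul_le_mul_of_nonneg_right (by linarith) (by linarith)
    linarith
  have hR : ∀ c : ℝ, c ≤ 3 → X ^ c ≤ X ^ 3 := fun c hc => by rwa [npow_three, npow_le hX]
  have h2 : (2 : ℝ) ≤ X ^ (0.001 : ℝ) := by linarith
  intro β y hβ
  refine (hE.lv (j := j) (Z := X ^ (b * (j + 1))) (V := (X ^ b) ^ (5 / 6 - 1 / 2000 : ℝ))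
    ((npow_one_le hX).2 hb0.le) (by rw [npow_pow hX]; push_cast; rfl) (hR _ (by linarith))
    ((npow_one_le hX).2 hM) (hR _ (by linarith)) (by positivity) ?_ β y hβ).trans ?_
  · simp only [mul_assoc (2 : ℝ), npow_mul hX, npow_pow hX, npow_rpow hX]
    refine le_trans (mul_le_mul_of_nonneg_left ((npow_le hX).2 ?_) zero_le_two)
      (NProdX_fin hX h2)
    push_cast
    linarith
  · rw [mul_assoc (2 : ℝ), mul_assoc (2 : ℝ), mul_div_assoc]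
    simp only [mul_add (X ^ (_ : ℝ)), add_div, npow_mul hX, npow_pow hX, npow_div hX, npow_rpow hX]
    refine le_trans ?_ (NProdX_fin hX h6)
    obtain ⟨d, hd⟩ : ∃ d, d = (a + b) * 0.663 - 0.001 := ⟨_, rfl⟩
    rw [← hd]
    push_cast
    calc _ ≤ 2 * (X ^ d + X ^ d + X ^ d) := by
          gcongr <;> first | exact hX.le | linarith
      _ = _ := by ring

theorem prodXU {η₀ κ : ℝ} (h0 : η₀ ≤ 1 / 10) (hκ : 0 < κ) (h : 20000 * κ ≤ η₀) :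
    ∀ᶠ X : ℝ in atTop, ∀ E N₁ N₂ M m : ℝ, Env E (X ^ 3) → E ≤ X ^ κ → X ^ η₀ ≤ N₁ → X ^ η₀ ≤ N₂ →
      X ^ (0.4 : ℝ) ≤ N₁ * N₂ → N₁ * N₂ ≤ X ^ (0.7 : ℝ) → 1 ≤ m → m ≤ M →
      m ^ 2 * M ≤ N₁ * N₂ * X ^ κ → m ≤ X ^ κ →
        Prd N₁ N₂ M m (X ^ (-κ) * (N₁ * N₂) ^ (7 / 3 : ℝ)) := by
  filter_upwards [eventually_gt_atTop 1, ev_const 7 hκ, prodXL h0 hκ h] with X hX h7 hL
  suffices H : ∀ E N₁ N₂ M m : ℝ, N₂ ≤ N₁ → Env E (X ^ 3) → E ≤ X ^ κ → X ^ η₀ ≤ N₂ →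
      X ^ (0.4 : ℝ) ≤ N₁ * N₂ → N₁ * N₂ ≤ X ^ (0.7 : ℝ) → 1 ≤ m → m ≤ M →
      m ^ 2 * M ≤ N₁ * N₂ * X ^ κ → m ≤ X ^ κ →
        Prd N₁ N₂ M m (X ^ (-κ) * (N₁ * N₂) ^ (7 / 3 : ℝ)) by
    intro E N₁ N₂ M m hE he ha hb hn hn' hm hM hp hq
    rcases le_total N₂ N₁ with h1 | h1
    · exact H E N₁ N₂ M m h1 hE he hb hn hn' hm hM hp hq
    · rw [mul_comm N₁ N₂] at hn hn' hp ⊢
      exact (H E N₂ N₁ M m h1 hE he ha hn hn' hm hM hp hq).symm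
  intro E N₁ N₂ M m hab hE he hb hn hn' hm hM hp hq
  have hV := hL E N₁ N₂ M hE he hb hab hn hn' (hm.trans hM)
    ((le_mul_of_one_le_left (by linarith) (one_le_pow₀ hm)).trans hp)
  obtain ⟨e, rfl⟩ := npow_ex hX (one_pos.trans_le hE.one)
  obtain ⟨a, rfl⟩ := npow_ex hX (NProdX_pos hX (hb.trans hab))
  obtain ⟨b, rfl⟩ := npow_ex hX (NProdX_pos hX hb)
  obtain ⟨μ, rfl⟩ := npow_ex hX (one_pos.trans_le (hm.trans hM))
  obtain ⟨ν, rfl⟩ := npow_ex hX (one_pos.trans_le hm)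
  have hX0 : 0 < X := by linarith
  simp only [npow_mul hX, npow_pow hX, npow_le hX, npow_one_le hX, Nat.cast_ofNat]
    at he hab hb hn hn' hm hM hp hq
  have hR : ∀ c : ℝ, c ≤ 3 → X ^ c ≤ X ^ 3 := fun c hc => by rwa [npow_three, npow_le hX]
  have hf : √((X ^ a) ^ 2 * f3 ((X ^ a) ^ 2) (X ^ μ)) ≤ X ^ (κ + 5 / 3 * a + (a + b) / 3) := by
    have h3 : (3 : ℝ) ≤ X ^ κ := by linarith
    have h4 : f3 ((X ^ a) ^ 2) (X ^ μ) ≤ X ^ (2 * κ + 4 / 3 * a + 2 / 3 * (a + b)) := by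
      refine le_trans ?_ (NProdX_fin hX h3)
      obtain ⟨d, hd⟩ : ∃ d, d = 2 * κ + 4 / 3 * a + 2 / 3 * (a + b) - κ := ⟨_, rfl⟩
      rw [← hd]
      simp only [f3, npow_mul hX, npow_pow hX, npow_rpow hX, Nat.cast_ofNat]
      calc _ ≤ X ^ d + X ^ d + X ^ d := by
            gcongr <;> first | exact hX.le | linarith
        _ = _ := by ring
    refine (Real.sqrt_le_sqrt (mul_le_mul_of_nonneg_left h4 (by positivity))).trans ?_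
    rw [npow_pow hX, npow_mul hX, npow_sqrt hX, npow_le hX]
    push_cast
    linarith
  refine (hE.prodU (V' := (X ^ b) ^ (5 / 6 + 1 / 2000 : ℝ))
    ((npow_one_le hX).2 (by linarith)) ((npow_one_le hX).2 (by linarith)) ?_ ?_
    ((npow_one_le hX).2 (by linarith)) (hR _ (by linarith)) ((npow_one_le hX).2 hm)
    (by positivity) (by positivity) hV).mono ?_
  · simp only [npow_mul hX, npow_pow hX, Nat.cast_ofNat]
    exact hR _ (by linarith)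
  · simp only [npow_pow hX, Nat.cast_ofNat]
    exact hR _ (by linarith)
  · refine (mul_le_mul_of_nonneg_left (add_le_add le_rfl
      (mul_le_mul_of_nonneg_left hf (by positivity))) (by positivity)).trans ?_
    simp only [f3, mul_add (X ^ (_ : ℝ)), add_div, npow_mul hX, npow_pow hX, npow_div hX, npow_rpow hX,
      npow_sqrt hX, Nat.cast_ofNat]
    refine le_trans ?_ (NProdX_fin hX h7)
    obtain ⟨d, hd⟩ : ∃ d, d = -κ + (a + b) * (7 / 3) - κ := ⟨_, rfl⟩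
    rw [← hd]
    calc _ ≤ X ^ d + X ^ d + X ^ d + (X ^ d + X ^ d + X ^ d) + X ^ d := by
          gcongr <;> first | exact hX.le | linarith
      _ = _ := by ring

end Vale.Agent.P006
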