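import Vale.Agent.P006.NBas
import Vale.Agent.P026.RecAux

/-! N4: reduction of a sum over all `k` to boxes.
Plans: `nred_decomp`: `exists_decomp`, `lam ^ j = lam ^ (j % 3) * (lam ^ (j / 3)) ^ 3`, and `Prim.induction` for the primary part (new prime `p`:
`p ∣ y`: move to `z`; `p ∣ x`: move to `y`; else into `x`).  `nred`: `sum_le_sum_cover` with index `(u, i, a, b, z, (x, y))`, `u ∈ ball 1`, `i < 3`,
`a, b ≤ Nat.log 2 ⌊K⌋₊` (`log_mem_range`), `X₁ = 2 ^ (a + 1)`, `Y₁ = 2 ^ (b + 1)`, `(x, y) ∈ prs X₁ Y₁`, `z ≠ 0` with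
`3 ^ i * N z ^ 3 * (X₁ Y₁²) ≤ 8 K` (at most `2 E (K / (X₁ Y₁²)) ^ (1/3)` such `z`, none if this length is `< 1`), `w' = w u λ^i z³`.
`card (ball 1) ≤ E`, number of `a` at most `2 log R + 1 ≤ 3 E`. -/

namespace Vale.Agent.P006

open Vale.Agent.P026 Filter
open scoped ComplexConjugate Real

theorem nred_prim {c : O} (hc : Prim c) : ∃ x y z : O, Sq x ∧ Sq y ∧ IsCoprime x y ∧ z ≠ 0 ∧
    c = x * y ^ 2 * z ^ 3 := by
  refine Prim.induction (P := fun c => ∃ x y z : O, Sq x ∧ Sq y ∧ IsCoprime x y ∧ z ≠ 0 ∧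
    c = x * y ^ 2 * z ^ 3) ⟨1, 1, 1, sq_one, sq_one, isCoprime_one_left, one_ne_zero, by ring⟩ ?_ hc
  rintro p n hp hp' - ⟨x, y, z, hx, hy, hxy, hz, rfl⟩
  have hsp : Sq p := ⟨hp', hp.irreducible.squarefree⟩
  by_cases h1 : p ∣ y
  · obtain ⟨y, rfl⟩ := h1
    exact ⟨x, y, p * z, hx, (hy.right hp').2, hxy.of_mul_right_right,
      mul_ne_zero hp.ne_zero hz, by ring⟩
  have h1' : IsCoprime p y := hp.irreducible.coprime_iff_not_dvd.2 h1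
  by_cases h2 : p ∣ x
  · obtain ⟨x, rfl⟩ := h2
    exact ⟨x, p * y, z, (hx.right hp').2, hsp.mul hy h1',
      IsCoprime.mul_right hx.coprime.symm hxy.of_mul_left_right, hz, by ring⟩
  · exact ⟨p * x, y, z, hsp.mul hx (hp.irreducible.coprime_iff_not_dvd.2 h2), hy,
      h1'.mul_left hxy, hz, by ring⟩

theorem nred_decomp {k : O} (hk : k ≠ 0) : ∃ (u : O) (i : ℕ) (x y z : O), IsUnit u ∧ i < 3 ∧ Sq x ∧
    Sq y ∧ IsCoprime x y ∧ z ≠ 0 ∧ k = u * lam ^ i * x * y ^ 2 * z ^ 3 := by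
  obtain ⟨u, j, c, hu, hc, rfl⟩ := exists_decomp hk
  obtain ⟨x, y, z, hx, hy, hxy, hz, rfl⟩ := nred_prim hc
  refine ⟨u, j % 3, x, y, lam ^ (j / 3) * z, hu, Nat.mod_lt _ (by norm_num), hx, hy, hxy,
    mul_ne_zero (pow_ne_zero _ prime_lam.ne_zero) hz, ?_⟩
  conv_lhs => rw [← Nat.mod_add_div j 3]
  ring

theorem nred_card {E R K P : ℝ} (h : Env E R) (hK : 0 ≤ K) (hP : 0 < P) (T : Finset (O × O))
    (hT : ∀ q ∈ T, (nm q.1 : ℝ) ≤ 9 ∧ q.2 ≠ 0 ∧ (nm q.2 : ℝ) ^ 3 * P ≤ 8 * K) :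
    (T.card : ℝ) * P ^ (1 / 3 : ℝ) ≤ 18 * E ^ 2 * K ^ (1 / 3 : ℝ) := by
  have hE := h.one
  rcases T.eq_empty_or_nonempty with rfl | ⟨q₀, hq₀⟩
  · simp only [Finset.card_empty, Nat.cast_zero, zero_mul]
    positivity
  have hp : 0 < P ^ (1 / 3 : ℝ) := by positivity
  have e : ∀ {t : ℝ}, 0 ≤ t → (t ^ (1 / 3 : ℝ)) ^ 3 = t := fun ht => by
    rw [← Real.rpow_mul_natCast ht]
    norm_num
  have h1 : ∀ q ∈ T, (nm q.2 : ℝ) ≤ 2 * K ^ (1 / 3 : ℝ) / P ^ (1 / 3 : ℝ) := fun q hq => by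
    refine le_of_pow_le_pow_left₀ three_ne_zero (by positivity) ?_
    rw [div_pow, mul_pow, e hK, e hP.le, le_div_iff₀ hP]
    linarith [(hT q hq).2.2]
  have h2 := (one_le_nm (hT q₀ hq₀).2.1).trans (h1 q₀ hq₀)
  have h3 : (T.card : ℝ) ≤ (ball 9).card * (ball (2 * K ^ (1 / 3 : ℝ) / P ^ (1 / 3 : ℝ))).card := by
    rw [← Nat.cast_mul, ← Finset.card_product]
    exact_mod_cast Finset.card_le_card fun q hq =>
      Finset.mem_product.2 ⟨mem_ball.2 (hT q hq).1, mem_ball.2 (h1 q hq)⟩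
  rw [← le_div_iff₀ hp]
  refine h3.trans ((mul_le_mul (h.card 9 (by norm_num)) (h.card _ h2) (by positivity)
    (by positivity)).trans_eq ?_)
  ring

theorem nred_log {E R K : ℝ} (h : Env E R) (hK : 1 ≤ K) (hKR : K ≤ R) :
    ((Nat.log 2 ⌊K⌋₊ + 1 : ℕ) : ℝ) ≤ 3 * E := by
  have h1 := Real.log_le_log (by positivity) ((pow_log_floor_le hK).trans hKR)
  rw [Real.log_pow] at h1
  have h2 := Real.log_two_gt_d9
  have h3 : (0 : ℝ) ≤ Nat.log 2 ⌊K⌋₊ := Nat.cast_nonneg _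
  push_cast
  nlinarith [h.log, h.one]

theorem nred_dy {x : O} (hx : x ≠ 0) : (nm x : ℝ) ≤ 2 ^ (Nat.log 2 (nm x) + 1) ∧
    (2 : ℝ) ^ (Nat.log 2 (nm x) + 1) ≤ 2 * nm x := by
  constructor
  · exact_mod_cast (Nat.lt_pow_succ_log_self one_lt_two _).le
  · rw [pow_succ']
    gcongr
    exact_mod_cast Nat.pow_log_le_self 2 (nm_pos hx).ne'

open Classical in
theorem nred : ∃ C : ℝ, ∀ E R : ℝ, Env E R → C ≤ E → ∀ (F : O → ℝ) (K S : ℝ) (w : O),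
    (∀ k, 0 ≤ F k) → 1 ≤ K → K ≤ R → 0 ≤ S → w ≠ 0 →
    (∀ (w' : O) (X₁ Y₁ : ℝ), w' ≠ 0 → 1 ≤ X₁ → 1 ≤ Y₁ → nm w' * (X₁ * Y₁ ^ 2) ≤ 8 * nm w * K →
      ∑ p ∈ prs X₁ Y₁, F (w' * p.1 * p.2 ^ 2) ≤ S * (X₁ * Y₁ ^ 2) ^ (1 / 3 : ℝ)) →
    ∑ k ∈ (ball K).filter (fun k => k ≠ 0), F (k * w) ≤ E ^ 5 * S * K ^ (1 / 3 : ℝ) := by
  refine ⟨162, fun E R h hE F K S w hF hK hKR hS hw H => ?_⟩
  set I := Finset.range (Nat.log 2 ⌊K⌋₊ + 1) with hI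
  set T : ℕ × ℕ → Finset (O × O) := fun ab => (ball 9 ×ˢ ball K).filter fun q => q.1 ≠ 0 ∧
    q.2 ≠ 0 ∧ (nm q.1 : ℝ) * (nm q.2 : ℝ) ^ 3 * (2 ^ (ab.1 + 1) * (2 ^ (ab.2 + 1)) ^ 2) ≤ 8 * K
    with hT
  refine (sum_le_sum_cover _
    ((I ×ˢ I).sigma fun ab => T ab ×ˢ prs (2 ^ (ab.1 + 1)) (2 ^ (ab.2 + 1)))
    (fun i => i.2.1.1 * i.2.2.1 * i.2.2.2 ^ 2 * i.2.1.2 ^ 3) (fun k => F (k * w))
    (fun _ => hF _) fun k hk => ?_).trans ?_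
  · obtain ⟨hk1, hk⟩ := Finset.mem_filter.1 hk
    have hd : ∀ d : O, d ∣ k → d ∈ ball K := fun d hd => mem_ball.2
      (le_trans (by exact_mod_cast Nat.le_of_dvd (nm_pos hk) (nm_dvd hd)) (mem_ball.1 hk1))
    obtain ⟨u, i, x, y, z, hu, hi, hx, hy, hxy, hz, e⟩ := nred_decomp hk
    have hv : u * lam ^ i ≠ 0 := mul_ne_zero hu.ne_zero (pow_ne_zero _ prime_lam.ne_zero)
    have hv9 : (nm (u * lam ^ i) : ℝ) ≤ 9 := by
      rw [nm_mul, nm_pow, isUnit_iff_nm.1 hu, nm_lam, one_mul]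
      interval_cases i <;> norm_num
    generalize u * lam ^ i = v at *
    refine ⟨⟨(Nat.log 2 (nm x), Nat.log 2 (nm y)), (v, z), (x, y)⟩, ?_, e.symm⟩
    refine Finset.mem_sigma.2 ⟨Finset.mem_product.2
      ⟨log_mem_range (hd x ⟨v * y ^ 2 * z ^ 3, by rw [e]; ring⟩),
        log_mem_range (hd y ⟨v * x * y * z ^ 3, by rw [e]; ring⟩)⟩,
      Finset.mem_product.2 ⟨Finset.mem_filter.2 ⟨Finset.mem_product.2
        ⟨mem_ball.2 hv9, hd z ⟨v * x * y ^ 2 * z ^ 2, by rw [e]; ring⟩⟩, hv, hz, ?_⟩,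
        mem_prs.2 ⟨⟨hx, (nred_dy hx.ne_zero).1⟩, ⟨hy, (nred_dy hy.ne_zero).1⟩, hxy⟩⟩⟩
    have h1 := mem_ball.1 hk1
    rw [e, nm_mul, nm_mul, nm_mul, nm_pow, nm_pow] at h1
    push_cast at h1
    calc _ ≤ (nm v : ℝ) * (nm z : ℝ) ^ 3 * (2 * nm x * (2 * nm y) ^ 2) := by
          gcongr
          exacts [(nred_dy hx.ne_zero).2, (nred_dy hy.ne_zero).2]
      _ ≤ _ := by linarith
  have hE1 := h.one
  rw [Finset.sum_sigma]
  have key : ∀ ab ∈ I ×ˢ I, ∑ i ∈ T ab ×ˢ prs (2 ^ (ab.1 + 1)) (2 ^ (ab.2 + 1)),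
      F (i.1.1 * i.2.1 * i.2.2 ^ 2 * i.1.2 ^ 3 * w) ≤ 18 * E ^ 2 * K ^ (1 / 3 : ℝ) * S := by
    intro ab _
    rw [Finset.sum_product]
    refine (Finset.sum_le_card_nsmul _ _
      (S * ((2 : ℝ) ^ (ab.1 + 1) * (2 ^ (ab.2 + 1)) ^ 2) ^ (1 / 3 : ℝ)) fun q hq => ?_).trans ?_
    · obtain ⟨-, h1, h2, h3⟩ := Finset.mem_filter.1 hq
      refine le_of_eq_of_le (Finset.sum_congr rfl fun p _ => ?_)
        (H (w * q.1 * q.2 ^ 3) _ _ (mul_ne_zero (mul_ne_zero hw h1) (pow_ne_zero _ h2))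
          (one_le_pow₀ one_le_two) (one_le_pow₀ one_le_two) ?_)
      · congr 1
        ring
      · rw [nm_mul, nm_mul, nm_pow]
        push_cast
        nlinarith [mul_le_mul_of_nonneg_left h3 (Nat.cast_nonneg (α := ℝ) (nm w))]
    · rw [nsmul_eq_mul, mul_left_comm, mul_comm]
      refine mul_le_mul_of_nonneg_right (nred_card h (by linarith) (by positivity) _
        fun q hq => ?_) hS
      obtain ⟨h0, h1, h2, h3⟩ := Finset.mem_filter.1 hq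
      refine ⟨mem_ball.1 (Finset.mem_product.1 h0).1, h2, le_trans ?_ h3⟩
      rw [mul_assoc]
      exact le_mul_of_one_le_left (by positivity) (one_le_nm h1)
  refine (Finset.sum_le_card_nsmul _ _ _ key).trans ?_
  rw [nsmul_eq_mul, Finset.card_product, hI, Finset.card_range, Nat.cast_mul]
  have h1 := nred_log h hK hKR
  calc _ ≤ 3 * E * (3 * E) * (18 * E ^ 2 * K ^ (1 / 3 : ℝ) * S) := by gcongr
    _ = 162 * (E ^ 4 * S * K ^ (1 / 3 : ℝ)) := by ring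
    _ ≤ E * (E ^ 4 * S * K ^ (1 / 3 : ℝ)) := by gcongr
    _ = _ := by ring

end Vale.Agent.P006
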