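import Vale.Agent.P006.SDefs

/-!
# Part S: Abel summation over primes  (TASK)

`abel_eq`: `w (N p) = w z - ∫ x in y..z, w' x * ind (N p ≤ x)` (fundamental theorem on `[N p, z]`,
`intervalIntegral.integral_indicator` or `integral_add_adjacent_intervals`), `intervalIntegral.integral_finsetSum`.
For `1 ≤ y ≤ x` the sum over `prw y x` is the difference of the sums over `prb x` and `prb y`, so it is at most `2 M x ^ (1 - θ)`, `θ = 1 / 16000`.
`abel_prime`: coefficients `Lam p * c p`, `w x = x ^ (-α) / log x`, `‖w' x‖ ≤ 10 x ^ (-α - 1) ≤ 10 x ^ (θ/4 - 2)` for `x ≥ 2`;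
`∫ x in y..z, x ^ (-1 - 3θ/4) ≤ y ^ (-3θ/4) / (3θ/4)` (`integral_rpow`); empty sum if `z < y`.
`abel_lam`: the sum is over `prw (max u₁ 1) u₂` (`two_le_nm`, primes are squarefree), `w x = x ^ (-1/4)`.
-/

namespace Vale.Agent.P006.S

open Vale.Agent.P026 Filter
open scoped ComplexConjugate Real

theorem sabel_ind {f : ℝ → ℂ} {y z N : ℝ} (h₁ : y < N) (h₂ : N ≤ z)
    (hc : ContinuousOn f (Set.Icc y z)) :
    IntervalIntegrable (Set.indicator (Set.Ici N) f) MeasureTheory.volume y z ∧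
      ∫ x in y..z, Set.indicator (Set.Ici N) f x = ∫ x in N..z, f x := by
  have hyz : y ≤ z := h₁.le.trans h₂
  have hi : IntervalIntegrable f MeasureTheory.volume y z :=
    ContinuousOn.intervalIntegrable (by rwa [Set.uIcc_of_le hyz])
  refine ⟨⟨hi.1.indicator measurableSet_Ici, hi.2.indicator measurableSet_Ici⟩, ?_⟩
  rw [intervalIntegral.integral_of_le hyz, intervalIntegral.integral_of_le h₂,
    MeasureTheory.setIntegral_indicator measurableSet_Ici,
    ← MeasureTheory.integral_Icc_eq_integral_Ioc]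
  congr 2
  ext x
  simp only [Set.mem_inter_iff, Set.mem_Ioc, Set.mem_Ici, Set.mem_Icc]
  constructor
  · rintro ⟨⟨_, h⟩, h'⟩
    exact ⟨h', h⟩
  · rintro ⟨h, h'⟩
    exact ⟨⟨h₁.trans_le h, h'⟩, h⟩

theorem abel_eq (c : O → ℂ) {w w' : ℝ → ℂ} {y z : ℝ} (hyz : y ≤ z)
    (hw : ∀ x ∈ Set.Icc y z, HasDerivAt w (w' x) x) (hc : ContinuousOn w' (Set.Icc y z)) :
    ∑ p ∈ prw y z, c p * w (nm p) =
      w z * ∑ p ∈ prw y z, c p - ∫ x in y..z, w' x * ∑ p ∈ prw y x, c p := by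
  classical
  have hcp : ∀ p : O, ContinuousOn (fun x => w' x * c p) (Set.Icc y z) := fun p =>
    hc.mul continuousOn_const
  have e1 : ∫ x in y..z, w' x * ∑ p ∈ prw y x, c p =
      ∫ x in y..z, ∑ p ∈ prw y z, Set.indicator (Set.Ici (nm p : ℝ)) (fun x => w' x * c p) x := by
    refine intervalIntegral.integral_congr fun x hx => ?_
    rw [Set.uIcc_of_le hyz] at hx
    have e : prw y x = (prw y z).filter fun p => (nm p : ℝ) ≤ x := by
      ext p
      simp only [Finset.mem_filter, mem_prw]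
      constructor
      · rintro ⟨h1, h2, h3⟩
        exact ⟨⟨h1, h2, h3.trans hx.2⟩, h3⟩
      · rintro ⟨⟨h1, h2, _⟩, h3⟩
        exact ⟨h1, h2, h3⟩
    rw [e, Finset.sum_filter, Finset.mul_sum]
    refine Finset.sum_congr rfl fun p _ => ?_
    by_cases h : (nm p : ℝ) ≤ x <;> simp [Set.indicator, h]
  rw [e1, intervalIntegral.integral_finsetSum fun p hp =>
    (sabel_ind (mem_prw.1 hp).2.1 (mem_prw.1 hp).2.2 (hcp p)).1, Finset.mul_sum,
    ← Finset.sum_sub_distrib]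
  refine Finset.sum_congr rfl fun p hp => ?_
  obtain ⟨_, h1, h2⟩ := mem_prw.1 hp
  have hsub : Set.uIcc (nm p : ℝ) z ⊆ Set.Icc y z := by
    rw [Set.uIcc_of_le h2]
    exact Set.Icc_subset_Icc_left h1.le
  rw [(sabel_ind h1 h2 (hcp p)).2, intervalIntegral.integral_mul_const,
    intervalIntegral.integral_eq_sub_of_hasDerivAt (fun x hx => hw x (hsub hx))
      (hc.mono hsub).intervalIntegrable]
  ring

theorem sabel_two {a : O → ℂ} {M e y x : ℝ} (he : 0 ≤ e)
    (h : ∀ u : ℝ, 1 ≤ u → ‖∑ p ∈ prb u, a p‖ ≤ M * u ^ e) (hy : 1 ≤ y) (hyx : y ≤ x) :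
    ‖∑ p ∈ prw y x, a p‖ ≤ 2 * M * x ^ e := by
  classical
  have hM : 0 ≤ M := by
    have := (norm_nonneg _).trans (h 1 le_rfl)
    simpa using this
  have e1 : ∑ p ∈ prw y x, a p = ∑ p ∈ prb x, a p - ∑ p ∈ prb y, a p := by
    rw [eq_sub_iff_add_eq, ← Finset.sum_union]
    · congr 1
      ext p
      simp only [Finset.mem_union, mem_prw, mem_prb]
      constructor
      · rintro (⟨h1, _, h3⟩ | ⟨h1, h2⟩)
        · exact ⟨h1, h3⟩
        · exact ⟨h1, h2.trans hyx⟩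
      · rintro ⟨h1, h2⟩
        rcases lt_or_ge y (nm p) with h3 | h3
        · exact Or.inl ⟨h1, h3, h2⟩
        · exact Or.inr ⟨h1, h3⟩
    · rw [Finset.disjoint_left]
      intro p h1 h2
      exact absurd (mem_prb.1 h2).2 (not_le.2 (mem_prw.1 h1).2.1)
  have h1 := h x (hy.trans hyx)
  have h2 := h y hy
  have h3 : M * y ^ e ≤ M * x ^ e :=
    mul_le_mul_of_nonneg_left (Real.rpow_le_rpow (by linarith) hyx he) hM
  rw [e1]
  refine (norm_sub_le _ _).trans ?_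
  linarith

theorem sabel_bound {a : O → ℂ} {M e y z K β : ℝ} {w w' : ℝ → ℝ} (he : 0 ≤ e)
    (h : ∀ u : ℝ, 1 ≤ u → ‖∑ p ∈ prb u, a p‖ ≤ M * u ^ e) (hy : 1 ≤ y) (hyz : y ≤ z)
    (hw : ∀ x ∈ Set.Icc y z, HasDerivAt w (w' x) x) (hc : ContinuousOn w' (Set.Icc y z))
    (hb : ∀ x ∈ Set.Icc y z, |w' x| ≤ K * x ^ β) :
    ‖∑ p ∈ prw y z, a p * (w (nm p) : ℝ)‖ ≤
      |w z| * (2 * M * z ^ e) + 2 * M * K * ∫ x in y..z, x ^ (β + e) := by
  have e1 := abel_eq a (w := fun x => (w x : ℂ)) (w' := fun x => (w' x : ℂ)) hyz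
    (fun x hx => (hw x hx).ofReal_comp) (Complex.continuous_ofReal.comp_continuousOn hc)
  rw [e1]
  refine (norm_sub_le _ _).trans (add_le_add ?_ ?_)
  · rw [norm_mul, Complex.norm_real, Real.norm_eq_abs]
    exact mul_le_mul_of_nonneg_left (sabel_two he h hy hyz) (abs_nonneg _)
  · rw [← intervalIntegral.integral_const_mul]
    refine intervalIntegral.norm_integral_le_of_norm_le hyz
      (Eventually.of_forall fun x hx => ?_) (IntervalIntegrable.const_mul ?_ _)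
    · have hx0 : 0 < x := by linarith [hx.1]
      rw [norm_mul, Complex.norm_real, Real.norm_eq_abs, Real.rpow_add hx0]
      have h1 := hb x ⟨hx.1.le, hx.2⟩
      calc _ ≤ K * x ^ β * (2 * M * x ^ e) :=
            mul_le_mul h1 (sabel_two he h hy hx.1.le) (norm_nonneg _) ((abs_nonneg _).trans h1)
        _ = _ := by ring
    · refine intervalIntegral.intervalIntegrable_rpow (Or.inr ?_)
      rw [Set.uIcc_of_le hyz]
      exact fun h0 => by linarith [h0.1]

theorem sabel_nonneg {a : O → ℂ} {M e : ℝ}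
    (h : ∀ u : ℝ, 1 ≤ u → ‖∑ p ∈ prb u, a p‖ ≤ M * u ^ e) : 0 ≤ M := by
  have := (norm_nonneg _).trans (h 1 le_rfl)
  simpa using this

theorem sabel_log {x : ℝ} (hx : 2 ≤ x) : 1 / 2 ≤ Real.log x := by
  have h1 := Real.log_two_gt_d9
  have h2 := Real.log_le_log (by norm_num) hx
  linarith

theorem abel_prime : ∃ C : ℝ, 0 < C ∧ ∀ (c : O → ℂ) (M α y z : ℝ),
    (∀ u : ℝ, 1 ≤ u → ‖∑ p ∈ prb u, Lam p * c p‖ ≤ M * u ^ (1 - 1 / 16000 : ℝ)) →
    1 - 1 / 64000 ≤ α → α ≤ 9 / 4 → 2 ≤ y →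
      ‖∑ p ∈ prw y z, c p * ((nm p : ℝ) ^ (-α) : ℝ)‖ ≤ C * M * y ^ (-3 / 64000 : ℝ) := by
  refine ⟨4 + 20 * (64000 / 3), by norm_num, fun c M α y z h hα₁ hα₂ hy => ?_⟩
  have hM := sabel_nonneg h
  have hy0 : 0 < y := by linarith
  rcases lt_or_ge z y with hzy | hyz
  · have : prw y z = ∅ := Finset.eq_empty_of_forall_notMem fun p hp => by
      linarith [(mem_prw.1 hp).2.1, (mem_prw.1 hp).2.2]
    rw [this, Finset.sum_empty, norm_zero]
    positivity
  have hz0 : 0 < z := by linarith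
  have e1 : ∑ p ∈ prw y z, c p * ((nm p : ℝ) ^ (-α) : ℝ) =
      ∑ p ∈ prw y z, Lam p * c p * ((nm p : ℝ) ^ (-α) / Real.log (nm p) : ℝ) := by
    refine Finset.sum_congr rfl fun p hp => ?_
    obtain ⟨h1, h2, _⟩ := mem_prw.1 hp
    have h3 : ((Real.log (nm p) : ℝ) : ℂ) ≠ 0 := by
      have := sabel_log (hy.trans h2.le)
      exact Complex.ofReal_ne_zero.2 (by linarith)
    rw [Lam, ind_of h1, Complex.ofReal_div]
    field_simp
  have hb := sabel_bound (w := fun x => x ^ (-α) / Real.log x)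
    (w' := fun x => (-α * x ^ (-α - 1) * Real.log x - x ^ (-α) * x⁻¹) / Real.log x ^ 2)
    (K := 10) (β := 1 / 64000 - 2) (by norm_num) h (by linarith : 1 ≤ y) hyz
    (fun x hx => by
      have hx0 : 0 < x := by linarith [hx.1]
      have hl := sabel_log (hy.trans hx.1)
      exact (Real.hasDerivAt_rpow_const (Or.inl hx0.ne')).div (Real.hasDerivAt_log hx0.ne')
        (by linarith))
    (fun x hx => by
      have hx0 : 0 < x := by linarith [hx.1]
      have hl := sabel_log (hy.trans hx.1)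
      have c1 : ContinuousAt Real.log x := Real.continuousAt_log hx0.ne'
      have c2 : ∀ r : ℝ, ContinuousAt (fun t : ℝ => t ^ r) x := fun r =>
        Real.continuousAt_rpow_const x r (Or.inl hx0.ne')
      have c3 : ContinuousAt (fun t : ℝ => t⁻¹) x := continuousAt_inv₀ hx0.ne'
      exact ContinuousAt.continuousWithinAt
        (((((c2 _).const_mul _).mul c1).sub ((c2 _).mul c3)).div (c1.pow 2) (by positivity)))
    (fun x hx => by
      have hx0 : 0 < x := by linarith [hx.1]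
      have hl := sabel_log (hy.trans hx.1)
      have e2 : x ^ (-α) * x⁻¹ = x ^ (-α - 1) := by
        rw [Real.rpow_sub hx0, Real.rpow_one, div_eq_mul_inv]
      have e3 : x ^ (-α - 1) ≤ x ^ (1 / 64000 - 2 : ℝ) :=
        Real.rpow_le_rpow_of_exponent_le (by linarith [hx.1]) (by linarith)
      have e4 : 0 < x ^ (-α - 1) := Real.rpow_pos_of_pos hx0 _
      rw [e2, show -α * x ^ (-α - 1) * Real.log x - x ^ (-α - 1) =
        -(x ^ (-α - 1) * (α * Real.log x + 1)) by ring, neg_div, abs_neg,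
        abs_of_nonneg (by have : 0 ≤ α := by linarith
                          positivity), div_le_iff₀ (by positivity)]
      calc _ ≤ x ^ (1 / 64000 - 2 : ℝ) * (10 * Real.log x ^ 2) := by
            refine mul_le_mul e3 ?_ (by have : 0 ≤ α := by linarith
                                        positivity) (by positivity)
            nlinarith
        _ = _ := by ring)
  rw [e1]
  refine hb.trans ?_
  have hP : z ^ (-3 / 64000 : ℝ) ≤ y ^ (-3 / 64000 : ℝ) :=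
    Real.rpow_le_rpow_of_nonpos hy0 hyz (by norm_num)
  have hP0 : 0 < z ^ (-3 / 64000 : ℝ) := Real.rpow_pos_of_pos hz0 _
  have t1 : |z ^ (-α) / Real.log z| * (2 * M * z ^ (1 - 1 / 16000 : ℝ)) ≤
      4 * M * y ^ (-3 / 64000 : ℝ) := by
    have hl := sabel_log (hy.trans hyz)
    have e4 : 0 < z ^ (-α) := Real.rpow_pos_of_pos hz0 _
    have e5 : z ^ (-α) / Real.log z ≤ 2 * z ^ (1 / 64000 - 1 : ℝ) := by
      have : z ^ (-α) ≤ z ^ (1 / 64000 - 1 : ℝ) :=
        Real.rpow_le_rpow_of_exponent_le (by linarith) (by linarith)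
      rw [div_le_iff₀ (by linarith)]
      nlinarith
    have e6 : z ^ (1 / 64000 - 1 : ℝ) * z ^ (1 - 1 / 16000 : ℝ) = z ^ (-3 / 64000 : ℝ) := by
      rw [← Real.rpow_add hz0]; norm_num
    rw [abs_of_nonneg (by positivity)]
    calc _ ≤ 2 * z ^ (1 / 64000 - 1 : ℝ) * (2 * M * z ^ (1 - 1 / 16000 : ℝ)) := by gcongr
      _ = 4 * M * z ^ (-3 / 64000 : ℝ) := by rw [← e6]; ring
      _ ≤ _ := by gcongr
  have t2 : ∫ x in y..z, x ^ (1 / 64000 - 2 + (1 - 1 / 16000) : ℝ) ≤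
      64000 / 3 * y ^ (-3 / 64000 : ℝ) := by
    rw [integral_rpow (Or.inr ⟨by norm_num, by
      rw [Set.uIcc_of_le hyz]
      exact fun h0 => by linarith [h0.1]⟩),
      show (1 / 64000 - 2 + (1 - 1 / 16000) + 1 : ℝ) = -3 / 64000 by norm_num,
      div_le_iff_of_neg (by norm_num)]
    linarith
  have t3 := mul_le_mul_of_nonneg_left t2 (show 0 ≤ 2 * M * 10 by positivity)
  linarith

theorem abel_lam : ∃ C : ℝ, 0 < C ∧ ∀ (c : O → ℂ) (M u₁ u₂ : ℝ),
    (∀ u : ℝ, 1 ≤ u → ‖∑ p ∈ prb u, Lam p * c p‖ ≤ M * u ^ (1 - 1 / 16000 : ℝ)) → 1 ≤ u₂ →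
      ‖∑ n ∈ qball u₂, Lam n * win u₁ u₂ n * c n * ((nm n : ℝ) ^ (-1 / 4 : ℝ) : ℝ)‖ ≤
        C * M * u₂ ^ (3 / 4 - 1 / 16000 : ℝ) := by
  classical
  refine ⟨3, by norm_num, fun c M u₁ z h hz => ?_⟩
  have hM := sabel_nonneg h
  have hz0 : 0 < z := by linarith
  have e1 : ∑ n ∈ qball z, Lam n * win u₁ z n * c n * ((nm n : ℝ) ^ (-1 / 4 : ℝ) : ℝ) =
      ∑ p ∈ prw (max u₁ 1) z, Lam p * c p * ((nm p : ℝ) ^ (-1 / 4 : ℝ) : ℝ) := by
    symm
    refine Finset.sum_subset_zero_on_sdiff (fun p hp => ?_) (fun n hn => ?_) fun p hp => ?_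
    · obtain ⟨h1, _, h3⟩ := mem_prw.1 hp
      exact mem_qball.2 ⟨⟨h1.2, h1.1.squarefree⟩, h3⟩
    · obtain ⟨h1, h2⟩ := Finset.mem_sdiff.1 hn
      by_cases hp : PP n
      · have : ¬(u₁ < nm n ∧ (nm n : ℝ) ≤ z) := fun h3 => h2 (mem_prw.2 ⟨hp, max_lt h3.1 (by
          have k1 := nm_pos hp.1.ne_zero
          have k2 : nm n ≠ 1 := fun h => hp.1.not_isUnit (isUnit_iff_nm.2 h)
          exact_mod_cast (by omega : 1 < nm n)), h3.2⟩)
        rw [win, ind_of_not this]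
        ring
      · rw [Lam, ind_of_not hp]
        ring
    · obtain ⟨_, h2, h3⟩ := mem_prw.1 hp
      rw [win, ind_of ⟨(le_max_left _ _).trans_lt h2, h3⟩, mul_one]
  rw [e1]
  have hy : 1 ≤ max u₁ 1 := le_max_right _ _
  generalize max u₁ 1 = y at hy
  rcases lt_or_ge z y with hzy | hyz
  · have : prw y z = ∅ := Finset.eq_empty_of_forall_notMem fun p hp => by
      linarith [(mem_prw.1 hp).2.1, (mem_prw.1 hp).2.2]
    rw [this, Finset.sum_empty, norm_zero]
    positivity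
  have hb := sabel_bound (w := fun x => x ^ (-1 / 4 : ℝ))
    (w' := fun x => (-1 / 4 : ℝ) * x ^ (-1 / 4 - 1 : ℝ))
    (K := 1 / 4) (β := -1 / 4 - 1) (by norm_num) h hy hyz
    (fun x hx => Real.hasDerivAt_rpow_const (Or.inl (by linarith [hx.1])))
    (fun x hx => ContinuousAt.continuousWithinAt
      ((Real.continuousAt_rpow_const x _ (Or.inl (by linarith [hx.1]))).const_mul _))
    (fun x hx => by
      rw [abs_mul, abs_of_nonneg (Real.rpow_nonneg (by linarith [hx.1]) _)]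
      norm_num)
  refine hb.trans ?_
  have e6 : z ^ (-1 / 4 : ℝ) * z ^ (1 - 1 / 16000 : ℝ) = z ^ (3 / 4 - 1 / 16000 : ℝ) := by
    rw [← Real.rpow_add hz0]; norm_num
  have hP0 : 0 < z ^ (3 / 4 - 1 / 16000 : ℝ) := Real.rpow_pos_of_pos hz0 _
  have t2 : ∫ x in y..z, x ^ (-1 / 4 - 1 + (1 - 1 / 16000) : ℝ) ≤
      2 * z ^ (3 / 4 - 1 / 16000 : ℝ) := by
    have : 0 < y ^ (3 / 4 - 1 / 16000 : ℝ) := Real.rpow_pos_of_pos (by linarith) _
    rw [integral_rpow (Or.inl (by norm_num)),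
      show (-1 / 4 - 1 + (1 - 1 / 16000) + 1 : ℝ) = 3 / 4 - 1 / 16000 by norm_num,
      div_le_iff₀ (by norm_num)]
    linarith
  have t3 := mul_le_mul_of_nonneg_left t2 (show 0 ≤ 2 * M * (1 / 4) by positivity)
  rw [abs_of_nonneg (Real.rpow_nonneg hz0.le _), show z ^ (-1 / 4 : ℝ) *
    (2 * M * z ^ (1 - 1 / 16000 : ℝ)) = 2 * M * z ^ (3 / 4 - 1 / 16000 : ℝ) by rw [← e6]; ring]
  linarith

end Vale.Agent.P006.S
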