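import Vale.Agent.P006.SDefs

/-!
# Part S: continuation of a Dirichlet series from its summatory function  (TASK)

`A x = ∑ n ∈ ball x, a n`, `g = Set.indicator (Set.Ioi 1) (fun x => A x - κ * x)`, `E s = s * mellin g (-s)`.
Differentiability: `mellin_differentiableAt_of_isBigO_rpow` (`g = O(x ^ (1/2))` at infinity, `g = 0` near `0`; `A` is measurable, as
`A x = ∑' n, ind (nm n ≤ x) * a n` or as a locally finite sum of indicators, and `g` is bounded by `B √x`, so it is locally integrable).
Bound: `‖mellin g (-s)‖ ≤ ∫ x in Ioi 1, B * x ^ (-re s - 1 / 2) = B / (re s - 1 / 2)` (`integral_Ioi_rpow_of_lt`).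
Identity for `1 < re s`: `(nm n) ^ (-s) = s * ∫ x in Ioi (nm n), x ^ (-s - 1)` (`integral_Ioi_cpow_of_lt`), swap sum and integral
(`MeasureTheory.integral_tsum_of_summable_integral_norm`, `summable_rpow`, cf. `mellin_msum` in `P026/Final2.lean`), and
`s * ∫ x in Ioi 1, x * x ^ (-s - 1) = s / (s - 1)`.
-/

namespace Vale.Agent.P006.S

open Vale.Agent.P026 Filter
open scoped ComplexConjugate Real

open MeasureTheory Set Asymptotics

theorem SCont_meas (a : O → ℂ) : Measurable fun x : ℝ => ∑ n ∈ ball x, a n := by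
  have e : (fun x : ℝ => ∑ n ∈ ball x, a n) = (fun k : ℤ => ∑ n ∈ ball k, a n) ∘ Int.floor := by
    funext x
    refine Finset.sum_congr ?_ fun _ _ => rfl
    ext n
    rw [mem_ball, mem_ball, ← Int.cast_natCast, Int.cast_le, Int.le_floor]
  rw [e]
  exact (measurable_of_countable _).comp Int.measurable_floor

theorem SCont_ind {E : Type} [NormedAddCommGroup E] [NormedSpace ℝ E] (f : ℝ → E) {N : ℝ}
    (hN : 1 ≤ N) : ∫ x in Ici (1 : ℝ), (Ici N).indicator f x = ∫ x in Ioi N, f x := by
  rw [setIntegral_indicator measurableSet_Ici, Ici_inter_Ici, sup_eq_right.2 hN,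
    integral_Ici_eq_integral_Ioi]

theorem SCont_sum {a : O → ℂ} (h0 : a 0 = 0) (ha : ∀ n, ‖a n‖ ≤ 1) {s : ℂ} (hs : 1 < s.re) :
    s * ∫ x in Ici (1 : ℝ), (x : ℂ) ^ (-s - 1) * ∑ n ∈ ball x, a n = DS a s := by
  have : Countable O := (Function.Injective.countable
    (f := fun x : O => (x.re, x.im)) fun x y h => by
      ext
      · exact congrArg Prod.fst h
      · exact congrArg Prod.snd h)
  have hs0 : s ≠ 0 := fun h => by rw [h, Complex.zero_re] at hs; linarith
  have hre : (-s - 1).re < -1 := by simp; linarith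
  let F : O → ℝ → ℂ := fun n => (Ici (nm n : ℝ)).indicator fun x => a n * (x : ℂ) ^ (-s - 1)
  have hF0 : F 0 = fun _ => 0 := by
    funext x
    simp [F, h0]
  have hint : ∀ n, Integrable (F n) (volume.restrict (Ici 1)) := fun n =>
    Integrable.indicator (Integrable.const_mul ((integrableOn_Ici_iff_integrableOn_Ioi).2
      (integrableOn_Ioi_cpow_of_lt hre one_pos)) _) measurableSet_Ici
  have hsum : Summable fun n => ∫ x in Ici (1 : ℝ), ‖F n x‖ := by
    refine Summable.of_nonneg_of_le (fun n => integral_nonneg fun _ => norm_nonneg _) (fun n => ?_)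
      (summable_rpow hs)
    rcases eq_or_ne n 0 with rfl | hn
    · rw [hF0]
      simp only [norm_zero, integral_zero]
      positivity
    have hN := one_le_nm hn
    have hN0 := zero_lt_one.trans_le hN
    simp only [F, norm_indicator_eq_indicator_norm]
    rw [SCont_ind _ hN, setIntegral_congr_fun measurableSet_Ioi
      (g := fun x : ℝ => ‖a n‖ * x ^ (-s.re - 1)) fun x hx => by
        simp only [norm_mul]
        rw [Complex.norm_cpow_eq_rpow_re_of_pos (hN0.trans hx)]
        simp,
      integral_const_mul, integral_Ioi_rpow_of_lt (by linarith) hN0, sub_add_cancel, neg_div_neg_eq]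
    have h1 := Real.rpow_nonneg hN0.le (-s.re)
    exact (mul_le_mul (ha n) (div_le_self h1 hs.le) (div_nonneg h1 (by linarith))
      zero_le_one).trans_eq (one_mul _)
  have key := integral_tsum_of_summable_integral_norm hint hsum
  have e1 : ∀ x : ℝ, (x : ℂ) ^ (-s - 1) * ∑ n ∈ ball x, a n = ∑' n, F n x := by
    intro x
    rw [tsum_eq_sum (s := ball x) (f := fun n => F n x) fun n hn =>
      indicator_of_notMem (fun h => hn (mem_ball.2 h)) _, Finset.mul_sum]
    refine Finset.sum_congr rfl fun n hn => ?_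
    simp only [F]
    rw [indicator_of_mem (show x ∈ Ici (nm n : ℝ) from mem_ball.1 hn), mul_comm]
  simp only [e1]
  rw [← key, ← tsum_mul_left, DS]
  refine tsum_congr fun n => ?_
  rcases eq_or_ne n 0 with rfl | hn
  · rw [hF0, h0]
    simp
  have hN := one_le_nm hn
  simp only [F]
  rw [SCont_ind _ hN, integral_const_mul, integral_Ioi_cpow_of_lt hre (zero_lt_one.trans_le hN),
    sub_add_cancel, neg_div_neg_eq, Complex.ofReal_natCast]
  field_simp

theorem exists_cont {a : O → ℂ} {κ : ℂ} {B : ℝ} (h0 : a 0 = 0) (ha : ∀ n, ‖a n‖ ≤ 1)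
    (h : ∀ x : ℝ, 1 ≤ x → ‖∑ n ∈ ball x, a n - κ * x‖ ≤ B * √x) :
    ∃ E : ℂ → ℂ, DifferentiableOn ℂ E {s | 1 / 2 < s.re} ∧
      (∀ s : ℂ, 3 / 4 ≤ s.re → ‖E s‖ ≤ 4 * B * ‖s‖) ∧
      ∀ s : ℂ, 1 < s.re → DS a s = κ * s / (s - 1) + E s := by
  have hB : 0 ≤ B := by simpa using (norm_nonneg _).trans (h 1 le_rfl)
  let g : ℝ → ℂ := (Ici (1 : ℝ)).indicator fun x => ∑ n ∈ ball x, a n - κ * x
  have hm : Measurable fun x : ℝ => ∑ n ∈ ball x, a n - κ * x :=
    (SCont_meas a).sub (by fun_prop)
  have hg : ∀ x, ‖g x‖ ≤ B * √x := fun x => by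
    by_cases hx : x ∈ Ici (1 : ℝ)
    · simp only [g, indicator_of_mem hx]
      exact h x hx
    · simp only [g, indicator_of_notMem hx, norm_zero]
      positivity
  have hloc : LocallyIntegrable g :=
    (by fun_prop : Continuous fun x : ℝ => B * √x).locallyIntegrable.mono
      (hm.indicator measurableSet_Ici).aestronglyMeasurable
      (Eventually.of_forall fun x => (hg x).trans (Real.le_norm_self _))
  have hmel : ∀ s : ℂ, mellin g (-s) =
      ∫ x in Ici (1 : ℝ), (x : ℂ) ^ (-s - 1) * (∑ n ∈ ball x, a n - κ * x) := fun s => by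
    simp only [mellin, g, smul_eq_mul, fun t : ℝ => (indicator_mul_right (Ici (1 : ℝ))
      (fun t : ℝ => (t : ℂ) ^ (-s - 1)) (fun x => ∑ n ∈ ball x, a n - κ * x) (i := t)).symm]
    rw [setIntegral_indicator measurableSet_Ici,
      inter_eq_right.2 (Ici_subset_Ioi.2 zero_lt_one)]
  have hbd : ∀ s : ℂ, ∀ᵐ x : ℝ ∂volume.restrict (Ici (1 : ℝ)),
      ‖(x : ℂ) ^ (-s - 1) * (∑ n ∈ ball x, a n - κ * x)‖ ≤ B * x ^ (-s.re - 1 / 2) := fun s => by
    refine (ae_restrict_iff' measurableSet_Ici).2 (Eventually.of_forall fun x hx => ?_)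
    have hx0 : 0 < x := zero_lt_one.trans_le hx
    rw [norm_mul, Complex.norm_cpow_eq_rpow_re_of_pos hx0]
    refine (mul_le_mul_of_nonneg_left (h x hx) (Real.rpow_nonneg hx0.le _)).trans_eq ?_
    rw [Real.sqrt_eq_rpow, mul_left_comm, ← Real.rpow_add hx0]
    congr 2
    simp
    ring
  have hmaj : ∀ s : ℂ, 1 / 2 < s.re →
      Integrable (fun x : ℝ => B * x ^ (-s.re - 1 / 2)) (volume.restrict (Ici 1)) := fun s hs =>
    Integrable.const_mul ((integrableOn_Ici_iff_integrableOn_Ioi).2
      (integrableOn_Ioi_rpow_of_lt (by linarith) one_pos)) _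
  refine ⟨fun s => s * mellin g (-s), fun s hs => ?_, fun s hs => ?_, fun s hs => ?_⟩
  · have hs' : 1 / 2 < s.re := hs
    have hd : DifferentiableAt ℂ (mellin g) (-s) := by
      refine mellin_differentiableAt_of_isBigO_rpow (a := -(1 / 2)) (b := (-s).re - 1)
        (hloc.locallyIntegrableOn _) ?_ (by rw [Complex.neg_re]; linarith) ?_ (by linarith)
      · refine IsBigO.of_bound B ((eventually_ge_atTop 0).mono fun x hx => ?_)
        rw [neg_neg, Real.norm_of_nonneg (Real.rpow_nonneg hx _), ← Real.sqrt_eq_rpow]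
        exact hg x
      · refine IsBigO.of_bound 0 ?_
        filter_upwards [Ioo_mem_nhdsGT (zero_lt_one' ℝ)] with x hx
        simp only [g, indicator_of_notMem fun h' : x ∈ Ici (1 : ℝ) => not_le.2 hx.2 h', norm_zero,
          zero_mul, le_refl]
    exact (differentiableAt_id.mul (hd.comp s differentiableAt_id.neg)).differentiableWithinAt
  · rw [norm_mul, mul_comm, hmel]
    refine mul_le_mul_of_nonneg_right
      ((norm_integral_le_of_norm_le (hmaj s (by linarith)) (hbd s)).trans ?_) (norm_nonneg _)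
    rw [integral_const_mul, integral_Ici_eq_integral_Ioi,
      integral_Ioi_rpow_of_lt (by linarith) one_pos, Real.one_rpow, mul_comm]
    refine mul_le_mul_of_nonneg_right ?_ hB
    rw [div_le_iff_of_neg (by linarith)]
    linarith
  · have hre : (-s).re < -1 := by simp; linarith
    have hs1 : s - 1 ≠ 0 := fun h => by rw [sub_eq_zero.1 h, Complex.one_re] at hs; linarith
    have i1 : Integrable (fun x : ℝ => (x : ℂ) ^ (-s - 1) * (∑ n ∈ ball x, a n - κ * x))
        (volume.restrict (Ici 1)) :=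
      (hmaj s (by linarith)).mono'
        ((Complex.measurable_ofReal.pow_const _).mul hm).aestronglyMeasurable (hbd s)
    have i2 : Integrable (fun x : ℝ => κ * (x : ℂ) ^ (-s)) (volume.restrict (Ici 1)) :=
      Integrable.const_mul ((integrableOn_Ici_iff_integrableOn_Ioi).2
        (integrableOn_Ioi_cpow_of_lt hre one_pos)) _
    have e := integral_add i1 i2
    rw [setIntegral_congr_fun measurableSet_Ici
      (g := fun x : ℝ => (x : ℂ) ^ (-s - 1) * ∑ n ∈ ball x, a n) fun x hx => by
        have hx0 : (x : ℂ) ≠ 0 := Complex.ofReal_ne_zero.2 (zero_lt_one.trans_le hx).ne'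
        simp only [Complex.cpow_sub _ _ hx0, Complex.cpow_one]
        field_simp
        ring,
      integral_const_mul, integral_Ici_eq_integral_Ioi (f := fun x : ℝ => (x : ℂ) ^ (-s)),
      integral_Ioi_cpow_of_lt hre one_pos] at e
    have hs2 : -s + 1 ≠ 0 := fun h => hs1 (by linear_combination -h)
    simp only [hmel]
    rw [← SCont_sum h0 ha hs, e, Complex.ofReal_one, Complex.one_cpow]
    field_simp
    ring

end Vale.Agent.P006.S
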