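import Vale.Agent.P006.SDefs

/-!
# Part S: products and derivatives of Dirichlet series  (TASK)

`DS_mul`: follow the proof of `zetaP_mul_mu` (`P026/Zeta.lean`): `tsum_mul_tsum_of_summable_norm`, `HasSum.tsum_fiberwise` along
`(d, e) ↦ d * e`, the fibre over a primary `n` is `{(d, n / d) | d ∈ pdiv n}` (`mul_div_cancel_left₀`).
`DS_mu`: `zetaP_mul_mu` with `f = cub k` (`cub_mul_right`, `cub_unit_right`).
`summable_log`: `log x ≤ x ^ ε / ε` (`Real.log_le_rpow_div`), `summable_rpow`.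
`hasDerivAt_DS`: `Complex.hasSum_deriv_of_summable_norm` and `Complex.differentiableOn_tsum_of_summable_norm` (or `hasDerivAt_tsum_of_isPreconnected`) on
`{z | σ < re z}`, `σ = (1 + re s) / 2`; the term `n = 0` vanishes identically there.
`DS_vm`: `DS_mul` for `mu * ch k` and `ch k * log N`, then `DS_mu`.  `exists_DS_lower`: `‖DS (mu * ch k) s‖ ≤ ∑' n, nm n ^ (-2)` and `DS_mu`.
-/

namespace Vale.Agent.P006.S

open Vale.Agent.P026 Filter
open scoped ComplexConjugate Real

theorem sconv_log {a : O → ℂ} (ha : ∀ n, ‖a n‖ ≤ 1) (n : O) :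
    ‖a n * (Real.log (nm n) : ℝ)‖ ≤ Real.log (nm n) := by
  rw [norm_mul, Complex.norm_real, Real.norm_of_nonneg (Real.log_natCast_nonneg _)]
  exact mul_le_of_le_one_left (Real.log_natCast_nonneg _) (ha n)

theorem sconv_mu (k n : O) : ‖mu n * ch k n‖ ≤ 1 := by
  rw [norm_mul]
  exact mul_le_one₀ (norm_mu_le _) (norm_nonneg _) (norm_ch_le _ _)

theorem DS_mul {a b : O → ℂ} {s : ℂ} (ha : Summable fun n => ‖a n * (nm n : ℂ) ^ (-s)‖)
    (hb : Summable fun n => ‖b n * (nm n : ℂ) ^ (-s)‖) (ha0 : ∀ n, ¬Prim n → a n = 0)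
    (hb0 : ∀ n, ¬Prim n → b n = 0) :
    DS a s * DS b s = DS (fun n => ind (Prim n) * ∑ d ∈ pdiv n, a d * b (n / d)) s := by
  classical
  have h3 := summable_mul_of_summable_norm ha hb
  rw [DS, DS, DS, tsum_mul_tsum_of_summable_norm ha hb,
    ← (h3.hasSum.tsum_fiberwise (fun p : O × O => p.1 * p.2)).tsum_eq]
  refine tsum_congr fun n => ?_
  rw [tsum_subtype ((fun p : O × O => p.1 * p.2) ⁻¹' {n}) (fun p : O × O =>
    a p.1 * (nm p.1 : ℂ) ^ (-s) * (b p.2 * (nm p.2 : ℂ) ^ (-s)))]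
  have key : ∀ p : O × O, ¬(Prim p.1 ∧ Prim p.2 ∧ p.1 * p.2 = n) →
      ((fun p : O × O => p.1 * p.2) ⁻¹' {n}).indicator (fun p : O × O =>
        a p.1 * (nm p.1 : ℂ) ^ (-s) * (b p.2 * (nm p.2 : ℂ) ^ (-s))) p = 0 := by
    intro p hp
    by_cases h : p ∈ (fun p : O × O => p.1 * p.2) ⁻¹' {n}
    · rw [Set.indicator_of_mem h]
      by_cases a1 : Prim p.1
      · rw [hb0 _ fun a2 => hp ⟨a1, a2, h⟩, zero_mul, mul_zero]
      · rw [ha0 _ a1, zero_mul, zero_mul]
    · exact Set.indicator_of_notMem h _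
  by_cases hn : Prim n
  · rw [tsum_eq_sum (s := (pdiv n).image fun d => (d, n / d)), Finset.sum_image
      (fun d _ e _ h => congrArg Prod.fst h), ind_of hn, one_mul, Finset.sum_mul]
    · refine Finset.sum_congr rfl fun d hd => ?_
      obtain ⟨a1, c, rfl⟩ := (mem_pdiv hn.ne_zero).1 hd
      rw [mul_div_cancel_left₀ _ a1.ne_zero, Set.indicator_of_mem (by rfl), nm_mul, Nat.cast_mul,
        Complex.natCast_mul_natCast_cpow]
      ring
    · intro p hp
      refine key p fun h => hp (Finset.mem_image.2 ⟨p.1, (mem_pdiv hn.ne_zero).2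
        ⟨h.1, h.2.2 ▸ dvd_mul_right _ _⟩, ?_⟩)
      rw [← h.2.2, mul_div_cancel_left₀ _ h.1.ne_zero]
  · rw [ind_of_not hn, zero_mul, zero_mul]
    exact (tsum_congr fun p => key p fun h => hn (h.2.2 ▸ h.1.mul h.2.1)).trans tsum_zero

theorem DS_mu (k : O) {s : ℂ} (hs : 1 < s.re) :
    DS (ch k) s * DS (fun n => mu n * ch k n) s = 1 := by
  rw [← zetaP_mul_mu (cub k) (fun a b ha hb => cub_mul_right ha.ne_zero hb.ne_zero k)
    (cub_one_right k) (norm_cub_le k) hs, DS, DS]
  simp only [ch, mul_assoc, mul_left_comm (mu _)]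

theorem summable_log {a : O → ℂ} (ha : ∀ n, ‖a n‖ ≤ Real.log (nm n)) {σ : ℝ} (hσ : 1 < σ) :
    Summable fun n => ‖a n‖ * (nm n : ℝ) ^ (-σ) := by
  have hε : 0 < (σ - 1) / 2 := by linarith
  refine Summable.of_nonneg_of_le (fun _ => by positivity) (fun n => ?_)
    ((summable_rpow (σ := (σ + 1) / 2) (by linarith)).div_const ((σ - 1) / 2))
  rcases (Nat.cast_nonneg (α := ℝ) (nm n)).eq_or_lt with h | h
  · rw [← h, Real.zero_rpow (by linarith), mul_zero]
    positivity
  · rw [show -((σ + 1) / 2) = (σ - 1) / 2 + -σ by ring, Real.rpow_add h, mul_div_right_comm]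
    exact mul_le_mul_of_nonneg_right ((ha n).trans (Real.log_le_rpow_div h.le hε)) (by positivity)

theorem hasDerivAt_DS {a : O → ℂ} (ha : ∀ n, ‖a n‖ ≤ 1) {s : ℂ} (hs : 1 < s.re) :
    HasDerivAt (DS a) (-DS (fun n => a n * (Real.log (nm n) : ℝ)) s) s := by
  have hσ : 1 < (1 + s.re) / 2 := by linarith
  have hs' : (1 + s.re) / 2 < s.re := by linarith
  have hl := sconv_log ha
  rw [DS, ← tsum_neg]
  refine hasDerivAt_tsum_of_isPreconnected (t := {z : ℂ | (1 + s.re) / 2 < z.re}) (y₀ := s)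
    (g := fun n z => a n * (nm n : ℂ) ^ (-z))
    (g' := fun n z => -(a n * (Real.log (nm n) : ℝ) * (nm n : ℂ) ^ (-z)))
    (summable_log hl hσ) (isOpen_lt continuous_const Complex.continuous_re)
    (convex_halfSpace_re_gt _).isPreconnected (fun n z hz => ?_) (fun n z hz => ?_)
    hs' (summable_norm_cpow ha hs).of_norm hs'
  · have h0 : -z ≠ 0 := fun h => by
      rw [neg_eq_zero.1 h] at hz
      have : (1 + s.re) / 2 < 0 := hz
      linarith
    refine (((hasDerivAt_neg z).const_cpow (c := (nm n : ℂ)) (Or.inr h0)).const_mul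
      (a n)).congr_deriv ?_
    rw [Complex.natCast_log]
    ring
  · have hz' : (1 + s.re) / 2 < z.re := hz
    rw [norm_neg, norm_mul, Complex.norm_natCast_cpow_of_re_ne_zero _
      (by rw [Complex.neg_re]; linarith), Complex.neg_re]
    refine mul_le_mul_of_nonneg_left ?_ (norm_nonneg _)
    rcases Nat.eq_zero_or_pos (nm n) with h | h
    · rw [h, Nat.cast_zero, Real.zero_rpow (by linarith)]
      positivity
    · exact Real.rpow_le_rpow_of_exponent_le (by exact_mod_cast h) (by linarith)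

theorem DS_vm (k : O) {s : ℂ} (hs : 1 < s.re) :
    DS (fun n => vm n * ch k n) s * DS (ch k) s = -deriv (DS (ch k)) s := by
  have h1 : Summable fun n : O => ‖ch k n * (Real.log (nm n) : ℝ) * (nm n : ℂ) ^ (-s)‖ := by
    refine (summable_log (sconv_log (norm_ch_le k)) hs).congr fun n => ?_
    rw [norm_mul (_ * _), Complex.norm_natCast_cpow_of_re_ne_zero _
      (by rw [Complex.neg_re]; linarith), Complex.neg_re]
  have h2 := DS_mul (a := fun n => mu n * ch k n) (b := fun n => ch k n * (Real.log (nm n) : ℝ))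
    (summable_norm_cpow (sconv_mu k) hs) h1 (fun n hn => by simp [ch, ind_of_not hn])
    fun n hn => by simp [ch, ind_of_not hn]
  have h3 : (fun n => vm n * ch k n) = fun n => ind (Prim n) * ∑ d ∈ pdiv n, mu d * ch k d *
      (ch k (n / d) * (Real.log (nm (n / d)) : ℝ)) := by
    funext n
    by_cases hn : Prim n
    · rw [vm, mul_assoc, Finset.sum_mul]
      refine congrArg _ (Finset.sum_congr rfl fun d hd => ?_)
      obtain ⟨a1, c, rfl⟩ := (mem_pdiv hn.ne_zero).1 hd
      have a2 := a1.of_mul hn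
      rw [mul_div_cancel_left₀ _ a1.ne_zero, ch, ch, ch, ind_of hn, ind_of a1, ind_of a2,
        cub_mul_right a1.ne_zero a2.ne_zero]
      ring
    · rw [vm, ind_of_not hn, zero_mul, zero_mul, zero_mul]
  rw [(hasDerivAt_DS (norm_ch_le k) hs).deriv, neg_neg, h3, ← h2, mul_comm, ← mul_assoc,
    DS_mu k hs, one_mul]

theorem exists_DS_lower : ∃ b : ℝ, 0 < b ∧ ∀ (k : O) (s : ℂ), s.re = 2 → b ≤ ‖DS (ch k) s‖ := by
  set Z := ∑' n : O, (nm n : ℝ) ^ (-(2 : ℝ)) with hZ
  have h0 : 0 ≤ Z := tsum_nonneg fun _ => by positivity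
  refine ⟨(Z + 1)⁻¹, by positivity, fun k s hs => ?_⟩
  have h1 : 1 < s.re := by rw [hs]; norm_num
  have h2 : ‖DS (fun n => mu n * ch k n) s‖ ≤ Z := by
    refine tsum_of_norm_bounded (summable_rpow one_lt_two).hasSum fun n => ?_
    rw [norm_mul, Complex.norm_natCast_cpow_of_re_ne_zero _ (by rw [Complex.neg_re]; linarith),
      Complex.neg_re, hs]
    exact mul_le_of_le_one_left (by positivity) (sconv_mu k n)
  have h3 := congrArg norm (DS_mu k h1)
  rw [norm_mul, norm_one] at h3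
  rw [inv_le_iff_one_le_mul₀ (by positivity), ← h3]
  exact mul_le_mul_of_nonneg_left (by linarith) (norm_nonneg _)

end Vale.Agent.P006.S
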