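import Vale.Agent.P006.Defs
import Vale.Agent.P026.RecAux
import Vale.Agent.P026.Zeta

/-! Part S (Siegel-Walfisz with a power saving): definitions.  Overview in `notes/P006.md`, part S, and in `S.lean`. -/

namespace Vale.Agent.P006.S

open Vale.Agent.P026 Filter
open scoped ComplexConjugate Real

/-- Dirichlet series -/
noncomputable def DS (a : O → ℂ) (s : ℂ) : ℂ := ∑' n : O, a n * (nm n : ℂ) ^ (-s)

/-- the cubic character on primary elements -/
noncomputable def ch (k n : O) : ℂ := ind (Prim n) * cub k n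

/-- von Mangoldt function, as `mu * log` -/
noncomputable def vm (n : O) : ℂ :=
  ind (Prim n) * ∑ d ∈ pdiv n, mu d * (Real.log (nm (n / d)) : ℝ)

/-- primary primes with norm in `(y, z]` -/
noncomputable def prw (y z : ℝ) : Finset O := (prb z).filter fun p => y < nm p

/-- `PSStmt` with an explicit exponent -/
def PSE : Prop :=
  ∃ C : ℝ, 0 < C ∧ ∀ (Q u t : ℝ) (k : O), 2 ≤ Q → 1 ≤ u → |t| ≤ Q → k ≠ 0 →
    (nm k : ℝ) ≤ Q → ¬Cube k →
      ‖∑ p ∈ prb u, Lam p * cub k p * nt p t‖ ≤ C * u ^ (1 - 1 / 16000 : ℝ) * Real.log Q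

theorem mem_prb {X : ℝ} {p : O} : p ∈ prb X ↔ PP p ∧ (nm p : ℝ) ≤ X := by
  classical
  rw [prb, Finset.mem_filter, mem_ball, and_comm]

theorem mem_qball {X : ℝ} {n : O} : n ∈ qball X ↔ Sq n ∧ (nm n : ℝ) ≤ X := by
  classical
  rw [qball, Finset.mem_filter, mem_ball, and_comm]

theorem mem_prw {y z : ℝ} {p : O} : p ∈ prw y z ↔ PP p ∧ y < nm p ∧ (nm p : ℝ) ≤ z := by
  rw [prw, Finset.mem_filter, mem_prb]
  tauto

theorem norm_ch_le (k n : O) : ‖ch k n‖ ≤ 1 := by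
  rw [ch, norm_mul]
  exact mul_le_one₀ (norm_ind_le _) (norm_nonneg _) (norm_cub_le _ _)

theorem ch_zero (k : O) : ch k 0 = 0 := by
  rw [ch, ind_of_not fun h => h.ne_zero rfl, zero_mul]

theorem vm_zero : vm 0 = 0 := by
  rw [vm, ind_of_not fun h => h.ne_zero rfl, zero_mul]

/-- `N(n) ^ (i t) * N(n) ^ (-s) = N(n) ^ (-(s - i t))` -/
theorem nt_mul_cpow {n : O} (hn : n ≠ 0) (t : ℝ) (s : ℂ) :
    nt n t * (nm n : ℂ) ^ (-s) = (nm n : ℂ) ^ (-(s - Complex.I * t)) := by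
  have h0 : (nm n : ℂ) ≠ 0 := Nat.cast_ne_zero.2 (nm_pos hn).ne'
  rw [neg_sub, sub_eq_add_neg, Complex.cpow_add _ _ h0]
  congr 1
  rw [nt, Complex.cpow_def_of_ne_zero h0, Complex.natCast_log]
  congr 1
  ring

end Vale.Agent.P006.S
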