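import Vale.Agent.P006.SDefs

/-!
# Part S: Riesz kernels and the shift of a vertical line  (TASK; pure analysis)

`perron1`, `perron2`: `mellin_inversion` (`Mathlib/Analysis/MellinInversion.lean`) for `f x = max (1 - x) 0`, resp.
`f x = max (1 - x) 0 ^ 2 / (2 x)`, written as combinations of `Set.indicator (Set.Ioc 0 1) (fun x => x ^ a)` (`hasMellin_cpow_Ioc`,
`hasMellin_one_Ioc`, `HasMellin.add`/`hasMellin_sub`); `mellinInv` only depends on the values on the line; vertical integrability from the bound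
`C / (1 + y ^ 2)` (`integrable_inv_one_add_sq`).
`shift_line`: `Complex.integral_boundary_rect_eq_zero_of_differentiableOn` on `[σ, τ] × [-T, T]`, horizontal sides are at most
`(τ - σ) M (1 + T) ^ (-3/2)`, `intervalIntegral_tendsto_integral` (`integrable_one_add_norm`); similar lemmas exist in `P020/Contour.lean`, `P026/VorCore.lean`.
-/

namespace Vale.Agent.P006.S

open Vale.Agent.P026 Filter
open scoped ComplexConjugate Real

theorem SKer_congr {f g : ℝ → ℂ} {s m : ℂ} (h : ∀ t, 0 < t → f t = g t) (hg : HasMellin g s m) :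
    HasMellin f s m := by
  have e : Set.EqOn (fun t : ℝ => (t : ℂ) ^ (s - 1) • f t) (fun t : ℝ => (t : ℂ) ^ (s - 1) • g t)
      (Set.Ioi 0) := fun t ht => by simp only [h t ht]
  exact ⟨(MeasureTheory.integrableOn_congr_fun e measurableSet_Ioi).2 hg.1,
    (MeasureTheory.setIntegral_congr_fun measurableSet_Ioi e).trans hg.2⟩

theorem SKer_inv {f : ℝ → ℂ} {m : ℂ → ℂ} {σ x C : ℝ} (hx : 0 < x)
    (hm : ∀ s : ℂ, s.re = σ → HasMellin f s (m s))
    (hc : Continuous fun y : ℝ => m (σ + y * Complex.I))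
    (hb : ∀ s : ℂ, s.re = σ → ‖m s‖ ≤ C * (1 + s.im ^ 2)⁻¹) (hf : ContinuousAt f x) :
    mellinInv σ m x = f x := by
  have e : ∀ y : ℝ, mellin f (σ + y * Complex.I) = m (σ + y * Complex.I) := fun y =>
    (hm _ (by simp)).2
  have hi : Complex.VerticalIntegrable (mellin f) σ := by
    simp only [Complex.VerticalIntegrable, e]
    refine MeasureTheory.Integrable.mono' (integrable_inv_one_add_sq.const_mul C)
      hc.aestronglyMeasurable (Eventually.of_forall fun y => ?_)
    simpa using hb (σ + y * Complex.I) (by simp)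
  rw [← mellinInv_mellin_eq σ f hx (hm σ (by simp)).1 hi hf]
  simp only [mellinInv, e]

theorem SKer_norm {s : ℂ} (hs : 0 < s.re) :
    ‖1 / (s * (s + 1))‖ ≤ (min s.re 1 ^ 2)⁻¹ * (1 + s.im ^ 2)⁻¹ := by
  have hc : 0 < min s.re 1 := lt_min hs one_pos
  have h1 : min s.re 1 ^ 2 ≤ s.re ^ 2 := pow_le_pow_left₀ hc.le (min_le_left _ _) 2
  have h2 : min s.re 1 ^ 2 ≤ 1 := pow_le_one₀ hc.le (min_le_right _ _)
  have h3 : ‖s‖ ≤ ‖s + 1‖ := by
    refine (abs_le_of_sq_le_sq' ?_ (norm_nonneg _)).2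
    rw [Complex.sq_norm, Complex.sq_norm, Complex.normSq_apply, Complex.normSq_apply]
    simp only [Complex.add_re, Complex.add_im, Complex.one_re, Complex.one_im]
    nlinarith
  have h4 : min s.re 1 ^ 2 * (1 + s.im ^ 2) ≤ ‖s‖ ^ 2 := by
    rw [Complex.sq_norm, Complex.normSq_apply]
    nlinarith [mul_le_mul_of_nonneg_right h2 (sq_nonneg s.im)]
  rw [← mul_inv, norm_div, norm_one, one_div, norm_mul]
  refine inv_anti₀ (by positivity) (h4.trans ?_)
  rw [sq]
  exact mul_le_mul_of_nonneg_left h3 (norm_nonneg _)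

theorem SKer_ne {s : ℂ} (hs : 0 < s.re) : s ≠ 0 := fun h => by simp [h] at hs

theorem perron1 {σ x : ℝ} (hσ : 0 < σ) (hx : 0 < x) :
    mellinInv σ (fun s => 1 / (s * (s + 1))) x = ((max (1 - x) 0 : ℝ) : ℂ) := by
  refine SKer_inv (f := fun t => ((max (1 - t) 0 : ℝ) : ℂ)) (C := (min σ 1 ^ 2)⁻¹) hx
    (fun s hs => ?_) ?_ (fun s hs => hs ▸ SKer_norm (hs ▸ hσ)) (by fun_prop)
  · have h0 : 0 < s.re := hs ▸ hσ
    have h1 := hasMellin_one_Ioc h0
    have h2 := hasMellin_cpow_Ioc 1 (s := s) (by simp; linarith)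
    have h3 := hasMellin_sub h1.1 h2.1
    have n1 := SKer_ne h0
    have n2 : s + 1 ≠ 0 := SKer_ne (by simp; linarith)
    rw [h1.2, h2.2, show 1 / s - 1 / (s + 1) = 1 / (s * (s + 1)) by field_simp; ring] at h3
    refine SKer_congr (fun t ht => ?_) h3
    rcases le_or_gt t 1 with h | h
    · rw [Set.indicator_of_mem (show t ∈ Set.Ioc 0 1 from ⟨ht, h⟩),
        Set.indicator_of_mem (show t ∈ Set.Ioc 0 1 from ⟨ht, h⟩), max_eq_left (by linarith)]
      simp
    · rw [Set.indicator_of_notMem (fun h' => not_le.2 h h'.2),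
        Set.indicator_of_notMem (fun h' => not_le.2 h h'.2), max_eq_right (by linarith)]
      simp
  · exact continuous_const.div (by fun_prop) fun y =>
      mul_ne_zero (SKer_ne (by simpa using hσ)) (SKer_ne (by simp; linarith))

theorem perron2 {σ x : ℝ} (hσ : 1 < σ) (hx : 0 < x) (hx1 : x ≤ 1) :
    mellinInv σ (fun s => 1 / ((s - 1) * s * (s + 1))) x = (((1 - x) ^ 2 / (2 * x) : ℝ) : ℂ) := by
  have key := SKer_inv (f := fun t => ((max (1 - t) 0 ^ 2 / (2 * t) : ℝ) : ℂ)) (σ := σ)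
    (m := fun s => 1 / ((s - 1) * s * (s + 1))) (C := (σ - 1)⁻¹ * (min σ 1 ^ 2)⁻¹) hx
    (fun s hs => ?_) ?_ (fun s hs => ?_) ?_
  · rwa [max_eq_left (by linarith)] at key
  · have h0 : 0 < s.re := by linarith
    have h1 := hasMellin_one_Ioc h0
    have h2 := hasMellin_cpow_Ioc 1 (s := s) (by simp; linarith)
    have h4 := hasMellin_cpow_Ioc (-1) (s := s) (by simp; linarith)
    have h5 := hasMellin_add h4.1 h2.1
    have h6 := hasMellin_const_smul h5.1 (1 / 2 : ℂ)
    have h3 := hasMellin_sub h6.1 h1.1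
    have n1 := SKer_ne h0
    have n2 : s + 1 ≠ 0 := SKer_ne (by simp; linarith)
    have n3 : s - 1 ≠ 0 := SKer_ne (by simp; linarith)
    rw [h6.2, h5.2, h4.2, h1.2, h2.2, ← sub_eq_add_neg, smul_eq_mul,
      show 1 / 2 * (1 / (s - 1) + 1 / (s + 1)) - 1 / s = 1 / ((s - 1) * s * (s + 1)) by
        field_simp; ring] at h3
    refine SKer_congr (fun t ht => ?_) h3
    rcases le_or_gt t 1 with h | h
    · have n4 : (t : ℂ) ≠ 0 := Complex.ofReal_ne_zero.2 ht.ne'
      simp only [Set.indicator_of_mem (show t ∈ Set.Ioc 0 1 from ⟨ht, h⟩),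
        max_eq_left (sub_nonneg.2 h), Complex.cpow_neg_one, Complex.cpow_one, smul_eq_mul]
      push_cast
      field_simp
      ring
    · simp [Set.indicator_of_notMem (fun h' : t ∈ Set.Ioc 0 1 => not_le.2 h h'.2),
        max_eq_right (sub_neg.2 h).le]
  · exact continuous_const.div (by fun_prop) fun y => mul_ne_zero
      (mul_ne_zero (SKer_ne (by simpa using hσ)) (SKer_ne (by simp; linarith)))
      (SKer_ne (by simp; linarith))
  · have h1 := SKer_norm (s := s) (by linarith)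
    have h2 : σ - 1 ≤ ‖s - 1‖ := by simpa [hs] using Complex.re_le_norm (s - 1)
    rw [mul_assoc, ← one_div_mul_one_div, norm_mul, mul_assoc, norm_div, norm_one, one_div]
    exact mul_le_mul (inv_anti₀ (by linarith) h2) (hs ▸ h1) (norm_nonneg _)
      (inv_nonneg.2 (by linarith))
  · exact Complex.continuous_ofReal.continuousAt.comp
      (ContinuousAt.div (by fun_prop) (by fun_prop) (by positivity))

theorem shift_line {H : ℂ → ℂ} {σ₀ σ τ M : ℝ} (h0 : σ₀ < σ) (h1 : σ ≤ τ)
    (hH : DifferentiableOn ℂ H {s | σ₀ < s.re})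
    (hb : ∀ s : ℂ, σ ≤ s.re → s.re ≤ τ → ‖H s‖ ≤ M * (1 + |s.im|) ^ (-3 / 2 : ℝ)) :
    ∫ y : ℝ, H (τ + y * Complex.I) = ∫ y : ℝ, H (σ + y * Complex.I) := by
  have hd : DifferentiableOn ℂ H {w | σ ≤ w.re ∧ w.re ≤ τ} := hH.mono fun w hw => h0.trans_le hw.1
  have hψ : MeasureTheory.Integrable fun y : ℝ => (1 + |y|) ^ (-3 / 2 : ℝ) := by
    rw [neg_div]
    exact integrable_one_add_norm (E := ℝ) (μ := MeasureTheory.volume) (r := 3 / 2)
      (by simp; norm_num)
  have hψ0 : Tendsto (fun y : ℝ => (1 + |y|) ^ (-3 / 2 : ℝ)) atTop (nhds 0) := by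
    rw [neg_div]
    exact (tendsto_rpow_neg_atTop (by norm_num : (0 : ℝ) < 3 / 2)).comp
      (tendsto_atTop_add_const_left _ _ tendsto_abs_atTop_atTop)
  have hi : ∀ x : ℝ, σ ≤ x → x ≤ τ →
      MeasureTheory.Integrable fun y : ℝ => H (x + y * Complex.I) := by
    intro x h1 h2
    refine MeasureTheory.Integrable.mono' (hψ.const_mul M)
      (hd.continuousOn.comp_continuous (by fun_prop) fun y => by simp [h1, h2]).aestronglyMeasurable
      (Eventually.of_forall fun y => ?_)
    simpa using hb (x + y * Complex.I) (by simpa using h1) (by simpa using h2)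
  have hl := fun x h1 h2 => MeasureTheory.intervalIntegral_tendsto_integral (hi x h1 h2)
    tendsto_neg_atTop_atBot (tendsto_id (α := ℝ) (x := atTop))
  have hlim := (hl τ h1 le_rfl).sub (hl σ le_rfl h1)
  have hsmall : ∀ R : ℝ, ‖(∫ y in (-R)..R, H (τ + y * Complex.I)) -
      ∫ y in (-R)..R, H (σ + y * Complex.I)‖ ≤ 2 * (M * (1 + |R|) ^ (-3 / 2 : ℝ) * |τ - σ|) := by
    intro R
    have h := Complex.integral_boundary_rect_eq_zero_of_differentiableOn H ⟨σ, -R⟩ ⟨τ, R⟩
      (hd.mono fun w hw => by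
        have h2 := hw.1
        simp only [Set.mem_preimage, Set.uIcc_of_le h1] at h2
        exact h2)
    have h4 : ∀ r : ℝ, |r| = |R| →
        ‖∫ x : ℝ in σ..τ, H (x + r * Complex.I)‖ ≤ M * (1 + |R|) ^ (-3 / 2 : ℝ) * |τ - σ| := by
      intro r hr
      refine intervalIntegral.norm_integral_le_of_norm_le_const fun x hx => ?_
      rw [Set.uIoc_of_le h1] at hx
      have := hb (x + r * Complex.I) (by simpa using hx.1.le) (by simpa using hx.2)
      simpa [hr] using this
    have h2 := h4 R rfl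
    have h3 := h4 (-R) (abs_neg R)
    dsimp only at h
    generalize (∫ x : ℝ in σ..τ, H (x + R * Complex.I)) = u at h h2
    generalize (∫ x : ℝ in σ..τ, H (x + (-R : ℝ) * Complex.I)) = v at h h3
    generalize (∫ y in (-R)..R, H (τ + y * Complex.I)) = c at h ⊢
    generalize (∫ y in (-R)..R, H (σ + y * Complex.I)) = d at h ⊢
    have e : Complex.I * (c - d) = u - v := by
      simp only [smul_eq_mul] at h
      linear_combination h
    have h5 := norm_sub_le u v
    rw [← e, norm_mul, Complex.norm_I, one_mul] at h5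
    linarith
  have hlim0 : Tendsto (fun R : ℝ => (∫ y in (-R)..R, H (τ + y * Complex.I)) -
      ∫ y in (-R)..R, H (σ + y * Complex.I)) atTop (nhds 0) := by
    refine squeeze_zero_norm hsmall ?_
    simpa using ((hψ0.const_mul M).mul_const |τ - σ|).const_mul 2
  exact sub_eq_zero.1 (tendsto_nhds_unique hlim hlim0)

end Vale.Agent.P006.S
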