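import Vale.Agent.P006.SDefs
import Vale.Agent.P026.Final1
import Vale.Agent.P026.Final2

/-!
# Part S: power saving in twisted Moebius sums  (TASK; a port of `P026/Final1.lean`)

`asum_gen`: copy `asum_one` with the extra factor `sex h₀ (e m) = sex h₀ e * sex h₀ m` (`sex_mul_right`) and
`sex (h₀ * a ^ 6) m = sex h₀ m * ind (IsCoprime a m)` (`sex_mul_left`, `sex_pow_six`), `norm_sex_le`.
`mob_gen`: copy `mob_bound` with `H = nm h₀ * N ^ (599 / 500)` and `Y = (N ^ (599 / 500)) ^ (1 / 6)`; `a ↦ h₀ * a ^ 6` is injective on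
primary elements and lands in `ball H`; the constant picks up powers of `nm h₀`.
`mob_ch`: as `mob_char` with `Q = 72`, `h₀ = k ^ 2`: `mu n * ch k n = 0` unless `IsS n` (`cub_eq_zero` if `2 ∣ n`), and for `IsS n`
`sex (k ^ 2) n = cub k n` (`quad_sq_left`, `cub_pow_left`, `conj_cub`, `cub_cube`, `cub_eq_zero`).
-/

namespace Vale.Agent.P006.S

open Vale.Agent.P026 Filter
open scoped ComplexConjugate Real

theorem asum_gen {Q : O} (hQ : Q ≠ 0) {a : O} (ha : Prim a) (h₀ α : O) (B : ℝ) (V : ℝ → ℝ) {N : ℝ}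
    (hN : 0 < N) (t : ℝ) : ‖Asum Q α B V N t h₀‖ ≤
      ∑ e ∈ pdiv a, ∑ β ∈ res Q, ‖Asum Q β B V (N / nm e) t (h₀ * a ^ 6)‖ := by
  have e1 : Asum Q α B V N t h₀ = ∑ e ∈ pdiv a, ∑ n ∈ sball (B * N), ind (e ∣ n) *
      (ind (IsCoprime a (n / e)) * (ind (Q ∣ n - α) * mu n * sex h₀ n * V (nm n / N) * nt n t)) := by
    rw [Finset.sum_comm]
    refine Finset.sum_congr rfl fun n hn => ?_
    simp only [← mul_assoc (ind (_ ∣ n))]
    rw [← Finset.sum_mul, Final1_gcd ha (mem_sball.1 hn).1, one_mul]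
  rw [e1]
  refine (norm_sum_le _ _).trans (Finset.sum_le_sum fun e he => ?_)
  obtain ⟨he1, he2⟩ := (mem_pdiv ha.ne_zero).1 he
  by_cases hS : IsS e
  swap
  · rw [Finset.sum_eq_zero fun n hn => by
      rw [ind_of_not fun h => hS ((mem_sball.1 hn).1.of_dvd he1 h), zero_mul], norm_zero]
    exact Finset.sum_nonneg fun _ _ => norm_nonneg _
  have hpos : (0 : ℝ) < nm e := zero_lt_one.trans_le (one_le_nm he1.ne_zero)
  rw [sum_sball_dvd hS (B * N) fun n =>
    ind (IsCoprime a (n / e)) * (ind (Q ∣ n - α) * mu n * sex h₀ n * V (nm n / N) * nt n t)]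
  have e2 : ∑ m ∈ sball (B * N / nm e), ind (IsCoprime m e) * (ind (IsCoprime a (e * m / e)) *
      (ind (Q ∣ e * m - α) * mu (e * m) * sex h₀ (e * m) * V (nm (e * m) / N) * nt (e * m) t)) =
      ∑ β ∈ res Q, (ind (Q ∣ e * β - α) * mu e * sex h₀ e * nt e t) *
        Asum Q β B V (N / nm e) t (h₀ * a ^ 6) := by
    simp only [Asum, Finset.mul_sum]
    rw [Finset.sum_comm, mul_div_assoc]
    refine Finset.sum_congr rfl fun m hm => ?_
    have hm' := (mem_sball.1 hm).1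
    rw [mul_div_cancel_left₀ _ he1.ne_zero, sex_mul_left hm'.1, sex_pow_six hm'.1,
      sex_mul_right he1.ne_zero hm'.1.1.ne_zero, Final1_ind hQ]
    by_cases hc : IsCoprime a m
    · have hc' : IsCoprime e m := hc.of_isCoprime_of_dvd_left he2
      have e3 : (nm (e * m) : ℝ) / N = nm m / (N / nm e) := by
        rw [nm_mul]
        push_cast
        field_simp
      rw [ind_of hc, ind_of hc'.symm, mu_mul hc', nt_mul he1.ne_zero hm'.1.1.ne_zero, e3]
      simp only [Finset.sum_mul, Finset.mul_sum]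
      refine Finset.sum_congr rfl fun β _ => ?_
      ring
    · simp [ind_of_not hc]
  rw [e2]
  refine (norm_sum_le _ _).trans (Finset.sum_le_sum fun β _ => ?_)
  rw [norm_mul, norm_mul, norm_mul, norm_mul, norm_nt, mul_one]
  exact mul_le_of_le_one_left (norm_nonneg _)
    (mul_le_one₀ (mul_le_one₀ (norm_ind_le _) (norm_nonneg _) (norm_mu_le _)) (norm_nonneg _)
      (norm_sex_le _ _))
theorem mob_gen {Q : O} (hQ : Q ≠ 0) (hP : PStmt Q (1 / 10000)) {h₀ : O} (h0 : h₀ ≠ 0) {B : ℝ}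
    {V : ℝ → ℝ} (hV : Adm B V) (t : ℝ) : ∃ C : ℝ, ∀ (N : ℝ) (α : O), 1 ≤ N →
      ‖Asum Q α B V N t h₀‖ ≤ C * N ^ (1999 / 2000 : ℝ) := by
  classical
  obtain ⟨C₀, A, hC₀, hA, h₁⟩ := hP B V (1 / 10000) hV (by norm_num)
  obtain ⟨C₂, hC₂, h₂⟩ := card_pdiv_le (1 / 10000) (by norm_num)
  obtain ⟨C₃, hC₃, h₃⟩ := sum_rpow_le_const (σ := 1 + 1 / 10000) (by norm_num)
  obtain ⟨c, hc, h₄⟩ := card_pball_ge
  have hh : (1 : ℝ) ≤ nm h₀ := one_le_nm h0
  obtain ⟨C₁, hC₁, eC⟩ : ∃ C₁ : ℝ, 0 < C₁ ∧ C₁ = C₀ * (nm h₀ : ℝ) ^ (1 + 1 / 10000 : ℝ) :=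
    ⟨_, by positivity, rfl⟩
  set K : ℝ := C₂ * nm Q * (nm Q * (C₁ * (1 + |t|) ^ A) * C₃) / c with hK
  have hK0 : 0 ≤ K := by positivity
  refine ⟨√K, fun N α hN => ?_⟩
  have hN0 : 0 < N := by linarith
  set H : ℝ := N ^ (599 / 500 : ℝ) with hH
  have hH1 : 1 ≤ H := Real.one_le_rpow hN (by norm_num)
  have hH0 : 0 < H := by linarith
  set Y : ℝ := H ^ (1 / 6 : ℝ) with hY
  have hY1 : 1 ≤ Y := Real.one_le_rpow hH1 (by norm_num)
  have hY6 : Y ^ 6 = H := by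
    rw [hY, ← Real.rpow_natCast, ← Real.rpow_mul hH0.le]
    norm_num
  have hYH : Y ≤ H := by
    rw [← hY6]
    exact le_self_pow₀ hY1 (by norm_num)
  let G : O → O → O → ℝ := fun e β h => ‖Asum Q β B V (N / nm e) t h‖ ^ 2
  have s1 : ∀ a ∈ pball Y, ‖Asum Q α B V N t h₀‖ ^ 2 ≤
      C₂ * H ^ (1 / 10000 : ℝ) * nm Q * ∑ e ∈ pball Y, ∑ β ∈ res Q, G e β (h₀ * a ^ 6) := by
    intro a ha
    obtain ⟨ha1, ha2⟩ := mem_pball.1 ha
    have b1 := asum_gen hQ ha1 h₀ α B V hN0 t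
    rw [← Finset.sum_product'] at b1
    have b2 := (pow_le_pow_left₀ (norm_nonneg _) b1 2).trans sq_sum_le_card_mul_sum_sq
    rw [Finset.card_product, card_res hQ, Finset.sum_product] at b2
    push_cast at b2
    refine b2.trans (mul_le_mul (mul_le_mul_of_nonneg_right ((h₂ a ha1.ne_zero).trans ?_)
      (Nat.cast_nonneg _)) ?_ (by positivity) (by positivity))
    · exact mul_le_mul_of_nonneg_left
        (Real.rpow_le_rpow (Nat.cast_nonneg _) (ha2.trans hYH) (by norm_num)) hC₂.le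
    · refine Finset.sum_le_sum_of_subset_of_nonneg (fun e he => ?_) fun _ _ _ => by positivity
      obtain ⟨he1, he2⟩ := (mem_pdiv ha1.ne_zero).1 he
      exact mem_pball.2 ⟨he1, le_trans (by exact_mod_cast nm_le_of_dvd ha1.ne_zero he2) ha2⟩
  have s2 : ∀ e ∈ pball Y, ∀ β : O, ∑ a ∈ pball Y, G e β (h₀ * a ^ 6) ≤
      C₁ * (1 + |t|) ^ A * H ^ (1 + 1 / 10000 : ℝ) * N ^ (1 + 1 / 10000 : ℝ) *
        (nm e : ℝ) ^ (-(1 + 1 / 10000) : ℝ) := by
    intro e he β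
    have he1 := one_le_nm (mem_pball.1 he).1.ne_zero
    have b1 := h₁ (N / nm e) (nm h₀ * H) t β (by positivity) (one_le_mul_of_one_le_of_one_le hh hH1)
      ((Real.rpow_le_rpow (by positivity) (div_le_self hN0.le he1) (by norm_num)).trans
        (le_mul_of_one_le_left hH0.le hh))
    rw [Real.div_rpow hN0.le (by positivity), div_eq_mul_inv (N ^ _),
      ← Real.rpow_neg (by positivity), ← mul_assoc, Real.mul_rpow (by positivity) hH0.le] at b1
    refine le_trans ?_ (b1.trans_eq (by rw [eC]; ring))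
    rw [← Finset.sum_image (f := G e β) (g := fun a : O => h₀ * a ^ 6) fun a ha b hb h =>
      Final1_inj (mem_pball.1 ha).1 (mem_pball.1 hb).1 (mul_left_cancel₀ h0 h)]
    refine Finset.sum_le_sum_of_subset_of_nonneg (fun h hm => ?_) fun _ _ _ => by positivity
    obtain ⟨a, ha, rfl⟩ := Finset.mem_image.1 hm
    rw [mem_ball, nm_mul, nm_pow, ← hY6]
    push_cast
    exact mul_le_mul_of_nonneg_left (pow_le_pow_left₀ (Nat.cast_nonneg _) (mem_pball.1 ha).2 6)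
      (Nat.cast_nonneg _)
  have s3 : ∑ a ∈ pball Y, ∑ e ∈ pball Y, ∑ β ∈ res Q, G e β (h₀ * a ^ 6) ≤
      nm Q * (C₁ * (1 + |t|) ^ A * H ^ (1 + 1 / 10000 : ℝ) * N ^ (1 + 1 / 10000 : ℝ)) * C₃ := by
    rw [Finset.sum_comm]
    refine le_trans (Finset.sum_le_sum (g := fun e => nm Q *
      (C₁ * (1 + |t|) ^ A * H ^ (1 + 1 / 10000 : ℝ) * N ^ (1 + 1 / 10000 : ℝ)) *
        (nm e : ℝ) ^ (-(1 + 1 / 10000) : ℝ)) fun e he => ?_) ?_
    · rw [Finset.sum_comm]
      refine (Finset.sum_le_sum fun β _ => s2 e he β).trans_eq ?_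
      rw [Finset.sum_const, card_res hQ, nsmul_eq_mul]
      ring
    · rw [← Finset.mul_sum]
      exact mul_le_mul_of_nonneg_left (h₃ _) (by positivity)
  have s4 := Finset.sum_le_sum s1
  rw [Finset.sum_const, nsmul_eq_mul, ← Finset.mul_sum] at s4
  have s5 := (mul_le_mul_of_nonneg_right (h₄ Y hY1) (sq_nonneg ‖Asum Q α B V N t h₀‖)).trans
    (s4.trans (mul_le_mul_of_nonneg_left s3 (by positivity)))
  have s6 : H ^ (1 / 10000 : ℝ) * H ^ (1 + 1 / 10000 : ℝ) * N ^ (1 + 1 / 10000 : ℝ) ≤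
      Y * (N ^ (1999 / 2000 : ℝ)) ^ 2 := by
    rw [hY, hH, ← Real.rpow_natCast]
    simp only [← Real.rpow_mul hN0.le, ← Real.rpow_add hN0]
    exact Real.rpow_le_rpow_of_exponent_le hN (by norm_num)
  have s7 : ‖Asum Q α B V N t h₀‖ ^ 2 ≤ K * (N ^ (1999 / 2000 : ℝ)) ^ 2 := by
    have hY0 : 0 < c * Y := by positivity
    refine le_of_mul_le_mul_left (s5.trans ?_) hY0
    calc _ = c * K * (H ^ (1 / 10000 : ℝ) * H ^ (1 + 1 / 10000 : ℝ) *
          N ^ (1 + 1 / 10000 : ℝ)) := by rw [hK]; field_simp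
      _ ≤ c * K * (Y * (N ^ (1999 / 2000 : ℝ)) ^ 2) :=
          mul_le_mul_of_nonneg_left s6 (by positivity)
      _ = _ := by ring
  rw [← Real.sq_sqrt hK0, ← mul_pow] at s7
  exact (pow_le_pow_iff_left₀ (norm_nonneg _) (by positivity) two_ne_zero).1 s7
theorem mob_ch (hP : PStmt 72 (1 / 10000)) {k : O} (hk : k ≠ 0) (h2 : (2 : O) ∣ k) (B : ℝ)
    (V : ℝ → ℝ) (t : ℝ) (hV : Adm B V) : ∃ C : ℝ, ∀ N : ℝ, 1 ≤ N →
      ‖msum B V (fun n => mu n * ch k n) t N‖ ≤ C * N ^ (1999 / 2000 : ℝ) := by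
  have hQ : (72 : O) ≠ 0 := fun h => by
    have := congrArg nm h
    rw [show (72 : O) = ((72 : ℕ) : O) by norm_num, nm_natCast, nm_zero] at this
    norm_num at this
  obtain ⟨C, hC⟩ := mob_gen hQ hP (pow_ne_zero 2 hk) hV t
  refine ⟨nm (72 : O) * C, fun N hN => ?_⟩
  have e1 : msum B V (fun n => mu n * ch k n) t N =
      ∑ α ∈ res 72, Asum 72 α B V N t (k ^ 2) := by
    simp only [Asum, msum]
    rw [Finset.sum_comm]
    symm
    refine Finset.sum_subset_zero_on_sdiff (fun n hn => mem_ball.2 (mem_sball.1 hn).2)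
      (fun n hn => ?_) fun n hn => ?_
    · obtain ⟨h1, h3⟩ := Finset.mem_sdiff.1 hn
      by_cases h4 : Prim n
      · by_cases h5 : (2 : O) ∣ n
        · rw [ch, cub_eq_zero h4.not_lam_dvd fun h => prime_two.not_isUnit (h.isUnit_of_dvd' h2 h5)]
          simp
        · rw [mu_eq_zero fun h6 => h3 (mem_sball.2 ⟨⟨⟨h4, h5⟩, h6⟩, mem_ball.1 h1⟩)]
          simp
      · simp [ch, ind_of_not h4]
    · obtain ⟨h4, h5⟩ := (mem_sball.1 hn).1.1
      have e : sex (k ^ 2) n = ch k n := by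
        rw [ch, ind_of h4, one_mul, sex, quad_sq_left h5, conj_cub, cub_pow_left]
        by_cases h : IsCoprime k n
        · rw [ind_of h, one_mul, ← pow_mul, show 2 * 2 = 3 + 1 by rfl, pow_succ, cub_cube h, one_mul]
        · rw [ind_of_not h, zero_mul, cub_eq_zero h4.not_lam_dvd h]
      simp only [← Finset.sum_mul]
      rw [sum_res_ind hQ n, one_mul, e]
  rw [e1]
  refine (norm_sum_le _ _).trans ((Finset.sum_le_sum fun α _ => hC N α hN).trans_eq ?_)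
  rw [Finset.sum_const, card_res hQ, nsmul_eq_mul, mul_assoc]
end Vale.Agent.P006.S
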