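import Vale.Agent.P006.SDefs
import Vale.Agent.P026.Final2

/-!
# Part S: zero-free half plane; logarithmic derivative  (TASK)

`zero_free_gen`: as `mellin_zero_free` (`P026/Final2.lean`) but simpler: `t = -ρ.im`,
`H s = mellin (msum 2 V a t) (-(s + I t)) * Z s - mellin V (s + I t) * g s` is differentiable on the half plane `σ₀ < re s`, vanishes for
`1 < re s` (`mellin_msum`), hence everywhere (identity theorem, `convex_halfSpace_re_gt`); `mellin_adm_ne_zero`.
`logderiv_le`: `c = 2 + y I`, `R = 2 - σ₀`, `r = 2 - σ₁ < R`.  `L` = primitive of `deriv F / F` on the ball with `L c = 0`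
(`DifferentiableOn.isExactOn_ball`, cf. `exists_log_Circ` in `P020/Circ.lean`), `F z = F c * exp (L z)`, so
`re (L z) = log (‖F z‖ / ‖F c‖) ≤ 1 + log (B / b)`; `Complex.borelCaratheodory_zero` on the radius `(R + r) / 2`, then the Cauchy estimate
`Complex.norm_deriv_le_of_forall_mem_sphere_norm_le` on circles of radius `(R - r) / 2`.
-/

namespace Vale.Agent.P006.S

open Vale.Agent.P026 Filter
open scoped ComplexConjugate Real

theorem zero_free_gen {a : O → ℂ} (ha : ∀ n, ‖a n‖ ≤ 1) {σ₀ : ℝ}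
    (hb : ∀ (B : ℝ) (V : ℝ → ℝ) (t : ℝ), Adm B V →
      ∃ C : ℝ, ∀ N : ℝ, 1 ≤ N → ‖msum B V a t N‖ ≤ C * N ^ σ₀)
    {Z g : ℂ → ℂ} (hZ : DifferentiableOn ℂ Z {s | σ₀ < s.re})
    (hg : DifferentiableOn ℂ g {s | σ₀ < s.re}) (hZa : ∀ s : ℂ, 1 < s.re → Z s * DS a s = g s)
    {ρ : ℂ} (hρ : σ₀ < ρ.re) (h : Z ρ = 0) : g ρ = 0 := by
  obtain ⟨V, hV, hV0, hV1⟩ := exists_adm
  set t : ℝ := -ρ.im with ht
  obtain ⟨C, hC⟩ := hb 2 V t hV
  let H : ℂ → ℂ := fun s => mellin (msum 2 V a t) (-(s + Complex.I * t)) * Z s -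
    mellin (fun x => (V x : ℂ)) (s + Complex.I * t) * g s
  have hre : ∀ s : ℂ, (s + Complex.I * t).re = s.re := fun s => by simp
  have hH : DifferentiableOn ℂ H {s | σ₀ < s.re} := by
    intro s hs
    have d0 : DifferentiableAt ℂ (fun s : ℂ => s + Complex.I * t) s := by fun_prop
    have d1 := (differentiableAt_mellin_msum hV a t hC (s := s + Complex.I * t)
      (by rw [hre]; exact hs)).comp s d0
    have d2 := ((differentiable_mellin_adm hV) (s + Complex.I * t)).comp s d0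
    exact (d1.differentiableWithinAt.mul (hZ s hs)).sub (d2.differentiableWithinAt.mul (hg s hs))
  have hH0 : ∀ s : ℂ, 1 < s.re → H s = 0 := by
    intro s hs
    simp only [H]
    rw [mellin_msum hV ha t (by rw [hre]; exact hs), add_sub_cancel_right, mul_assoc,
      mul_comm _ (Z s), ← hZa s hs, DS, sub_self]
  let z₀ : ℂ := ⟨max σ₀ 1 + 1, 0⟩
  have hz : z₀ ∈ {s : ℂ | σ₀ < s.re} := by
    show σ₀ < max σ₀ 1 + 1
    linarith [le_max_left σ₀ 1]
  have hev : H =ᶠ[nhds z₀] 0 := by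
    have : {s : ℂ | 1 < s.re} ∈ nhds z₀ :=
      (isOpen_lt continuous_const Complex.continuous_re).mem_nhds (by
        show 1 < max σ₀ 1 + 1
        linarith [le_max_right σ₀ 1])
    filter_upwards [this] with s hs using hH0 s hs
  have hρ0 : H ρ = 0 := (hH.analyticOnNhd (isOpen_lt continuous_const
    Complex.continuous_re)).eqOn_zero_of_preconnected_of_eventuallyEq_zero
      (convex_halfSpace_re_gt σ₀).isPreconnected hz hev hρ
  have e : ρ + Complex.I * t = (ρ.re : ℂ) := by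
    apply Complex.ext <;> simp [ht]
  simp only [H] at hρ0
  rw [h, mul_zero, zero_sub, neg_eq_zero, e] at hρ0
  exact (mul_eq_zero.1 hρ0).resolve_left (mellin_adm_ne_zero hV hV0 hV1 ρ.re)

theorem logderiv_le {σ₀ σ₁ : ℝ} (h0 : σ₀ < σ₁) (h1 : σ₁ ≤ 2) : ∃ C : ℝ, 0 < C ∧
    ∀ (F : ℂ → ℂ) (B b : ℝ) (s : ℂ), DifferentiableOn ℂ F {s | σ₀ < s.re} →
      (∀ z : ℂ, σ₀ < z.re → F z ≠ 0) → 0 < b → b ≤ ‖F (2 + s.im * Complex.I)‖ →
      (∀ z ∈ Metric.ball (2 + s.im * Complex.I) (2 - σ₀), ‖F z‖ ≤ B) → σ₁ ≤ s.re → s.re ≤ 2 →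
        ‖deriv F s / F s‖ ≤ C * (1 + Real.log (B / b)) := by
  obtain ⟨R, hR⟩ : ∃ R, R = 2 - σ₀ := ⟨_, rfl⟩
  obtain ⟨δ, hδ⟩ : ∃ δ, δ = (σ₁ - σ₀) / 2 := ⟨_, rfl⟩
  have hδ0 : 0 < δ := by linarith
  have hR0 : 0 < R := by linarith
  refine ⟨2 * R / δ ^ 2, by positivity, fun F B b s hF hne hb hc hB hs1 hs2 => ?_⟩
  rw [← hR] at hB
  obtain ⟨c, hce⟩ : ∃ c : ℂ, c = 2 + s.im * Complex.I := ⟨_, rfl⟩
  rw [← hce] at hc hB
  have hm : ∀ z ∈ Metric.ball (0 : ℂ) R, c + z ∈ Metric.ball c R := fun z hz => by simpa using hz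
  have hre : ∀ z ∈ Metric.ball (0 : ℂ) R, σ₀ < (c + z).re := fun z hz => by
    have h2 := (abs_le.1 (Complex.abs_re_le_norm z)).1
    have h3 := mem_ball_zero_iff.1 hz
    have h4 : (c + z).re = 2 + z.re := by simp [hce]
    linarith
  have ho : IsOpen {s : ℂ | σ₀ < s.re} := isOpen_lt continuous_const Complex.continuous_re
  have hG : ∀ z ∈ Metric.ball (0 : ℂ) R, HasDerivAt (fun z => F (c + z)) (deriv F (c + z)) z :=
    fun z hz => (hF.differentiableAt (ho.mem_nhds (hre z hz))).hasDerivAt.comp_const_add c z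
  have hq : DifferentiableOn ℂ (fun z => deriv F (c + z) / F (c + z)) (Metric.ball 0 R) :=
    ((hF.deriv ho).div hF hne).comp (by fun_prop) hre
  obtain ⟨L, hL0, hL⟩ := hq.isExactOn_ball.with_val_at 0 0
  have hLd : DifferentiableOn ℂ L (Metric.ball 0 R) := fun z hz =>
    (hL z hz).differentiableAt.differentiableWithinAt
  have hd : ∀ z ∈ Metric.ball (0 : ℂ) R,
      HasDerivAt (fun z => F (c + z) * Complex.exp (-L z)) 0 z := by
    intro z hz
    refine ((hG z hz).mul (hL z hz).neg.cexp).congr_deriv ?_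
    have := hne _ (hre z hz)
    simp only [Pi.neg_apply]
    field_simp
    ring
  have hBb : 1 ≤ B / b := (one_le_div hb).2 (hc.trans (hB c (Metric.mem_ball_self hR0)))
  have hM : 0 < 1 + Real.log (B / b) := by linarith [Real.log_nonneg hBb]
  have hre2 : Set.MapsTo L (Metric.ball 0 R) {z | z.re ≤ 1 + Real.log (B / b)} := by
    intro z hz
    have h2 := Metric.isOpen_ball.is_const_of_deriv_eq_zero (convex_ball (0 : ℂ) R).isPreconnected
      (fun z hz => (hd z hz).differentiableAt.differentiableWithinAt) (fun z hz => (hd z hz).deriv)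
      hz (Metric.mem_ball_self hR0)
    rw [hL0, neg_zero, Complex.exp_zero, mul_one, add_zero] at h2
    have h3 : F (c + z) = F c * Complex.exp (L z) := by
      rw [← h2, mul_assoc, ← Complex.exp_add, neg_add_cancel, Complex.exp_zero, mul_one]
    have h4 := hB _ (hm z hz)
    rw [h3, norm_mul, Complex.norm_exp] at h4
    have h5 : (L z).re ≤ Real.log (B / b) := by
      rw [Real.le_log_iff_exp_le (by linarith), le_div_iff₀' hb]
      exact (mul_le_mul_of_nonneg_right hc (Real.exp_pos _).le).trans h4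
    show (L z).re ≤ _
    linarith
  have hz0 : ‖s - c‖ ≤ R - 2 * δ := by
    have e : s - c = ((s.re - 2 : ℝ) : ℂ) := by
      apply Complex.ext <;> simp [hce]
    rw [e, Complex.norm_real, Real.norm_eq_abs, abs_sub_comm, abs_of_nonneg (by linarith)]
    linarith
  have hsub : ∀ z ∈ Metric.closedBall (s - c) δ, ‖z‖ ≤ R - δ := fun z hz => by
    have h2 := mem_closedBall_iff_norm.1 hz
    have h3 := norm_le_norm_sub_add z (s - c)
    linarith
  have hsub' : Metric.closedBall (s - c) δ ⊆ Metric.ball 0 R := fun z hz =>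
    mem_ball_zero_iff.2 (by linarith [hsub z hz])
  have key := Complex.norm_deriv_le_of_forall_mem_sphere_norm_le (c := s - c) (f := L)
    (C := 2 * (1 + Real.log (B / b)) * R / δ) hδ0 (hLd.diffContOnCl_ball hsub') fun z hz => by
      have h2 := hsub z (Metric.sphere_subset_closedBall hz)
      refine (Complex.borelCaratheodory_zero hM hLd hre2 hR0
        (hsub' (Metric.sphere_subset_closedBall hz)) hL0).trans ?_
      gcongr
      · linarith
      · linarith
  rw [(hL _ (hsub' (Metric.mem_closedBall_self hδ0.le))).deriv, add_sub_cancel] at key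
  refine key.trans_eq ?_
  field_simp

end Vale.Agent.P006.S
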