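import Vale.Agent.P006.SPer
import Vale.Agent.P006.SCont
import Vale.Agent.P006.SMob
import Vale.Agent.P006.SZero
import Vale.Agent.P006.SConv

/-!
# Part S: the logarithmic derivative of the L-function

`exists_G`: `F = E` from `exists_cont` (`κ = 0`), `G = -deriv F / F`.  `exists_G8`: `F s = κ + (s - 1) / s * E s`, `G = -deriv F / F - 1 / s`.
-/

namespace Vale.Agent.P006.S

open Vale.Agent.P026 Filter
open scoped ComplexConjugate Real

theorem SL_open {σ : ℝ} : IsOpen {s : ℂ | σ < s.re} :=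
  isOpen_lt continuous_const Complex.continuous_re

theorem SL_zero (hP : PStmt 72 (1 / 10000)) {k : O} (hk : k ≠ 0) (h2 : (2 : O) ∣ k) {F g : ℂ → ℂ}
    (hF : DifferentiableOn ℂ F {s | 1999 / 2000 < s.re})
    (hg : DifferentiableOn ℂ g {s | 1999 / 2000 < s.re})
    (h : ∀ s : ℂ, 1 < s.re → F s = g s * DS (ch k) s) {ρ : ℂ} (hρ : 1999 / 2000 < ρ.re)
    (h0 : F ρ = 0) : g ρ = 0 :=
  zero_free_gen (a := fun n => mu n * ch k n) (fun n => by
    rw [norm_mul]
    exact mul_le_one₀ (norm_mu_le n) (norm_nonneg _) (norm_ch_le k n))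
    (fun B V t hV => mob_ch hP hk h2 B V t hV) hF hg
    (fun s hs => by rw [h s hs, mul_assoc, DS_mu k hs, mul_one]) hρ h0

theorem SL_ball {y : ℝ} {z : ℂ} (hz : z ∈ Metric.ball (2 + y * Complex.I) (2 - 1999 / 2000)) :
    1999 / 2000 < z.re ∧ ‖z‖ ≤ |y| + 4 := by
  rw [mem_ball_iff_norm] at hz
  have h1 := (abs_lt.1 ((Complex.abs_re_le_norm _).trans_lt hz)).1
  have h2 := norm_le_insert' z (2 + y * Complex.I)
  have h3 := norm_add_le (2 : ℂ) (y * Complex.I)
  simp only [Complex.sub_re, Complex.add_re, Complex.re_ofNat, Complex.mul_re, Complex.ofReal_re,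
    Complex.I_re, mul_zero, Complex.ofReal_im, zero_mul, sub_self, add_zero] at h1
  simp only [Complex.norm_ofNat, norm_mul, Complex.norm_real, Real.norm_eq_abs, Complex.norm_I,
    mul_one] at h3
  constructor <;> linarith

theorem SL_log {x K W : ℝ} (hx : 0 < x) (hK : 0 < K) (hW : 2 ≤ W) (h : x ≤ K * W) :
    1 + Real.log x ≤ (3 + 2 * |Real.log K|) * Real.log W := by
  have h1 := Real.log_le_log hx h
  rw [Real.log_mul hK.ne' (by linarith)] at h1
  have h2 := Real.log_le_log two_pos hW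
  have h3 := Real.log_two_gt_d9
  have h4 := le_abs_self (Real.log K)
  have h5 := mul_le_mul_of_nonneg_left (show 1 ≤ 2 * Real.log W by linarith)
    (abs_nonneg (Real.log K))
  linarith

theorem exists_G (hP : PStmt 72 (1 / 10000)) : ∃ C : ℝ, 0 < C ∧ ∀ (k : O) (Q : ℝ), k ≠ 0 →
    (2 : O) ∣ k → ¬Cube k → 2 ≤ Q → (nm k : ℝ) ≤ Q → ∃ G : ℂ → ℂ,
      DifferentiableOn ℂ G {s | 1999 / 2000 < s.re} ∧
      (∀ s : ℂ, s.re = 2 → DS (fun n => vm n * ch k n) s = G s) ∧
      ∀ s : ℂ, 3999 / 4000 ≤ s.re → s.re ≤ 2 → ‖G s‖ ≤ C * Real.log (Q * (|s.im| + 2)) := by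
  obtain ⟨C₁, hC₁, h₁⟩ := sum_per
  obtain ⟨b, hb, h₂⟩ := exists_DS_lower
  obtain ⟨C₃, hC₃, h₃⟩ := logderiv_le (σ₀ := 1999 / 2000) (σ₁ := 3999 / 4000) (by norm_num)
    (by norm_num)
  refine ⟨C₃ * (3 + 2 * |Real.log (648 * C₁ / b)|), by positivity, fun k Q hk h2 hc hQ hkQ => ?_⟩
  have h9 : (9 : O) * k ≠ 0 := mul_ne_zero (by decide) hk
  obtain ⟨E, hE, hEb, hEs⟩ := exists_cont (a := ch k) (κ := 0) (B := C₁ * nm (9 * k)) (ch_zero k)
    (norm_ch_le k) fun x hx => by
      have h := h₁ _ _ x h9 (ch_per hk) (norm_ch_le k) hx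
      rwa [ch_mean_zero hk hc, zero_div, zero_mul] at h
  simp only [zero_mul, zero_div, zero_add] at hEs
  have hE' : DifferentiableOn ℂ E {s | 1999 / 2000 < s.re} :=
    hE.mono fun s hs => lt_trans (by norm_num) (show (1999 / 2000 : ℝ) < s.re from hs)
  have hz : ∀ s : ℂ, 1999 / 2000 < s.re → E s ≠ 0 := fun s hs h =>
    one_ne_zero (SL_zero hP hk h2 hE' (g := fun _ => 1) (differentiableOn_const 1)
      (fun s hs => by rw [one_mul, hEs s hs]) hs h)
  refine ⟨fun s => -(deriv E s / E s), ((hE'.deriv SL_open).div hE' hz).neg, fun s hs => ?_,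
    fun s hs1 hs2 => ?_⟩
  · have h1 : 1 < s.re := by rw [hs]; norm_num
    have h3 : deriv (DS (ch k)) s = deriv E s := Filter.EventuallyEq.deriv_eq
      (Filter.eventually_of_mem (SL_open.mem_nhds h1) fun z hz => hEs z hz)
    have h4 := DS_vm k h1
    rw [h3, hEs s h1] at h4
    exact (eq_div_of_mul_eq (hz s (by linarith)) h4).trans (neg_div _ _)
  · have hy := abs_nonneg s.im
    rw [norm_neg, mul_assoc]
    refine (h₃ E (324 * C₁ * Q * (|s.im| + 4)) b s hE' hz hb ?_ (fun z hz => ?_) hs1 hs2).trans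
      (mul_le_mul_of_nonneg_left (SL_log (by positivity) (by positivity) (by nlinarith) ?_) hC₃.le)
    · rw [← hEs _ (by simp)]
      exact h₂ k _ (by simp)
    · obtain ⟨z1, z2⟩ := SL_ball hz
      refine (hEb z (by linarith)).trans (mul_le_mul ?_ z2 (norm_nonneg _) (by positivity))
      rw [nm_mul, show nm 9 = 81 by decide]
      push_cast
      nlinarith
    · rw [div_mul_eq_mul_div]
      refine div_le_div_of_nonneg_right ?_ hb.le
      have : 0 ≤ C₁ * Q * |s.im| := by positivity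
      nlinarith

theorem exists_G8 (hP : PStmt 72 (1 / 10000)) : ∃ (C : ℝ) (G : ℂ → ℂ), 0 < C ∧
    DifferentiableOn ℂ G {s | 1999 / 2000 < s.re} ∧
    (∀ s : ℂ, s.re = 2 → DS (fun n => vm n * ch 8 n) s = G s + 1 / (s - 1)) ∧
    ∀ s : ℂ, 3999 / 4000 ≤ s.re → s.re ≤ 2 → ‖G s‖ ≤ C * Real.log (|s.im| + 2) := by
  obtain ⟨C₁, hC₁, h₁⟩ := sum_per
  obtain ⟨b, hb, h₂⟩ := exists_DS_lower
  obtain ⟨C₃, hC₃, h₃⟩ := logderiv_le (σ₀ := 1999 / 2000) (σ₁ := 3999 / 4000) (by norm_num)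
    (by norm_num)
  have hk : (8 : O) ≠ 0 := by decide
  have h9 : (9 : O) * 8 ≠ 0 := by decide
  obtain ⟨κ, hκ⟩ : ∃ κ : ℂ, κ = (∑ a ∈ res (9 * 8), ch 8 a) / nm (9 * 8) * c0 := ⟨_, rfl⟩
  have κ0 : κ ≠ 0 := hκ ▸ mul_ne_zero (div_ne_zero ch_eight_mean
    (Nat.cast_ne_zero.2 (nm_pos h9).ne')) (Complex.ofReal_ne_zero.2 c0_pos.ne')
  obtain ⟨B, hB⟩ : ∃ B : ℝ, B = C₁ * nm (9 * 8) := ⟨_, rfl⟩
  have B0 : 0 ≤ B := by rw [hB]; positivity
  obtain ⟨E, hE, hEb, hEs⟩ := exists_cont (a := ch 8) (κ := κ) (B := B) (ch_zero 8)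
    (norm_ch_le 8) fun x hx => hκ ▸ hB ▸ h₁ _ _ x h9 (ch_per hk) (norm_ch_le 8) hx
  have s0 : ∀ s : ℂ, 1999 / 2000 < s.re → s ≠ 0 := fun s hs h => by
    rw [h, Complex.zero_re] at hs
    norm_num at hs
  have s1 : ∀ s : ℂ, 1 < s.re → s - 1 ≠ 0 := fun s hs h => by
    rw [sub_eq_zero.1 h] at hs
    simp at hs
  have hg : DifferentiableOn ℂ (fun s : ℂ => (s - 1) / s) {s | 1999 / 2000 < s.re} :=
    (differentiableOn_id.sub_const 1).div differentiableOn_id s0
  obtain ⟨F, hF⟩ : ∃ F : ℂ → ℂ, F = fun s => κ + (s - 1) / s * E s := ⟨_, rfl⟩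
  have hFd : DifferentiableOn ℂ F {s | 1999 / 2000 < s.re} := hF ▸ (hg.mul (hE.mono fun s hs =>
    lt_trans (by norm_num) (show (1999 / 2000 : ℝ) < s.re from hs))).const_add κ
  have hFs : ∀ s : ℂ, 1 < s.re → F s = (s - 1) / s * DS (ch 8) s := fun s hs => by
    have := s0 s (by linarith)
    have := s1 s hs
    rw [hEs s hs, hF]
    field_simp
  have hz : ∀ s : ℂ, 1999 / 2000 < s.re → F s ≠ 0 := fun s hs h => by
    have h1 := SL_zero hP hk ⟨4, by norm_num⟩ hFd hg hFs hs h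
    rw [div_eq_zero_iff, or_iff_left (s0 s hs)] at h1
    rw [hF] at h
    simp only [h1, zero_div, zero_mul, add_zero] at h
    exact κ0 h
  have K0 : 0 < (‖κ‖ + 12 * B) / (b / 2) := by
    have := norm_pos_iff.2 κ0
    positivity
  refine ⟨C₃ * (3 + 2 * |Real.log ((‖κ‖ + 12 * B) / (b / 2))|) + 4,
    fun s => -(deriv F s / F s) - 1 / s, by positivity,
    ((hFd.deriv SL_open).div hFd hz).neg.sub ((differentiableOn_const 1).div differentiableOn_id s0),
    fun s hs => ?_, fun s hs1 hs2 => ?_⟩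
  · have h1 : 1 < s.re := by rw [hs]; norm_num
    have a0 := s0 s (by linarith)
    have a1 := s1 s h1
    have d1 : HasDerivAt (fun s : ℂ => (s - 1) / s) ((1 * s - (s - 1) * 1) / s ^ 2) s :=
      ((hasDerivAt_id' s).sub_const 1).div (hasDerivAt_id' s) a0
    have d2 := (hasDerivAt_DS (norm_ch_le 8) h1).differentiableAt.hasDerivAt
    have h3 := ((d1.mul d2).congr_of_eventuallyEq
      (Filter.eventually_of_mem (SL_open.mem_nhds h1) fun z hz => hFs z hz)).deriv
    have h4 := DS_vm 8 h1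
    have h5 : DS (ch 8) s ≠ 0 := norm_pos_iff.1 (hb.trans_le (h₂ 8 s hs))
    rw [eq_div_of_mul_eq h5 h4]
    simp only [h3, hFs s h1]
    field_simp
    ring
  · have hy := abs_nonneg s.im
    have h1 := h₃ F ((‖κ‖ + 12 * B) * (|s.im| + 2)) (b / 2) s hFd hz (half_pos hb) (by
      have h2 := h₂ 8 (2 + s.im * Complex.I) (by simp)
      rw [hFs _ (by simp), norm_mul, norm_div]
      have h3 : ‖2 + s.im * Complex.I‖ ≤ 2 * ‖2 + s.im * Complex.I - 1‖ := by
        have h4 := norm_le_insert' (2 + s.im * Complex.I) 1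
        have h5 := Complex.re_le_norm (2 + s.im * Complex.I - 1)
        simp only [Complex.sub_re, Complex.add_re, Complex.re_ofNat, Complex.mul_re,
          Complex.ofReal_re, Complex.I_re, mul_zero, Complex.ofReal_im, zero_mul, sub_self,
          add_zero, Complex.one_re] at h5
        rw [norm_one] at h4
        linarith
      have h4 : 1 / 2 ≤ ‖2 + s.im * Complex.I - 1‖ / ‖2 + s.im * Complex.I‖ := by
        rw [le_div_iff₀ (norm_pos_iff.2 (s0 _ (by simp; norm_num)))]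
        linarith
      nlinarith) (fun z hz => by
      obtain ⟨z1, z2⟩ := SL_ball hz
      have h2 := hEb z (by linarith)
      have h3 : ‖(z - 1) / z * E z‖ ≤ ‖z - 1‖ * (4 * B) := by
        have h4 := norm_pos_iff.2 (s0 z z1)
        rw [norm_mul, norm_div, div_mul_eq_mul_div, mul_div_assoc]
        exact mul_le_mul_of_nonneg_left ((div_le_iff₀ h4).2 h2) (norm_nonneg _)
      have h4 := norm_sub_le z 1
      rw [norm_one] at h4
      have h5 := mul_le_mul_of_nonneg_right (show ‖z - 1‖ ≤ 3 * (|s.im| + 2) by linarith)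
        (show 0 ≤ 4 * B by linarith)
      have h6 := mul_le_mul_of_nonneg_left (show 1 ≤ |s.im| + 2 by linarith) (norm_nonneg κ)
      rw [hF]
      refine (norm_add_le _ _).trans ?_
      linarith) hs1 hs2
    have h2 := SL_log (x := (‖κ‖ + 12 * B) * (|s.im| + 2) / (b / 2)) (W := |s.im| + 2)
      (by rw [mul_div_right_comm]; positivity) K0 (by linarith) (mul_div_right_comm _ _ _).le
    have h3 : ‖1 / s‖ ≤ 2 := by
      have h4 := Complex.re_le_norm s
      rw [norm_div, norm_one, div_le_iff₀ (by linarith)]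
      linarith
    have h4 := Real.log_le_log two_pos (show 2 ≤ |s.im| + 2 by linarith)
    have h5 := Real.log_two_gt_d9
    have h6 := mul_le_mul_of_nonneg_left h2 hC₃.le
    refine (norm_sub_le _ _).trans ?_
    rw [norm_neg]
    linarith

end Vale.Agent.P006.S
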