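import Vale.Agent.P006.SDefs

/-! # Part S: a cubic character is trivial only for cubes -/

namespace Vale.Agent.P006

open Vale.Agent.P026 Filter
open scoped ComplexConjugate Real

theorem SNT_crt {a b : O} (h : IsCoprime a b) (x y : O) : ∃ n, a ∣ n - x ∧ b ∣ n - y := by
  obtain ⟨u, v, huv⟩ := h
  exact ⟨x * v * b + y * u * a, ⟨(y - x) * u, by linear_combination x * huv⟩,
    ⟨(x - y) * v, by linear_combination y * huv⟩⟩

theorem SNT_one (n : O) : cub 1 n = 1 := by
  have h := cub_pow_left 1 n 0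
  rwa [pow_zero, pow_zero] at h

theorem SNT_three {z : ℂ} (h3 : z ^ 3 = 1) (h1 : z ≠ 1) {v : ℕ} (h : z ^ v = 1) : 3 ∣ v := by
  have h2 : z ^ (v % 3) = 1 := by
    rwa [← Nat.div_add_mod v 3, pow_add, pow_mul, h3, one_pow, one_mul] at h
  by_contra h4
  have h5 : v % 3 = 1 ∨ v % 3 = 2 := by omega
  rcases h5 with h5 | h5
  · rw [h5, pow_one] at h2
    exact h1 h2
  · rw [h5] at h2
    rw [pow_succ, h2, one_mul] at h3
    exact h1 h3

theorem SNT_congr {a n n' q : O} (h : IsCoprime a n) (ha : a ∣ q) (hq : q ∣ n' - n) :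
    IsCoprime a n' := by
  obtain ⟨c, hc⟩ := ha.trans hq
  rw [show n' = n + a * c by rw [← hc]; ring]
  exact h.add_mul_left_right c

theorem SNT_step {k p : O} (hk : k ≠ 0) (hp : Prime p) (hp' : Prim p) (hpk : ¬p ∣ k) {v : ℕ}
    (h : ∀ n, Prim n → IsCoprime (p ^ v * k) n → cub (p ^ v * k) n = 1) :
    3 ∣ v ∧ ∀ n, Prim n → IsCoprime k n → cub k n = 1 := by
  have hc : IsCoprime (9 * k) p :=
    IsCoprime.mul_left hp'.coprime_nine.symm (coprime_of_not_dvd hp hpk)
  have key : ∀ n a, Prim n → IsCoprime k n → IsCoprime a p → cub a p ^ v * cub k n = 1 := by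
    intro n a hn hkn ha
    obtain ⟨m, h1, h2⟩ := SNT_crt hc n a
    have h3 : (3 : O) ∣ 9 * k := Dvd.dvd.mul_right ⟨3, by norm_num⟩ k
    have hm : Prim m := hn.of_dvd_sub h3 h1
    have h4 := h m hm (IsCoprime.mul_left (SNT_congr ha.symm dvd_rfl h2).pow_left
      (SNT_congr hkn (dvd_mul_left k 9) h1))
    rwa [cub_mul_left, cub_pow_left, cub_recip hp' hm, cub_congr h2,
      cub_den_congr hk hm (dvd_mul_right 9 k) (fun _ _ h => h.mul_left 9) h1] at h4
  constructor
  · obtain ⟨a, ha, h1⟩ := exists_cub_ne_one hp hp'.not_lam_dvd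
    have h2 := key 1 a prim_one isCoprime_one_right ha
    rw [cub_unit_right isUnit_one, mul_one] at h2
    exact SNT_three (cub_cube ha) h1 h2
  · intro n hn hkn
    have h2 := key n 1 hn hkn isCoprime_one_left
    rwa [SNT_one, one_pow, one_mul] at h2

theorem SNT_ind {u : O} (hu : IsUnit u) (j : ℕ) (N : ℕ) : ∀ c : O, nm c = N → Prim c →
    (∀ n, Prim n → IsCoprime (u * lam ^ j * c) n → cub (u * lam ^ j * c) n = 1) →
    (∃ d, c = d ^ 3) ∧ ∀ n, Prim n → cub (u * lam ^ j) n = 1 := by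
  induction N using Nat.strong_induction_on with
  | _ N ih =>
    intro c hN hc h
    have hl : ∀ n, Prim n → IsCoprime (u * lam ^ j) n := fun n hn =>
      IsCoprime.mul_left (isCoprime_one_left.of_isCoprime_of_dvd_left hu.dvd)
        (coprime_lam hn).pow_left
    by_cases h1 : IsUnit c
    · obtain rfl := hc.eq_one_of_isUnit h1
      rw [mul_one] at h
      exact ⟨⟨1, (one_pow 3).symm⟩, fun n hn => h n hn (hl n hn)⟩
    obtain ⟨p₀, hp₀, hd⟩ := WfDvdMonoid.exists_irreducible_factor h1 hc.ne_zero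
    obtain ⟨w, p, hw, hp', rfl⟩ := exists_prim (n := p₀) fun hl => hc.not_lam_dvd (hl.trans hd)
    have hp : Prime p := (associated_unit_mul_left p w hw).prime hp₀.prime
    obtain ⟨v, c', hpc, rfl⟩ := WfDvdMonoid.max_power_factor' hc.ne_zero hp.not_isUnit
    have hc' : Prim c' := (hp'.pow v).of_mul hc
    have hv : v ≠ 0 := by
      rintro rfl
      rw [pow_zero, one_mul] at hd
      exact hpc ((dvd_mul_left p w).trans hd)
    have hk : u * lam ^ j * c' ≠ 0 :=
      mul_ne_zero (mul_ne_zero hu.ne_zero (pow_ne_zero _ prime_lam.ne_zero)) hc'.ne_zero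
    have hpk : ¬p ∣ u * lam ^ j * c' := fun h2 => by
      rcases hp.dvd_or_dvd h2 with h3 | h3
      · exact hp.not_isUnit ((hl p hp').isUnit_of_dvd' h3 dvd_rfl)
      · exact hpc h3
    rw [mul_left_comm] at h
    obtain ⟨⟨i, rfl⟩, h2⟩ := SNT_step hk hp hp' hpk h
    have hlt : nm c' < N := by
      rw [← hN, nm_mul, nm_pow]
      exact (Nat.lt_mul_iff_one_lt_left (nm_pos hc'.ne_zero)).2
        (Nat.one_lt_pow hv (SymAux.two_le_nm hp))
    obtain ⟨⟨d, rfl⟩, h3⟩ := ih _ hlt c' rfl hc' h2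
    exact ⟨⟨p ^ i * d, by ring⟩, h3⟩

theorem SNT_base {u : O} (hu : IsUnit u) (j : ℕ) (h : ∀ n, Prim n → cub (u * lam ^ j) n = 1) :
    Cube (u * lam ^ j) := by
  have o1 : toC om ≠ 1 := fun e => by
    have := toC_injective (e.trans (map_one toC).symm)
    revert this
    decide
  have o3 : toC om ^ 3 = 1 := by rw [← map_pow, om_cube, map_one]
  have o2 : toC om ^ 2 ≠ 1 := fun e => by
    have := SNT_three o3 o1 e
    omega
  have a1 : cub lam (-2) = 1 := by
    rw [cub_congr (b := 1) ⟨-om, by decide⟩, SNT_one]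
  have a2 : cub om (-2) = toC om := by
    rw [cub_om prim_neg_two, show nm (-2) = 4 by decide, pow_one]
  have h1 := h _ prim_neg_two
  rw [cub_mul_left, cub_pow_left, a1, one_pow, mul_one] at h1
  have hp : Prim ⟨1, 3⟩ := ⟨om, by decide⟩
  have b1 : cub lam ⟨1, 3⟩ ≠ 1 := fun e => by
    have h2 : cub (lam ^ 2) ⟨1, 3⟩ = cub (om ^ 2) ⟨1, 3⟩ := cub_congr ⟨-om ^ 2, by decide⟩
    rw [cub_pow_left, cub_pow_left, e, cub_om hp, show nm ⟨1, 3⟩ = 7 by decide, one_pow,
      ← pow_mul] at h2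
    have := SNT_three o3 o1 h2.symm
    omega
  have h2 := h _ hp
  have key : ∀ e : O, u = e ^ 3 → Cube (u * lam ^ j) := fun e he => by
    have h3 : IsCoprime e ⟨1, 3⟩ :=
      isCoprime_one_left.of_isCoprime_of_dvd_left
        ((dvd_pow_self e three_ne_zero).trans (he ▸ hu.dvd))
    rw [cub_mul_left, he, cub_pow_left, cub_pow_left, cub_cube h3, one_mul] at h2
    obtain ⟨i, rfl⟩ := SNT_three (cub_cube (coprime_lam hp)) b1 h2
    exact ⟨e * lam ^ i, by rw [he]; ring⟩
  rcases isUnit_iff.1 hu with e | e | e | e | e | e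
  · exact key 1 (by rw [e]; ring)
  · exact key (-1) (by rw [e]; ring)
  · rw [e, a2] at h1
    exact (o1 h1).elim
  · rw [e, cub_neg_left, a2] at h1
    exact (o1 h1).elim
  · rw [e, cub_pow_left, a2] at h1
    exact (o2 h1).elim
  · rw [e, cub_neg_left, cub_pow_left, a2] at h1
    exact (o2 h1).elim

theorem NT {k : O} (hk : k ≠ 0) (h : ∀ n, Prim n → IsCoprime k n → cub k n = 1) : Cube k := by
  obtain ⟨u, j, c, hu, hc, rfl⟩ := exists_decomp hk
  obtain ⟨⟨d, rfl⟩, h1⟩ := SNT_ind hu j _ c rfl hc h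
  obtain ⟨e, he⟩ := SNT_base hu j h1
  exact ⟨e * d, by rw [he, mul_pow]⟩

end Vale.Agent.P006
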