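import Vale.Agent.P006.SDefs

/-!
# Part S: the von Mangoldt function  (TASK)

`vm_eq`: for `d ∈ pdiv n`, `log N(n / d) = log N n - log N d`; `sum_mu_pdiv`; so `vm n = -∑ d ∈ pdiv n, mu d * log N d` for primary `n ≠ 1`.
`sum_pdiv_mul` (`P026/PSDefs.lean`), `mu_mul`, `sum_mu_pdiv` for `p ^ j ≠ 1` and for `m`; in `∑ d ∈ pdiv (p ^ j), mu d * log N d` only `d = p`
contributes (`dvd_prime_pow`, `Prim.eq_of_associated`, `mu_eq_zero`, `mu_prime`).
Every primary `n ≠ 1` is `p ^ j * m` as in `vm_eq` (`Prim.induction` or `exists_prim` for the prime, `WfDvdMonoid.max_power_factor`).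
`sum_vm_sub`: `vm n - Lam n` vanishes unless `n = p ^ j`, `j ≥ 2`; such `n` lie in the image of
`ball √u ×ˢ range (Nat.log 2 ⌊u⌋₊ + 1)` under `(p, j) ↦ p ^ j`; `card_ball_le`, `log u ≤ C u ^ (1/8)` (`Real.log_le_rpow_div`).
`prime_vs_vm`: `Lam` vanishes off `prb`; for `PP p`, `p ≠ -2`: `ch (8 k) p = cub k p` (`cub_mul_left`, `8 = 2 ^ 3`, `cub_cube`); the prime `-2`
costs at most `2 log 4`.
-/

namespace Vale.Agent.P006.S

open Vale.Agent.P026 Filter
open scoped ComplexConjugate Real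

theorem svm_neg {n : O} (hn : Prim n) (h1 : n ≠ 1) :
    vm n = -∑ d ∈ pdiv n, mu d * (Real.log (nm d) : ℝ) := by
  have e : ∀ d ∈ pdiv n, mu d * ((Real.log (nm (n / d)) : ℝ) : ℂ) =
      mu d * (Real.log (nm n) : ℝ) - mu d * (Real.log (nm d) : ℝ) := by
    intro d hd
    obtain ⟨hdp, hdn⟩ := (mem_pdiv hn.ne_zero).1 hd
    have e1 : d * (n / d) = n := EuclideanDomain.mul_div_cancel' hdp.ne_zero hdn
    have h2 : n / d ≠ 0 := fun h => hn.ne_zero (by rw [← e1, h, mul_zero])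
    have e2 : Real.log (nm n) = Real.log (nm d) + Real.log (nm (n / d)) := by
      rw [← Real.log_mul (by linarith [one_le_nm hdp.ne_zero]) (by linarith [one_le_nm h2]),
        ← Nat.cast_mul, ← nm_mul, e1]
    rw [e2]
    push_cast
    ring
  rw [vm, ind_of hn, one_mul, Finset.sum_congr rfl e, Finset.sum_sub_distrib, ← Finset.sum_mul,
    sum_mu_pdiv hn, ind_of_not h1, zero_mul, zero_sub]

theorem svm_pp {p : O} (hp : PP p) {j : ℕ} (hj : 1 ≤ j) :
    ∑ d ∈ pdiv (p ^ j), mu d * (Real.log (nm d) : ℝ) = -((Real.log (nm p) : ℝ) : ℂ) := by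
  have h0 : p ^ j ≠ 0 := pow_ne_zero _ hp.1.ne_zero
  rw [Finset.sum_eq_single_of_mem p ((mem_pdiv h0).2 ⟨hp.2, dvd_pow_self p (by omega)⟩),
    mu_prime hp.1, neg_one_mul]
  intro d hd hdp
  obtain ⟨hd1, hd2⟩ := (mem_pdiv h0).1 hd
  obtain ⟨i, -, hi⟩ := (dvd_prime_pow hp.1 j).1 hd2
  obtain rfl := hd1.eq_of_associated (hp.2.pow i) hi
  match i, hdp with
  | 0, _ => simp
  | 1, h => exact absurd (pow_one p) h
  | i + 2, _ =>
    rw [mu_eq_zero, zero_mul]
    intro hs
    exact hp.1.not_isUnit (hs p ⟨p ^ i, by ring⟩)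

theorem svm_one : vm 1 = 0 := by
  rw [vm, psd_pdiv_one, Finset.sum_singleton, EuclideanDomain.div_one, nm_one]
  simp

theorem svm_decomp {n : O} (hn : Prim n) (h1 : n ≠ 1) :
    ∃ (p m : O) (j : ℕ), PP p ∧ Prim m ∧ ¬p ∣ m ∧ 1 ≤ j ∧ n = p ^ j * m := by
  have hp : ∃ p, PP p ∧ p ∣ n := by
    refine Prim.induction (P := fun n => n ≠ 1 → ∃ p, PP p ∧ p ∣ n) (fun h => absurd rfl h)
      (fun p n hp hp' _ _ _ => ⟨p, ⟨hp, hp'⟩, dvd_mul_right _ _⟩) hn h1
  obtain ⟨p, hp, hpn⟩ := hp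
  obtain ⟨j, m, hm, rfl⟩ := WfDvdMonoid.max_power_factor hn.ne_zero hp.1.irreducible
  refine ⟨p, m, j, hp, (hp.2.pow j).of_mul hn, hm, ?_, rfl⟩
  rcases Nat.eq_zero_or_pos j with rfl | h
  · rw [pow_zero, one_mul] at hpn
    exact absurd hpn hm
  · exact h

theorem svm_norm_log (n : O) : ‖((Real.log (nm n) : ℝ) : ℂ)‖ = Real.log (nm n) := by
  rw [Complex.norm_real, Real.norm_of_nonneg (Real.log_natCast_nonneg _)]

theorem svm_norm_Lam (n : O) : ‖Lam n‖ ≤ Real.log (nm n) := by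
  rw [Lam, norm_mul, svm_norm_log]
  exact mul_le_of_le_one_left (Real.log_natCast_nonneg _) (norm_ind_le _)

theorem vm_eq {p m : O} (hp : PP p) (hm : Prim m) (h : ¬p ∣ m) {j : ℕ} (hj : 1 ≤ j) :
    vm (p ^ j * m) = ind (m = 1) * (Real.log (nm p) : ℝ) := by
  have hc : IsCoprime (p ^ j) m := ((Irreducible.coprime_iff_not_dvd hp.1.irreducible).2 h).pow_left
  have hj1 : p ^ j ≠ 1 := fun e =>
    hp.1.not_isUnit (isUnit_of_dvd_one (e ▸ dvd_pow_self p (by omega)))
  have h1 : p ^ j * m ≠ 1 := fun e =>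
    hp.1.not_isUnit (isUnit_of_dvd_one (e ▸ (dvd_pow_self p (by omega)).mul_right m))
  have e : ∀ a ∈ pdiv (p ^ j), ∑ b ∈ pdiv m, mu (a * b) * ((Real.log (nm (a * b)) : ℝ) : ℂ) =
      mu a * (Real.log (nm a) : ℝ) * ind (m = 1) +
        mu a * ∑ b ∈ pdiv m, mu b * (Real.log (nm b) : ℝ) := by
    intro a ha
    obtain ⟨ha1, ha2⟩ := (mem_pdiv (hp.2.pow j).ne_zero).1 ha
    rw [← sum_mu_pdiv hm, Finset.mul_sum, Finset.mul_sum, ← Finset.sum_add_distrib]
    refine Finset.sum_congr rfl fun b hb => ?_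
    obtain ⟨hb1, hb2⟩ := (mem_pdiv hm.ne_zero).1 hb
    rw [mu_mul ((hc.of_isCoprime_of_dvd_left ha2).of_isCoprime_of_dvd_right hb2), nm_mul,
      Nat.cast_mul, Real.log_mul (by linarith [one_le_nm ha1.ne_zero])
        (by linarith [one_le_nm hb1.ne_zero])]
    push_cast
    ring
  rw [svm_neg ((hp.2.pow j).mul hm) h1, sum_pdiv_mul (hp.2.pow j) hm hc, Finset.sum_congr rfl e,
    Finset.sum_add_distrib, ← Finset.sum_mul, ← Finset.sum_mul, svm_pp hp hj,
    sum_mu_pdiv (hp.2.pow j), ind_of_not hj1]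
  ring

theorem norm_vm_le (n : O) : ‖vm n‖ ≤ Real.log (nm n) := by
  by_cases hn : Prim n
  · by_cases h1 : n = 1
    · rw [h1, svm_one, norm_zero]
      exact Real.log_natCast_nonneg _
    · obtain ⟨p, m, j, hp, hm, h, hj, rfl⟩ := svm_decomp hn h1
      rw [vm_eq hp hm h hj, norm_mul, svm_norm_log]
      refine (mul_le_of_le_one_left (Real.log_natCast_nonneg _) (norm_ind_le _)).trans ?_
      refine Real.log_le_log (by linarith [one_le_nm hp.1.ne_zero]) ?_
      exact_mod_cast nm_le_of_dvd hn.ne_zero ((dvd_pow_self p (by omega)).mul_right m)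
  · rw [vm, ind_of_not hn, zero_mul, norm_zero]
    exact Real.log_natCast_nonneg _

theorem svm_supp {n : O} (h : vm n ≠ Lam n) : ∃ (p : O) (j : ℕ), PP p ∧ 2 ≤ j ∧ n = p ^ j := by
  by_cases hn : Prim n
  · by_cases h1 : n = 1
    · exact absurd (by rw [h1, svm_one, Lam, nm_one]; simp) h
    · obtain ⟨p, m, j, hp, hm, hpm, hj, rfl⟩ := svm_decomp hn h1
      rw [vm_eq hp hm hpm hj] at h
      by_cases hm1 : m = 1
      · subst hm1
        refine ⟨p, j, hp, ?_, mul_one _⟩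
        by_contra hj2
        obtain rfl : j = 1 := by omega
        exact h (by rw [pow_one, mul_one, Lam, ind_of hp, ind_of rfl])
      · refine absurd ?_ h
        rw [ind_of_not hm1, zero_mul, Lam, ind_of_not, zero_mul]
        intro hq
        rcases hq.1.irreducible.isUnit_or_isUnit rfl with hu | hu
        · exact hp.1.not_isUnit (isUnit_of_dvd_unit (dvd_pow_self p (by omega)) hu)
        · exact hm1 (hm.eq_one_of_isUnit hu)
  · exact absurd (by rw [vm, Lam, ind_of_not hn, ind_of_not fun hq : PP n => hn hq.2]; simp) h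

theorem sum_vm_sub : ∃ C : ℝ, 0 < C ∧ ∀ u : ℝ, 1 ≤ u →
    ∑ n ∈ ball u, ‖vm n - Lam n‖ ≤ C * u ^ (3 / 4 : ℝ) := by
  classical
  obtain ⟨C, hC, hcard⟩ := card_ball_le
  refine ⟨544 * C, by positivity, fun u hu => ?_⟩
  have hu0 : 0 < u := by linarith
  have hl0 : 0 ≤ Real.log u := Real.log_nonneg hu
  have hl : Real.log u ≤ 8 * u ^ (1 / 8 : ℝ) := by
    have := Real.log_le_rpow_div hu0.le (show (0 : ℝ) < 1 / 8 by norm_num)
    linarith
  have h8 : 1 ≤ u ^ (1 / 8 : ℝ) := Real.one_le_rpow hu (by norm_num)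
  have h2 : 1 ≤ √u := Real.one_le_sqrt.2 hu
  have hsub : (ball u).filter (fun n => vm n ≠ Lam n) ⊆
      (ball √u ×ˢ Finset.range (⌊2 * Real.log u⌋₊ + 1)).image fun q : O × ℕ => q.1 ^ q.2 := by
    intro n hn
    obtain ⟨hn1, hn2⟩ := Finset.mem_filter.1 hn
    obtain ⟨p, j, hp, hj, rfl⟩ := svm_supp hn2
    rw [mem_ball, nm_pow, Nat.cast_pow] at hn1
    have hp2 : (2 : ℝ) ≤ nm p := by
      have a1 := nm_pos hp.1.ne_zero
      have a2 : nm p ≠ 1 := fun e => hp.1.not_isUnit (isUnit_iff_nm.2 e)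
      exact_mod_cast (by omega : 2 ≤ nm p)
    refine Finset.mem_image.2 ⟨(p, j), Finset.mem_product.2 ⟨mem_ball.2 ?_, ?_⟩, rfl⟩
    · exact Real.le_sqrt_of_sq_le ((pow_le_pow_right₀ (by linarith) hj).trans hn1)
    · rw [Finset.mem_range, Nat.lt_succ_iff]
      refine Nat.le_floor ?_
      have a1 : (2 : ℝ) ^ j ≤ u := (pow_le_pow_left₀ (by norm_num) hp2 j).trans hn1
      have a2 := Real.log_le_log (by positivity) a1
      rw [Real.log_pow] at a2
      have a3 := Real.log_two_gt_d9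
      have a4 : (0 : ℝ) ≤ j := Nat.cast_nonneg j
      show (j : ℝ) ≤ 2 * Real.log u
      nlinarith
  have hc : (((ball u).filter fun n => vm n ≠ Lam n).card : ℝ) ≤
      C * (2 * √u) * (17 * u ^ (1 / 8 : ℝ)) := by
    have a1 := (Finset.card_le_card hsub).trans Finset.card_image_le
    rw [Finset.card_product, Finset.card_range] at a1
    have a2 : (((ball u).filter fun n => vm n ≠ Lam n).card : ℝ) ≤
        (ball √u).card * ((⌊2 * Real.log u⌋₊ : ℝ) + 1) := by exact_mod_cast a1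
    refine a2.trans (mul_le_mul ((hcard _ (by positivity)).trans ?_) ?_ (by positivity)
      (by positivity))
    · exact mul_le_mul_of_nonneg_left (by linarith) hC.le
    · have := Nat.floor_le (show 0 ≤ 2 * Real.log u by positivity)
      linarith
  have e : √u * u ^ (1 / 8 : ℝ) * u ^ (1 / 8 : ℝ) = u ^ (3 / 4 : ℝ) := by
    rw [Real.sqrt_eq_rpow, ← Real.rpow_add hu0, ← Real.rpow_add hu0]
    norm_num
  rw [← Finset.sum_filter_of_ne (p := fun n => vm n ≠ Lam n) fun n _ h e => h (by rw [e]; simp)]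
  refine (Finset.sum_le_card_nsmul _ _ (16 * u ^ (1 / 8 : ℝ)) fun n hn => ?_).trans ?_
  · obtain ⟨hn1, hn2⟩ := Finset.mem_filter.1 hn
    obtain ⟨p, j, hp, -, e⟩ := svm_supp hn2
    have h0 : n ≠ 0 := e ▸ pow_ne_zero _ hp.1.ne_zero
    have a1 : Real.log (nm n) ≤ Real.log u :=
      Real.log_le_log (by linarith [one_le_nm h0]) (mem_ball.1 hn1)
    have a2 := norm_sub_le (vm n) (Lam n)
    linarith [norm_vm_le n, svm_norm_Lam n]
  · rw [nsmul_eq_mul]
    refine (mul_le_mul_of_nonneg_right hc (by positivity)).trans (le_of_eq ?_)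
    rw [← e]
    ring

theorem prime_vs_vm : ∃ C : ℝ, 0 < C ∧ ∀ (k : O) (u t : ℝ), 1 ≤ u →
    ‖∑ p ∈ prb u, Lam p * cub k p * nt p t - ∑ n ∈ ball u, vm n * ch (8 * k) n * nt n t‖ ≤
      C * u ^ (3 / 4 : ℝ) := by
  classical
  obtain ⟨C, hC, h⟩ := sum_vm_sub
  refine ⟨C + 8, by positivity, fun k u t hu => ?_⟩
  have e1 : ∑ p ∈ prb u, Lam p * cub k p * nt p t = ∑ n ∈ ball u, Lam n * cub k n * nt n t := by
    refine Finset.sum_subset (fun p hp => mem_ball.2 (mem_prb.1 hp).2) fun n hn hn' => ?_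
    rw [Lam, ind_of_not fun hp => hn' (mem_prb.2 ⟨hp, mem_ball.1 hn⟩), zero_mul, zero_mul,
      zero_mul]
  have key : ∀ n ∈ ball u, ‖Lam n * cub k n * nt n t - vm n * ch (8 * k) n * nt n t‖ ≤
      ‖vm n - Lam n‖ + if n = -2 then 8 else 0 := by
    intro n _
    have a0 : Lam n * cub k n * nt n t - vm n * ch (8 * k) n * nt n t =
        (-(vm n - Lam n) * ch (8 * k) n + Lam n * (cub k n - ch (8 * k) n)) * nt n t := by ring
    rw [a0, norm_mul, norm_nt, mul_one]
    refine (norm_add_le _ _).trans (add_le_add ?_ ?_)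
    · rw [norm_mul, norm_neg]
      exact mul_le_of_le_one_right (norm_nonneg _) (norm_ch_le _ _)
    · split_ifs with h2
      · have a1 := svm_norm_Lam n
        have a2 := norm_sub_le (cub k n) (ch (8 * k) n)
        have a3 : Real.log (nm n) ≤ 4 := by
          rw [h2, nm_neg, nm_two]
          have := Real.log_le_sub_one_of_pos (show (0 : ℝ) < (4 : ℕ) by norm_num)
          push_cast at this ⊢
          linarith
        rw [norm_mul]
        calc ‖Lam n‖ * ‖cub k n - ch (8 * k) n‖ ≤ 4 * 2 :=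
            mul_le_mul (a1.trans a3) (by linarith [norm_cub_le k n, norm_ch_le (8 * k) n])
              (norm_nonneg _) (by norm_num)
          _ = 8 := by norm_num
      · by_cases hp : PP n
        · have a1 : ¬n ∣ 2 := fun hd => h2 (hp.2.eq_of_associated prim_neg_two
            (hp.1.irreducible.associated_of_dvd prime_two.irreducible hd).neg_right)
          have a2 : IsCoprime 2 n := ((Irreducible.coprime_iff_not_dvd hp.1.irreducible).2 a1).symm
          rw [ch, ind_of hp.2, one_mul, cub_mul_left, show (8 : O) = 2 ^ 3 by norm_num,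
            cub_pow_left, cub_cube a2, one_mul, sub_self, mul_zero, norm_zero]
        · rw [Lam, ind_of_not hp, zero_mul, zero_mul, norm_zero]
  rw [e1, ← Finset.sum_sub_distrib]
  refine (norm_sum_le _ _).trans ((Finset.sum_le_sum key).trans ?_)
  rw [Finset.sum_add_distrib, Finset.sum_ite_eq']
  have a1 : 1 ≤ u ^ (3 / 4 : ℝ) := Real.one_le_rpow hu (by norm_num)
  have a2 := h u hu
  split_ifs <;> nlinarith

end Vale.Agent.P006.S
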