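import Vale.Agent.P006.SL
import Vale.Agent.P006.SRiesz
import Vale.Agent.P006.SVm

/-!
# Part S: prime sums

`sharp` with `σ = 3999 / 4000`, `h = u ^ (7999 / 8000)`, `A = log (2 u)`, then `prime_vs_vm`.
-/

namespace Vale.Agent.P006.S

open Vale.Agent.P026 Filter
open scoped ComplexConjugate Real

theorem SPS_log {x : ℝ} (hx : 1 ≤ x) : Real.log x ≤ 2 * √x := by
  have h := Real.log_le_rpow_div (show 0 ≤ x by linarith) one_half_pos
  rw [← Real.sqrt_eq_rpow] at h
  linarith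

theorem SPS_cube {k : O} (h : ¬Cube k) : ¬Cube (8 * k) := by
  rintro ⟨m, hm⟩
  obtain ⟨m', rfl⟩ := prime_two.dvd_of_dvd_pow (show (2 : O) ∣ m ^ 3 from ⟨4 * k, by
    rw [← hm]; ring⟩)
  exact h ⟨m', mul_left_cancel₀ (show (8 : O) ≠ 0 by decide) (by rw [hm]; ring)⟩

theorem SPS_norm (k n : O) (t : ℝ) : ‖vm n * ch k n * nt n t‖ ≤ Real.log (nm n) := by
  rw [norm_mul, norm_mul, norm_nt, mul_one]
  exact (mul_le_of_le_one_right (norm_nonneg _) (norm_ch_le k n)).trans (norm_vm_le n)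

theorem SPS_core : ∃ C : ℝ, 0 < C ∧ ∀ (a : O → ℂ) (G : ℂ → ℂ) (r : ℂ) (M u : ℝ), a 0 = 0 →
    (∀ n, ‖a n‖ ≤ Real.log (nm n)) → DifferentiableOn ℂ G {s | 1999 / 2000 < s.re} →
    (∀ s : ℂ, s.re = 2 → DS a s = G s + r / (s - 1)) →
    (∀ s : ℂ, 3999 / 4000 ≤ s.re → s.re ≤ 2 → ‖G s‖ ≤ M * √(1 + |s.im|)) → 1 ≤ u → ‖r‖ ≤ 1 →
    1 ≤ M → ‖∑ n ∈ ball u, a n - r * u‖ ≤ C * M * u ^ (1 - 1 / 16000 : ℝ) := by
  obtain ⟨C, hC, h⟩ := sharp
  refine ⟨C * 16003, by positivity, fun a G r M u h0 ha hG hs hb hu hr hM => ?_⟩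
  have u0 : 0 < u := by linarith
  have h1 := h a G r (1999 / 2000) (3999 / 4000) M (Real.log (2 * u)) u (u ^ (7999 / 8000 : ℝ)) h0
    (summable_log ha one_lt_two) (by norm_num) (by norm_num) (by norm_num) hG hs hb hu
    (by rw [Real.sqrt_eq_rpow]; exact Real.rpow_le_rpow_of_exponent_le hu (by norm_num))
    (Real.rpow_le_self_of_one_le hu (by norm_num)) (Real.log_nonneg (by linarith))
    fun n h1 h2 => (ha n).trans (Real.log_le_log (by linarith) h2)
  refine h1.trans ?_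
  have h2 : u ^ (1 + 3999 / 4000 : ℝ) / u ^ (7999 / 8000 : ℝ) ≤ u ^ (1 - 1 / 16000 : ℝ) := by
    rw [← Real.rpow_sub u0]
    exact Real.rpow_le_rpow_of_exponent_le hu (by norm_num)
  have h3 : u ^ (1 / 16000 : ℝ) * u ^ (7999 / 8000 : ℝ) = u ^ (1 - 1 / 16000 : ℝ) := by
    rw [← Real.rpow_add u0]
    norm_num
  have h4 : Real.log (2 * u) + ‖r‖ ≤ 16002 * u ^ (1 / 16000 : ℝ) := by
    have h5 := Real.log_le_rpow_div u0.le (show (0 : ℝ) < 1 / 16000 by norm_num)
    have h6 : 1 ≤ u ^ (1 / 16000 : ℝ) := Real.one_le_rpow hu (by norm_num)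
    rw [Real.log_mul two_ne_zero u0.ne']
    linarith [Real.log_two_lt_d9]
  have h5 := mul_le_mul_of_nonneg_right h4 (Real.rpow_nonneg u0.le (7999 / 8000))
  rw [mul_assoc, h3] at h5
  have h6 := mul_le_mul_of_nonneg_left h2 (show 0 ≤ M by linarith)
  have h7 := mul_le_mul_of_nonneg_right hM (Real.rpow_nonneg u0.le (1 - 1 / 16000))
  rw [mul_assoc C, mul_assoc C, mul_div_assoc]
  exact mul_le_mul_of_nonneg_left (by linarith) hC.le

theorem pse (hP : PStmt 72 (1 / 10000)) : PSE := by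
  obtain ⟨C₁, hC₁, h₁⟩ := exists_G hP
  obtain ⟨C₂, hC₂, h₂⟩ := SPS_core
  obtain ⟨C₃, hC₃, h₃⟩ := prime_vs_vm
  refine ⟨C₂ * (13 * C₁ + 2) + 2 * C₃, by positivity, fun Q u t k hQ hu ht hk hkQ hc => ?_⟩
  have hL : 1 ≤ 2 * Real.log Q := by
    linarith [Real.log_le_log two_pos hQ, Real.log_two_gt_d9]
  obtain ⟨G, hG, hGs, hGb⟩ := h₁ (8 * k) (64 * Q) (mul_ne_zero (by decide) hk)
    (Dvd.dvd.mul_right ⟨4, by norm_num⟩ k) (SPS_cube hc) (by linarith) (by
      rw [nm_mul, show nm 8 = 64 by decide]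
      push_cast
      linarith)
  have hre : ∀ s : ℂ, (s - Complex.I * t).re = s.re := fun s => by simp
  have h4 := h₂ (fun n => vm n * ch (8 * k) n * nt n t) (fun s => G (s - Complex.I * t)) 0
    ((13 * C₁ + 2) * Real.log Q) u (by rw [vm_zero, zero_mul, zero_mul]) (fun n => SPS_norm _ n t)
    (hG.comp (f := fun s => s - Complex.I * t) (by fun_prop) fun s hs => by
      rw [Set.mem_ofPred_eq, hre]; exact hs)
    (fun s hs => by
      rw [zero_div, add_zero, ← hGs _ (by rw [hre, hs])]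
      refine tsum_congr fun n => ?_
      rcases eq_or_ne n 0 with rfl | hn
      · simp only [vm_zero, zero_mul]
      · simp only [mul_assoc, nt_mul_cpow hn])
    (fun s hs1 hs2 => by
      have hy := abs_nonneg s.im
      refine (hGb _ (by rwa [hre]) (by rwa [hre])).trans ?_
      have b1 : |(s - Complex.I * t).im| ≤ |s.im| + Q := by
        have : (s - Complex.I * t).im = s.im - t := by simp
        rw [this]
        exact (abs_sub _ _).trans (by linarith)
      have b2 : Real.log (64 * Q * (|(s - Complex.I * t).im| + 2)) ≤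
          Real.log (2 ^ 7 * Q ^ 2 * (1 + |s.im|)) := by
        refine Real.log_le_log (by positivity) ?_
        have b3 : |(s - Complex.I * t).im| + 2 ≤ 2 * Q * (1 + |s.im|) := by nlinarith
        nlinarith
      rw [Real.log_mul (x := 2 ^ 7 * Q ^ 2) (by positivity) (by positivity),
        Real.log_mul (x := 2 ^ 7) (by positivity) (by positivity), Real.log_pow, Real.log_pow] at b2
      have b3 := SPS_log (show 1 ≤ 1 + |s.im| by linarith)
      have b4 : 1 ≤ √(1 + |s.im|) := Real.one_le_sqrt.2 (by linarith)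
      have b5 := Real.log_le_log two_pos hQ
      have b6 := mul_le_mul_of_nonneg_left b4 (show 0 ≤ Real.log Q by linarith)
      have b7 := mul_le_mul_of_nonneg_right hL (show 0 ≤ √(1 + |s.im|) by linarith)
      have b8 : Real.log (64 * Q * (|(s - Complex.I * t).im| + 2)) ≤
          13 * (Real.log Q * √(1 + |s.im|)) := by
        push_cast at b2
        linarith
      have b9 := mul_le_mul_of_nonneg_left b8 hC₁.le
      linarith) hu (by simp) (by nlinarith)
  rw [zero_mul, sub_zero] at h4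
  have h5 := (h₃ k u t hu).trans (mul_le_mul_of_nonneg_left
    (Real.rpow_le_rpow_of_exponent_le hu (show (3 / 4 : ℝ) ≤ 1 - 1 / 16000 by norm_num)) hC₃.le)
  have h6 := mul_le_mul_of_nonneg_left hL
    (show 0 ≤ C₃ * u ^ (1 - 1 / 16000 : ℝ) by positivity)
  refine (norm_le_norm_sub_add _ (∑ n ∈ ball u, vm n * ch (8 * k) n * nt n t)).trans ?_
  linarith

theorem pnt_of (hP : PStmt 72 (1 / 10000)) : PNTStmt := by
  obtain ⟨C₁, G, hC₁, hG, hGs, hGb⟩ := exists_G8 hP
  obtain ⟨C₂, hC₂, h₂⟩ := SPS_core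
  obtain ⟨C₃, hC₃, h₃⟩ := prime_vs_vm
  refine ⟨1 / 16000, C₂ * (3 * C₁ + 1) + C₃, by norm_num, by positivity, fun u hu => ?_⟩
  have n0 : ∀ n, nt n 0 = 1 := fun n => by simp [nt]
  have h4 := h₂ (fun n => vm n * ch 8 n) G 1 (3 * C₁ + 1) u (by rw [vm_zero, zero_mul])
    (fun n => by simpa only [n0, mul_one] using SPS_norm 8 n 0) hG hGs (fun s hs1 hs2 => by
      have hy := abs_nonneg s.im
      refine (hGb s hs1 hs2).trans ?_
      have b1 := Real.log_le_log (by positivity) (show |s.im| + 2 ≤ 2 * (1 + |s.im|) by linarith)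
      rw [Real.log_mul two_ne_zero (by positivity)] at b1
      have b3 := SPS_log (show 1 ≤ 1 + |s.im| by linarith)
      have b4 : 1 ≤ √(1 + |s.im|) := Real.one_le_sqrt.2 (by linarith)
      have b5 := mul_le_mul_of_nonneg_left (show Real.log (|s.im| + 2) ≤ 3 * √(1 + |s.im|) by
        linarith [Real.log_two_lt_d9]) hC₁.le
      linarith) hu (by simp) (by linarith)
  have h5 := (h₃ 1 u 0 hu).trans (mul_le_mul_of_nonneg_left
    (Real.rpow_le_rpow_of_exponent_le hu (show (3 / 4 : ℝ) ≤ 1 - 1 / 16000 by norm_num)) hC₃.le)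
  simp only [n0, SNT_one, mul_one] at h5
  have h6 : ∑ p ∈ prb u, Lam p = ((∑ p ∈ prb u, Real.log (nm p) : ℝ) : ℂ) := by
    rw [Complex.ofReal_sum]
    exact Finset.sum_congr rfl fun p hp => by rw [Lam, ind_of (mem_prb.1 hp).1, one_mul]
  rw [h6] at h5
  rw [← Real.norm_eq_abs, ← Complex.norm_real, Complex.ofReal_sub]
  refine (norm_sub_le_norm_sub_add_norm_sub _ (∑ n ∈ ball u, vm n * ch 8 n) _).trans ?_
  rw [one_mul] at h4
  linarith

end Vale.Agent.P006.S
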