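import Vale.Agent.P006.SNT

/-!
# Part S: sums of periodic functions over balls  (TASK)

`card_shift`: choose `m₀` with `‖toC m₀ - toC a / toC q‖ ^ 2 ≤ 3 / 4` (`exists_near`), `a' = a - q m₀`; `m ↦ a' + q m` is a
bijection from `T = {m | ‖toC m + z‖ ≤ R}` (`z = toC a' / toC q`, `‖z‖ ≤ 1`, `R = √(x / nm q) ≤ √x`) onto the set; by the triangle inequality
`T ⊆ ball ((R + 1) ^ 2)` and, if `1 ≤ R`, `ball ((R - 1) ^ 2) ⊆ T` (`norm_toC`); use `card_ball` twice.
`sum_per`: insert `sum_res_ind`, swap, `f n = f a` on the class of `a`; `card_res`.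
`ch_per`: `Prim.of_dvd_sub`, `cub_den_congr` with `R = 9 k`.
`ch_mean_zero`: `NT` gives `n₀` primary, coprime to `k`, `cub k n₀ ≠ 1`; `ch k (n₀ x) = cub k n₀ * ch k x` (`Prim.mul`, `Prim.of_mul`,
`cub_mul_right`); `sum_res_affine` (`Prim.coprime_nine`).
`ch_eight_mean`: `cub 8 a = cub 2 a ^ 3` is `0` or `1` for primary `a` (`cub_cube`, `cub_eq_zero`), so the real parts of the terms are
nonnegative; the representative of `1` (`res_spec`, `ch_per`) contributes `1`.
-/

namespace Vale.Agent.P006.S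

open Vale.Agent.P026 Filter
open scoped ComplexConjugate Real

open Classical in
theorem card_shift : ∃ C : ℝ, 0 < C ∧ ∀ (q a : O) (x : ℝ), q ≠ 0 → 0 ≤ x →
    |(((ball x).filter fun n => q ∣ n - a).card : ℝ) - c0 * x / nm q| ≤ C * (1 + √x) := by
  obtain ⟨C, hC, h⟩ := card_ball
  have hc : 0 < c0 := by unfold c0; positivity
  refine ⟨2 * c0 + 2 * C, by positivity, fun q a x hq hx => ?_⟩
  have hn : (1 : ℝ) ≤ nm q := one_le_nm hq
  have hq' : toC q ≠ 0 := fun h => hq (toC_eq_zero.1 h)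
  obtain ⟨m₀, hm⟩ := exists_near (toC a / toC q)
  obtain ⟨z, hz⟩ : ∃ z, z = toC a / toC q - toC m₀ := ⟨_, rfl⟩
  have hz1 : ‖z‖ ≤ 1 := by
    rw [hz, norm_sub_rev]
    exact (sq_le_one_iff₀ (norm_nonneg _)).1 (hm.trans (by norm_num))
  obtain ⟨R, hR⟩ : ∃ R, R = √(x / nm q) := ⟨_, rfl⟩
  have hR0 : 0 ≤ R := hR ▸ Real.sqrt_nonneg _
  have hR2 : R ^ 2 = x / nm q := hR ▸ Real.sq_sqrt (by positivity)
  have hRx : R ≤ √x := hR ▸ Real.sqrt_le_sqrt (div_le_self hx hn)
  have hφ : ∀ m : O, a + q * (m - m₀) ∈ ball x ↔ ‖toC m + z‖ ≤ R := fun m => by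
    have e : toC (a + q * (m - m₀)) = toC q * (toC m + z) := by
      rw [hz, map_add, map_mul, map_sub]
      field_simp
      ring
    rw [mem_ball, ← norm_toC_sq, e, norm_mul, mul_pow, norm_toC_sq, ← le_div_iff₀' (by positivity),
      ← hR2, sq_le_sq₀ (norm_nonneg _) hR0]
  have hb : ∀ (m : O) (r : ℝ), 0 ≤ r → (m ∈ ball (r ^ 2) ↔ ‖toC m‖ ≤ r) := fun m r hr => by
    rw [mem_ball, ← norm_toC_sq, sq_le_sq₀ (norm_nonneg _) hr]
  have hi : Function.Injective fun m : O => a + q * (m - m₀) := fun m m' h => by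
    simpa [hq] using h
  have h1 : ((ball x).filter fun n => q ∣ n - a).card ≤ (ball ((R + 1) ^ 2)).card := by
    refine le_trans (Finset.card_le_card fun n hn => ?_)
      (Finset.card_image_le (f := fun m : O => a + q * (m - m₀)))
    obtain ⟨h1, m, h2⟩ := Finset.mem_filter.1 hn
    have e : a + q * (m + m₀ - m₀) = n := by rw [add_sub_cancel_right, ← h2, add_sub_cancel]
    refine Finset.mem_image.2 ⟨m + m₀, (hb _ _ (by linarith)).2 ?_, e⟩
    have h3 := (hφ _).1 (e ▸ h1)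
    have h4 := norm_sub_le (toC (m + m₀) + z) z
    rw [add_sub_cancel_right] at h4
    linarith
  have h2 := (abs_le.1 (h ((R + 1) ^ 2) (sq_nonneg _))).2
  rw [Real.sqrt_sq (by linarith)] at h2
  have h1' : (((ball x).filter fun n => q ∣ n - a).card : ℝ) ≤ (ball ((R + 1) ^ 2)).card := by
    exact_mod_cast h1
  have h5 : (2 * c0 + 2 * C) * (1 + R) ≤ (2 * c0 + 2 * C) * (1 + √x) := by gcongr
  have h6 := mul_nonneg hc.le hR0
  have h7 := mul_nonneg hC.le hR0
  rw [mul_div_assoc, ← hR2]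
  refine abs_le.2 ⟨?_, by nlinarith⟩
  rcases le_total 1 R with h3 | h3
  · have h4 : (ball ((R - 1) ^ 2)).card ≤ ((ball x).filter fun n => q ∣ n - a).card := by
      rw [← Finset.card_image_of_injective _ hi]
      refine Finset.card_le_card fun n hn => ?_
      obtain ⟨m, h1, rfl⟩ := Finset.mem_image.1 hn
      refine Finset.mem_filter.2 ⟨(hφ m).2 ?_, m - m₀, by ring⟩
      have h3 := (hb _ _ (by linarith)).1 h1
      linarith [norm_add_le (toC m) z]
    have h4' : ((ball ((R - 1) ^ 2)).card : ℝ) ≤ ((ball x).filter fun n => q ∣ n - a).card := by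
      exact_mod_cast h4
    have h8 := (abs_le.1 (h ((R - 1) ^ 2) (sq_nonneg _))).1
    rw [Real.sqrt_sq (by linarith)] at h8
    nlinarith
  · have h4 : (0 : ℝ) ≤ ((ball x).filter fun n => q ∣ n - a).card := Nat.cast_nonneg _
    have h8 : c0 * R ^ 2 ≤ c0 * 1 := mul_le_mul_of_nonneg_left (pow_le_one₀ hR0 h3) hc.le
    nlinarith

theorem sum_per : ∃ C : ℝ, 0 < C ∧ ∀ (q : O) (f : O → ℂ) (x : ℝ), q ≠ 0 → Per q f →
    (∀ n, ‖f n‖ ≤ 1) → 1 ≤ x →
      ‖∑ n ∈ ball x, f n - (∑ a ∈ res q, f a) / nm q * c0 * x‖ ≤ C * nm q * √x := by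
  classical
  obtain ⟨C, hC, h⟩ := card_shift
  refine ⟨2 * C, by positivity, fun q f x hq hf hb hx => ?_⟩
  have e : ∑ n ∈ ball x, f n =
      ∑ a ∈ res q, f a * (((ball x).filter fun n => q ∣ n - a).card : ℂ) := by
    calc ∑ n ∈ ball x, f n = ∑ n ∈ ball x, ∑ a ∈ res q, f a * ind (q ∣ n - a) := by
          refine Finset.sum_congr rfl fun n _ => ?_
          rw [← mul_one (f n), ← sum_res_ind hq n, Finset.mul_sum]
          refine Finset.sum_congr rfl fun a _ => ?_
          by_cases h : q ∣ n - a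
          · rw [hf n a h]
          · rw [ind_of_not h, mul_zero, mul_zero]
      _ = _ := by
          rw [Finset.sum_comm]
          refine Finset.sum_congr rfl fun a _ => ?_
          rw [← Finset.mul_sum, Finset.card_filter]
          push_cast
          rfl
  have h1 : 1 ≤ √x := Real.one_le_sqrt.2 hx
  rw [e, Finset.sum_div, Finset.sum_mul, Finset.sum_mul, ← Finset.sum_sub_distrib]
  refine (norm_sum_le _ _).trans ((Finset.sum_le_card_nsmul _ _ (2 * C * √x)
    fun a _ => ?_).trans (le_of_eq ?_))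
  · have e2 : f a * (((ball x).filter fun n => q ∣ n - a).card : ℂ) - f a / nm q * c0 * x =
        f a * ((((ball x).filter fun n => q ∣ n - a).card : ℝ) - c0 * x / nm q : ℝ) := by
      push_cast
      ring
    rw [e2, norm_mul, Complex.norm_real, Real.norm_eq_abs]
    refine (mul_le_of_le_one_left (abs_nonneg _) (hb a)).trans ?_
    refine le_trans ?_ (show C * (1 + √x) ≤ 2 * C * √x by nlinarith)
    convert h q a x hq (by linarith)
  · rw [card_res hq, nsmul_eq_mul]
    ring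

theorem ch_per {k : O} (hk : k ≠ 0) : Per (9 * k) (ch k) := by
  intro x y h
  have h3 : (3 : O) ∣ 9 * k := Dvd.dvd.mul_right ⟨3, by norm_num⟩ k
  by_cases hx : Prim x
  · rw [ch, ch, ind_of hx, ind_of (hx.of_dvd_sub h3 (dvd_sub_comm.1 h)),
      cub_den_congr hk hx (dvd_mul_right 9 k) (fun _ _ h => h.mul_left 9) h]
  · rw [ch, ch, ind_of_not hx, ind_of_not fun hy => hx (hy.of_dvd_sub h3 h), zero_mul, zero_mul]

theorem ch_mean_zero {k : O} (hk : k ≠ 0) (h : ¬Cube k) : ∑ a ∈ res (9 * k), ch k a = 0 := by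
  obtain ⟨n, hn, hkn, h1⟩ : ∃ n, Prim n ∧ IsCoprime k n ∧ cub k n ≠ 1 := by
    by_contra h1
    exact h (NT hk fun n h2 h3 => by_contra fun h4 => h1 ⟨n, h2, h3, h4⟩)
  have e : ∀ x, ch k (n * x + 0) = cub k n * ch k x := fun x => by
    rw [add_zero, ch, ch]
    by_cases hx : Prim x
    · rw [ind_of hx, ind_of (hn.mul hx), cub_mul_right hn.ne_zero hx.ne_zero, one_mul, one_mul]
    · rw [ind_of_not hx, ind_of_not fun h => hx (hn.of_mul h), zero_mul, zero_mul, mul_zero]
  have h2 := sum_res_affine (mul_ne_zero (by norm_num) hk) (ch_per hk)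
    (hn.coprime_nine.mul_right hkn.symm) 0
  simp only [e, ← Finset.mul_sum] at h2
  by_contra h3
  exact h1 (mul_right_cancel₀ h3 (h2.trans (one_mul _).symm))

theorem ch_eight_mean : ∑ a ∈ res (9 * 8), ch 8 a ≠ 0 := by
  have h8 : (8 : O) ≠ 0 := by norm_num
  have h0 : ∀ a, 0 ≤ (ch 8 a).re := fun a => by
    by_cases ha : Prim a
    · rw [ch, ind_of ha, one_mul, show (8 : O) = 2 ^ 3 by norm_num, cub_pow_left]
      by_cases h : IsCoprime 2 a
      · simp [cub_cube h]
      · simp [cub_eq_zero ha.not_lam_dvd h]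
    · simp [ch, ind_of_not ha]
  obtain ⟨y, ⟨hy, h1⟩, -⟩ := res_spec (mul_ne_zero (show (9 : O) ≠ 0 by norm_num) h8) 1
  have h2 : (ch 8 y).re = 1 := by
    rw [← ch_per h8 1 y h1, ch, ind_of prim_one]
    simp
  intro h
  have h3 := Finset.single_le_sum (f := fun a => (ch 8 a).re) (fun a _ => h0 a) hy
  rw [← Complex.re_sum, h, h2, Complex.zero_re] at h3
  norm_num at h3

end Vale.Agent.P006.S
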