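import Vale.Agent.P006.SAbel

/-!
# Part S: finite Euler products

`hasSum_hf`: `D = ∏ p ∈ prw Y₁ Y₂, p`; `hf j Y₁ Y₂ n = ind (n ∈ pdiv D) * mu n ^ j` (a squarefree primary `n` all of whose primes are
associated to members of `prw Y₁ Y₂` divides `D`: `Prim.induction`, `exists_prim`; conversely `D` is squarefree, `Prime.exists_mem_finset_dvd`);
`∑ d ∈ pdiv (∏ p ∈ P, p), mu d ^ j * f d = ∏ p ∈ P, (1 + (-1) ^ j * f p)` by induction on a finite set `P` of primary primes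
(`sum_pdiv_mul`, `psd_pdiv_prime`, `mu_mul`, `prim_eq_of_dvd`); `hasSum_sum_of_ne_finset_zero`.
`norm_prod_le`: `‖1 + z‖ ^ 2 = 1 + 2 re z + ‖z‖ ^ 2 ≤ exp (2 re z + ‖z‖ ^ 2)`.
`prod_bound`: `y = (log Q) ^ 32000 ≥ 2`.  Primes of norm `≤ y`: trivially `∑ N p ^ (-re s) ≤ C y ^ (1/64000) = C √(log Q)` (`sum_rpow_le`).  The others form
`prw (max Y₁ y) Y₂`: `abel_prime` with `c p = cub k p * nt p (-im s)`, `M = C log Q` (`PSE`), giving `C (log Q) ^ (-1/2) ≤ C`.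
`∑ ‖z p‖ ^ 2 ≤ ∑ N p ^ (-3/2) ≤ C` (`sum_rpow_le_const`); `C √L ≤ ε L + C ^ 2 / (4 ε)`.
-/

namespace Vale.Agent.P006.S

open Vale.Agent.P026 Filter
open scoped ComplexConjugate Real

theorem sprod_prim {P : Finset O} (hP : ∀ p ∈ P, PP p) : Prim (∏ p ∈ P, p) :=
  Finset.prod_induction _ Prim (fun _ _ => Prim.mul) prim_one fun p hp => (hP p hp).2

theorem sprod_cop {P : Finset O} (hP : ∀ p ∈ P, PP p) {q : O} (hq : PP q) (h : q ∉ P) :
    IsCoprime q (∏ p ∈ P, p) := by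
  refine IsCoprime.prod_right fun p hp => ?_
  exact hq.1.coprime_iff_not_dvd.2 fun hd =>
    h (prim_eq_of_dvd hq.1 hq.2 (hP p hp).1 (hP p hp).2 hd ▸ hp)

theorem sprod_sqf {P : Finset O} (hP : ∀ p ∈ P, PP p) : Squarefree (∏ p ∈ P, p) := by
  classical
  induction P using Finset.induction_on with
  | empty => simp
  | insert q P hq ih =>
    have h1 : ∀ p ∈ P, PP p := fun p hp => hP p (Finset.mem_insert_of_mem hp)
    have h2 := hP q (Finset.mem_insert_self q P)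
    rw [Finset.prod_insert hq, squarefree_mul_iff]
    exact ⟨(sprod_cop h1 h2 hq).isRelPrime, h2.1.squarefree, ih h1⟩

theorem sprod_pdiv_one : pdiv 1 = {1} := by
  ext e
  rw [mem_pdiv one_ne_zero, Finset.mem_singleton]
  exact ⟨fun h => h.1.eq_one_of_isUnit (isUnit_of_dvd_one h.2),
    fun h => by rw [h]; exact ⟨prim_one, dvd_rfl⟩⟩

theorem sprod_sum (j : ℕ) {f : O → ℂ}
    (hm : ∀ a b, Prim a → Prim b → f (a * b) = f a * f b) (h1 : f 1 = 1) {P : Finset O}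
    (hP : ∀ p ∈ P, PP p) :
    ∑ d ∈ pdiv (∏ p ∈ P, p), mu d ^ j * f d = ∏ p ∈ P, (1 + (-1) ^ j * f p) := by
  classical
  induction P using Finset.induction_on with
  | empty => simp [sprod_pdiv_one, mu_one, h1]
  | insert q P hq ih =>
    have h2 : ∀ p ∈ P, PP p := fun p hp => hP p (Finset.mem_insert_of_mem hp)
    have h3 := hP q (Finset.mem_insert_self q P)
    have h4 := sprod_cop h2 h3 hq
    have h5 := sprod_prim h2
    have h6 : (1 : O) ≠ q := fun h => h3.1.not_isUnit (h ▸ isUnit_one)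
    rw [Finset.prod_insert hq, Finset.prod_insert hq, sum_pdiv_mul h3.2 h5 h4, ← ih h2,
      psd_pdiv_prime h3.1 h3.2, Finset.sum_pair h6, add_mul, one_mul, Finset.mul_sum]
    congr 1
    · simp only [one_mul]
    · refine Finset.sum_congr rfl fun d hd => ?_
      rw [mem_pdiv h5.ne_zero] at hd
      rw [mu_mul (h4.of_isCoprime_of_dvd_right hd.2), mu_prime h3.1, hm q d h3.2 hd.1, mul_pow]
      ring

theorem sprod_dvd (Y₁ Y₂ : ℝ) {n : O} (hn : Prim n) : Squarefree n →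
    (∀ p, Prime p → p ∣ n → Y₁ < nm p ∧ (nm p : ℝ) ≤ Y₂) → n ∣ ∏ p ∈ prw Y₁ Y₂, p := by
  refine Prim.induction (P := fun n => Squarefree n →
    (∀ p, Prime p → p ∣ n → Y₁ < nm p ∧ (nm p : ℝ) ≤ Y₂) → n ∣ ∏ p ∈ prw Y₁ Y₂, p)
    (fun _ _ => one_dvd _) (fun p m hp hp' _ ih h1 h2 => ?_) hn
  rw [squarefree_mul_iff] at h1
  refine h1.1.mul_dvd ?_ (ih h1.2.2 fun q hq hqm => h2 q hq (hqm.mul_left p))
  exact Finset.dvd_prod_of_mem _ (mem_prw.2 ⟨⟨hp, hp'⟩, h2 p hp (dvd_mul_right p m)⟩)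

theorem hasSum_hf (j : ℕ) (Y₁ Y₂ : ℝ) {f : O → ℂ}
    (hm : ∀ a b, Prim a → Prim b → f (a * b) = f a * f b) (h1 : f 1 = 1) :
    HasSum (fun n => hf j Y₁ Y₂ n * f n) (∏ p ∈ prw Y₁ Y₂, (1 + (-1) ^ j * f p)) := by
  classical
  have hP : ∀ p ∈ prw Y₁ Y₂, PP p := fun p hp => (mem_prw.1 hp).1
  have hD := sprod_prim hP
  rw [← sprod_sum j hm h1 hP]
  have e : ∑ d ∈ pdiv (∏ p ∈ prw Y₁ Y₂, p), mu d ^ j * f d =
      ∑ d ∈ pdiv (∏ p ∈ prw Y₁ Y₂, p), hf j Y₁ Y₂ d * f d := by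
    refine Finset.sum_congr rfl fun d hd => ?_
    rw [mem_pdiv hD.ne_zero] at hd
    have h2 : Sq d := ⟨hd.1, (sprod_sqf hP).squarefree_of_dvd hd.2⟩
    have h3 : ∀ p, Prime p → p ∣ d → Y₁ < nm p ∧ (nm p : ℝ) ≤ Y₂ := by
      intro p hp hpd
      obtain ⟨q, hq, hpq⟩ := hp.exists_mem_finset_dvd (hpd.trans hd.2)
      rw [mem_prw] at hq
      rw [nm_of_associated (hp.irreducible.associated_of_dvd hq.1.1.irreducible hpq)]
      exact hq.2
    rw [hf, ind_of h2, ind_of h3, one_mul, mul_one]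
  rw [e]
  refine hasSum_sum_of_ne_finset_zero fun n hn => ?_
  rw [hf]
  by_cases h2 : Sq n
  · by_cases h3 : ∀ p, Prime p → p ∣ n → Y₁ < nm p ∧ (nm p : ℝ) ≤ Y₂
    · exact absurd ((mem_pdiv hD.ne_zero).2 ⟨h2.1, sprod_dvd Y₁ Y₂ h2.1 h2.2 h3⟩) hn
    · rw [ind_of_not h3, mul_zero, zero_mul]
  · rw [ind_of_not h2, zero_mul, zero_mul, zero_mul]

theorem norm_prod_le {ι : Type*} (s : Finset ι) (z : ι → ℂ) :
    ‖∏ i ∈ s, (1 + z i)‖ ≤ Real.exp ((∑ i ∈ s, z i).re + (∑ i ∈ s, ‖z i‖ ^ 2) / 2) := by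
  rw [norm_prod, Complex.re_sum, Finset.sum_div, ← Finset.sum_add_distrib, Real.exp_sum]
  refine Finset.prod_le_prod (fun _ _ => norm_nonneg _) fun i _ => ?_
  refine (pow_le_pow_iff_left₀ (norm_nonneg _) (Real.exp_pos _).le two_ne_zero).1 ?_
  rw [← Real.exp_nat_mul]
  refine le_trans (le_of_eq ?_) (Real.add_one_le_exp _)
  rw [Complex.sq_norm, Complex.sq_norm, Complex.normSq_apply, Complex.normSq_apply]
  simp only [Complex.add_re, Complex.add_im, Complex.one_re, Complex.one_im, Nat.cast_ofNat]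
  ring

theorem sprod_norm (k : O) {p : O} (hp : p ≠ 0) {s : ℂ} {σ : ℝ} (hs : σ ≤ s.re) :
    ‖cub k p * (nm p : ℂ) ^ (-s)‖ ≤ (nm p : ℝ) ^ (-σ) := by
  rw [norm_mul, Complex.norm_natCast_cpow_of_pos (nm_pos hp), Complex.neg_re]
  refine (mul_le_of_le_one_left (by positivity) (norm_cub_le k p)).trans ?_
  exact Real.rpow_le_rpow_of_exponent_le (one_le_nm hp) (by linarith)

theorem prod_bound (h : PSE) {ε : ℝ} (hε : 0 < ε) : ∃ C : ℝ, 0 < C ∧
    ∀ (Q : ℝ) (k : O) (s : ℂ) (j : ℕ) (Y₁ Y₂ : ℝ), 16 ≤ Q → k ≠ 0 → (nm k : ℝ) ≤ Q → ¬Cube k →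
      1 - 1 / 64000 ≤ s.re → s.re ≤ 9 / 4 → |s.im| ≤ Q →
        ‖∏ p ∈ prw Y₁ Y₂, (1 + (-1) ^ j * (cub k p * (nm p : ℂ) ^ (-s)))‖ ≤ C * Q ^ ε := by
  classical
  obtain ⟨C₀, hC₀, h₀⟩ := h
  obtain ⟨C₁, hC₁, h₁⟩ := sum_rpow_le (σ := 1 - 1 / 64000) (by norm_num) (by norm_num)
  obtain ⟨C₂, hC₂, h₂⟩ := abel_prime
  obtain ⟨C₃, hC₃, h₃⟩ := sum_rpow_le_const (σ := 3 / 2) (by norm_num)
  refine ⟨Real.exp (C₁ ^ 2 / (4 * ε) + C₂ * C₀ + C₃ / 2), Real.exp_pos _,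
    fun Q k s j Y₁ Y₂ hQ hk hkQ hc hs1 hs2 hs3 => ?_⟩
  have hQ0 : 0 < Q := by linarith
  have hL : 2 ≤ Real.log Q := by
    have h1 := Real.log_le_log (by norm_num) hQ
    rw [show (16 : ℝ) = 2 ^ 4 by norm_num, Real.log_pow] at h1
    push_cast at h1
    linarith [Real.log_two_gt_d9]
  refine (norm_prod_le _ _).trans ?_
  rw [Real.rpow_def_of_pos hQ0, ← Real.exp_add]
  generalize hLd : Real.log Q = L at hL
  have hL0 : 0 < L := by linarith
  have hL1 : 1 ≤ L := by linarith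
  have hy : 2 ≤ L ^ (32000 : ℝ) :=
    hL.trans (Real.self_le_rpow_of_one_le hL1 (by norm_num))
  have hne : ∀ p ∈ prw Y₁ Y₂, p ≠ 0 := fun p hp => (mem_prw.1 hp).1.1.ne_zero
  refine Real.exp_le_exp.2 ?_
  have a1 : ∑ p ∈ prw Y₁ Y₂, ‖(-1) ^ j * (cub k p * (nm p : ℂ) ^ (-s))‖ ^ 2 ≤ C₃ := by
    refine le_trans (Finset.sum_le_sum fun p hp => ?_) (h₃ _)
    have b1 := one_le_nm (hne p hp)
    rw [norm_mul, norm_pow, norm_neg, norm_one, one_pow, one_mul]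
    refine (pow_le_pow_left₀ (norm_nonneg _) (sprod_norm k (hne p hp) hs1) 2).trans ?_
    rw [← Real.rpow_natCast, ← Real.rpow_mul (by linarith)]
    exact Real.rpow_le_rpow_of_exponent_le b1 (by norm_num)
  have a2 : ‖∑ p ∈ (prw Y₁ Y₂).filter (fun p => (nm p : ℝ) ≤ L ^ (32000 : ℝ)),
      cub k p * (nm p : ℂ) ^ (-s)‖ ≤ C₁ * √L := by
    refine (norm_sum_le _ _).trans ((Finset.sum_le_sum fun p hp =>
      sprod_norm k (hne p (Finset.mem_filter.1 hp).1) hs1).trans ?_)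
    refine (Finset.sum_le_sum_of_subset_of_nonneg (t := ball (L ^ (32000 : ℝ)))
      (fun p hp => mem_ball.2 (Finset.mem_filter.1 hp).2) fun _ _ _ => by positivity).trans ?_
    refine (h₁ _ (by linarith)).trans (le_of_eq ?_)
    rw [← Real.rpow_mul hL0.le, Real.sqrt_eq_rpow]
    norm_num
  have a3 : ‖∑ p ∈ (prw Y₁ Y₂).filter (fun p => ¬(nm p : ℝ) ≤ L ^ (32000 : ℝ)),
      cub k p * (nm p : ℂ) ^ (-s)‖ ≤ C₂ * C₀ := by
    have e1 : (prw Y₁ Y₂).filter (fun p => ¬(nm p : ℝ) ≤ L ^ (32000 : ℝ)) =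
        prw (max Y₁ (L ^ (32000 : ℝ))) Y₂ := by
      ext p
      rw [Finset.mem_filter, mem_prw, mem_prw, max_lt_iff, not_le]
      tauto
    have e2 : ∑ p ∈ prw (max Y₁ (L ^ (32000 : ℝ))) Y₂, cub k p * (nm p : ℂ) ^ (-s) =
        ∑ p ∈ prw (max Y₁ (L ^ (32000 : ℝ))) Y₂,
          (cub k p * nt p (-s.im)) * ((nm p : ℝ) ^ (-s.re) : ℝ) := by
      refine Finset.sum_congr rfl fun p hp => ?_
      rw [mul_assoc, Complex.ofReal_cpow (Nat.cast_nonneg _), Complex.ofReal_natCast,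
        Complex.ofReal_neg, nt_mul_cpow (mem_prw.1 hp).1.1.ne_zero]
      congr 3
      apply Complex.ext <;> simp
    rw [e1, e2]
    refine (h₂ (fun p => cub k p * nt p (-s.im)) (C₀ * L) s.re _ Y₂ (fun u hu => ?_) hs1 hs2
      (hy.trans (le_max_right _ _))).trans ?_
    · have b1 := h₀ Q u (-s.im) k (by linarith) hu (by rwa [abs_neg]) hk hkQ hc
      rw [hLd] at b1
      simp only [← mul_assoc]
      linarith
    · have b1 : (max Y₁ (L ^ (32000 : ℝ))) ^ (-3 / 64000 : ℝ) ≤ L⁻¹ := by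
        refine (Real.rpow_le_rpow_of_nonpos (by linarith) (le_max_right _ _) (by norm_num)).trans ?_
        rw [← Real.rpow_mul hL0.le, ← Real.rpow_neg_one]
        exact Real.rpow_le_rpow_of_exponent_le hL1 (by norm_num)
      refine (mul_le_mul_of_nonneg_left b1 (by positivity)).trans (le_of_eq ?_)
      field_simp
  have a4 : (∑ p ∈ prw Y₁ Y₂, (-1) ^ j * (cub k p * (nm p : ℂ) ^ (-s))).re ≤
      C₁ * √L + C₂ * C₀ := by
    refine (Complex.re_le_norm _).trans ?_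
    rw [← Finset.mul_sum, norm_mul, norm_pow, norm_neg, norm_one, one_pow, one_mul,
      ← Finset.sum_filter_add_sum_filter_not _ (fun p => (nm p : ℝ) ≤ L ^ (32000 : ℝ))]
    exact (norm_add_le _ _).trans (add_le_add a2 a3)
  have a5 : C₁ * √L ≤ C₁ ^ 2 / (4 * ε) + L * ε := by
    have b1 := Real.sq_sqrt hL0.le
    have b2 : C₁ ^ 2 / (4 * ε) + L * ε - C₁ * √L = (C₁ - 2 * ε * √L) ^ 2 / (4 * ε) := by
      conv_lhs => rw [← b1, Real.sqrt_sq (Real.sqrt_nonneg L)]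
      field_simp
      ring
    have b3 : 0 ≤ (C₁ - 2 * ε * √L) ^ 2 / (4 * ε) := by positivity
    linarith
  linarith

end Vale.Agent.P006.S
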