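import Vale.Agent.P006.Defs
import Vale.Agent.P026.RecAux
import Vale.Agent.P026.Cubic

/-! # P006 part T: the bilinear form, counting, asymptotic lemmas. -/

namespace Vale.Agent.P006

open Vale.Agent.P026 Filter
open scoped ComplexConjugate Real

/-- bilinear form with arithmetic weight `G` and archimedean weight `K` -/
noncomputable def bl (s : Finset O) (B : ℝ) (α β G K : O → ℂ) : ℂ :=
  ∑ a ∈ s, ∑ b ∈ qball (16 * B), α a * β b * G (a * b) * K (a * b)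

/-- the range `(A/32, A]` of the first variable -/
noncomputable def ar (A : ℝ) : Finset O :=
  open Classical in (qball A).filter fun a => A / 32 < nm a

/-- smoothed window -/
noncomputable def smc (T x₁ x₂ : ℝ) (n : O) : ℂ := (Sm T x₁ x₂ (nm n) : ℝ)

/-- the model term -/
noncomputable def md (n : O) : ℂ := ind (Sq n) * (kst * np n (-1 / 6))

theorem tb_mem_qball {X : ℝ} {n : O} : n ∈ qball X ↔ Sq n ∧ (nm n : ℝ) ≤ X := by
  simp only [qball, Finset.mem_filter, mem_ball, and_comm]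

theorem tb_mem_ar {A : ℝ} {n : O} : n ∈ ar A ↔ Sq n ∧ A / 32 < nm n ∧ (nm n : ℝ) ≤ A := by
  simp only [ar, Finset.mem_filter, tb_mem_qball]
  tauto

theorem tb_S1 {X B x₁ x₂ : ℝ} (α : O → ℂ) {β : O → ℂ} (hB : 0 < B) (hβ : Supp 16 B β)
    (h₁ : X / 2 ≤ x₁) (h₂ : x₂ ≤ X) :
    S1 x₁ x₂ (cv α β) = bl (ar (X / B)) B α β aq (win x₁ x₂) := by
  classical
  unfold S1 bl cv
  have e1 : ∑ n ∈ qball x₂, (ind (Sq n) * ∑ d ∈ pdiv n, α d * β (n / d)) * aq n * win x₁ x₂ n =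
      ∑ p ∈ (qball x₂).sigma pdiv, α p.2 * β (p.1 / p.2) * aq p.1 * win x₁ x₂ p.1 := by
    rw [Finset.sum_sigma]
    refine Finset.sum_congr rfl fun n hn => ?_
    rw [ind_of (tb_mem_qball.1 hn).1, one_mul, Finset.sum_mul, Finset.sum_mul]
  rw [e1, ← Finset.sum_product']
  have hw : ∀ n : O, win x₁ x₂ n ≠ 0 → x₁ < nm n ∧ (nm n : ℝ) ≤ x₂ := fun n h => by
    by_contra h'
    exact h (ind_of_not h')
  have hmul : ∀ p ∈ (qball x₂).sigma pdiv, p.2 * (p.1 / p.2) = p.1 ∧ Prim p.2 := by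
    intro p hp
    obtain ⟨h1, h2⟩ := Finset.mem_sigma.1 hp
    obtain ⟨h3, h4⟩ := (mem_pdiv (tb_mem_qball.1 h1).1.1.ne_zero).1 h2
    exact ⟨EuclideanDomain.mul_div_cancel' h3.ne_zero h4, h3⟩
  refine Finset.sum_bij_ne_zero (fun p _ _ => (p.2, p.1 / p.2)) ?_ ?_ ?_ ?_
  · intro p hp h
    obtain ⟨h1, h2⟩ := hmul p hp
    have h3 := hβ _ (right_ne_zero_of_mul (left_ne_zero_of_mul (left_ne_zero_of_mul h)))
    have h4 := hw _ (right_ne_zero_of_mul h)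
    have h5 : (nm p.1 : ℝ) = nm p.2 * nm (p.1 / p.2) := by
      conv_lhs => rw [← h1, nm_mul]
      push_cast
      rfl
    have h6 := (tb_mem_qball.1 (Finset.mem_sigma.1 hp).1).1.2
    have h7 : (0 : ℝ) ≤ nm p.2 := Nat.cast_nonneg _
    refine Finset.mem_product.2 ⟨tb_mem_ar.2 ⟨⟨h2, h6.squarefree_of_dvd ⟨_, h1.symm⟩⟩, ?_, ?_⟩,
      tb_mem_qball.2 ⟨h3.1, h3.2.2⟩⟩
    · rw [div_div, div_lt_iff₀ (by positivity)]
      nlinarith [mul_le_mul_of_nonneg_left h3.2.2 h7]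
    · rw [le_div_iff₀ hB]
      nlinarith [mul_le_mul_of_nonneg_left h3.2.1.le h7]
  · intro p hp _ q hq _ h
    have h1 := congrArg Prod.fst h
    have h2 := congrArg Prod.snd h
    simp only at h1 h2
    have h3 : p.1 = q.1 := by rw [← (hmul p hp).1, ← (hmul q hq).1, h2, h1]
    exact Sigma.ext h3 (heq_of_eq h1)
  · rintro ⟨a, b⟩ hab h
    obtain ⟨ha, hb⟩ := Finset.mem_product.1 hab
    have ha1 := (tb_mem_ar.1 ha).1
    have h1 : Sq (a * b) := by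
      by_contra h1
      apply h
      simp [aq, ind_of_not h1]
    have h2 := hw _ (right_ne_zero_of_mul h)
    have h3 : a * b / a = b := mul_div_cancel_left₀ _ ha1.1.ne_zero
    refine ⟨⟨a * b, a⟩, Finset.mem_sigma.2 ⟨tb_mem_qball.2 ⟨h1, h2.2⟩,
      (mem_pdiv h1.1.ne_zero).2 ⟨ha1.1, dvd_mul_right _ _⟩⟩, ?_, ?_⟩
    · simpa only [h3] using h
    · simp only [h3]
  · intro p hp _
    simp only [(hmul p hp).1]

theorem tb_S1_zero {x₁ x₂ : ℝ} (h : x₂ < x₁) (c : O → ℂ) : S1 x₁ x₂ c = 0 := by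
  refine Finset.sum_eq_zero fun n _ => ?_
  rw [win, ind_of_not fun h' => by linarith [h'.1, h'.2], mul_zero]

theorem tb_bl_add (s : Finset O) (B : ℝ) (α β G K K' : O → ℂ) :
    bl s B α β G (fun n => K n + K' n) = bl s B α β G K + bl s B α β G K' := by
  simp only [bl, mul_add, Finset.sum_add_distrib]

theorem tb_bl_sub (s : Finset O) (B : ℝ) (α β G K K' : O → ℂ) :
    bl s B α β G (fun n => K n - K' n) = bl s B α β G K - bl s B α β G K' := by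
  simp only [bl, mul_sub, Finset.sum_sub_distrib]

theorem tb_kst_pos : 0 < kst := by
  have := Real.Gamma_pos_of_pos (show (0 : ℝ) < 2 / 3 by norm_num)
  have := Real.pi_pos
  unfold kst
  positivity

theorem tb_gq (n : O) : ‖gq n‖ ≤ 1 := by
  by_cases h : Sq n
  · have h1 := g3_twist h.1.ne_zero (coprime_lam h.1) 1
    rw [one_mul] at h1
    have h2 := norm_gt3 h.1 h.2
    rw [gt3, norm_div] at h2
    rw [gq, ind_of h, one_mul, gl, h1, norm_div, norm_mul, RCLike.norm_conj,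
      norm_cub (coprime_lam h.1), one_mul, h2]
  · rw [gq, ind_of_not h, zero_mul, norm_zero]
    exact zero_le_one

theorem tb_aq_eq (n : O) : aq n = gq n - md n := by
  simp only [aq, gq, md, mul_sub]

theorem tb_md {Y : ℝ} (hY : 0 < Y) {n : O} (hn : Y ≤ nm n) : ‖md n‖ ≤ kst * Y ^ (-1 / 6 : ℝ) := by
  have h0 : (0 : ℝ) < nm n := hY.trans_le hn
  have h1 : ‖np n (-1 / 6)‖ = (nm n : ℝ) ^ (-1 / 6 : ℝ) := by
    rw [np, ← Complex.ofReal_natCast, Complex.norm_cpow_eq_rpow_re_of_pos h0]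
    congr 1
    norm_num
  rw [md, norm_mul, norm_mul, h1, Complex.norm_real, Real.norm_of_nonneg tb_kst_pos.le]
  refine (mul_le_of_le_one_left (by have := tb_kst_pos; positivity) (norm_ind_le _)).trans ?_
  exact mul_le_mul_of_nonneg_left (Real.rpow_le_rpow_of_nonpos hY hn (by norm_num)) tb_kst_pos.le

theorem tb_aq (n : O) : ‖aq n‖ ≤ 1 + kst := by
  by_cases h : Sq n
  · have h1 := tb_md one_pos (one_le_nm h.1.ne_zero)
    rw [Real.one_rpow, mul_one] at h1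
    rw [tb_aq_eq]
    exact (norm_sub_le _ _).trans (add_le_add (tb_gq n) h1)
  · rw [aq, ind_of_not h, zero_mul, norm_zero]
    linarith [tb_kst_pos]

theorem tb_win (x₁ x₂ : ℝ) (n : O) : ‖win x₁ x₂ n‖ ≤ 1 := norm_ind_le _

theorem tb_Gs_pos (L y : ℝ) : 0 < Gs L y := Real.exp_pos _

theorem tb_Gs_anti {L T : ℝ} (hL : 0 ≤ L) (h : L ≤ T) (y : ℝ) : Gs T y ≤ Gs L y := by
  refine Real.exp_le_exp.2 (neg_le_neg ?_)
  exact mul_le_mul_of_nonneg_right (pow_le_pow_left₀ hL h 2) (sq_nonneg _)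

theorem tb_Gs_le {L y u : ℝ} (hu : 0 ≤ u) (h : u ≤ L * |Real.log y|) :
    Gs L y ≤ Real.exp (-u ^ 2) := by
  refine Real.exp_le_exp.2 (neg_le_neg ?_)
  rw [← sq_abs (Real.log y), ← mul_pow]
  exact pow_le_pow_left₀ hu h 2

theorem tb_Gs_ge {L y u : ℝ} (hL : 0 ≤ L) (h : L * |Real.log y| ≤ u) :
    Real.exp (-u ^ 2) ≤ Gs L y := by
  refine Real.exp_le_exp.2 (neg_le_neg ?_)
  rw [← sq_abs (Real.log y), ← mul_pow]
  exact pow_le_pow_left₀ (by positivity) h 2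

theorem tb_card_win : ∃ C : ℝ, 0 < C ∧ ∀ (y₁ y₂ Z δ : ℝ) (s : Finset O), 0 ≤ δ → 0 ≤ Z →
    y₂ - y₁ ≤ δ → (∀ n ∈ s, y₁ < nm n ∧ (nm n : ℝ) ≤ y₂ ∧ (nm n : ℝ) ≤ Z) →
      (s.card : ℝ) ≤ C * (δ + √Z + 1) := by
  classical
  obtain ⟨C, hC, h⟩ := card_ball
  have hc := c0_pos
  refine ⟨c0 + 2 * C, by positivity, fun y₁ y₂ Z δ s hδ hZ hy hs => ?_⟩
  have hsZ := Real.sqrt_nonneg Z
  rcases s.eq_empty_or_nonempty with rfl | ⟨n, hn⟩
  · simp only [Finset.card_empty, Nat.cast_zero]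
    positivity
  have hn0 : (0 : ℝ) ≤ nm n := Nat.cast_nonneg _
  have h1 : (nm n : ℝ) ≤ min y₂ Z := le_min (hs n hn).2.1 (hs n hn).2.2
  have h2 := (abs_le.1 (h (min y₂ Z) (hn0.trans h1))).2
  have h3 : √(min y₂ Z) ≤ √Z := Real.sqrt_le_sqrt (min_le_right _ _)
  have h4 := min_le_left y₂ Z
  have hsub : s ⊆ ball (min y₂ Z) := fun m hm =>
    mem_ball.2 (le_min (hs m hm).2.1 (hs m hm).2.2)
  rcases lt_or_ge y₁ 0 with hy₁ | hy₁
  · have h5 : (s.card : ℝ) ≤ (ball (min y₂ Z)).card := by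
      exact_mod_cast Finset.card_le_card hsub
    nlinarith [mul_le_mul_of_nonneg_left (show min y₂ Z ≤ δ by linarith) hc.le,
      mul_le_mul_of_nonneg_left h3 hC.le, mul_nonneg hC.le hδ, mul_nonneg hc.le hsZ,
      mul_nonneg hC.le hsZ]
  · have h5 : y₁ ≤ min y₂ Z := (hs n hn).1.le.trans h1
    have h6 := (abs_le.1 (h y₁ hy₁)).1
    have h7 : √y₁ ≤ √Z := Real.sqrt_le_sqrt (h5.trans (min_le_right _ _))
    have h8 : ball y₁ ⊆ ball (min y₂ Z) := fun m hm => mem_ball.2 ((mem_ball.1 hm).trans h5)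
    have h9 : s.card ≤ (ball (min y₂ Z) \ ball y₁).card := Finset.card_le_card fun m hm =>
      Finset.mem_sdiff.2 ⟨hsub hm, fun h' => absurd (mem_ball.1 h') (not_le.2 (hs m hm).1)⟩
    have h10 := Finset.card_sdiff_add_card_eq_card h8
    have h11 : (s.card : ℝ) + (ball y₁).card ≤ (ball (min y₂ Z)).card := by
      exact_mod_cast (by omega : s.card + (ball y₁).card ≤ (ball (min y₂ Z)).card)
    nlinarith [mul_le_mul_of_nonneg_left (show min y₂ Z - y₁ ≤ δ by linarith) hc.le,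
      mul_le_mul_of_nonneg_left h3 hC.le, mul_le_mul_of_nonneg_left h7 hC.le,
      mul_nonneg hC.le hδ, mul_nonneg hc.le hsZ]

theorem tb_exp_sub {v : ℝ} (h0 : 0 ≤ v) (h1 : v ≤ 1) : Real.exp v - Real.exp (-v) ≤ 3 * v := by
  have h2 := Real.add_one_le_exp (-v)
  have h3 := Real.abs_exp_sub_one_le (x := v) (by rw [abs_of_nonneg h0]; exact h1)
  rw [abs_of_nonneg h0] at h3
  linarith [(abs_le.1 h3).2]

theorem tb_sum_Gs : ∃ C : ℝ, 0 < C ∧ ∀ (T y u Z : ℝ) (s : Finset O), 0 < T → 0 < y → y ≤ Z →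
    0 ≤ u → u ≤ T → (∀ n ∈ s, n ≠ 0 ∧ (nm n : ℝ) ≤ Z) →
      ∑ n ∈ s, Gs T (nm n / y) ≤ C * (Z * u / T + √Z + 1 + Z * Real.exp (-u ^ 2)) := by
  classical
  obtain ⟨C₁, hC₁, h₁⟩ := tb_card_win
  obtain ⟨C₂, hC₂, h₂⟩ := card_le_of_nm
  refine ⟨3 * C₁ + C₂, by positivity, fun T y u Z s hT hy hyZ hu huT hs => ?_⟩
  have hZ : 0 ≤ Z := hy.le.trans hyZ
  have hv0 : 0 ≤ u / T := by positivity
  have hv1 : u / T ≤ 1 := (div_le_one hT).2 huT
  rw [← Finset.sum_filter_add_sum_filter_not s fun n => T * |Real.log (nm n / y)| < u]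
  have b1 : ∑ n ∈ s.filter (fun n => T * |Real.log (nm n / y)| < u), Gs T (nm n / y) ≤
      C₁ * (3 * (Z * u / T) + √Z + 1) := by
    refine (Finset.sum_le_card_nsmul _ _ 1 fun n _ => ?_).trans ?_
    · exact Real.exp_le_one_iff.2 (neg_nonpos.2 (by positivity))
    rw [nsmul_eq_mul, mul_one]
    refine h₁ (y * Real.exp (-(u / T))) (y * Real.exp (u / T)) Z _ _ (by positivity) hZ ?_ ?_
    · rw [← mul_sub, mul_div_assoc]
      nlinarith [mul_le_mul_of_nonneg_left (tb_exp_sub hv0 hv1) hy.le,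
        mul_le_mul_of_nonneg_right hyZ hv0]
    · intro n hn
      obtain ⟨hn1, hn2⟩ := Finset.mem_filter.1 hn
      have h3 : (0 : ℝ) < nm n / y := div_pos (zero_lt_one.trans_le (one_le_nm (hs n hn1).1)) hy
      have h4 : |Real.log (nm n / y)| < u / T := by
        rw [lt_div_iff₀ hT]
        linarith
      obtain ⟨h5, h6⟩ := abs_lt.1 h4
      rw [Real.lt_log_iff_exp_lt h3, lt_div_iff₀ hy] at h5
      rw [Real.log_lt_iff_lt_exp h3, div_lt_iff₀ hy] at h6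
      exact ⟨by linarith, by linarith, (hs n hn1).2⟩
  have b2 : ∑ n ∈ s.filter (fun n => ¬T * |Real.log (nm n / y)| < u), Gs T (nm n / y) ≤
      C₂ * Z * Real.exp (-u ^ 2) := by
    refine (Finset.sum_le_card_nsmul _ _ (Real.exp (-u ^ 2)) fun n hn => ?_).trans ?_
    · exact tb_Gs_le hu (not_lt.1 (Finset.mem_filter.1 hn).2)
    rw [nsmul_eq_mul]
    exact mul_le_mul_of_nonneg_right (h₂ Z _ hZ fun n hn => hs n (Finset.mem_filter.1 hn).1)
      (Real.exp_pos _).le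
  have p1 : 0 ≤ Z * u / T := by positivity
  have p2 := Real.sqrt_nonneg Z
  have p3 : 0 ≤ Z * Real.exp (-u ^ 2) := by positivity
  nlinarith [mul_nonneg hC₁.le p2, mul_nonneg hC₁.le p3, mul_nonneg hC₂.le p1, mul_nonneg hC₂.le p2]

theorem tb_sq_le : ∃ C : ℝ, 0 < C ∧ ∀ (Z M : ℝ) (s : Finset O) (α : O → ℂ), 0 ≤ Z →
    (∀ a ∈ s, a ≠ 0 ∧ (nm a : ℝ) ≤ Z) → Bd M α → ∑ a ∈ s, ‖α a‖ ^ 2 ≤ C * M ^ 2 * Z := by
  obtain ⟨C, hC, h⟩ := card_le_of_nm
  refine ⟨C, hC, fun Z M s α hZ hs hα => ?_⟩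
  refine (Finset.sum_le_card_nsmul _ _ (M ^ 2) fun a _ =>
    pow_le_pow_left₀ (norm_nonneg _) (hα a) 2).trans ?_
  rw [nsmul_eq_mul]
  nlinarith [mul_le_mul_of_nonneg_right (h Z s hZ hs) (sq_nonneg M)]

/-! asymptotics -/

theorem tas_pow (C : ℝ) {a b : ℝ} (h : a < b) : ∀ᶠ X : ℝ in atTop, C * X ^ a ≤ X ^ b := by
  filter_upwards [(tendsto_rpow_atTop (sub_pos.2 h)).eventually_ge_atTop C,
    eventually_gt_atTop 0] with X h1 h2
  have h3 : X ^ b = X ^ (b - a) * X ^ a := by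
    rw [← Real.rpow_add h2]
    congr 1
    ring
  rw [h3]
  exact mul_le_mul_of_nonneg_right h1 (Real.rpow_nonneg h2.le _)

theorem tas_log (C : ℝ) (k : ℕ) {ε : ℝ} (hε : 0 < ε) :
    ∀ᶠ X : ℝ in atTop, C * Real.log X ^ k ≤ X ^ ε := by
  have h1 := (isLittleO_log_rpow_rpow_atTop (k : ℝ) hε).bound
    (show 0 < 1 / (|C| + 1) by positivity)
  filter_upwards [h1, eventually_ge_atTop 1] with X h2 h3
  have h4 := Real.log_nonneg h3
  rw [Real.rpow_natCast, Real.norm_of_nonneg (by positivity),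
    Real.norm_of_nonneg (by positivity), div_mul_eq_mul_div, one_mul,
    le_div_iff₀ (by positivity)] at h2
  have h5 : 0 ≤ Real.log X ^ k := by positivity
  nlinarith [mul_le_mul_of_nonneg_right (le_abs_self C) h5]

theorem tas_logC (C : ℝ) : ∀ᶠ X : ℝ in atTop, C ≤ Real.log X := by
  exact Real.tendsto_log_atTop.eventually_ge_atTop C

theorem tas_exp_log (k : ℝ) : ∀ᶠ X : ℝ in atTop, Real.exp (-Real.log X ^ 2) ≤ X ^ (-k) := by
  filter_upwards [tas_logC k, tas_logC 0, eventually_gt_atTop 0] with X h1 h2 h3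
  rw [Real.rpow_def_of_pos h3]
  refine Real.exp_le_exp.2 ?_
  nlinarith

/-- tail of the kernel for `T ≤ X^0.175`, `T₀ = X^0.179` -/
theorem tas_tail (k : ℝ) : ∀ᶠ X : ℝ in atTop, ∀ T : ℝ, 0 < T → T ≤ X ^ (0.175 : ℝ) →
    T * Real.exp (-((X ^ (0.179 : ℝ)) ^ 2 / (8 * T ^ 2))) ≤ X ^ (-k) := by
  filter_upwards [tas_log (8 * (k + 0.175)) 1 (show (0 : ℝ) < 0.008 by norm_num),
    eventually_gt_atTop 0] with X h1 h2 T hT hTX
  have h3 : X ^ (0.008 : ℝ) / 8 ≤ (X ^ (0.179 : ℝ)) ^ 2 / (8 * T ^ 2) := by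
    have h4 : (X ^ (0.179 : ℝ)) ^ 2 = X ^ (0.008 : ℝ) * (X ^ (0.175 : ℝ)) ^ 2 := by
      rw [← Real.rpow_natCast, ← Real.rpow_natCast, ← Real.rpow_mul h2.le, ← Real.rpow_mul h2.le,
        ← Real.rpow_add h2]
      norm_num
    rw [h4, div_le_div_iff₀ (by norm_num) (by positivity)]
    have h5 := pow_le_pow_left₀ hT.le hTX 2
    have h6 : 0 ≤ X ^ (0.008 : ℝ) := by positivity
    nlinarith [mul_le_mul_of_nonneg_left h5 h6]
  have h7 : X ^ (-k) = X ^ (0.175 : ℝ) * Real.exp (-((k + 0.175) * Real.log X)) := by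
    rw [Real.rpow_def_of_pos h2, Real.rpow_def_of_pos h2, ← Real.exp_add]
    congr 1
    ring
  rw [h7]
  refine mul_le_mul hTX (Real.exp_le_exp.2 ?_) (Real.exp_pos _).le (by positivity)
  rw [pow_one] at h1
  linarith

/-! monotonicity of `NCH` -/

theorem tb_NCH {X B K K' η η' : ℝ} {β : O → ℂ} (hX : 1 ≤ X) (hB : 0 ≤ B) (hK : K' ≤ K)
    (hη : η' ≤ η) (h : NCH X B K η β) : NCH X B K' η' β := by
  intro g w t K₁ hg hg' hw hw' ht hK₁ hK₁'
  have h1 : X ^ η' ≤ X ^ η := Real.rpow_le_rpow_of_exponent_le hX hη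
  refine (h g w t K₁ hg (hg'.trans h1) hw (hw'.trans h1) ht hK₁ (hK₁'.trans hK)).trans ?_
  have h2 : X ^ (-η) ≤ X ^ (-η') := Real.rpow_le_rpow_of_exponent_le hX (neg_le_neg hη)
  have h3 : 0 ≤ K₁ := by linarith
  gcongr

theorem tb_Bd {M M' : ℝ} {β : O → ℂ} (h : M ≤ M') (hβ : Bd M β) : Bd M' β :=
  fun b => (hβ b).trans h

end Vale.Agent.P006
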