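import Vale.Agent.P006.Defs

/-! # P006 part T: separation of variables for the smoothed window `Sm` (real variable form).

Plan.  `kS T x₁ x₂ t = e^{-t²/4T²}/(2π) * ∫_{x₁}^{x₂} e^{-i t log s} ds/s`.
* `tker_gauss`: `(T/√π) e^{-T²v²} = ∫ e^{-t²/4T²}/(2π) e^{itv} dt` (`integral_cexp_quadratic` or `fourierIntegral_gaussian`).
* `tker_four`: insert this with `v = log y - log s` into the definition of `Sm`, Fubini
  (`integral_integral_swap` on `Ioc x₁ x₂ × ℝ`, the integrand is dominated by `e^{-t²/4T²}/x₁`).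
* `tker_le1`: `‖∫‖ ≤ (x₂ - x₁)/x₁ ≤ 1`.  `tker_le2`: a primitive of `e^{-i t log s}/s` is `e^{-i t log s}/(-i t)`, so `‖∫‖ ≤ 2/|t|`.
* `tker_l1`: pointwise `‖kS t‖ ≤ 1_{|t| ≤ T} (3/(2π))/(1+|t|) + e^{-t²/4T²}/(π T)`; the integral is
  `(3/π) log(1+T) + 2/√π ≤ 3 log(3T)`.
* `tker_sep`: the sum is `∫ kS t * ∑ c i * nt (n i) t` (`integral_finsetSum`), and pointwise
  `‖kS t‖ ‖∑‖ ≤ ‖kS t‖ M + e^{-T₀²/8T²} e^{-t²/8T²}/(2π) ∑ ‖c i‖`; `∫ e^{-t²/8T²}/(2π) = T √(2/π) ≤ T` (`M ≥ 0` from `t = 0`).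
* `tker_win`: substitute `s = y e^{r/T}`: `Sm = π^{-1/2} ∫_{a}^{b} e^{-r²} dr`, `a = T log(x₁/y) ≤ b = T log(x₂/y)`;
  `∫_ℝ e^{-r²} = √π` and `∫_c^∞ e^{-r²} ≤ e^{-c²} √π/2` for `c ≥ 0` (`(c+r)² ≥ c² + r²`).  Three cases `0 ≤ a`, `a < 0 ≤ b`, `b < 0`. -/

namespace Vale.Agent.P006

open Vale.Agent.P026 Filter MeasureTheory
open scoped ComplexConjugate Real

/-- Fourier kernel of `Sm` -/
noncomputable def kS (T x₁ x₂ t : ℝ) : ℂ :=
  (Real.exp (-(t ^ 2 / (4 * T ^ 2))) / (2 * π) : ℝ) *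
    ∫ s in x₁..x₂, Complex.exp (-(Complex.I * t * Real.log s)) / s

theorem tker_gauss {T : ℝ} (hT : 0 < T) (v : ℝ) :
    ((T / √π * Real.exp (-(T ^ 2 * v ^ 2)) : ℝ) : ℂ) =
      ∫ t : ℝ, (Real.exp (-(t ^ 2 / (4 * T ^ 2))) / (2 * π) : ℝ) * Complex.exp (Complex.I * t * v) := by
  have hb : 0 < (((1 / (4 * T ^ 2) : ℝ) : ℂ)).re := by
    rw [Complex.ofReal_re]; positivity
  have h := fourierIntegral_gaussian hb (v : ℂ)
  have e : ∀ t : ℝ, ((Real.exp (-(t ^ 2 / (4 * T ^ 2))) / (2 * π) : ℝ) : ℂ) *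
      Complex.exp (Complex.I * t * v) = ((1 / (2 * π) : ℝ) : ℂ) * (Complex.exp (Complex.I * v * t) *
        Complex.exp (-((1 / (4 * T ^ 2) : ℝ) : ℂ) * (t : ℂ) ^ 2)) := by
    intro t
    have e1 : Complex.I * t * v = Complex.I * v * t := by ring
    have e2 : -((1 / (4 * T ^ 2) : ℝ) : ℂ) * (t : ℂ) ^ 2 = ((-(t ^ 2 / (4 * T ^ 2)) : ℝ) : ℂ) := by
      push_cast; ring
    rw [e1, e2, ← Complex.ofReal_exp]
    push_cast; ring
  simp_rw [e]
  rw [integral_const_mul, h]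
  have hp : 0 < √π := Real.sqrt_pos.mpr Real.pi_pos
  have hs : √π * √π = π := Real.mul_self_sqrt Real.pi_pos.le
  have e3 : ((π : ℂ) / ((1 / (4 * T ^ 2) : ℝ) : ℂ)) ^ (1 / 2 : ℂ) = ((2 * T * √π : ℝ) : ℂ) := by
    have e4 : (π : ℂ) / ((1 / (4 * T ^ 2) : ℝ) : ℂ) = (((2 * T * √π) ^ 2 : ℝ) : ℂ) := by
      rw [← Complex.ofReal_div]
      congr 1
      field_simp
      nlinarith
    have e5 : (1 / 2 : ℂ) = ((1 / 2 : ℝ) : ℂ) := by push_cast; ring
    rw [e4, e5, ← Complex.ofReal_cpow (by positivity), ← Real.sqrt_eq_rpow,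
      Real.sqrt_sq (by positivity)]
  have e6 : -(v : ℂ) ^ 2 / (4 * ((1 / (4 * T ^ 2) : ℝ) : ℂ)) = ((-(T ^ 2 * v ^ 2) : ℝ) : ℂ) := by
    have : (T : ℂ) ≠ 0 := by exact_mod_cast hT.ne'
    push_cast; field_simp
  rw [e3, e6, ← Complex.ofReal_exp, ← Complex.ofReal_mul, ← Complex.ofReal_mul]
  congr 1
  have hpi := Real.pi_pos
  field_simp
  nlinarith

theorem tker_gint {c : ℝ} (hc : 0 < c) : Integrable fun t : ℝ => Real.exp (-(t ^ 2 / c)) := by
  have := integrable_exp_neg_mul_sq (b := 1 / c) (by positivity)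
  refine this.congr (ae_of_all _ fun t => ?_)
  simp only
  congr 1; ring

theorem tker_gval {c : ℝ} (hc : 0 < c) : ∫ t : ℝ, Real.exp (-(t ^ 2 / c)) = √(π * c) := by
  have := integral_gaussian (1 / c)
  have e : π / (1 / c) = π * c := by field_simp
  rw [e] at this
  rw [← this]
  congr 1; ext t; congr 1; ring

theorem tker_nexp (t w : ℝ) : ‖Complex.exp (Complex.I * t * w)‖ = 1 := by
  have : Complex.I * t * w = ((t * w : ℝ) : ℂ) * Complex.I := by push_cast; ring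
  rw [this, Complex.norm_exp_ofReal_mul_I]

theorem tker_nexp' (t w : ℝ) : ‖Complex.exp (-(Complex.I * t * w))‖ = 1 := by
  have : -(Complex.I * t * w) = Complex.I * t * ((-w : ℝ) : ℂ) := by push_cast; ring
  rw [this, tker_nexp]

theorem tker_prod {T x₁ x₂ : ℝ} (hT : 0 < T) (h₁ : 0 < x₁) (w : ℝ) :
    Integrable (Function.uncurry fun s t : ℝ =>
      ((Real.exp (-(t ^ 2 / (4 * T ^ 2))) / (2 * π) : ℝ) : ℂ) *
        (Complex.exp (-(Complex.I * t * Real.log s)) / s) * Complex.exp (Complex.I * t * w))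
      ((volume.restrict (Set.Ioc x₁ x₂)).prod volume) := by
  have a1 : Integrable (fun s : ℝ => s⁻¹) (volume.restrict (Set.Ioc x₁ x₂)) := by
    have : IntegrableOn (fun s : ℝ => s⁻¹) (Set.Icc x₁ x₂) := by
      refine ContinuousOn.integrableOn_Icc (continuousOn_inv₀.mono fun s hs => ?_)
      exact (h₁.trans_le hs.1).ne'
    exact this.mono_set Set.Ioc_subset_Icc_self
  have a2 : Integrable fun t : ℝ => Real.exp (-(t ^ 2 / (4 * T ^ 2))) / (2 * π) :=
    (tker_gint (by positivity)).div_const _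
  refine (a1.mul_prod a2).mono ?_ (ae_of_all _ fun p => ?_)
  · apply Measurable.aestronglyMeasurable
    unfold Function.uncurry
    fun_prop
  · simp only [Function.uncurry, norm_mul, norm_div, tker_nexp, tker_nexp', Complex.norm_real,
      norm_inv]
    apply le_of_eq
    ring

theorem tker_inner {T x₁ x₂ : ℝ} (h₁₂ : x₁ ≤ x₂) (t w : ℝ) :
    ∫ s in Set.Ioc x₁ x₂, ((Real.exp (-(t ^ 2 / (4 * T ^ 2))) / (2 * π) : ℝ) : ℂ) *
        (Complex.exp (-(Complex.I * t * Real.log s)) / s) * Complex.exp (Complex.I * t * w) =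
      kS T x₁ x₂ t * Complex.exp (Complex.I * t * w) := by
  rw [integral_mul_const, integral_const_mul, kS, intervalIntegral.integral_of_le h₁₂]

theorem tker_four {T x₁ x₂ y : ℝ} (hT : 0 < T) (h₁ : 0 < x₁) (h₁₂ : x₁ ≤ x₂) (hy : 0 < y) :
    (Sm T x₁ x₂ y : ℂ) = ∫ t : ℝ, kS T x₁ x₂ t * Complex.exp (Complex.I * t * Real.log y) := by
  rw [← integral_congr_ae (ae_of_all _ fun t => tker_inner (T := T) h₁₂ t (Real.log y)),
    ← integral_integral_swap (tker_prod hT h₁ (Real.log y)), Sm,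
    ← intervalIntegral.integral_const_mul, intervalIntegral.integral_of_le h₁₂,
    ← integral_complex_ofReal]
  refine setIntegral_congr_fun measurableSet_Ioc fun s hs => ?_
  have hs0 : 0 < s := h₁.trans hs.1
  have h := tker_gauss hT (Real.log (y / s))
  have e : ((T / √π * (Gs T (y / s) / s) : ℝ) : ℂ) =
      ((T / √π * Real.exp (-(T ^ 2 * Real.log (y / s) ^ 2)) : ℝ) : ℂ) * ((s : ℂ))⁻¹ := by
    rw [Gs]; push_cast; ring
  rw [e, h, ← integral_mul_const]
  congr 1; ext t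
  have e2 : Complex.I * t * (Real.log (y / s) : ℝ) =
      -(Complex.I * t * Real.log s) + Complex.I * t * Real.log y := by
    rw [Real.log_div hy.ne' hs0.ne']; push_cast; ring
  rw [e2, Complex.exp_add]
  ring

theorem tker_norm (T x₁ x₂ t : ℝ) : ‖kS T x₁ x₂ t‖ = Real.exp (-(t ^ 2 / (4 * T ^ 2))) / (2 * π) *
    ‖∫ s in x₁..x₂, Complex.exp (-(Complex.I * t * Real.log s)) / s‖ := by
  have := Real.pi_pos
  rw [kS, norm_mul, Complex.norm_real, Real.norm_of_nonneg (by positivity)]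

theorem tker_le1 {T x₁ x₂ : ℝ} (h₁ : 0 < x₁) (h₁₂ : x₁ ≤ x₂) (h₂ : x₂ ≤ 2 * x₁) (t : ℝ) :
    ‖kS T x₁ x₂ t‖ ≤ Real.exp (-(t ^ 2 / (4 * T ^ 2))) / (2 * π) := by
  have := Real.pi_pos
  rw [tker_norm]
  refine mul_le_of_le_one_right (by positivity) ?_
  have h : ‖∫ s in x₁..x₂, Complex.exp (-(Complex.I * t * Real.log s)) / s‖ ≤
      1 / x₁ * |x₂ - x₁| := by
    refine intervalIntegral.norm_integral_le_of_norm_le_const fun s hs => ?_
    rw [Set.uIoc_of_le h₁₂] at hs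
    rw [norm_div, tker_nexp', Complex.norm_real, Real.norm_of_nonneg (h₁.trans hs.1).le]
    exact one_div_le_one_div_of_le h₁ hs.1.le
  refine h.trans ?_
  rw [abs_of_nonneg (by linarith), one_div, inv_mul_le_iff₀ h₁]
  linarith

theorem tker_le2 {T x₁ x₂ t : ℝ} (h₁ : 0 < x₁) (h₁₂ : x₁ ≤ x₂) (ht : t ≠ 0) :
    ‖kS T x₁ x₂ t‖ ≤ Real.exp (-(t ^ 2 / (4 * T ^ 2))) / (π * |t|) := by
  have := Real.pi_pos
  have ht' : 0 < |t| := abs_pos.mpr ht
  have htc : (t : ℂ) ≠ 0 := by exact_mod_cast ht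
  have hd : ∀ s ∈ Set.uIcc x₁ x₂, HasDerivAt
      (fun s : ℝ => Complex.exp (-(Complex.I * t * Real.log s)) / (-(Complex.I * t)))
      (Complex.exp (-(Complex.I * t * Real.log s)) / s) s := by
    intro s hs
    rw [Set.uIcc_of_le h₁₂] at hs
    have hs0 : s ≠ 0 := (h₁.trans_le hs.1).ne'
    have hsc : (s : ℂ) ≠ 0 := by exact_mod_cast hs0
    have a := (((Real.hasDerivAt_log hs0).ofReal_comp.const_mul (Complex.I * t)).neg.cexp).div_const
      (-(Complex.I * t))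
    refine HasDerivAt.congr_deriv a ?_
    have := Complex.I_ne_zero
    simp only [Pi.neg_apply]
    push_cast
    field_simp
  have hi : IntervalIntegrable (fun s : ℝ => Complex.exp (-(Complex.I * t * Real.log s)) / s)
      volume x₁ x₂ := by
    apply ContinuousOn.intervalIntegrable
    rw [Set.uIcc_of_le h₁₂]
    intro s hs
    have hs0 : s ≠ 0 := (h₁.trans_le hs.1).ne'
    have hsc : (s : ℂ) ≠ 0 := by exact_mod_cast hs0
    apply ContinuousAt.continuousWithinAt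
    have := Real.continuousAt_log hs0
    fun_prop (disch := assumption)
  rw [tker_norm, intervalIntegral.integral_eq_sub_of_hasDerivAt hd hi]
  have hn : ∀ s : ℝ, ‖Complex.exp (-(Complex.I * t * Real.log s)) / (-(Complex.I * t))‖ =
      1 / |t| := by
    intro s
    rw [norm_div, tker_nexp', norm_neg, norm_mul, Complex.norm_I, Complex.norm_real, one_mul,
      Real.norm_eq_abs]
  have h := norm_sub_le (Complex.exp (-(Complex.I * t * Real.log x₂)) / (-(Complex.I * t)))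
    (Complex.exp (-(Complex.I * t * Real.log x₁)) / (-(Complex.I * t)))
  rw [hn, hn] at h
  refine (mul_le_mul_of_nonneg_left h (by positivity)).trans (le_of_eq ?_)
  field_simp
  ring

theorem tker_int' {T x₁ x₂ : ℝ} (hT : 0 < T) (h₁ : 0 < x₁) (h₁₂ : x₁ ≤ x₂) (w : ℝ) :
    Integrable fun t : ℝ => kS T x₁ x₂ t * Complex.exp (Complex.I * t * w) := by
  have := (tker_prod (x₂ := x₂) hT h₁ w).integral_prod_right
  simp only [Function.uncurry] at this
  simpa only [tker_inner h₁₂] using this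

theorem tker_int {T x₁ x₂ : ℝ} (hT : 0 < T) (h₁ : 0 < x₁) (h₁₂ : x₁ ≤ x₂) (h₂ : x₂ ≤ 2 * x₁) :
    Integrable (kS T x₁ x₂) := by
  have := tker_int' hT h₁ h₁₂ 0
  have _h := h₂
  simpa using this

theorem tker_logint {T : ℝ} (hT : 0 ≤ T) :
    ∫ t in Set.Icc (-T) T, 1 / (1 + |t|) = 2 * Real.log (1 + T) := by
  have hc : Continuous fun t : ℝ => 1 / (1 + |t|) :=
    continuous_const.div (by fun_prop) fun t => by positivity
  have h0 : ∫ t in (0 : ℝ)..T, 1 / (1 + |t|) = Real.log (1 + T) := by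
    have e : ∫ t in (0 : ℝ)..T, 1 / (1 + |t|) = ∫ t in (0 : ℝ)..T, 1 / (1 + t) := by
      refine intervalIntegral.integral_congr fun t ht => ?_
      rw [Set.uIcc_of_le hT] at ht
      simp only [abs_of_nonneg ht.1]
    rw [e, intervalIntegral.integral_comp_add_left (fun u : ℝ => 1 / u) 1,
      integral_one_div_of_pos (by norm_num) (by linarith)]
    simp
  have h1 : ∫ t in (-T)..0, 1 / (1 + |t|) = Real.log (1 + T) := by
    have := intervalIntegral.integral_comp_neg (a := 0) (b := T) fun t : ℝ => 1 / (1 + |t|)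
    simp only [abs_neg, neg_zero] at this
    rw [← this, h0]
  rw [integral_Icc_eq_integral_Ioc, ← intervalIntegral.integral_of_le (by linarith),
    ← intervalIntegral.integral_add_adjacent_intervals (b := 0) (hc.intervalIntegrable _ _)
      (hc.intervalIntegrable _ _), h0, h1]
  ring

theorem tker_log3 {T : ℝ} (hT : 1 ≤ T) : 1 ≤ Real.log (3 * T) := by
  rw [Real.le_log_iff_exp_le (by linarith)]
  have := Real.exp_one_lt_d9
  linarith

theorem tker_l1 {T x₁ x₂ : ℝ} (hT : 1 ≤ T) (h₁ : 0 < x₁) (h₁₂ : x₁ ≤ x₂) (h₂ : x₂ ≤ 2 * x₁) :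
    ∫ t, ‖kS T x₁ x₂ t‖ ≤ 3 * Real.log (3 * T) := by
  have hT0 : 0 < T := by linarith
  have hpi := Real.pi_gt_three
  have hc : Continuous fun t : ℝ => 1 / (1 + |t|) :=
    continuous_const.div (by fun_prop) fun t => by positivity
  have i1 : Integrable ((Set.Icc (-T) T).indicator fun t : ℝ => 1 / (1 + |t|)) :=
    (integrable_indicator_iff measurableSet_Icc).mpr hc.integrableOn_Icc
  have i2 : Integrable fun t : ℝ => Real.exp (-(t ^ 2 / (4 * T ^ 2))) := tker_gint (by positivity)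
  have hle : ∀ t : ℝ, ‖kS T x₁ x₂ t‖ ≤
      1 / 2 * (Set.Icc (-T) T).indicator (fun t : ℝ => 1 / (1 + |t|)) t +
        1 / (π * T) * Real.exp (-(t ^ 2 / (4 * T ^ 2))) := by
    intro t
    have he : Real.exp (-(t ^ 2 / (4 * T ^ 2))) ≤ 1 := by
      rw [Real.exp_le_one_iff, neg_nonpos]; positivity
    have he0 := Real.exp_pos (-(t ^ 2 / (4 * T ^ 2)))
    have ha := abs_nonneg t
    by_cases hm : t ∈ Set.Icc (-T) T
    · rw [Set.indicator_of_mem hm]
      refine le_add_of_le_of_nonneg ?_ (by positivity)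
      rw [one_div_mul_one_div]
      rcases le_total |t| 2 with h | h
      · refine (tker_le1 h₁ h₁₂ h₂ t).trans ?_
        rw [div_le_div_iff₀ (by positivity) (by positivity)]
        nlinarith
      · have ht : t ≠ 0 := by rintro rfl; norm_num at h
        refine (tker_le2 h₁ h₁₂ ht).trans ?_
        rw [div_le_div_iff₀ (by positivity) (by positivity)]
        nlinarith
    · rw [Set.indicator_of_notMem hm, mul_zero, zero_add]
      have h : T < |t| := by
        by_contra hh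
        exact hm (abs_le.mp (not_lt.mp hh))
      have ht : t ≠ 0 := by rintro rfl; norm_num at h; linarith
      refine (tker_le2 h₁ h₁₂ ht).trans ?_
      rw [one_div_mul_eq_div]
      gcongr
  refine (integral_mono (tker_int hT0 h₁ h₁₂ h₂).norm
    ((i1.const_mul _).add (i2.const_mul _)) hle).trans ?_
  simp only [Pi.add_apply]
  rw [integral_add (i1.const_mul _) (i2.const_mul _), integral_const_mul, integral_const_mul,
    integral_indicator measurableSet_Icc, tker_logint hT0.le, tker_gval (by positivity)]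
  have b1 : Real.log (1 + T) ≤ Real.log (3 * T) := Real.log_le_log (by linarith) (by linarith)
  have b2 := tker_log3 hT
  have b3 : 1 / (π * T) * √(π * (4 * T ^ 2)) ≤ 2 := by
    rw [one_div_mul_eq_div, div_le_iff₀ (by positivity), Real.sqrt_le_iff]
    refine ⟨by positivity, ?_⟩
    have : 0 ≤ π * T ^ 2 * (π - 1) := by
      have : 0 ≤ π - 1 := by linarith
      positivity
    nlinarith
  linarith

theorem tker_nm {n : O} (hn : n ≠ 0) : (0 : ℝ) < nm n := by
  exact_mod_cast Nat.pos_of_ne_zero fun h => hn (nm_eq_zero.mp h)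

theorem tker_sep {ι : Type} {T x₁ x₂ T₀ M : ℝ} (hT : 1 ≤ T) (h₁ : 0 < x₁) (h₁₂ : x₁ ≤ x₂)
    (h₂ : x₂ ≤ 2 * x₁) (h₀ : 0 ≤ T₀) (s : Finset ι) (c : ι → ℂ) (n : ι → O)
    (hn : ∀ i ∈ s, n i ≠ 0) (hM : ∀ t : ℝ, |t| ≤ T₀ → ‖∑ i ∈ s, c i * nt (n i) t‖ ≤ M) :
    ‖∑ i ∈ s, c i * (Sm T x₁ x₂ (nm (n i)) : ℝ)‖ ≤
      3 * Real.log (3 * T) * M + T * Real.exp (-(T₀ ^ 2 / (8 * T ^ 2))) * ∑ i ∈ s, ‖c i‖ := by
  have hT0 : 0 < T := by linarith
  have hpi := Real.pi_gt_three
  have hM0 : 0 ≤ M := (norm_nonneg _).trans (hM 0 (by simpa using h₀))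
  have hS0 : 0 ≤ ∑ i ∈ s, ‖c i‖ := Finset.sum_nonneg fun i _ => norm_nonneg _
  have e : ∑ i ∈ s, c i * (Sm T x₁ x₂ (nm (n i)) : ℝ) =
      ∫ t : ℝ, kS T x₁ x₂ t * ∑ i ∈ s, c i * nt (n i) t := by
    have e1 : ∀ t : ℝ, kS T x₁ x₂ t * ∑ i ∈ s, c i * nt (n i) t =
        ∑ i ∈ s, c i * (kS T x₁ x₂ t * Complex.exp (Complex.I * t * Real.log (nm (n i)))) := by
      intro t
      rw [Finset.mul_sum]
      exact Finset.sum_congr rfl fun i _ => by rw [nt]; ring
    simp_rw [e1]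
    rw [integral_finsetSum s fun i _ => (tker_int' hT0 h₁ h₁₂ _).const_mul _]
    refine Finset.sum_congr rfl fun i hi => ?_
    rw [integral_const_mul, tker_four hT0 h₁ h₁₂ (tker_nm (hn i hi))]
  have i1 := (tker_int hT0 h₁ h₁₂ h₂).norm
  have i2 : Integrable fun t : ℝ => Real.exp (-(t ^ 2 / (8 * T ^ 2))) := tker_gint (by positivity)
  set E := Real.exp (-(T₀ ^ 2 / (8 * T ^ 2))) with hE
  have hE0 : 0 < E := Real.exp_pos _
  have hle : ∀ t : ℝ, ‖kS T x₁ x₂ t * ∑ i ∈ s, c i * nt (n i) t‖ ≤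
      ‖kS T x₁ x₂ t‖ * M + Real.exp (-(t ^ 2 / (8 * T ^ 2))) * (E / (2 * π) * ∑ i ∈ s, ‖c i‖) := by
    intro t
    rw [norm_mul]
    rcases le_total |t| T₀ with h | h
    · exact le_add_of_le_of_nonneg (mul_le_mul_of_nonneg_left (hM t h) (norm_nonneg _))
        (by positivity)
    · refine le_add_of_nonneg_of_le (by positivity) ?_
      have a1 : ‖∑ i ∈ s, c i * nt (n i) t‖ ≤ ∑ i ∈ s, ‖c i‖ := by
        refine (norm_sum_le _ _).trans (le_of_eq (Finset.sum_congr rfl fun i _ => ?_))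
        rw [norm_mul, nt, tker_nexp, mul_one]
      have a2 : Real.exp (-(t ^ 2 / (4 * T ^ 2))) ≤ Real.exp (-(t ^ 2 / (8 * T ^ 2))) * E := by
        rw [hE, ← Real.exp_add, Real.exp_le_exp]
        have a3 : T₀ ^ 2 ≤ t ^ 2 := by
          rw [← sq_abs t]; exact pow_le_pow_left₀ h₀ h 2
        have a4 : T₀ ^ 2 / (8 * T ^ 2) ≤ t ^ 2 / (8 * T ^ 2) := by gcongr
        have a5 : t ^ 2 / (4 * T ^ 2) = 2 * (t ^ 2 / (8 * T ^ 2)) := by field_simp; ring
        linarith
      calc ‖kS T x₁ x₂ t‖ * ‖∑ i ∈ s, c i * nt (n i) t‖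
          ≤ (Real.exp (-(t ^ 2 / (8 * T ^ 2))) * E / (2 * π)) * ∑ i ∈ s, ‖c i‖ := by
            refine mul_le_mul ((tker_le1 h₁ h₁₂ h₂ t).trans ?_) a1 (norm_nonneg _) (by positivity)
            gcongr
        _ = _ := by ring
  rw [e]
  refine (norm_integral_le_of_norm_le ((i1.mul_const M).add (i2.mul_const _))
    (ae_of_all _ hle)).trans ?_
  simp only [Pi.add_apply]
  rw [integral_add (i1.mul_const M) (i2.mul_const _), integral_mul_const, integral_mul_const,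
    tker_gval (by positivity)]
  have b1 := mul_le_mul_of_nonneg_right (tker_l1 hT h₁ h₁₂ h₂) hM0
  have b2 : √(π * (8 * T ^ 2)) ≤ T * (2 * π) := by
    rw [Real.sqrt_le_iff]
    refine ⟨by positivity, ?_⟩
    have : 0 ≤ π * T ^ 2 * (π - 2) := by
      have : 0 ≤ π - 2 := by linarith
      positivity
    nlinarith
  have b3 : √(π * (8 * T ^ 2)) * (E / (2 * π) * ∑ i ∈ s, ‖c i‖) ≤ T * E * ∑ i ∈ s, ‖c i‖ := by
    refine (mul_le_mul_of_nonneg_right b2 (by positivity)).trans (le_of_eq ?_)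
    field_simp
  linarith

/-- Gaussian tail -/
noncomputable def tkerE (c : ℝ) : ℝ := ∫ r in Set.Ioi c, Real.exp (-r ^ 2)

theorem tker_g1 : Integrable fun r : ℝ => Real.exp (-r ^ 2) := by
  simpa using integrable_exp_neg_mul_sq (b := 1) one_pos

theorem tker_g2 : ∫ r : ℝ, Real.exp (-r ^ 2) = √π := by
  simpa using integral_gaussian 1

theorem tkerE_nonneg (c : ℝ) : 0 ≤ tkerE c := integral_nonneg fun _ => (Real.exp_pos _).le

theorem tkerE_neg (c : ℝ) : tkerE (-c) = √π - tkerE c := by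
  have h := intervalIntegral.integral_Iic_add_Ioi (b := c) tker_g1.integrableOn tker_g1.integrableOn
  have h2 := integral_comp_neg_Iic c fun r : ℝ => Real.exp (-r ^ 2)
  simp only [neg_sq] at h2
  rw [tker_g2, h2] at h
  unfold tkerE
  linarith

theorem tkerE_le {c : ℝ} (hc : 0 ≤ c) : tkerE c ≤ √π * Real.exp (-c ^ 2) := by
  have i1 : Integrable fun r : ℝ => Real.exp (-(r - c) ^ 2) := tker_g1.comp_sub_right c
  have e1 : ∫ r : ℝ, Real.exp (-(r - c) ^ 2) = √π := by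
    rw [integral_sub_right_eq_self (fun r : ℝ => Real.exp (-r ^ 2)) c, tker_g2]
  calc tkerE c ≤ ∫ r in Set.Ioi c, Real.exp (-(r - c) ^ 2) * Real.exp (-c ^ 2) := by
        refine setIntegral_mono_on tker_g1.integrableOn (i1.mul_const _).integrableOn
          measurableSet_Ioi fun r hr => ?_
        rw [← Real.exp_add, Real.exp_le_exp]
        have : c < r := hr
        nlinarith
    _ ≤ ∫ r, Real.exp (-(r - c) ^ 2) * Real.exp (-c ^ 2) :=
        setIntegral_le_integral (i1.mul_const _) (ae_of_all _ fun r => by positivity)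
    _ = _ := by rw [integral_mul_const, e1]

theorem tker_sm {T x₁ x₂ y : ℝ} (h₁ : 0 < x₁) (h₁₂ : x₁ ≤ x₂) (hy : 0 < y) :
    √π * Sm T x₁ x₂ y = tkerE (T * (Real.log x₁ - Real.log y)) -
      tkerE (T * (Real.log x₂ - Real.log y)) := by
  have hp : 0 < √π := Real.sqrt_pos.mpr Real.pi_pos
  have hc : Continuous fun r : ℝ => Real.exp (-r ^ 2) := by fun_prop
  have hd : ∀ s ∈ Set.uIcc x₁ x₂, HasDerivAt (fun s : ℝ => T * (Real.log s - Real.log y))
      (T * s⁻¹) s := by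
    intro s hs
    rw [Set.uIcc_of_le h₁₂] at hs
    exact ((Real.hasDerivAt_log (h₁.trans_le hs.1).ne').sub_const _).const_mul T
  have hd' : ContinuousOn (fun s : ℝ => T * s⁻¹) (Set.uIcc x₁ x₂) := by
    rw [Set.uIcc_of_le h₁₂]
    exact continuousOn_const.mul (continuousOn_inv₀.mono fun s hs => (h₁.trans_le hs.1).ne')
  have h := intervalIntegral.integral_comp_mul_deriv hd hd' hc
  unfold tkerE
  rw [intervalIntegral.integral_Ioi_sub_Ioi' tker_g1.integrableOn tker_g1.integrableOn, ← h, Sm,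
    ← mul_assoc, mul_div_cancel₀ _ hp.ne', ← intervalIntegral.integral_const_mul]
  refine intervalIntegral.integral_congr fun s hs => ?_
  rw [Set.uIcc_of_le h₁₂] at hs
  have e : -(T ^ 2 * (Real.log y - Real.log s) ^ 2) = -(T * (Real.log s - Real.log y)) ^ 2 := by
    ring
  simp only [Function.comp, Gs, Real.log_div hy.ne' (h₁.trans_le hs.1).ne', e]
  ring

theorem tker_win {T x₁ x₂ : ℝ} (hT : 0 < T) (h₁ : 0 < x₁) (h₁₂ : x₁ ≤ x₂) {n : O} (hn : n ≠ 0) :
    ‖win x₁ x₂ n - (Sm T x₁ x₂ (nm n) : ℝ)‖ ≤ Gs T (nm n / x₁) + Gs T (nm n / x₂) := by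
  have hy := tker_nm hn
  have hp : 0 < √π := Real.sqrt_pos.mpr Real.pi_pos
  have h₂ : 0 < x₂ := h₁.trans_le h₁₂
  have hS := tker_sm (T := T) h₁ h₁₂ hy
  set y : ℝ := (nm n : ℝ) with hyd
  have hG : ∀ x : ℝ, 0 < x → Gs T (y / x) = Real.exp (-(T * (Real.log x - Real.log y)) ^ 2) := by
    intro x hx
    rw [Gs, Real.log_div hy.ne' hx.ne']
    congr 1; ring
  rw [hG _ h₁, hG _ h₂]
  have ha : y ≤ x₁ → 0 ≤ T * (Real.log x₁ - Real.log y) := fun h =>
    mul_nonneg hT.le (sub_nonneg.mpr (Real.log_le_log hy h))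
  have hb : y ≤ x₂ → 0 ≤ T * (Real.log x₂ - Real.log y) := fun h =>
    mul_nonneg hT.le (sub_nonneg.mpr (Real.log_le_log hy h))
  have ha' : x₁ ≤ y → 0 ≤ -(T * (Real.log x₁ - Real.log y)) := fun h => by
    have := mul_nonneg hT.le (sub_nonneg.mpr (Real.log_le_log h₁ h))
    linarith
  have hb' : x₂ ≤ y → 0 ≤ -(T * (Real.log x₂ - Real.log y)) := fun h => by
    have := mul_nonneg hT.le (sub_nonneg.mpr (Real.log_le_log h₂ h))
    linarith
  generalize T * (Real.log x₁ - Real.log y) = a at *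
  generalize T * (Real.log x₂ - Real.log y) = b at *
  have key : ∀ w : ℝ, win x₁ x₂ n = (w : ℂ) →
      |√π * w - (tkerE a - tkerE b)| ≤ √π * (Real.exp (-a ^ 2) + Real.exp (-b ^ 2)) →
      ‖win x₁ x₂ n - (Sm T x₁ x₂ y : ℝ)‖ ≤ Real.exp (-a ^ 2) + Real.exp (-b ^ 2) := by
    intro w hw h
    rw [hw, ← Complex.ofReal_sub, Complex.norm_real, Real.norm_eq_abs]
    rw [← hS, ← mul_sub, abs_mul, abs_of_pos hp] at h
    exact le_of_mul_le_mul_left h hp
  have n1 := tkerE_nonneg a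
  have n2 := tkerE_nonneg b
  have n3 := tkerE_nonneg (-a)
  have n4 := tkerE_nonneg (-b)
  have m1 := tkerE_neg a
  have m2 := tkerE_neg b
  rcases le_or_gt y x₁ with c1 | c1
  · refine key 0 ?_ ?_
    · have : ¬(x₁ < y ∧ y ≤ x₂) := fun h => absurd h.1 (not_lt.mpr c1)
      simp only [win, ind, ← hyd, if_neg this, Complex.ofReal_zero]
    · have u1 := tkerE_le (ha c1)
      have u2 := tkerE_le (hb (c1.trans h₁₂))
      rw [abs_le]; constructor <;> linarith
  · rcases le_or_gt y x₂ with c2 | c2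
    · refine key 1 ?_ ?_
      · have : x₁ < y ∧ y ≤ x₂ := ⟨c1, c2⟩
        simp only [win, ind, ← hyd, if_pos this, Complex.ofReal_one]
      · have u1 := tkerE_le (ha' c1.le)
        have u2 := tkerE_le (hb c2)
        rw [neg_sq] at u1
        rw [abs_le]; constructor <;> linarith
    · refine key 0 ?_ ?_
      · have : ¬(x₁ < y ∧ y ≤ x₂) := fun h => absurd h.2 (not_le.mpr c2)
        simp only [win, ind, ← hyd, if_neg this, Complex.ofReal_zero]
      · have u1 := tkerE_le (ha' c1.le)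
        have u2 := tkerE_le (hb' c2.le)
        rw [neg_sq] at u1 u2
        rw [abs_le]; constructor <;> linarith

end Vale.Agent.P006
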