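import Vale.Agent.P006.TBas
import Vale.Agent.P006.TKer

/-! # P006 part T: three bounds for the bilinear form.

Plan.
* `tbl_triv`: triangle inequality, `card_le_of_nm` twice.
* `tbl_err`: swap the sums; for fixed `b` with `β b ≠ 0` (so `B < N b`) use `tb_sum_Gs` with `y = x_i / N b ≤ Z = X / B`
  (`N(ab)/x_i = N a / y`); the number of `b` is `≤ C B`; `B √(X/B) = √(X B)`, `B ≤ √(X B)`.  `N(ab) > X/32` gives the bound for `G`.
* `tbl_sm`: `tker_sep` over `s ×ˢ qball (16 B)` with `c (a,b) = α a * β b * G (a b)`, `n (a,b) = a b`; `nt_mul`;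
  Cauchy-Schwarz (`Finset.sum_mul_sq_le_sq_mul_sq` or `Real.sum_mul_le_sqrt_mul_sqrt`), `w₀ ∑ ‖F a‖² ≤ ∑ w a ‖F a‖² ≤ D`. -/

namespace Vale.Agent.P006

open Vale.Agent.P026 Filter
open scoped ComplexConjugate Real

theorem tbl_q {B : ℝ} : ∀ b ∈ qball (16 * B), b ≠ 0 ∧ (nm b : ℝ) ≤ 16 * B := fun _ hb =>
  ⟨(tb_mem_qball.1 hb).1.1.ne_zero, (tb_mem_qball.1 hb).2⟩

theorem tbl_sum : ∃ C : ℝ, 0 < C ∧ ∀ (B Z m : ℝ) (s : Finset O) (f : O → O → ℝ),
    0 ≤ B → 0 ≤ Z → 0 ≤ m → (∀ a ∈ s, a ≠ 0 ∧ (nm a : ℝ) ≤ Z) →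
    (∀ a ∈ s, ∀ b ∈ qball (16 * B), f a b ≤ m) →
      ∑ a ∈ s, ∑ b ∈ qball (16 * B), f a b ≤ C * (m * (Z * B)) := by
  obtain ⟨C, hC, h⟩ := card_le_of_nm
  refine ⟨16 * C ^ 2, by positivity, fun B Z m s f hB hZ hm hs hf => ?_⟩
  have h1 := h Z s hZ hs
  have h2 := h (16 * B) _ (by positivity) tbl_q
  have h3 : ∀ a ∈ s, ∑ b ∈ qball (16 * B), f a b ≤ C * (16 * B) * m := fun a ha => by
    refine (Finset.sum_le_card_nsmul _ _ _ (hf a ha)).trans ?_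
    rw [nsmul_eq_mul]
    exact mul_le_mul_of_nonneg_right h2 hm
  refine (Finset.sum_le_card_nsmul _ _ _ h3).trans ?_
  rw [nsmul_eq_mul]
  exact (mul_le_mul_of_nonneg_right h1 (by positivity)).trans (le_of_eq (by ring))

theorem tbl_nonneg {M : ℝ} {α : O → ℂ} (h : Bd M α) : 0 ≤ M := (norm_nonneg _).trans (h 0)

theorem tbl_triv : ∃ C : ℝ, 0 < C ∧ ∀ (B Z M M' g k : ℝ) (s : Finset O) (α β G K : O → ℂ),
    0 ≤ B → 0 ≤ Z → 0 ≤ k → (∀ a ∈ s, a ≠ 0 ∧ (nm a : ℝ) ≤ Z) → Bd M α → Bd M' β → Bd g G →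
    (∀ a ∈ s, ∀ b ∈ qball (16 * B), β b ≠ 0 → ‖K (a * b)‖ ≤ k) →
      ‖bl s B α β G K‖ ≤ C * (M * M' * g * k * (Z * B)) := by
  obtain ⟨C, hC, h⟩ := tbl_sum
  refine ⟨C, hC, fun B Z M M' g k s α β G K hB hZ hk hs hα hβ hG hK => ?_⟩
  have h1 := tbl_nonneg hα
  have h2 := tbl_nonneg hβ
  have h3 := tbl_nonneg hG
  refine (norm_sum_le _ _).trans ((Finset.sum_le_sum fun a _ => norm_sum_le _ _).trans
    (h B Z _ s _ hB hZ (by positivity) hs fun a ha b hb => ?_))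
  by_cases h0 : β b = 0
  · rw [h0, mul_zero, zero_mul, zero_mul, norm_zero]
    positivity
  · rw [norm_mul, norm_mul, norm_mul]
    have h4 := hK a ha b hb h0
    have h5 := hα a
    have h6 := hβ b
    have h7 := hG (a * b)
    gcongr

theorem tbl_err : ∃ C : ℝ, 0 < C ∧ ∀ (X B T u x₁ x₂ M g : ℝ) (α β G K : O → ℂ),
    1 ≤ B → B ≤ X → 0 < T → 0 ≤ u → u ≤ T → 0 < x₁ → x₁ ≤ X → 0 < x₂ → x₂ ≤ X → 0 ≤ g →
    Supp 16 B β → Bd M α → Bd M β → (∀ n : O, X / 32 ≤ nm n → ‖G n‖ ≤ g) →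
    (∀ n : O, n ≠ 0 → ‖K n‖ ≤ 2 * (Gs T (nm n / x₁) + Gs T (nm n / x₂))) →
      ‖bl (ar (X / B)) B α β G K‖ ≤
        C * (M ^ 2 * g * (X * u / T + √(X * B) + X * Real.exp (-u ^ 2))) := by
  obtain ⟨C, hC, h⟩ := card_le_of_nm
  obtain ⟨C', hC', h'⟩ := tb_sum_Gs
  refine ⟨128 * C * C', by positivity, fun X B T u x₁ x₂ M g α β G K hB hBX hT hu huT h1 h1' h2 h2'
    hg hS hα hβ hG hK => ?_⟩
  have hM := tbl_nonneg hα
  have hB0 : 0 < B := by linarith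
  have hX0 : 0 < X := by linarith
  have hZ : 0 < X / B := by positivity
  obtain ⟨E, hE⟩ : ∃ E, E = X / B * u / T + √(X / B) + 1 + X / B * Real.exp (-u ^ 2) := ⟨_, rfl⟩
  have hE0 : 0 ≤ E := by rw [hE]; positivity
  have har : ∀ a ∈ ar (X / B), a ≠ 0 ∧ (nm a : ℝ) ≤ X / B := fun a ha =>
    ⟨(tb_mem_ar.1 ha).1.1.ne_zero, (tb_mem_ar.1 ha).2.2⟩
  have h3 : ∀ b ∈ qball (16 * B), ∑ a ∈ ar (X / B), ‖α a * β b * G (a * b) * K (a * b)‖ ≤
      M ^ 2 * g * (4 * (C' * E)) := by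
    intro b hb
    by_cases h0 : β b = 0
    · simp only [h0, mul_zero, zero_mul, norm_zero, Finset.sum_const_zero]
      positivity
    obtain ⟨-, h4, -⟩ := hS b h0
    have hb0 : (0 : ℝ) < nm b := hB0.trans h4
    have h5 : ∀ x, 0 < x → x ≤ X → ∑ a ∈ ar (X / B), Gs T (nm (a * b) / x) ≤ C' * E := by
      intro x hx hx'
      have h6 := h' T (x / nm b) u (X / B) _ hT (by positivity) (by gcongr) hu huT har
      rw [← hE] at h6
      refine le_trans (le_of_eq (Finset.sum_congr rfl fun a _ => ?_)) h6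
      rw [nm_mul, Nat.cast_mul, div_div_eq_mul_div]
    have h6 : ∀ a ∈ ar (X / B), ‖α a * β b * G (a * b) * K (a * b)‖ ≤
        M ^ 2 * g * (2 * (Gs T (nm (a * b) / x₁) + Gs T (nm (a * b) / x₂))) := by
      intro a ha
      have h7 := hK (a * b) (mul_ne_zero (har a ha).1 (tbl_q b hb).1)
      have h8 := hG (a * b) (by
        rw [nm_mul, Nat.cast_mul, show X / 32 = X / B / 32 * B by field_simp]
        exact mul_le_mul (tb_mem_ar.1 ha).2.1.le h4.le hB0.le (Nat.cast_nonneg _))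
      have h9 := hα a
      have h10 := hβ b
      rw [norm_mul, norm_mul, norm_mul, sq]
      gcongr
    refine (Finset.sum_le_sum h6).trans ?_
    rw [← Finset.mul_sum, ← Finset.mul_sum, Finset.sum_add_distrib]
    refine mul_le_mul_of_nonneg_left ?_ (by positivity)
    linarith [h5 x₁ h1 h1', h5 x₂ h2 h2']
  have h4 : B * √(X / B) = √(X * B) := by
    rw [show X * B = B ^ 2 * (X / B) by field_simp, Real.sqrt_mul (sq_nonneg B),
      Real.sqrt_sq hB0.le]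
  have h5 : B ≤ √(X * B) := Real.le_sqrt_of_sq_le (by nlinarith)
  have h6 : B * E ≤ 2 * (X * u / T + √(X * B) + X * Real.exp (-u ^ 2)) := by
    have e : B * E = X * u / T + √(X * B) + B + X * Real.exp (-u ^ 2) := by
      rw [hE, ← h4]; field_simp
    have p1 : 0 ≤ X * u / T := by positivity
    have p2 : 0 ≤ X * Real.exp (-u ^ 2) := by positivity
    linarith
  rw [bl, Finset.sum_comm]
  refine (norm_sum_le _ _).trans ((Finset.sum_le_sum fun a _ => norm_sum_le _ _).trans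
    ((Finset.sum_le_card_nsmul _ _ _ h3).trans ?_))
  rw [nsmul_eq_mul]
  calc _ ≤ C * (16 * B) * (M ^ 2 * g * (4 * (C' * E))) :=
        mul_le_mul_of_nonneg_right (h (16 * B) _ (by positivity) tbl_q) (by positivity)
    _ = 64 * C * C' * (M ^ 2 * g * (B * E)) := by ring
    _ ≤ 64 * C * C' * (M ^ 2 * g * (2 * (X * u / T + √(X * B) + X * Real.exp (-u ^ 2)))) := by
        gcongr
    _ = _ := by ring

theorem tbl_sm : ∃ C : ℝ, 0 < C ∧ ∀ (T x₁ x₂ T₀ B Z M g w₀ D : ℝ) (s : Finset O)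
    (α β G : O → ℂ) (w : O → ℝ), 1 ≤ T → 0 < x₁ → x₁ ≤ x₂ → x₂ ≤ 2 * x₁ → 0 ≤ T₀ → 0 < w₀ →
    0 ≤ B → 0 ≤ Z → (∀ a ∈ s, a ≠ 0 ∧ (nm a : ℝ) ≤ Z ∧ w₀ ≤ w a) → Bd M α → Bd M β → Bd g G →
    (∀ t : ℝ, |t| ≤ T₀ →
      ∑ a ∈ s, w a * ‖∑ b ∈ qball (16 * B), β b * nt b t * G (a * b)‖ ^ 2 ≤ D) →
      ‖bl s B α β G (smc T x₁ x₂)‖ ≤
        3 * Real.log (3 * T) * (√(∑ a ∈ s, ‖α a‖ ^ 2) * √(D / w₀)) +
          C * (T * Real.exp (-(T₀ ^ 2 / (8 * T ^ 2))) * (M ^ 2 * g * (Z * B))) := by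
  obtain ⟨C, hC, h⟩ := tbl_sum
  refine ⟨C, hC, fun T x₁ x₂ T₀ B Z M g w₀ D s α β G w hT h1 h12 h2 h0 hw hB hZ hs hα hβ hG hD => ?_⟩
  have hM := tbl_nonneg hα
  have hg := tbl_nonneg hG
  have h3 := tker_sep hT h1 h12 h2 h0 (s ×ˢ qball (16 * B))
    (fun p => α p.1 * β p.2 * G (p.1 * p.2)) (fun p => p.1 * p.2)
    (M := √(∑ a ∈ s, ‖α a‖ ^ 2) * √(D / w₀))
    (fun p hp => mul_ne_zero (hs _ (Finset.mem_product.1 hp).1).1
      (tbl_q _ (Finset.mem_product.1 hp).2).1) (fun t ht => by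
      have e : ∑ p ∈ s ×ˢ qball (16 * B), α p.1 * β p.2 * G (p.1 * p.2) * nt (p.1 * p.2) t =
          ∑ a ∈ s, α a * nt a t * ∑ b ∈ qball (16 * B), β b * nt b t * G (a * b) := by
        rw [Finset.sum_product]
        refine Finset.sum_congr rfl fun a ha => ?_
        rw [Finset.mul_sum]
        refine Finset.sum_congr rfl fun b hb => ?_
        rw [nt_mul (hs a ha).1 (tbl_q b hb).1]
        ring
      rw [e]
      refine (norm_sum_le _ _).trans ?_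
      simp only [norm_mul, norm_nt, mul_one]
      refine (Real.sum_mul_le_sqrt_mul_sqrt _ _ _).trans
        (mul_le_mul_of_nonneg_left (Real.sqrt_le_sqrt ?_) (Real.sqrt_nonneg _))
      rw [le_div_iff₀ hw, Finset.sum_mul]
      refine le_trans (Finset.sum_le_sum fun a ha => ?_) (hD t ht)
      rw [mul_comm]
      exact mul_le_mul_of_nonneg_right (hs a ha).2.2 (sq_nonneg _))
  have h4 := h B Z (M ^ 2 * g) s (fun a b => ‖α a * β b * G (a * b)‖) hB hZ (by positivity)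
    (fun a ha => ⟨(hs a ha).1, (hs a ha).2.1⟩) fun a _ b _ => by
      have h5 := hα a
      have h6 := hβ b
      have h7 := hG (a * b)
      rw [norm_mul, norm_mul, sq]
      gcongr
  rw [Finset.sum_product, Finset.sum_product] at h3
  refine le_trans h3 (add_le_add le_rfl ?_)
  rw [mul_left_comm]
  exact mul_le_mul_of_nonneg_left h4 (by positivity)

end Vale.Agent.P006
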