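import Vale.Agent.P006.TBas

/-! # P006 part T: the localised dispersion bound for a short window.

Plan.  `NCaStmt` at `(η, 1/10)` gives `ηa`; `η₀ = min ηa (1/100)`; `DBStmt` at `η₀` gives `η', C`.  `β' = β * win y₁ y₂` has `Supp 16 B`,
`Bd (log X ^ 2)` (`≤ X^ηa`, `≤ X^η'` by `tas_log`), `tau ≤ τ`; `NCH X B (B X^{-1/10}) ηa β'` and `tb_NCH`
(`X^η₀ B²/A ≤ B X^{-1/10}` as `B ≤ X^0.34`, `A ≥ X/(100 B)`).  `L = log X ^ 40`.
The number `W` of `b` with `β' b ≠ 0` is `≤ C (600 B / log^39 + √(16 B) + 1) ≤ C' B / log^39` (`tb_card_win`, `B ≥ X^0.33`), so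
`∑ ‖β'‖² ≤ log^4 W`, `∑ ‖β'‖ ≤ log^2 W` (`Finset.sum_filter_ne_zero` / `sum_le_card_nsmul`).  After multiplication by `A`:
`A² B ≤ X² / B ≤ 100 X^{5/3}`, `A^{5/3} B^{5/3} ≤ X^{5/3}`; the three terms are `≤ C X^{5/3} log^{-75}`, `C |τ| X^{5/3} log^{-74}`, `X^{5/3 - η'}`. -/

namespace Vale.Agent.P006

open Vale.Agent.P026 Filter
open scoped ComplexConjugate Real

theorem tloca_fin {A B X C D τ l S₁ S₂ e : ℝ} (hA : 0 < A) (hB : 0 < B) (hX : 0 < X)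
    (hAB : A * B ≤ X) (hB' : X ^ (1 / 3 : ℝ) / 100 ≤ B) (hl : 1 ≤ l) (hC : 0 < C) (hD : 0 < D)
    (h1 : 300 * C * D ≤ l) (h2 : 3 * C * |τ| * D ^ 2 ≤ l) (h3 : 3 * l ^ 73 ≤ X ^ e)
    (hS₂ : S₂ ≤ l ^ 4 * (D * B / l ^ 39)) (hS₁ : 0 ≤ S₁) (hS₁' : S₁ ≤ l ^ 2 * (D * B / l ^ 39)) :
    A * (C * (A / l ^ 40) * S₂ + C * τ * A ^ (2 / 3 : ℝ) * B ^ (-1 / 3 : ℝ) * S₁ ^ 2 +
      X ^ (-e) * A ^ (2 / 3 : ℝ) * B ^ (5 / 3 : ℝ)) ≤ X ^ (5 / 3 : ℝ) / l ^ 73 := by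
  have hl0 : 0 < l := by linarith
  set P := X ^ (5 / 3 : ℝ) with hP
  have hP0 : 0 < P := Real.rpow_pos_of_pos hX _
  have h13 : 0 < X ^ (1 / 3 : ℝ) := Real.rpow_pos_of_pos hX _
  have hX2 : X ^ 2 = P * X ^ (1 / 3 : ℝ) := by
    rw [hP, ← Real.rpow_add hX, ← Real.rpow_natCast]; norm_num
  have k1 : A ^ 2 * B ≤ 100 * P := by
    have e1 : (A * B) ^ 2 ≤ X ^ 2 := pow_le_pow_left₀ (by positivity) hAB 2
    have e2 : X ^ 2 ≤ 100 * P * B := by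
      rw [hX2]
      have : X ^ (1 / 3 : ℝ) ≤ 100 * B := by linarith
      nlinarith
    have e3 : A ^ 2 * B * B ≤ 100 * P * B := by nlinarith
    exact le_of_mul_le_mul_right e3 hB
  have eA : A * A ^ (2 / 3 : ℝ) = A ^ (5 / 3 : ℝ) := by
    rw [show (5 / 3 : ℝ) = 1 + 2 / 3 by norm_num, Real.rpow_add hA, Real.rpow_one]
  have eB : B ^ (-1 / 3 : ℝ) * B ^ 2 = B ^ (5 / 3 : ℝ) := by
    rw [show (5 / 3 : ℝ) = -1 / 3 + (2 : ℕ) by norm_num, Real.rpow_add hB, Real.rpow_natCast]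
  have k2 : A * A ^ (2 / 3 : ℝ) * B ^ (5 / 3 : ℝ) ≤ P := by
    rw [eA, ← Real.mul_rpow hA.le hB.le]
    exact Real.rpow_le_rpow (by positivity) hAB (by norm_num)
  have hA23 : 0 < A ^ (2 / 3 : ℝ) := Real.rpow_pos_of_pos hA _
  have hB13 : 0 < B ^ (-1 / 3 : ℝ) := Real.rpow_pos_of_pos hB _
  have hB53 : 0 < B ^ (5 / 3 : ℝ) := Real.rpow_pos_of_pos hB _
  have t1 : A * (C * (A / l ^ 40) * S₂) ≤ P / l ^ 73 / 3 := by
    calc A * (C * (A / l ^ 40) * S₂) ≤ A * (C * (A / l ^ 40) * (l ^ 4 * (D * B / l ^ 39))) := by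
          gcongr
      _ = C * D * (A ^ 2 * B) / l ^ 75 := by field_simp
      _ ≤ C * D * (100 * P) / l ^ 75 := by gcongr
      _ = (300 * C * D) / l ^ 2 * (P / l ^ 73 / 3) := by field_simp; ring
      _ ≤ 1 * (P / l ^ 73 / 3) := by
          gcongr
          rw [div_le_one (by positivity)]
          nlinarith
      _ = _ := one_mul _
  have t2 : A * (C * τ * A ^ (2 / 3 : ℝ) * B ^ (-1 / 3 : ℝ) * S₁ ^ 2) ≤ P / l ^ 73 / 3 := by
    calc A * (C * τ * A ^ (2 / 3 : ℝ) * B ^ (-1 / 3 : ℝ) * S₁ ^ 2)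
        ≤ A * (C * |τ| * A ^ (2 / 3 : ℝ) * B ^ (-1 / 3 : ℝ) * S₁ ^ 2) := by
          gcongr
          exact le_abs_self τ
      _ ≤ A * (C * |τ| * A ^ (2 / 3 : ℝ) * B ^ (-1 / 3 : ℝ) * (l ^ 2 * (D * B / l ^ 39)) ^ 2) := by
          gcongr
      _ = C * |τ| * D ^ 2 * (A * A ^ (2 / 3 : ℝ) * (B ^ (-1 / 3 : ℝ) * B ^ 2)) / l ^ 74 := by
          field_simp
      _ ≤ C * |τ| * D ^ 2 * P / l ^ 74 := by
          rw [eB]
          gcongr
      _ = (3 * C * |τ| * D ^ 2) / l * (P / l ^ 73 / 3) := by field_simp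
      _ ≤ 1 * (P / l ^ 73 / 3) := by
          gcongr
          rwa [div_le_one hl0]
      _ = _ := one_mul _
  have t3 : A * (X ^ (-e) * A ^ (2 / 3 : ℝ) * B ^ (5 / 3 : ℝ)) ≤ P / l ^ 73 / 3 := by
    have hXe : 0 < X ^ e := Real.rpow_pos_of_pos hX _
    calc A * (X ^ (-e) * A ^ (2 / 3 : ℝ) * B ^ (5 / 3 : ℝ))
        = (A * A ^ (2 / 3 : ℝ) * B ^ (5 / 3 : ℝ)) / X ^ e := by
          rw [Real.rpow_neg hX.le]; field_simp
      _ ≤ P / (3 * l ^ 73) := by gcongr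
      _ = _ := by field_simp
  nlinarith [t1, t2, t3]

theorem tloca_sum {s : Finset O} {f : O → ℝ} {M W : ℝ} (hM : 0 ≤ M) (hf : ∀ b, f b ≤ M)
    (hW : ∀ u : Finset O, (∀ b ∈ u, b ∈ s ∧ f b ≠ 0) → (u.card : ℝ) ≤ W) :
    ∑ b ∈ s, f b ≤ M * W := by
  classical
  rw [← Finset.sum_filter_ne_zero]
  have h1 := Finset.sum_le_card_nsmul (s.filter fun b => f b ≠ 0) f M fun b _ => hf b
  have h2 := hW (s.filter fun b => f b ≠ 0) fun b hb => Finset.mem_filter.1 hb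
  rw [nsmul_eq_mul] at h1
  nlinarith

theorem tloc_db (hDB : DBStmt) (hNC : NCaStmt) {η : ℝ} (τ : ℝ) (hη : 0 < η) :
    ∀ᶠ X : ℝ in atTop, ∀ (A B y₁ y₂ t : ℝ) (β : O → ℂ) (s : Finset O),
      X ^ (1 / 3 : ℝ) / 100 ≤ B → B ≤ X ^ (0.34 : ℝ) → X / 100 ≤ A * B → A * B ≤ X →
      Supp 16 B β → Bd (Real.log X ^ 2) β → (∀ b, β b ≠ 0 → tau b ≤ τ) →
      (SW X B η fun b => β b * win y₁ y₂ b) → |t| ≤ X ^ (0.179 : ℝ) →
      y₂ - y₁ ≤ 600 * B / Real.log X ^ 39 →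
        A * ∑ a ∈ s, Gs (Real.log X ^ 40) (nm a / A) *
          ‖∑ b ∈ qball (16 * B), β b * win y₁ y₂ b * nt b t * gq (a * b)‖ ^ 2 ≤
          X ^ (5 / 3 : ℝ) / Real.log X ^ 73 := by
  obtain ⟨ηa, hηa, hN⟩ := hNC η (1 / 10) hη (by norm_num)
  have hη₀ : 0 < min ηa (1 / 100) := lt_min hηa (by norm_num)
  have hη₀' : min ηa (1 / 100) ≤ 1 / 100 := min_le_right _ _
  have hη₀'' : min ηa (1 / 100) ≤ ηa := min_le_left _ _
  generalize min ηa (1 / 100) = η₀ at hη₀ hη₀' hη₀''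
  obtain ⟨η', C, hη', hC, hD⟩ := hDB η₀ hη₀ hη₀'
  obtain ⟨C₁, hC₁, hW⟩ := tb_card_win
  filter_upwards [hN, hD, eventually_ge_atTop (1 : ℝ),
    tas_pow 100 (show (0.33 : ℝ) < 1 / 3 by norm_num),
    tas_pow 100 (show (0.68 : ℝ) < 1 by norm_num),
    tas_pow 100 (show (0.79 : ℝ) < 1 by norm_num),
    tas_log 1 2 hηa, tas_log 1 2 hη', tas_log 1 40 hη', tas_log 3 73 hη',
    tas_log 5 39 (show (0 : ℝ) < 0.165 by norm_num),
    tas_logC 1, tas_logC (300 * C * (601 * C₁)), tas_logC (3 * C * |τ| * (601 * C₁) ^ 2)]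
    with X hN hD hX p1 p2 p3 l1 l2 l3 l4 l5 c1 c2 c3
  intro A B y₁ y₂ t β s hB₁ hB₂ hAB₁ hAB₂ hS hBd hτ hSW ht hy
  have hX0 : 0 < X := by linarith
  rw [one_mul] at l1 l2 l3
  rw [Real.rpow_one] at p2 p3
  set l := Real.log X with hl
  have hl0 : 0 < l := by linarith
  have hB33 : X ^ (0.33 : ℝ) ≤ B := by linarith
  have hB1 : 1 ≤ B := (Real.one_le_rpow hX (by norm_num)).trans hB33
  have hB0 : 0 < B := by linarith
  have hA0 : 0 < A := by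
    by_contra h
    have : A * B ≤ 0 := mul_nonpos_of_nonpos_of_nonneg (not_lt.1 h) hB0.le
    linarith
  have hBB : B * B ≤ X ^ (0.68 : ℝ) := by
    rw [show (0.68 : ℝ) = 0.34 + 0.34 by norm_num, Real.rpow_add hX0]
    exact mul_le_mul hB₂ hB₂ hB0.le (by positivity)
  have hBA : B ≤ A := by
    have : B * B ≤ A * B := by linarith
    exact le_of_mul_le_mul_right this hB0
  set β' : O → ℂ := fun b => β b * win y₁ y₂ b with hβ'
  have hne : ∀ b, β' b ≠ 0 → β b ≠ 0 ∧ y₁ < nm b ∧ (nm b : ℝ) ≤ y₂ := fun b hb => by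
    refine ⟨left_ne_zero_of_mul hb, ?_⟩
    by_contra h'
    exact right_ne_zero_of_mul hb (ind_of_not h')
  have hS' : Supp 16 B β' := fun b hb => hS b (hne b hb).1
  have hBd' : Bd (l ^ 2) β' := fun b => by
    rw [hβ']
    dsimp only
    rw [norm_mul]
    exact (mul_le_of_le_one_right (norm_nonneg _) (tb_win y₁ y₂ b)).trans (hBd b)
  have hτ' : ∀ b, β' b ≠ 0 → tau b ≤ τ := fun b hb => hτ b (hne b hb).1
  have hN' : NCH X B (B * X ^ (-(1 / 10) : ℝ)) ηa β' :=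
    hN B β' ((Real.rpow_le_rpow_of_exponent_le hX (by norm_num)).trans hB33)
      (hB₂.trans (by
        conv_rhs => rw [← Real.rpow_one X]
        exact Real.rpow_le_rpow_of_exponent_le hX (by norm_num))) hS' (tb_Bd l1 hBd') hSW
  have hK : X ^ η₀ * B ^ 2 / A ≤ B * X ^ (-(1 / 10) : ℝ) := by
    have e1 : X ^ η₀ ≤ X ^ (0.01 : ℝ) := Real.rpow_le_rpow_of_exponent_le hX (by linarith)
    have e2 : X ^ (0.79 : ℝ) = X ^ (0.01 : ℝ) * X ^ (0.68 : ℝ) * X ^ (1 / 10 : ℝ) := by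
      rw [← Real.rpow_add hX0, ← Real.rpow_add hX0]; norm_num
    have e3 : 0 < X ^ (1 / 10 : ℝ) := Real.rpow_pos_of_pos hX0 _
    have e4 : X ^ η₀ * (B * B) * X ^ (1 / 10 : ℝ) ≤ X ^ (0.79 : ℝ) := by
      rw [e2]
      gcongr
    rw [Real.rpow_neg hX0.le, ← div_eq_mul_inv, div_le_div_iff₀ hA0 e3, pow_two, mul_comm B A]
    linarith only [e4, p3, hAB₁]
  have hBA' : B ≤ A * X ^ (η₀ / 40) :=
    hBA.trans (le_mul_of_one_le_right hA0.le (Real.one_le_rpow hX (by positivity)))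
  have key := hD A B τ t (l ^ 40) β' s hB33 hBA' hAB₁ hAB₂ hS' (tb_Bd l2 hBd') hτ'
    (tb_NCH hX hB0.le hK hη₀'' hN') ht (one_le_pow₀ c1) l3
  have hsq : 5 * l ^ 39 ≤ √B := by
    refine l5.trans (Real.le_sqrt_of_sq_le ?_)
    rw [← Real.rpow_natCast, ← Real.rpow_mul hX0.le]
    norm_num at hB33 ⊢
    exact hB33
  have hcard : ∀ u : Finset O, (∀ b ∈ u, β' b ≠ 0) → (u.card : ℝ) ≤ 601 * C₁ * B / l ^ 39 := by
    intro u hu
    have h1 := hW y₁ y₂ (16 * B) (600 * B / l ^ 39) u (by positivity) (by positivity) hy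
      fun n hn => ⟨(hne n (hu n hn)).2.1, (hne n (hu n hn)).2.2, (hS' n (hu n hn)).2.2⟩
    have h2 : √(16 * B) = 4 * √B := by
      rw [Real.sqrt_mul (by norm_num), show (16 : ℝ) = 4 ^ 2 by norm_num,
        Real.sqrt_sq (by norm_num)]
    have h3 : 1 ≤ √B := Real.one_le_sqrt.2 hB1
    have h4 : 5 * √B ≤ B / l ^ 39 := by
      rw [le_div_iff₀ (by positivity)]
      calc 5 * √B * l ^ 39 = 5 * l ^ 39 * √B := by ring
        _ ≤ √B * √B := mul_le_mul_of_nonneg_right hsq (Real.sqrt_nonneg _)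
        _ = B := Real.mul_self_sqrt hB0.le
    calc (u.card : ℝ) ≤ C₁ * (600 * B / l ^ 39 + B / l ^ 39) := by
          refine h1.trans (mul_le_mul_of_nonneg_left ?_ hC₁.le)
          linarith only [h2, h3, h4]
      _ = _ := by ring
  have hS₂ : ∑ b ∈ qball (16 * B), ‖β' b‖ ^ 2 ≤ l ^ 4 * (601 * C₁ * B / l ^ 39) :=
    tloca_sum (by positivity)
      (fun b => by
        rw [show l ^ 4 = (l ^ 2) ^ 2 by ring]
        exact pow_le_pow_left₀ (norm_nonneg _) (hBd' b) 2)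
      fun u hu => hcard u fun b hb h => (hu b hb).2 (by simp [h])
  have hS₁ : ∑ b ∈ qball (16 * B), ‖β' b‖ ≤ l ^ 2 * (601 * C₁ * B / l ^ 39) :=
    tloca_sum (by positivity) hBd' fun u hu => hcard u fun b hb h => (hu b hb).2 (by simp [h])
  refine (mul_le_mul_of_nonneg_left key hA0.le).trans ?_
  exact tloca_fin hA0 hB0 hX0 hAB₂ hB₁ c1 hC (by positivity) c2 c3 l4 hS₂
    (Finset.sum_nonneg fun _ _ => norm_nonneg _) hS₁

end Vale.Agent.P006
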