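import Vale.Agent.P006.TLocA
import Vale.Agent.P006.TBl

/-! # P006 part T: the difference of the two smoothings against the Gauss sums. -/

namespace Vale.Agent.P006

open Vale.Agent.P026 Filter
open scoped ComplexConjugate Real

theorem tloc_K {L T x₁ x₂ : ℝ} (hL : 0 < L) (hLT : L ≤ T) (h₁ : 0 < x₁) (h₁₂ : x₁ ≤ x₂) {n : O}
    (hn : n ≠ 0) :
    ‖smc T x₁ x₂ n - smc L x₁ x₂ n‖ ≤ 2 * (Gs L (nm n / x₁) + Gs L (nm n / x₂)) := by
  have b1 := tker_win (hL.trans_le hLT) h₁ h₁₂ hn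
  have b2 := tker_win hL h₁ h₁₂ hn
  have e : smc T x₁ x₂ n - smc L x₁ x₂ n = (win x₁ x₂ n - (Sm L x₁ x₂ (nm n) : ℝ)) -
      (win x₁ x₂ n - (Sm T x₁ x₂ (nm n) : ℝ)) := by
    simp only [smc]
    ring
  rw [e]
  refine (norm_sub_le _ _).trans ?_
  linarith [tb_Gs_anti hL.le hLT (nm n / x₁), tb_Gs_anti hL.le hLT (nm n / x₂)]

theorem tloc_far {L u A x p q : ℝ} (hL : 0 < L) (hu : 1 ≤ u) (hA : 0 < A) (hx : 0 < x) (hq : 0 < q)
    (h1 : A * Real.exp (-(1 / L)) < p) (h2 : p ≤ A)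
    (h : ¬(x / A * Real.exp (-(2 * u / L)) < q ∧ q ≤ x / A * Real.exp (2 * u / L))) :
    Gs L (p * q / x) ≤ Real.exp (-u ^ 2) := by
  have hp : 0 < p := lt_trans (by positivity) h1
  have h0 : 0 < p * q / x := by positivity
  refine tb_Gs_le (by linarith) ?_
  rw [mul_comm, ← div_le_iff₀ hL]
  have huL : 0 < u / L := by positivity
  rcases not_and_or.1 h with h | h
  · have h3 : p * q / x ≤ Real.exp (-(2 * u / L)) := by
      rw [div_le_iff₀ hx]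
      calc p * q ≤ A * (x / A * Real.exp (-(2 * u / L))) :=
            mul_le_mul h2 (not_lt.1 h) hq.le hA.le
        _ = _ := by field_simp
    have h4 := (Real.log_le_iff_le_exp h0).2 h3
    have h5 : 2 * u / L = 2 * (u / L) := by ring
    linarith [neg_le_abs (Real.log (p * q / x))]
  · have h3 : Real.exp (2 * u / L - 1 / L) ≤ p * q / x := by
      rw [le_div_iff₀ hx]
      calc Real.exp (2 * u / L - 1 / L) * x
          = (A * Real.exp (-(1 / L))) * (x / A * Real.exp (2 * u / L)) := by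
            rw [sub_eq_add_neg, Real.exp_add]
            field_simp
        _ ≤ p * q := mul_le_mul h1.le (not_le.1 h).le (by positivity) hp.le
    have h4 := (Real.le_log_iff_exp_le h0).2 h3
    have h5 : 2 * u / L = 2 * (u / L) := by ring
    have h6 : 1 / L ≤ u / L := div_le_div_of_nonneg_right hu hL.le
    linarith [le_abs_self (Real.log (p * q / x))]

theorem tloc_cover {p₁ q₁ p₂ q₂ : ℝ} (hp : p₁ ≤ p₂) (b : O)
    (h : 1 - win p₁ q₁ b - win (max p₂ q₁) q₂ b ≠ 0) :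
    ¬(p₁ < nm b ∧ (nm b : ℝ) ≤ q₁) ∧ ¬(p₂ < nm b ∧ (nm b : ℝ) ≤ q₂) := by
  have h1 : ¬(p₁ < nm b ∧ (nm b : ℝ) ≤ q₁) := by
    intro h1
    apply h
    rw [win, win, ind_of h1, ind_of_not fun h2 => absurd (max_lt_iff.1 h2.1).2 (not_lt.2 h1.2)]
    ring
  refine ⟨h1, fun h2 => h ?_⟩
  rw [win, win, ind_of_not h1, ind_of ⟨max_lt h2.1 (lt_of_not_ge fun h3 =>
    h1 ⟨hp.trans_lt h2.1, h3⟩), h2.2⟩]
  ring

theorem tloc_piece (hDB : DBStmt) (hNC : NCaStmt) {η : ℝ} (τ : ℝ) (hη : 0 < η) :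
    ∀ᶠ X : ℝ in atTop, ∀ (A B x₁ x₂ y₁ y₂ T : ℝ) (α β : O → ℂ) (s : Finset O),
      X ^ (1 / 3 : ℝ) / 100 ≤ B → B ≤ X ^ (0.34 : ℝ) → X / 100 ≤ A * B → A * B ≤ X →
      X / 2 ≤ x₁ → x₁ ≤ x₂ → x₂ ≤ X → Supp 16 B β → Bd (Real.log X ^ 2) α →
      Bd (Real.log X ^ 2) β → (∀ b, β b ≠ 0 → tau b ≤ τ) →
      (SW X B η fun b => β b * win y₁ y₂ b) →
      (∀ a ∈ s, A * Real.exp (-(1 / Real.log X ^ 40)) < nm a ∧ (nm a : ℝ) ≤ A) →
      y₂ - y₁ ≤ 600 * B / Real.log X ^ 39 → 1 ≤ T → T ≤ X ^ (0.175 : ℝ) →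
        ‖bl s B α (fun b => β b * win y₁ y₂ b) gq (smc T x₁ x₂)‖ ≤
          X ^ (5 / 6 : ℝ) / (5 * Real.log X ^ 52) := by
  obtain ⟨C₁, hC₁, h₁⟩ := tb_card_win
  obtain ⟨C₂, hC₂, h₂⟩ := tbl_sm
  filter_upwards [tloc_db hDB hNC τ hη, tas_logC (1800 * C₁ * Real.exp 1), tas_logC 1,
    tas_log (10 * C₂) 56 (show (0 : ℝ) < 5 / 6 by norm_num), tas_tail 1,
    tas_log 400 80 (show (0 : ℝ) < 0.66 by norm_num),
    tas_pow 3 (show (0.175 : ℝ) < 1 by norm_num), eventually_gt_atTop 0]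
    with X hdb hl1 hl hl2 htail hl3 h3 hX A B x₁ x₂ y₁ y₂ T α β s hB1 hB2 hA1 hA2 hx1 hx12 hx2 hβ
      hα1 hβ1 hτ hSW hs hy hT1 hT2
  set l := Real.log X with hl_def
  have hl0 : 0 < l := by linarith
  have hB : 0 < B := lt_of_lt_of_le (by positivity) hB1
  have hA : 0 < A := (mul_pos_iff_of_pos_right hB).1 (lt_of_lt_of_le (by positivity) hA1)
  have hL : 0 < l ^ 40 := by positivity
  have hA3 : 4 * l ^ 80 ≤ A := by
    have e : X = X ^ (0.66 : ℝ) * X ^ (0.34 : ℝ) := by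
      rw [← Real.rpow_add hX]
      norm_num
    have b1 : X ^ (0.66 : ℝ) * X ^ (0.34 : ℝ) ≤ (100 * A) * X ^ (0.34 : ℝ) := by
      nlinarith [mul_le_mul_of_nonneg_left hB2 hA.le]
    have b2 := le_of_mul_le_mul_right b1 (Real.rpow_pos_of_pos hX _)
    linarith
  have hcard : (s.card : ℝ) ≤ C₁ * (2 * (A / l ^ 40)) := by
    refine (h₁ (A * Real.exp (-(1 / l ^ 40))) A A (A / l ^ 40) s (by positivity) hA.le ?_
      fun n hn => ⟨(hs n hn).1, (hs n hn).2, (hs n hn).2⟩).trans ?_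
    · have b1 := mul_le_mul_of_nonneg_left (Real.add_one_le_exp (-(1 / l ^ 40))) hA.le
      have e : A / l ^ 40 = A * (1 / l ^ 40) := by ring
      linarith
    · refine mul_le_mul_of_nonneg_left ?_ hC₁.le
      have b0 : (2 * l ^ 40) ^ 2 = 4 * l ^ 80 := by ring
      have b1 : 2 * l ^ 40 ≤ √A := Real.le_sqrt_of_sq_le (by linarith)
      have b2 : 1 ≤ l ^ 40 := one_le_pow₀ hl
      have b3 : √A + 1 ≤ A / l ^ 40 := by
        rw [le_div_iff₀ hL]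
        nlinarith [Real.mul_self_sqrt hA.le]
      linarith
  have hsum : ∑ a ∈ s, ‖α a‖ ^ 2 ≤ C₁ * (2 * (A / l ^ 40)) * (l ^ 2) ^ 2 := by
    refine (Finset.sum_le_card_nsmul _ _ ((l ^ 2) ^ 2) fun a _ =>
      pow_le_pow_left₀ (norm_nonneg _) (hα1 a) 2).trans ?_
    rw [nsmul_eq_mul]
    exact mul_le_mul_of_nonneg_right hcard (by positivity)
  have key := h₂ T x₁ x₂ (X ^ (0.179 : ℝ)) B A (l ^ 2) 1 (Real.exp (-1 ^ 2))
    (X ^ (5 / 3 : ℝ) / l ^ 73 / A) s α (fun b => β b * win y₁ y₂ b) gq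
    (fun a => Gs (l ^ 40) (nm a / A)) hT1 ((half_pos hX).trans_le hx1) hx12
    (by linarith only [hx1, hx2]) (by positivity)
    (Real.exp_pos _) hB.le hA.le ?_ hα1 ?_ tb_gq ?_
  rotate_left
  · intro a ha
    have b0 : (0 : ℝ) < nm a := lt_trans (by positivity) (hs a ha).1
    refine ⟨fun h => by simp [h, nm_eq_zero.2 rfl] at b0, (hs a ha).2, tb_Gs_ge hL.le ?_⟩
    have b1 : Real.log (nm a / A) ≤ 0 :=
      Real.log_nonpos (by positivity) ((div_le_one hA).2 (hs a ha).2)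
    have b2 : -(1 / l ^ 40) ≤ Real.log (nm a / A) := by
      rw [Real.le_log_iff_exp_le (by positivity), le_div_iff₀ hA]
      linarith [(hs a ha).1]
    rw [abs_of_nonpos b1, mul_comm, ← le_div_iff₀ hL]
    linarith
  · intro b
    rw [norm_mul]
    exact (mul_le_of_le_one_right (norm_nonneg _) (tb_win _ _ _)).trans (hβ1 b)
  · intro t ht
    rw [le_div_iff₀ hA, mul_comm]
    exact hdb A B y₁ y₂ t β s hB1 hB2 hA1 hA2 hβ hβ1 hτ hSW ht hy
  refine key.trans ?_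
  have hp : 0 < X ^ (5 / 6 : ℝ) := Real.rpow_pos_of_pos hX _
  have e56 : X ^ (5 / 3 : ℝ) = (X ^ (5 / 6 : ℝ)) ^ 2 := by
    rw [← Real.rpow_natCast, ← Real.rpow_mul hX.le]
    norm_num
  have m1 : 3 * Real.log (3 * T) * (√(∑ a ∈ s, ‖α a‖ ^ 2) *
      √(X ^ (5 / 3 : ℝ) / l ^ 73 / A / Real.exp (-1 ^ 2))) ≤ X ^ (5 / 6 : ℝ) / (10 * l ^ 52) := by
    have b1 : Real.log (3 * T) ≤ l := by
      rw [Real.rpow_one] at h3
      exact Real.log_le_log (by linarith) (by linarith)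
    have b2 : √(∑ a ∈ s, ‖α a‖ ^ 2) * √(X ^ (5 / 3 : ℝ) / l ^ 73 / A / Real.exp (-1 ^ 2)) ≤
        X ^ (5 / 6 : ℝ) / (30 * l ^ 53) := by
      rw [← Real.sqrt_mul (Finset.sum_nonneg fun _ _ => by positivity)]
      refine Real.sqrt_le_iff.2 ⟨by positivity, ?_⟩
      refine (mul_le_mul_of_nonneg_right hsum (by positivity)).trans ?_
      have e1 : C₁ * (2 * (A / l ^ 40)) * (l ^ 2) ^ 2 *
          (X ^ (5 / 3 : ℝ) / l ^ 73 / A / Real.exp (-1 ^ 2)) =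
          (1800 * C₁ * Real.exp 1 / l ^ 3) * (X ^ (5 / 6 : ℝ) / (30 * l ^ 53)) ^ 2 := by
        rw [e56, one_pow, Real.exp_neg]
        field_simp
        ring
      rw [e1]
      refine mul_le_of_le_one_left (by positivity) ((div_le_one (by positivity)).2 ?_)
      exact hl1.trans (le_self_pow₀ hl (by norm_num))
    calc _ ≤ 3 * l * (X ^ (5 / 6 : ℝ) / (30 * l ^ 53)) :=
          mul_le_mul (by linarith) b2 (by positivity) (by positivity)
      _ = _ := by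
          field_simp
          ring
  have m2 : C₂ * (T * Real.exp (-((X ^ (0.179 : ℝ)) ^ 2 / (8 * T ^ 2))) *
      ((l ^ 2) ^ 2 * 1 * (A * B))) ≤ X ^ (5 / 6 : ℝ) / (10 * l ^ 52) := by
    have b1 := htail T (by linarith) hT2
    rw [Real.rpow_neg_one] at b1
    calc _ ≤ C₂ * (X⁻¹ * ((l ^ 2) ^ 2 * 1 * X)) := by gcongr
      _ = C₂ * l ^ 4 := by field_simp
      _ ≤ _ := by
          rw [le_div_iff₀ (by positivity)]
          linarith [show C₂ * l ^ 4 * (10 * l ^ 52) = 10 * C₂ * l ^ 56 by ring]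
  refine (add_le_add m1 m2).trans (le_of_eq ?_)
  field_simp
  ring

theorem tloc_one (hDB : DBStmt) (hNC : NCaStmt) {η : ℝ} (τ : ℝ) (hη : 0 < η) :
    ∀ᶠ X : ℝ in atTop, ∀ (A B x₁ x₂ : ℝ) (α β : O → ℂ) (s : Finset O),
      X ^ (1 / 3 : ℝ) / 100 ≤ B → B ≤ X ^ (0.34 : ℝ) → X / 100 ≤ A * B → A * B ≤ X →
      X / 2 ≤ x₁ → x₁ ≤ x₂ → x₂ ≤ X → Supp 16 B β → Bd (Real.log X ^ 2) α →
      Bd (Real.log X ^ 2) β → (∀ b, β b ≠ 0 → tau b ≤ τ) →
      (∀ y₁ y₂ : ℝ, SW X B η fun b => β b * win y₁ y₂ b) →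
      (∀ a ∈ s, A * Real.exp (-(1 / Real.log X ^ 40)) < nm a ∧ (nm a : ℝ) ≤ A) →
        ‖bl s B α β gq fun n => smc (X ^ (0.175 : ℝ)) x₁ x₂ n - smc (Real.log X ^ 40) x₁ x₂ n‖ ≤
          X ^ (5 / 6 : ℝ) / Real.log X ^ 52 := by
  obtain ⟨C₂, hC₂, h₂⟩ := tbl_triv
  filter_upwards [tloc_piece hDB hNC τ hη, tas_logC 2,
    tas_log (60 * C₂) 56 (show (0 : ℝ) < 5 / 6 by norm_num), tas_exp_log 1,
    tas_log 1 40 (show (0 : ℝ) < 0.175 by norm_num), eventually_gt_atTop 0]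
    with X hpc hl hl2 hexp hLT hX A B x₁ x₂ α β s hB1 hB2 hA1 hA2 hx1 hx12 hx2 hβ hα1 hβ1 hτ hSW hs
  set l := Real.log X with hl_def
  rw [one_mul] at hLT
  have hl0 : 0 < l := by linarith
  have hB : 0 < B := lt_of_lt_of_le (by positivity) hB1
  have hA : 0 < A := (mul_pos_iff_of_pos_right hB).1 (lt_of_lt_of_le (by positivity) hA1)
  have hL1 : 1 ≤ l ^ 40 := one_le_pow₀ (by linarith)
  have hx₁ : 0 < x₁ := by linarith
  have hx₂ : 0 < x₂ := by linarith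
  have hv : 2 * l / l ^ 40 = 2 / l ^ 39 := by field_simp
  have hv1 : 2 * l / l ^ 40 ≤ 1 := by
    rw [hv, div_le_one (by positivity)]
    exact hl.trans (le_self_pow₀ (by linarith) (by norm_num))
  have hlen : ∀ x : ℝ, 0 < x → x ≤ X → x / A * Real.exp (2 * l / l ^ 40) -
      x / A * Real.exp (-(2 * l / l ^ 40)) ≤ 600 * B / l ^ 39 := by
    intro x hx hxX
    have b1 : x / A ≤ 100 * B := by
      rw [div_le_iff₀ hA]
      linarith
    rw [← mul_sub]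
    calc _ ≤ 100 * B * (3 * (2 * l / l ^ 40)) := by
          refine mul_le_mul b1 (tb_exp_sub (by positivity) hv1) ?_ (by positivity)
          exact sub_nonneg.2 (Real.exp_le_exp.2 (neg_le_self (by positivity)))
      _ = _ := by
          rw [hv]
          ring
  set p₁ := x₁ / A * Real.exp (-(2 * l / l ^ 40))
  set q₁ := x₁ / A * Real.exp (2 * l / l ^ 40)
  set p₂ := x₂ / A * Real.exp (-(2 * l / l ^ 40))
  set q₂ := x₂ / A * Real.exp (2 * l / l ^ 40)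
  have hp : p₁ ≤ p₂ := mul_le_mul_of_nonneg_right (div_le_div_of_nonneg_right hx12 hA.le)
    (Real.exp_pos _).le
  set K : O → ℂ := fun n => smc (X ^ (0.175 : ℝ)) x₁ x₂ n - smc (l ^ 40) x₁ x₂ n with hK
  have e : bl s B α β gq K = bl s B α (fun b => β b * win p₁ q₁ b) gq K +
      bl s B α (fun b => β b * win (max p₂ q₁) q₂ b) gq K +
      bl s B α (fun b => β b * (1 - win p₁ q₁ b - win (max p₂ q₁) q₂ b)) gq K := by
    simp only [bl, ← Finset.sum_add_distrib]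
    refine Finset.sum_congr rfl fun a _ => Finset.sum_congr rfl fun b _ => ?_
    ring
  have two : ∀ y₁ y₂ : ℝ, y₂ - y₁ ≤ 600 * B / l ^ 39 →
      ‖bl s B α (fun b => β b * win y₁ y₂ b) gq K‖ ≤ 2 * (X ^ (5 / 6 : ℝ) / (5 * l ^ 52)) := by
    intro y₁ y₂ hy
    rw [hK, tb_bl_sub]
    refine (norm_sub_le _ _).trans ?_
    linarith [hpc A B x₁ x₂ y₁ y₂ _ α β s hB1 hB2 hA1 hA2 hx1 hx12 hx2 hβ hα1 hβ1 hτ (hSW _ _) hs
      hy (hL1.trans hLT) le_rfl, hpc A B x₁ x₂ y₁ y₂ _ α β s hB1 hB2 hA1 hA2 hx1 hx12 hx2 hβ hα1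
      hβ1 hτ (hSW _ _) hs hy hL1 hLT]
  have hs0 : ∀ a ∈ s, a ≠ 0 := fun a ha h => by
    have b0 : (0 : ℝ) < nm a := lt_trans (by positivity) (hs a ha).1
    simp [h, nm_eq_zero.2 rfl] at b0
  have rest : ‖bl s B α (fun b => β b * (1 - win p₁ q₁ b - win (max p₂ q₁) q₂ b)) gq K‖ ≤
      X ^ (5 / 6 : ℝ) / (5 * l ^ 52) := by
    refine (h₂ B A (l ^ 2) (l ^ 2 * 3) 1 (4 * X⁻¹) s α _ gq K hB.le hA.le (by positivity)
      (fun a ha => ⟨hs0 a ha, (hs a ha).2⟩) hα1 (fun b => ?_) tb_gq fun a ha b hb h => ?_).trans ?_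
    · rw [norm_mul]
      refine mul_le_mul (hβ1 b) ?_ (norm_nonneg _) (by positivity)
      refine (norm_sub_le _ _).trans ?_
      linarith [norm_sub_le 1 (win p₁ q₁ b), tb_win p₁ q₁ b, tb_win (max p₂ q₁) q₂ b,
        norm_one (α := ℂ)]
    · obtain ⟨c1, c2⟩ := tloc_cover hp b (right_ne_zero_of_mul h)
      have hb0 := (tb_mem_qball.1 hb).1.1.ne_zero
      have hb1 : (0 : ℝ) < nm b := zero_lt_one.trans_le (one_le_nm hb0)
      have d1 := tloc_far (by linarith) (by linarith) hA hx₁ hb1 (hs a ha).1 (hs a ha).2 c1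
      have d2 := tloc_far (by linarith) (by linarith) hA hx₂ hb1 (hs a ha).1 (hs a ha).2 c2
      refine (tloc_K (by linarith) hLT hx₁ hx12 (mul_ne_zero (hs0 a ha) hb0)).trans ?_
      rw [nm_mul, Nat.cast_mul]
      rw [Real.rpow_neg_one] at hexp
      linarith
    · calc _ ≤ C₂ * (l ^ 2 * (l ^ 2 * 3) * 1 * (4 * X⁻¹) * X) := by gcongr
        _ = 12 * C₂ * l ^ 4 := by
            field_simp
            ring
        _ ≤ _ := by
            rw [le_div_iff₀ (by positivity)]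
            linarith [show 12 * C₂ * l ^ 4 * (5 * l ^ 52) = 60 * C₂ * l ^ 56 by ring]
  rw [e]
  refine (norm_add₃_le).trans ?_
  have t1 := two p₁ q₁ (hlen x₁ hx₁ (hx12.trans hx2))
  have t2 := two (max p₂ q₁) q₂ (le_trans (by linarith [le_max_left p₂ q₁]) (hlen x₂ hx₂ hx2))
  have e2 : X ^ (5 / 6 : ℝ) / l ^ 52 = 5 * (X ^ (5 / 6 : ℝ) / (5 * l ^ 52)) := by field_simp
  linarith

theorem tloc (hDB : DBStmt) (hNC : NCaStmt) {η : ℝ} (τ : ℝ) (hη : 0 < η) :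
    ∀ᶠ X : ℝ in atTop, ∀ (B x₁ x₂ : ℝ) (α β : O → ℂ),
      X ^ (1 / 3 : ℝ) / 100 ≤ B → B ≤ X ^ (0.34 : ℝ) →
      X / 2 ≤ x₁ → x₁ ≤ x₂ → x₂ ≤ X → Supp 16 B β → Bd (Real.log X ^ 2) α →
      Bd (Real.log X ^ 2) β → (∀ b, β b ≠ 0 → tau b ≤ τ) →
      (∀ y₁ y₂ : ℝ, SW X B η fun b => β b * win y₁ y₂ b) →
        ‖bl (ar (X / B)) B α β gq
          fun n => smc (X ^ (0.175 : ℝ)) x₁ x₂ n - smc (Real.log X ^ 40) x₁ x₂ n‖ ≤
          X ^ (5 / 6 : ℝ) / Real.log X ^ 11 := by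
  classical
  filter_upwards [tloc_one hDB hNC τ hη, tas_logC 5, eventually_gt_atTop 0]
    with X hone hl hX B x₁ x₂ α β hB1 hB2 hx1 hx12 hx2 hβ hα1 hβ1 hτ hSW
  set l := Real.log X with hl_def
  have hl0 : 0 < l := by linarith
  have hB : 0 < B := lt_of_lt_of_le (by positivity) hB1
  have hA : 0 < X / B := by positivity
  have hL1 : 1 ≤ l ^ 40 := one_le_pow₀ (by linarith)
  have hL : 0 < l ^ 40 := by linarith
  set K : O → ℂ := fun n => smc (X ^ (0.175 : ℝ)) x₁ x₂ n - smc (l ^ 40) x₁ x₂ n with hK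
  let f : O → ℕ := fun a => ⌊l ^ 40 * Real.log (X / B / nm a)⌋₊
  have he4 : Real.exp 4 ≤ 100 ∧ 32 ≤ Real.exp 4 := by
    have e : Real.exp 4 = Real.exp 1 ^ 4 := by rw [← Real.exp_nat_mul]; norm_num
    have b1 := Real.exp_one_lt_d9.le
    have b2 := Real.exp_one_gt_d9.le
    rw [e]
    constructor
    · exact (pow_le_pow_left₀ (Real.exp_pos _).le b1 4).trans (by norm_num)
    · exact le_trans (by norm_num) (pow_le_pow_left₀ (by norm_num) b2 4)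
  have hpos : ∀ a ∈ ar (X / B), (0 : ℝ) < nm a := fun a ha =>
    lt_trans (by positivity) (tb_mem_ar.1 ha).2.1
  have hmap : ∀ a ∈ ar (X / B), f a ∈ Finset.range (⌊4 * l ^ 40⌋₊ + 1) := by
    intro a ha
    refine Finset.mem_range.2 (Nat.lt_succ_of_le (Nat.floor_le_floor ?_))
    rw [mul_comm]
    refine mul_le_mul_of_nonneg_right ?_ hL.le
    rw [Real.log_le_iff_le_exp (div_pos hA (hpos a ha)), div_le_iff₀ (hpos a ha)]
    nlinarith [(tb_mem_ar.1 ha).2.1, hpos a ha, he4.2]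
  have e : bl (ar (X / B)) B α β gq K = ∑ j ∈ Finset.range (⌊4 * l ^ 40⌋₊ + 1),
      bl ((ar (X / B)).filter fun a => f a = j) B α β gq K :=
    (Finset.sum_fiberwise_of_maps_to hmap _).symm
  rw [e]
  refine (norm_sum_le _ _).trans ((Finset.sum_le_card_nsmul _ _ (X ^ (5 / 6 : ℝ) / l ^ 52)
    fun j hj => ?_).trans ?_)
  · have hj4 : (j : ℝ) / l ^ 40 ≤ 4 := by
      rw [div_le_iff₀ hL]
      exact (Nat.le_floor_iff (by positivity)).1 (Nat.lt_succ_iff.1 (Finset.mem_range.1 hj))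
    have e1 : X / B * Real.exp (-(j / l ^ 40)) * B = X * Real.exp (-(j / l ^ 40)) := by field_simp
    refine hone (X / B * Real.exp (-(j / l ^ 40))) B x₁ x₂ α β _ hB1 hB2 ?_ ?_ hx1 hx12 hx2 hβ hα1
      hβ1 hτ hSW fun a ha => ?_
    · rw [e1, div_eq_mul_inv]
      refine mul_le_mul_of_nonneg_left ?_ hX.le
      rw [Real.exp_neg]
      exact inv_anti₀ (Real.exp_pos _) ((Real.exp_le_exp.2 hj4).trans he4.1)
    · rw [e1]
      exact mul_le_of_le_one_right hX.le (Real.exp_le_one_iff.2 (neg_nonpos.2 (by positivity)))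
    · obtain ⟨ha1, ha2⟩ := Finset.mem_filter.1 ha
      have b0 := hpos a ha1
      have b1 : 0 ≤ Real.log (X / B / nm a) :=
        Real.log_nonneg ((one_le_div b0).2 (tb_mem_ar.1 ha1).2.2)
      obtain ⟨b2, b3⟩ := (Nat.floor_eq_iff (mul_nonneg hL.le b1)).1 ha2
      rw [mul_comm, ← div_le_iff₀ hL, Real.le_log_iff_exp_le (div_pos hA b0),
        le_div_iff₀ b0] at b2
      rw [mul_comm, ← lt_div_iff₀ hL, Real.log_lt_iff_lt_exp (div_pos hA b0),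
        div_lt_iff₀ b0] at b3
      constructor
      · rw [mul_assoc, ← Real.exp_add, ← neg_add, ← add_div, Real.exp_neg, ← div_eq_mul_inv,
          div_lt_iff₀ (Real.exp_pos _)]
        linarith
      · rw [Real.exp_neg, ← div_eq_mul_inv, le_div_iff₀ (Real.exp_pos _)]
        linarith
  · rw [Finset.card_range, nsmul_eq_mul]
    have b1 : ((⌊4 * l ^ 40⌋₊ + 1 : ℕ) : ℝ) ≤ l * l ^ 40 := by
      push_cast
      nlinarith [Nat.floor_le (show 0 ≤ 4 * l ^ 40 by positivity)]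
    refine (mul_le_mul_of_nonneg_right b1 (by positivity)).trans (le_of_eq ?_)
    field_simp

end Vale.Agent.P006
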