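import Vale.Agent.P006.TBl

/-! # P006 part T: Type II with a power saving.

Plan.  Take `η', C` of `DAStmt` at `η`; put `ε = min η' δ / 100` small, final exponent `η'' = min ε (1/1000)`.
If `x₂ < x₁` use `tb_S1_zero`.  Else `tb_S1`, `A = X / B`, `T = X^0.175`, `T₀ = X^0.179`,
`win = smc T + (win - smc T)` (`tb_bl_add`).
* error: `tbl_err` with `u = log X`, `g = 1 + kst` (`tker_win`, `tb_aq`): `X^{2η''} (X^{0.825} log X + X^{0.76} + 1)`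
  (`B ≤ X^{0.51}`, `tas_exp_log`).
* smooth part: `tbl_sm` with `s = ar A`, `w a = Gs 1 (N a / A) ≥ w₀ = exp (-16)` (`tb_Gs_ge`, `log 32 ≤ 4`), `D` = right side of `DAStmt` with
  `τ = X^ε` (`card_pdiv_le`, `N b ≤ 16 B`), `B² / A = B³ / X`.  `tb_sq_le` for `α` and `β`.
  `A * (A * B) = X² / B ≤ X^{5/3 - δ}`, `X²/B * (B³/X)^{1/5} = X^{9/5} B^{-2/5} ≤ X^{5/3 - 2δ/5}`, `A * A^{2/3} B^{5/3} = X^{5/3}`;
  `log (3T) ≤ log X ≤ X^ε`; tail by `tas_tail`. -/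

namespace Vale.Agent.P006

open Vale.Agent.P026 Filter
open scoped ComplexConjugate Real

theorem tp_w {A : ℝ} (hA : 0 < A) {a : O} (ha : a ∈ ar A) :
    Real.exp (-(4 : ℝ) ^ 2) ≤ Gs 1 (nm a / A) := by
  obtain ⟨-, h1, h2⟩ := tb_mem_ar.1 ha
  have h3 : 1 / 32 < (nm a : ℝ) / A := by
    rw [lt_div_iff₀ hA]
    linarith
  have h4 : (nm a : ℝ) / A ≤ 1 := (div_le_one hA).2 h2
  refine tb_Gs_ge zero_le_one ?_
  have h5 := Real.log_nonpos (by linarith) h4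
  have h6 := Real.log_le_log (by norm_num) h3.le
  have h7 : Real.log (1 / 32) = -(5 * Real.log 2) := by
    rw [one_div, Real.log_inv, show (32 : ℝ) = 2 ^ 5 by norm_num, Real.log_pow]
    norm_num
  rw [one_mul, abs_of_nonpos h5]
  linarith [Real.log_two_lt_d9]

theorem tp_D {X b ε η C C₃ S : ℝ} (hX : 1 ≤ X) (hε : 0 < ε) (hb : 1 / 3 + 100 * ε ≤ b)
    (hη : 100 * ε ≤ η) (hC : 0 < C) (hC₃ : 0 < C₃) (hS : S ≤ C₃ * (X ^ ε) ^ 2 * (16 * X ^ b)) :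
    C * (X ^ ε) ^ 4 * X ^ (1 - b) * (1 + ((X ^ b) ^ 2 / X ^ (1 - b)) ^ (1 / 5 : ℝ)) * S +
      X ^ (-η) * (X ^ (1 - b)) ^ (2 / 3 : ℝ) * (X ^ b) ^ (5 / 3 : ℝ) ≤
        (32 * C * C₃ + 1) * X ^ (2 / 3 + b - 34 * ε) := by
  have h0 : 0 < X := by linarith
  have e1 : ((X ^ b) ^ 2 / X ^ (1 - b)) ^ (1 / 5 : ℝ) = X ^ ((3 * b - 1) / 5) := by
    rw [← Real.rpow_natCast, ← Real.rpow_mul h0.le, ← Real.rpow_sub h0, ← Real.rpow_mul h0.le]
    congr 1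
    push_cast
    ring
  have h1 : 1 ≤ X ^ ((3 * b - 1) / 5) := Real.one_le_rpow hX (by linarith)
  have h2 : X ^ (-η) * (X ^ (1 - b)) ^ (2 / 3 : ℝ) * (X ^ b) ^ (5 / 3 : ℝ) ≤
      X ^ (2 / 3 + b - 34 * ε) := by
    rw [← Real.rpow_mul h0.le, ← Real.rpow_mul h0.le, ← Real.rpow_add h0, ← Real.rpow_add h0]
    exact Real.rpow_le_rpow_of_exponent_le hX (by linarith)
  have h3 : (X ^ ε) ^ 6 * X ^ (1 - b) * X ^ ((3 * b - 1) / 5) * X ^ b ≤
      X ^ (2 / 3 + b - 34 * ε) := by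
    rw [← Real.rpow_natCast, ← Real.rpow_mul h0.le, ← Real.rpow_add h0, ← Real.rpow_add h0,
      ← Real.rpow_add h0]
    refine Real.rpow_le_rpow_of_exponent_le hX ?_
    push_cast
    linarith
  have h4 : C * (X ^ ε) ^ 4 * X ^ (1 - b) * (1 + X ^ ((3 * b - 1) / 5)) * S ≤
      32 * C * C₃ * X ^ (2 / 3 + b - 34 * ε) :=
    calc _ ≤ C * (X ^ ε) ^ 4 * X ^ (1 - b) * (1 + X ^ ((3 * b - 1) / 5)) *
          (C₃ * (X ^ ε) ^ 2 * (16 * X ^ b)) := mul_le_mul_of_nonneg_left hS (by positivity)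
      _ ≤ C * (X ^ ε) ^ 4 * X ^ (1 - b) * (2 * X ^ ((3 * b - 1) / 5)) *
          (C₃ * (X ^ ε) ^ 2 * (16 * X ^ b)) := by
        gcongr
        linarith
      _ = 32 * C * C₃ * ((X ^ ε) ^ 6 * X ^ (1 - b) * X ^ ((3 * b - 1) / 5) * X ^ b) := by ring
      _ ≤ _ := mul_le_mul_of_nonneg_left h3 (by positivity)
  rw [e1]
  linarith

theorem t2p (hDA : DAStmt) : T2PStmt := by
  intro δ η hδ hη hη1
  obtain ⟨η', C, hη', hC, hD⟩ := hDA η hη hη1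
  obtain ⟨ε, hε, hε1, hε2, hε3⟩ : ∃ ε : ℝ, 0 < ε ∧ 100 * ε ≤ η' ∧ 100 * ε ≤ δ ∧ ε ≤ 1 / 1000 := by
    refine ⟨min (min η' δ) (1 / 10) / 100, by positivity, ?_, ?_, ?_⟩
    · linarith [min_le_left (min η' δ) (1 / 10), min_le_left η' δ]
    · linarith [min_le_left (min η' δ) (1 / 10), min_le_right η' δ]
    · linarith [min_le_right (min η' δ) (1 / 10)]
  obtain ⟨C₂, hC₂, h₂⟩ := card_pdiv_le (ε / 2) (by positivity)
  obtain ⟨C₃, hC₃, h₃⟩ := tb_sq_le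
  obtain ⟨C₄, hC₄, h₄⟩ := tbl_sm
  obtain ⟨C₅, hC₅, h₅⟩ := tbl_err
  have hk := tb_kst_pos
  refine ⟨ε, hε, ?_⟩
  filter_upwards [hD, eventually_gt_atTop 1, tas_pow 16 (show (0.51 : ℝ) < 1 by norm_num),
    tas_pow C₂ (show ε / 2 < ε by linarith), tas_pow 3 (show (0.175 : ℝ) < 1 by norm_num),
    tas_log 1 1 (show (0 : ℝ) < 0.001 by norm_num), tas_log 3 1 hε, tas_exp_log 1, tas_tail 1,
    tas_pow (C₃ * (32 * C * C₃ + 1) / Real.exp (-(4 : ℝ) ^ 2))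
      (show 5 / 3 - 32 * ε < 5 / 3 - 30 * ε by linarith),
    tas_pow 3 (show 5 / 6 - 14 * ε < 5 / 6 - ε by linarith),
    tas_pow (3 * (C₄ * (1 + kst))) (show 2 * ε < 5 / 6 - ε by linarith),
    tas_pow (3 * (3 * C₅ * (1 + kst))) (show 2 * ε + 0.826 < 5 / 6 - ε by linarith)]
    with X hD hX a1 a2 a3 a4 a5 a6 a7 a8 a9 a10 a11
  intro B x₁ x₂ α β hB1 hB2 hx₁ hx₂ hS hα hβ hN
  have h0 : 0 < X := by linarith
  rcases lt_or_ge x₂ x₁ with hx | hx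
  · rw [tb_S1_zero hx, norm_zero]
    positivity
  have hB0 : 0 < B := lt_of_lt_of_le (by positivity) hB1
  obtain ⟨b, rfl⟩ : ∃ b : ℝ, B = X ^ b := ⟨Real.logb X B, (Real.rpow_logb h0 hX.ne' hB0).symm⟩
  have mono : ∀ {a c : ℝ}, a ≤ c → X ^ a ≤ X ^ c := fun h =>
    Real.rpow_le_rpow_of_exponent_le hX.le h
  have e2 : ∀ a : ℝ, (X ^ a) ^ 2 = X ^ (2 * a) := fun a => by
    rw [← Real.rpow_natCast, ← Real.rpow_mul h0.le, mul_comm]
    norm_num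
  have hb1 : 1 / 3 + δ ≤ b := (Real.rpow_le_rpow_left_iff hX).1 hB1
  have hb2 : 2 * b ≤ 1 + η / 40 := (Real.rpow_le_rpow_left_iff hX).1 (e2 b ▸ hB2)
  have hA : X / X ^ b = X ^ (1 - b) := by rw [Real.rpow_sub h0, Real.rpow_one]
  have hAB : X ^ (1 - b) * X ^ b = X := by
    rw [← hA]
    field_simp
  rw [Real.rpow_one] at a1 a3
  rw [pow_one] at a4 a5
  have hT1 : 1 ≤ X ^ (0.175 : ℝ) := Real.one_le_rpow hX.le (by norm_num)
  have hlog := Real.log_pos hX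
  have hBX : 16 * X ^ b ≤ X := by linarith [mono (show b ≤ 0.51 by linarith)]
  have hw : win x₁ x₂ = fun n => smc (X ^ (0.175 : ℝ)) x₁ x₂ n +
      (win x₁ x₂ n - smc (X ^ (0.175 : ℝ)) x₁ x₂ n) := by
    funext n
    ring
  have herr := h₅ X (X ^ b) (X ^ (0.175 : ℝ)) (Real.log X) x₁ x₂ (X ^ ε) (1 + kst) α β aq
    (fun n => win x₁ x₂ n - smc (X ^ (0.175 : ℝ)) x₁ x₂ n)
    (Real.one_le_rpow hX.le (by linarith)) (by linarith) (by linarith) hlog.le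
    (by linarith [mono (show (0.001 : ℝ) ≤ 0.175 by norm_num)]) (by linarith) (by linarith)
    (by linarith) hx₂ (by linarith) hS hα hβ (fun n _ => tb_aq n) fun n hn => by
      have h1 := tker_win (T := X ^ (0.175 : ℝ)) (by linarith) (by linarith : 0 < x₁) hx hn
      have h2 := tb_Gs_pos (X ^ (0.175 : ℝ)) (nm n / x₁)
      have h3 := tb_Gs_pos (X ^ (0.175 : ℝ)) (nm n / x₂)
      exact h1.trans (by linarith)
  have hsβ := h₃ (16 * X ^ b) (X ^ ε) (qball (16 * X ^ b)) β (by linarith)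
    (fun a ha => ⟨(tb_mem_qball.1 ha).1.1.ne_zero, (tb_mem_qball.1 ha).2⟩) hβ
  have hA0 : 0 < X ^ (1 - b) := by positivity
  have hsα := h₃ (X ^ (1 - b)) (X ^ ε) (ar (X ^ (1 - b))) α hA0.le
    (fun a ha => ⟨(tb_mem_ar.1 ha).1.1.ne_zero, (tb_mem_ar.1 ha).2.2⟩) hα
  have hsm := h₄ (X ^ (0.175 : ℝ)) x₁ x₂ (X ^ (0.179 : ℝ)) (X ^ b) (X ^ (1 - b)) (X ^ ε) (1 + kst)
    (Real.exp (-(4 : ℝ) ^ 2)) ((32 * C * C₃ + 1) * X ^ (2 / 3 + b - 34 * ε)) (ar (X ^ (1 - b)))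
    α β aq (fun a => Gs 1 (nm a / X ^ (1 - b))) hT1 (by linarith) hx (by linarith) (by positivity)
    (Real.exp_pos _) hB0.le hA0.le
    (fun a ha => ⟨(tb_mem_ar.1 ha).1.1.ne_zero, (tb_mem_ar.1 ha).2.2, tp_w hA0 ha⟩) hα hβ tb_aq
    fun t ht => by
      refine (hD (X ^ (1 - b)) (X ^ b) (X ^ ε) t β _ (mono (by linarith)) ?_ (by linarith)
        hAB.le hS (tb_Bd (mono (by linarith)) hβ) (fun c hc => ?_) ?_ ht).trans
        (tp_D hX.le hε (by linarith) hε1 hC hC₃ hsβ)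
      · rw [← Real.rpow_add h0]
        exact mono (by linarith)
      · obtain ⟨h1, -, h2⟩ := hS c hc
        refine (h₂ c h1.1.ne_zero).trans (le_trans ?_ a2)
        exact mul_le_mul_of_nonneg_left
          (Real.rpow_le_rpow (Nat.cast_nonneg _) (h2.trans hBX) (by positivity)) hC₂.le
      · have e : X ^ η * (X ^ b) ^ 2 / X ^ (1 - b) = X ^ η * (X ^ b) ^ 3 / X := by
          rw [← hA]
          field_simp
        rw [e]
        exact hN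
  rw [tb_S1 α hB0 hS hx₁ hx₂, hw, tb_bl_add]
  rw [hA] at herr ⊢
  refine (norm_add_le _ _).trans ((add_le_add hsm herr).trans ?_)
  have p1 : √(∑ a ∈ ar (X ^ (1 - b)), ‖α a‖ ^ 2) *
      √((32 * C * C₃ + 1) * X ^ (2 / 3 + b - 34 * ε) / Real.exp (-(4 : ℝ) ^ 2)) ≤
        X ^ (5 / 6 - 15 * ε) := by
    rw [← Real.sqrt_mul (by positivity)]
    refine Real.sqrt_le_iff.2 ⟨by positivity, (mul_le_mul_of_nonneg_right hsα (by positivity)).trans ?_⟩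
    have e : X ^ (5 / 3 - 32 * ε) = X ^ (2 * ε) * X ^ (1 - b) * X ^ (2 / 3 + b - 34 * ε) := by
      rw [← Real.rpow_add h0, ← Real.rpow_add h0]
      congr 1
      ring
    rw [e2, e2, show 2 * (5 / 6 - 15 * ε) = 5 / 3 - 30 * ε by ring]
    refine le_trans (le_of_eq ?_) a8
    rw [e]
    ring
  have p2 : 3 * Real.log (3 * X ^ (0.175 : ℝ)) ≤ X ^ ε := by
    linarith [Real.log_le_log (by positivity) a3]
  have p3 := mul_le_mul p2 p1 (by positivity) (by positivity)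
  rw [← Real.rpow_add h0, show ε + (5 / 6 - 15 * ε) = 5 / 6 - 14 * ε by ring] at p3
  have p4 : C₄ * (X ^ (0.175 : ℝ) * Real.exp (-((X ^ (0.179 : ℝ)) ^ 2 / (8 * (X ^ (0.175 : ℝ)) ^ 2))) *
      ((X ^ ε) ^ 2 * (1 + kst) * (X ^ (1 - b) * X ^ b))) ≤ C₄ * (1 + kst) * X ^ (2 * ε) := by
    have := a7 (X ^ (0.175 : ℝ)) (by linarith) le_rfl
    rw [Real.rpow_neg_one] at this
    rw [hAB, e2 ε]
    calc _ ≤ C₄ * (X⁻¹ * (X ^ (2 * ε) * (1 + kst) * X)) := by gcongr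
      _ = _ := by field_simp
  have p5 : X * Real.log X / X ^ (0.175 : ℝ) + √(X * X ^ b) + X * Real.exp (-Real.log X ^ 2) ≤
      3 * X ^ (0.826 : ℝ) := by
    have q1 : X * Real.log X / X ^ (0.175 : ℝ) ≤ X ^ (0.826 : ℝ) := by
      rw [div_le_iff₀ (by linarith), ← Real.rpow_add h0,
        show (0.826 + 0.175 : ℝ) = 1 + 0.001 by norm_num, Real.rpow_add h0, Real.rpow_one]
      exact mul_le_mul_of_nonneg_left (by linarith) h0.le
    have q2 : √(X * X ^ b) ≤ X ^ (0.826 : ℝ) := by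
      refine Real.sqrt_le_iff.2 ⟨by positivity, ?_⟩
      rw [e2, mul_comm, ← Real.rpow_add_one h0.ne']
      exact mono (by linarith)
    have q3 : X * Real.exp (-Real.log X ^ 2) ≤ X ^ (0.826 : ℝ) := by
      rw [Real.rpow_neg_one] at a6
      refine (mul_le_mul_of_nonneg_left a6 h0.le).trans ?_
      rw [mul_inv_cancel₀ h0.ne']
      exact Real.one_le_rpow hX.le (by norm_num)
    linarith
  have p6 : C₅ * ((X ^ ε) ^ 2 * (1 + kst) * (X * Real.log X / X ^ (0.175 : ℝ) + √(X * X ^ b) +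
      X * Real.exp (-Real.log X ^ 2))) ≤ 3 * C₅ * (1 + kst) * X ^ (2 * ε + 0.826) := by
    rw [Real.rpow_add h0, e2 ε]
    calc _ ≤ C₅ * (X ^ (2 * ε) * (1 + kst) * (3 * X ^ (0.826 : ℝ))) := by gcongr
      _ = _ := by ring
  linarith

end Vale.Agent.P006
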