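import Vale.Agent.P006.VConstA

/-! V5: the constant term of `PsS`.
Plan. `B u j = [2 ≤ j] eq (-(u λ^j)) 9 * S9 (u λ^(j+2) ϱ²)`, `‖B‖ ≤ 81`.  For `Re s > 2`, `aD 9 (PsS ϱ) 0 1 s = h s * psiP 0 s` with `h s = ∑_{u unit} ∑_j B u j 3^j 3^(-j s)`
(copy `tsum_UI`, `summable_UI` and the proof of `dec` from P026/ThCDec; `Acf_PsS`), `h` is `Hol`; `RS.hol_mul`, `rs_psiP`, `RR_zero`, `RS.rho_eq`.
Evaluation of `h (4/3)` for `ϱ = ω^i λ^k`: the units are `±ω^a` (`isUnit_iff`); `S9_neg`, `S9_eq` leave `u = ±ω^i`, `j ≡ k + 1 mod 3`, with value 9.  `eq (-(u λ^j)) 9 = 1` for `j ≥ 4`;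
`eq (-(u λ²)) 9 = eq u 3`, `eq (-(u λ³)) 9 = eq (u λ) 3`, `eq x 3 = exp (2πi x.im / 3)` (`eq_def`), so the pair `±u` gives `2` or `-1`.
With `q = 3^(-1/3)`: `k = 0`: `2 q⁴ (3/2) = q`; `k = 1`: `i = 0`: `2 q² (3/2) = 3^(1/3)`, `i ≠ 0`: `q² (-1 + 2 (1/2)) = 0`; `k = 2`: `-1/3 + 2 (1/9)(3/2) = 0`.
(Suggestion: `c u j = B u j + B (-u) j` summed over `u = 1, ω, ω²`; `HasSum` over `j = 3 m + j₀` via `hasSum_geometric_of_lt_one` and `Function.Injective.hasSum_iff`, first term split off by `hasSum_nat_add_iff`.) -/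

namespace Vale.Agent.P006

open Vale.Agent.P026 Filter
open scoped ComplexConjugate Real

/-- the six units -/
def vconst_un : Fin 6 → O := ![1, -1, om, -om, om ^ 2, -om ^ 2]

theorem vconst_unit (a : Fin 6) : IsUnit (vconst_un a) := by
  rw [isUnit_iff_nm]
  revert a
  decide

theorem vconst_inj : Function.Injective vconst_un := by decide

theorem vconst_surj {u : O} (hu : IsUnit u) : ∃ a, vconst_un a = u := by
  rcases isUnit_iff.1 hu with rfl | rfl | rfl | rfl | rfl | rfl <;> decide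

theorem vconst_summable {σ : ℝ} (hσ : 1 < σ) :
    Summable fun i : ℕ × Fin 6 => ((3 : ℝ) ^ (1 - σ)) ^ i.1 * 81 :=
  Summable.mul_of_nonneg (g := fun _ : Fin 6 => (81 : ℝ))
    (summable_geometric_of_lt_one (by positivity)
      (Real.rpow_lt_one_of_one_lt_of_neg (by norm_num) (by linarith))) Summable.of_finite
    (fun _ => by positivity) fun _ => by norm_num

theorem vconst_norm_term {B : ℂ} {j : ℕ} (hB : ‖B‖ ≤ 3 ^ j * 81) {σ : ℝ} {s : ℂ}
    (hs : σ ≤ s.re) : ‖B * ((3 ^ j : ℕ) : ℂ) ^ (-s)‖ ≤ ((3 : ℝ) ^ (1 - σ)) ^ j * 81 := by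
  rw [norm_mul, Complex.norm_natCast_cpow_of_pos (by positivity), Complex.neg_re]
  have h1 : (((3 ^ j : ℕ) : ℝ)) ^ (-s.re) ≤ ((3 : ℝ) ^ (-σ)) ^ j := by
    rw [Nat.cast_pow, Nat.cast_ofNat, ← Real.rpow_natCast_mul (by norm_num),
      ← Real.rpow_mul_natCast (by norm_num), mul_comm]
    exact Real.rpow_le_rpow_of_exponent_le (by norm_num)
      (mul_le_mul_of_nonneg_right (by linarith) (Nat.cast_nonneg j))
  calc _ ≤ 3 ^ j * 81 * ((3 : ℝ) ^ (-σ)) ^ j := by gcongr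
    _ = _ := by
      rw [sub_eq_add_neg, Real.rpow_add (by norm_num), Real.rpow_one, mul_pow]; ring

theorem vconst_tsum {F : O → ℂ} (h0 : F 0 = 0) :
    ∑' c, F c = ∑' x : (ℕ × Fin 6) × O, ind (Prim x.2) * F (vconst_un x.1.2 * lam ^ x.1.1 * x.2) := by
  have hinj : Function.Injective fun x : {x : (ℕ × Fin 6) × O | Prim x.2} =>
      vconst_un x.1.1.2 * lam ^ x.1.1.1 * x.1.2 := by
    rintro ⟨⟨⟨j, a⟩, c⟩, hc⟩ ⟨⟨⟨j', a'⟩, c'⟩, hc'⟩ h
    obtain ⟨h1, rfl, rfl⟩ := decomp_unique (vconst_unit a) (vconst_unit a') hc hc' h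
    obtain rfl := vconst_inj h1
    rfl
  rw [← hinj.tsum_eq (f := F) fun c hc => ?_]
  · rw [tsum_subtype {x : (ℕ × Fin 6) × O | Prim x.2}
      fun x => F (vconst_un x.1.2 * lam ^ x.1.1 * x.2)]
    refine tsum_congr fun x => ?_
    by_cases h : Prim x.2
    · rw [Set.indicator_of_mem (by exact h), ind_of h, one_mul]
    · rw [Set.indicator_of_notMem (by exact h), ind_of_not h, zero_mul]
  · obtain ⟨u, j, c', hu, hc', rfl⟩ := exists_decomp (n := c) fun h => hc (h ▸ h0)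
    obtain ⟨a, rfl⟩ := vconst_surj hu
    exact ⟨⟨⟨⟨j, a⟩, c'⟩, hc'⟩, rfl⟩

/-- the coefficient of the unit `u` and the exponent `j` -/
noncomputable def vconst_B (ϱ u : O) (j : ℕ) : ℂ :=
  3 ^ j * ind (2 ≤ j) * eq (-(u * lam ^ j)) 9 * S9 (u * lam ^ (j + 2) * ϱ ^ 2)

theorem vconst_norm_B (ϱ u : O) (j : ℕ) : ‖vconst_B ϱ u j‖ ≤ 3 ^ j * 81 := by
  have h1 : ∀ μ, ‖S9 μ‖ ≤ 81 := fun μ => by
    refine (norm_sum_le _ _).trans ((Finset.sum_le_card_nsmul _ _ 1 fun x _ => ?_).trans ?_)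
    · rw [norm_mul]
      exact mul_le_one₀ (norm_ind_le _) (norm_nonneg _) (norm_cub_le _ _)
    · rw [card_res (by decide), show nm 9 = 81 by decide]
      simp
  rw [vconst_B, norm_mul, norm_mul, norm_mul, norm_eq, mul_one, norm_pow, Complex.norm_ofNat]
  exact mul_le_mul (mul_le_of_le_one_right (by positivity) (norm_ind_le _)) (h1 _) (norm_nonneg _)
    (by positivity)

/-- the local factor at `λ` -/
noncomputable def vconst_h (ϱ : O) (s : ℂ) : ℂ :=
  ∑' i : ℕ × Fin 6, vconst_B ϱ (vconst_un i.2) i.1 * ((3 ^ i.1 : ℕ) : ℂ) ^ (-s)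

theorem vconst_hol (ϱ : O) : Hol (vconst_h ϱ) := fun s₀ hs₀ => by
  have hs₀ : 1 < s₀.re := hs₀
  have hU : IsOpen {s : ℂ | (1 + s₀.re) / 2 < s.re} :=
    isOpen_lt continuous_const Complex.continuous_re
  refine ((Complex.differentiableOn_tsum_of_summable_norm
    (vconst_summable (σ := (1 + s₀.re) / 2) (by linarith)) (fun i => ?_) hU
    fun i w hw => vconst_norm_term (vconst_norm_B _ _ _) (le_of_lt hw)).differentiableAt
      (hU.mem_nhds (show (1 + s₀.re) / 2 < s₀.re by linarith))).differentiableWithinAt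
  exact (Differentiable.const_mul (Differentiable.const_cpow (by fun_prop)
    (Or.inl (by simp))) _).differentiableOn

theorem vconst_aD {u' : O} (hu' : IsUnit u') (k : ℕ) {s : ℂ} (hs : 2 < s.re) :
    vconst_h (u' * lam ^ k) s * psiP 0 s = aD 9 (PsS (u' * lam ^ k)) 0 1 s := by
  have hs0 : -s ≠ 0 := fun h => by
    rw [neg_eq_zero.1 h] at hs
    norm_num at hs
  have h1 := (vconst_summable (σ := 2) (by norm_num)).of_nonneg_of_le (fun _ => norm_nonneg _)
    fun i : ℕ × Fin 6 => vconst_norm_term (vconst_norm_B (u' * lam ^ k) (vconst_un i.2) i.1) hs.le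
  have h2 := summable_psi 0 Prim hs
  have h3 : vconst_h (u' * lam ^ k) s * psiP 0 s = ∑' x : (ℕ × Fin 6) × O,
      vconst_B (u' * lam ^ k) (vconst_un x.1.2) x.1.1 * ((3 ^ x.1.1 : ℕ) : ℂ) ^ (-s) *
        (ind (Prim x.2) * g3 0 x.2 * (nm x.2 : ℂ) ^ (-s)) :=
    tsum_mul_tsum_of_summable_norm
      (f := fun i : ℕ × Fin 6 =>
        vconst_B (u' * lam ^ k) (vconst_un i.2) i.1 * ((3 ^ i.1 : ℕ) : ℂ) ^ (-s))
      (g := fun c : O => ind (Prim c) * g3 0 c * (nm c : ℂ) ^ (-s)) h1 h2.norm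
  rw [h3, aD, vconst_tsum (by simp [hs0])]
  refine tsum_congr fun x => ?_
  obtain ⟨⟨j, a⟩, c⟩ := x
  by_cases hc : Prim c
  · simp only
    rw [ind_of hc, Acf_PsS (vconst_unit a) hu' j k hc, ind_of isCoprime_one_right, nm_mul, nm_mul,
      nm_pow, nm_lam, isUnit_iff_nm.1 (vconst_unit a), one_mul (3 ^ j), Nat.cast_mul,
      Complex.natCast_mul_natCast_cpow, vconst_B]
    ring
  · simp [ind_of_not hc]

theorem vconst_pair (y : O) :
    eq (-(3 * y)) 9 + eq (3 * y) 9 = ((2 * Real.cos (2 * π * y.im / 3) : ℝ) : ℂ) := by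
  have h : ∀ y : O, eq (3 * y) 9 = Complex.exp ((2 * π * y.im / 3 : ℝ) * Complex.I) := fun y => by
    have e : (3 * y * star 9).im = 27 * y.im := by
      rw [show star (9 : O) = ⟨9, 0⟩ by decide, show (3 : O) = ⟨3, 0⟩ by decide]
      simp only [QuadraticAlgebra.re_mul, QuadraticAlgebra.im_mul]
      ring
    rw [eq_def (by decide), e, show nm 9 = 81 by decide]
    push_cast
    ring_nf
  rw [← mul_neg, h, h, QuadraticAlgebra.im_neg]
  push_cast
  rw [Complex.two_cos, add_comm]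
  ring_nf

theorem vconst_pair_neg {x y : O} (h : x = 3 * y)
    (hy : y.im = 1 ∨ y.im = -1 ∨ y.im = -2) : eq (-x) 9 + eq x 9 = -1 := by
  have c1 : Real.cos (2 * π / 3) = -1 / 2 := by
    rw [show 2 * π / 3 = π - π / 3 by ring, Real.cos_pi_sub, Real.cos_pi_div_three]; norm_num
  have c2 : Real.cos (2 * π * y.im / 3) = -1 / 2 := by
    rcases hy with h | h | h <;> rw [h, ← c1] <;> push_cast
    · ring_nf
    · rw [← Real.cos_neg]; ring_nf
    · rw [← Real.cos_add_two_pi]; ring_nf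
  rw [h, vconst_pair, c2]
  norm_num

theorem vconst_sum {i : ℕ} (hi : i < 3) (k j : ℕ) :
    ∑ a, vconst_B (om ^ i * lam ^ k) (vconst_un a) j = 3 ^ j * ind (2 ≤ j) *
      (9 * ind ((j + 2 + 2 * k) % 3 = 0)) * (eq (-(om ^ i * lam ^ j)) 9 + eq (om ^ i * lam ^ j) 9) := by
  have h1 : ∀ a : ℕ, S9 (om ^ a * lam ^ (j + 2) * (om ^ i * lam ^ k) ^ 2) =
      9 * ind ((a + 2 * i) % 3 = 0 ∧ (j + 2 + 2 * k) % 3 = 0) := fun a => by
    rw [← S9_eq]; congr 1; ring
  have h2 : ∀ a : ℕ, S9 (-om ^ a * lam ^ (j + 2) * (om ^ i * lam ^ k) ^ 2) =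
      9 * ind ((a + 2 * i) % 3 = 0 ∧ (j + 2 + 2 * k) % 3 = 0) := fun a => by
    rw [neg_mul, neg_mul, S9_neg, h1]
  have a0 := h1 0
  have a1 := h1 1
  have b0 := h2 0
  have b1 := h2 1
  rw [pow_zero] at a0 b0
  rw [pow_one] at a1 b1
  simp only [Fin.sum_univ_six, vconst_un, vconst_B, Matrix.cons_val_zero, Matrix.cons_val_one,
    Matrix.cons_val, a0, a1, b0, b1, h1 2, h2 2, ind_and]
  interval_cases i <;> simp [ind_of, ind_of_not] <;> ring

theorem vconst_geo {q : ℂ} (hq : q ^ 3 = 1 / 3) {r : ℕ} (hr : r < 3) :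
    HasSum (fun j : ℕ => ind (j % 3 = r) * q ^ j) (q ^ r * (3 / 2)) := by
  have hinj : Function.Injective fun m : ℕ => 3 * m + r := fun a b h => by
    simp only at h; omega
  refine (hinj.hasSum_iff fun j hj => ?_).1 ?_
  · rw [ind_of_not fun h => hj ⟨j / 3, by simp only; omega⟩, zero_mul]
  · have h := (hasSum_geometric_of_norm_lt_one (ξ := (1 / 3 : ℂ)) (by norm_num)).mul_left (q ^ r)
    rw [show (1 - 1 / 3 : ℂ)⁻¹ = 3 / 2 by norm_num] at h
    have e : ((fun j : ℕ => ind (j % 3 = r) * q ^ j) ∘ fun m : ℕ => 3 * m + r) =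
        fun m => q ^ r * (1 / 3) ^ m := funext fun m => by
      simp only [Function.comp]
      rw [ind_of (by omega), one_mul, pow_add, pow_mul, hq, mul_comm]
    rwa [e]

theorem vconst_eval {i k : ℕ} (hi : i < 3) (hk : k < 3) {q : ℂ} (hq : q ^ 3 = 1 / 3) :
    HasSum (fun j : ℕ => ind (2 ≤ j) * (9 * ind ((j + 2 + 2 * k) % 3 = 0)) *
      (eq (-(om ^ i * lam ^ j)) 9 + eq (om ^ i * lam ^ j) 9) * q ^ j)
      (9 * if k = 0 then q else if k = 1 ∧ i = 0 then 3 * q ^ 2 else 0) := by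
  have h1 := (hasSum_nat_add_iff' 4).2
    ((vconst_geo hq (r := (k + 1) % 3) (by omega)).mul_left 18)
  rw [← hasSum_nat_add_iff' 4]
  have h4 : ∀ j, (9 : O) ∣ om ^ i * lam ^ (j + 4) := fun j =>
    ⟨om ^ i * lam ^ j, by rw [show (9 : O) = lam ^ 4 by decide]; ring⟩
  have e2 : eq (-(om ^ i * lam ^ 2)) 9 + eq (om ^ i * lam ^ 2) 9 = if i = 0 then 2 else -1 := by
    interval_cases i
    · rw [show om ^ 0 * lam ^ 2 = 3 * ⟨-1, 0⟩ by decide, vconst_pair]; simp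
    · exact vconst_pair_neg (y := ⟨0, -1⟩) (by decide) (by decide)
    · exact vconst_pair_neg (y := ⟨1, 1⟩) (by decide) (by decide)
  have e3 : eq (-(om ^ i * lam ^ 3)) 9 + eq (om ^ i * lam ^ 3) 9 = -1 := by
    interval_cases i
    · exact vconst_pair_neg (y := ⟨-1, -2⟩) (by decide) (by decide)
    · exact vconst_pair_neg (y := ⟨2, 1⟩) (by decide) (by decide)
    · exact vconst_pair_neg (y := ⟨-1, 1⟩) (by decide) (by decide)
  convert h1 using 1
  · funext j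
    have e : (j + 4 + 2 + 2 * k) % 3 = 0 ↔ (j + 4) % 3 = (k + 1) % 3 := by omega
    rw [ind_of (show 2 ≤ j + 4 by omega), eq_of_dvd (h4 j), eq_of_dvd (dvd_neg.2 (h4 j)), e]
    ring
  · simp only [Finset.sum_range_succ, Finset.sum_range_zero, e2, e3]
    interval_cases k
    · simp [ind_of, ind_of_not]
      ring
    · by_cases h : i = 0
      · simp [ind_of, ind_of_not, h]
        ring
      · simp [ind_of, ind_of_not, h]
        ring
    · simp [ind_of, ind_of_not]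
      linear_combination (27 : ℂ) * hq

theorem rho_PsS_zero {i k : ℕ} (hi : i < 3) (hk : k < 3) :
    rho (PsS (om ^ i * lam ^ k)) 0 = (9 * z0 * EE i k : ℝ) := by
  have hu : IsUnit (om ^ i) := (vconst_unit 2).pow i
  have h1 := (((rs_psiP 0).hol_mul (vconst_hol (om ^ i * lam ^ k))).congr
    fun s hs => vconst_aD hu k hs).rho_eq
  set q : ℝ := 3 ^ (-1 / 3 : ℝ) with hq
  have hq3 : q ^ 3 = 1 / 3 := by
    rw [hq, KBasic_cube _ (by norm_num), show (3 : ℝ) * (-1 / 3) = -1 by norm_num, Real.rpow_neg_one]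
    norm_num
  have hq2 : (3 : ℝ) ^ (1 / 3 : ℝ) = 3 * q ^ 2 := by
    rw [hq, ← Real.rpow_natCast, ← Real.rpow_mul (by norm_num), mul_comm,
      ← Real.rpow_add_one (by norm_num)]
    norm_num
  have hj : ∀ j : ℕ, (3 : ℂ) ^ j * ((3 ^ j : ℕ) : ℂ) ^ (-(4 / 3 : ℂ)) = (q : ℂ) ^ j := fun j => by
    have : ((3 : ℝ) ^ j) * ((3 ^ j : ℕ) : ℝ) ^ (-(4 / 3) : ℝ) = q ^ j := by
      rw [Nat.cast_pow, Nat.cast_ofNat, ← Real.rpow_natCast_mul (by norm_num), mul_comm (j : ℝ),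
        Real.rpow_mul_natCast (by norm_num), ← mul_pow, mul_comm,
        ← Real.rpow_add_one (by norm_num), hq]
      norm_num
    have h := congrArg (fun x : ℝ => (x : ℂ)) this
    simp only [Complex.ofReal_mul, Complex.ofReal_cpow (Nat.cast_nonneg _)] at h
    push_cast at h ⊢
    exact h
  have h2 := (vconst_summable (σ := 4 / 3) (by norm_num)).of_norm_bounded
    fun x : ℕ × Fin 6 => vconst_norm_term (s := 4 / 3)
      (vconst_norm_B (om ^ i * lam ^ k) (vconst_un x.2) x.1) (by norm_num)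
  have h3 := (vconst_eval hi hk (q := q) (by rw [← Complex.ofReal_pow, hq3]; norm_num)).tsum_eq
  have h4 : vconst_h (om ^ i * lam ^ k) (4 / 3) =
      9 * if k = 0 then (q : ℂ) else if k = 1 ∧ i = 0 then 3 * (q : ℂ) ^ 2 else 0 := by
    rw [vconst_h, h2.tsum_prod, ← h3]
    refine tsum_congr fun j => ?_
    rw [tsum_fintype]
    simp only
    rw [← Finset.sum_mul, vconst_sum hi, ← hj]
    ring
  rw [h1, h4, RR_zero, EE, hq2, ← hq]
  split_ifs <;> push_cast <;> ring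

end Vale.Agent.P006
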