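import Vale.Agent.P006.VPs

/-! V4: the constant term of `PsS`, local computation.
Plans. `vca_ne`: `cub om (-2) = toC om` (`cub_om`), `cub lam (-2) = 1`, and at the prime `p = 1 + 3 ω` of norm 7, `cub lam p = toC om ^ 2` (`cub_prime`, `cubP_eq_of_dvd`, `decide`; see also `SNT.lean`).
`S9_eq`: reduce exponents with `om_cube`, `cub_pow_left`, `cub_cube`; if `cub μ a ≠ 1` for a primary `a` then `S9 μ = cub μ a * S9 μ` (`sum_res_affine`, `cub_mul_right`, period 9 by `cub_ulam_congr`);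
`∑_{x mod 9} [Prim x] = 9` (`sum_res_mul` with `9 = 3 * 3`, `sum_res_ind`).
`Acf_PsS`: `PsS ϱ (c, d) = Ps ϱ 1 (-d, c)`.  Substitute `d ↦ -d`.  For `j ≥ 2` and `d` primary, `cub (u λ^j c) d * conj (cub (9 ϱ) d) = cub (u λ^(j+2) ϱ²) d * cub d c` (`cub_recip`, `conj_cub`, `81 = λ^8`, `cub (λ^6) d = 1`);
the summand has period `9 c`: `sum_res_mul_per` gives `3^j`; `sum_res_crt` (`d = c x + 9 y`) gives `cub μ c * S9 μ * cub 9 c * g3 0 c`; if `g3 0 c ≠ 0` then `c = e³ ≡ 1 mod 9` (`g3_zero_ne`, `Prim.cube`).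
For `j < 2`, `3 ∤ u λ^j c` (`decomp_unique` or norms). -/

namespace Vale.Agent.P006

open Vale.Agent.P026 Filter
open scoped ComplexConjugate Real

/-- character sum over primary classes mod 9 -/
noncomputable def S9 (μ : O) : ℂ := ∑ x ∈ res 9, ind (Prim x) * cub μ x

theorem vca_three {z : ℂ} (h3 : z ^ 3 = 1) (h1 : z ≠ 1) {v : ℕ} (h : z ^ v = 1) : v % 3 = 0 := by
  have h2 : z ^ (v % 3) = 1 := by
    rwa [← Nat.div_add_mod v 3, pow_add, pow_mul, h3, one_pow, one_mul] at h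
  by_contra h4
  have h5 : v % 3 = 1 ∨ v % 3 = 2 := by omega
  rcases h5 with h5 | h5
  · rw [h5, pow_one] at h2
    exact h1 h2
  · rw [h5] at h2
    rw [pow_succ, h2, one_mul] at h3
    exact h1 h3

theorem vca_unit (i : ℕ) : IsUnit (om ^ i) := (isUnit_iff_nm.2 (by decide)).pow i

theorem vca_ne {i k : ℕ} (h : ¬(i % 3 = 0 ∧ k % 3 = 0)) :
    ∃ a, Prim a ∧ cub (om ^ i * lam ^ k) a ≠ 1 := by
  by_contra h0
  have h' : ∀ a, Prim a → cub om a ^ i * cub lam a ^ k = 1 := fun a ha => by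
    rw [← cub_pow_left, ← cub_pow_left, ← cub_mul_left]
    exact by_contra fun h1 => h0 ⟨a, ha, h1⟩
  have o1 : toC om ≠ 1 := fun e => by
    have := toC_injective (e.trans (map_one toC).symm)
    revert this
    decide
  have o3 : toC om ^ 3 = 1 := by rw [← map_pow, om_cube, map_one]
  have a1 : cub lam (-2) = 1 := by
    rw [cub_congr (b := 1) ⟨-om, by decide⟩, cub_one_left]
  have a2 : cub om (-2) = toC om := by
    rw [cub_om prim_neg_two, show nm (-2) = 4 by decide, pow_one]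
  have h1 := h' _ prim_neg_two
  rw [a1, a2, one_pow, mul_one] at h1
  have hp : Prim ⟨1, 3⟩ := ⟨om, by decide⟩
  have b1 : cub lam ⟨1, 3⟩ ≠ 1 := fun e => by
    have h2 : cub (lam ^ 2) ⟨1, 3⟩ = cub (om ^ 2) ⟨1, 3⟩ := cub_congr ⟨-om ^ 2, by decide⟩
    rw [cub_pow_left, cub_pow_left, e, cub_om hp, show nm ⟨1, 3⟩ = 7 by decide, one_pow,
      ← pow_mul] at h2
    have := vca_three o3 o1 h2.symm
    omega
  have h2 := h' _ hp
  rw [cub_om hp, ← pow_mul, mul_comm _ i, pow_mul, h1, one_pow, one_mul] at h2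
  exact h ⟨vca_three o3 o1 h1, vca_three (cub_cube (coprime_lam hp)) b1 h2⟩

theorem S9_neg (μ : O) : S9 (-μ) = S9 μ := by
  simp only [S9, cub_neg_left]

theorem vca_per {u : O} (hu : IsUnit u) (j : ℕ) :
    Per 9 fun x => ind (Prim x) * cub (u * lam ^ j) x := by
  intro x y h
  have h3 : (3 : O) ∣ 9 := ⟨3, by norm_num⟩
  by_cases hx : Prim x
  · simp only [ind_of hx, ind_of (hx.of_dvd_sub h3 (dvd_sub_comm.1 h)), cub_ulam_congr hu j hx h]
  · simp only [ind_of_not hx, ind_of_not fun hy : Prim y => hx (hy.of_dvd_sub h3 h), zero_mul]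

theorem S9_eq (i k : ℕ) : S9 (om ^ i * lam ^ k) = 9 * ind (i % 3 = 0 ∧ k % 3 = 0) := by
  by_cases h : i % 3 = 0 ∧ k % 3 = 0
  · obtain ⟨a, rfl⟩ := Nat.dvd_of_mod_eq_zero h.1
    obtain ⟨b, rfl⟩ := Nat.dvd_of_mod_eq_zero h.2
    have e : ∀ x, ind (Prim x) * cub (om ^ (3 * a) * lam ^ (3 * b)) x = ind (3 ∣ 1 - x) := by
      intro x
      by_cases hx : Prim x
      · rw [ind_of hx, ind_of (dvd_sub_comm.1 hx), pow_mul, om_cube, one_pow, one_mul, one_mul,
          cub_pow_left, pow_mul, cub_cube (coprime_lam hx), one_pow]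
      · rw [ind_of_not hx, ind_of_not fun h => hx (dvd_sub_comm.1 h), zero_mul]
    have h3 : (3 : O) ≠ 0 := by norm_num
    have hp : Per 3 fun x => ind ((3 : O) ∣ 1 - x) := fun x y hxy => by
      refine congrArg ind (propext ⟨fun h => ?_, fun h => ?_⟩)
      · simpa using dvd_add h hxy
      · simpa using dvd_sub h hxy
    rw [ind_of h, S9]
    simp only [e]
    rw [show (9 : O) = 3 * 3 by norm_num, sum_res_mul_per h3 h3 hp, sum_res_ind h3,
      show nm 3 = 9 by decide]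
    norm_num
  · obtain ⟨a, ha, h1⟩ := vca_ne h
    have h2 := sum_res_affine (by norm_num) (vca_per (vca_unit i) k) ha.coprime_nine 0
    have e : ∀ x, ind (Prim (a * x + 0)) * cub (om ^ i * lam ^ k) (a * x + 0) =
        cub (om ^ i * lam ^ k) a * (ind (Prim x) * cub (om ^ i * lam ^ k) x) := fun x => by
      rw [add_zero]
      by_cases hx : Prim x
      · rw [ind_of hx, ind_of (ha.mul hx), cub_mul_right ha.ne_zero hx.ne_zero, one_mul, one_mul]
      · rw [ind_of_not hx, ind_of_not fun h => hx (ha.of_mul h), zero_mul, zero_mul, mul_zero]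
    simp only [e, ← Finset.mul_sum] at h2
    rw [ind_of_not h, mul_zero]
    by_contra h3
    exact h1 (mul_right_cancel₀ h3 (h2.trans (one_mul _).symm))

theorem vca_row (c d : O) : rmul (c, d) mS⁻¹ = (-d, c) := by
  simp only [rmul, mS_inv, sl2_mul, mS_00, mS_01, mS_10, mS_11]
  refine Prod.ext ?_ ?_ <;> ring

theorem vca_sum {u w c : O} (hu : IsUnit u) (hw : w ≠ 0) (j : ℕ) (hc : Prim c) :
    ∑ d ∈ res (w * (9 * c)), ind (Prim (-d)) * cub (u * lam ^ j) (-d) * cub (-d) c =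
      nm w * (S9 (u * lam ^ j) * g3 0 c) := by
  have h9 : (9 : O) ≠ 0 := by norm_num
  have hP := vca_per hu j
  have hG : Per (9 * c) fun d => ind (Prim d) * cub (u * lam ^ j) d * cub d c := fun x y h => by
    have h1 := hP x y ((dvd_mul_right 9 c).trans h)
    simp only at h1 ⊢
    rw [h1, cub_congr ((dvd_mul_left c 9).trans h)]
  have h1 := sum_res_affine (mul_ne_zero hw (mul_ne_zero h9 hc.ne_zero)) (hG.mul_left w)
    (isCoprime_one_left.neg_left) 0
  simp only [neg_mul, one_mul, add_zero] at h1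
  rw [h1, sum_res_mul_per hw (mul_ne_zero h9 hc.ne_zero) hG,
    sum_res_crt h9 hc.ne_zero hc.coprime_nine.symm hG]
  have h2 := sum_res_affine h9 hP hc.coprime_nine 0
  have h3 := sum_res_affine hc.ne_zero (f := fun y => cub y c) (fun x y h => cub_congr h)
    hc.coprime_nine.symm 0
  simp only [g3, zero_mul, eq_zero, mul_one]
  rw [S9, ← h2, ← h3, Finset.sum_mul_sum]
  congr 1
  refine Finset.sum_congr rfl fun x _ => Finset.sum_congr rfl fun y _ => ?_
  have h4 := hP (c * x + 9 * y) (c * x + 0) ⟨y, by ring⟩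
  simp only at h4
  rw [h4, cub_congr (a := c * x + 9 * y) (b := 9 * y + 0) ⟨x, by ring⟩]

theorem Acf_PsS {u u' c : O} (hu : IsUnit u) (hu' : IsUnit u') (j k : ℕ) (hc : Prim c) :
    Acf 9 (PsS (u' * lam ^ k)) 0 (u * lam ^ j * c) = 3 ^ j * ind (2 ≤ j) * eq (-(u * lam ^ j)) 9 *
      S9 (u * lam ^ (j + 2) * (u' * lam ^ k) ^ 2) * g3 0 c := by
  simp only [Acf, PsS, vca_row, Ps, zero_mul, eq_zero, mul_one, one_mul]
  by_cases hj : 2 ≤ j
  · obtain ⟨i, rfl⟩ := Nat.exists_eq_add_of_le hj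
    have h3 : (3 : O) ∣ u * lam ^ (2 + i) := ⟨-(u * lam ^ i), by rw [pow_add, lam_sq]; ring⟩
    have e1 : eq (-(u * lam ^ (2 + i) * c)) 9 = eq (-(u * lam ^ (2 + i))) 9 := by
      refine eq_congr ?_
      rw [show (9 : O) = 3 * 3 by norm_num, show -(u * lam ^ (2 + i) * c) - -(u * lam ^ (2 + i)) =
        -(u * lam ^ (2 + i) * (c - 1)) by ring]
      exact (mul_dvd_mul h3 hc).neg_right
    have e2 : u * lam ^ (2 + i + 2) * (u' * lam ^ k) ^ 2 = u * u' ^ 2 * lam ^ (2 + i + 2 + 2 * k) := by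
      ring
    have e3 : ∀ d, ind (Prim d) * cub (u * lam ^ (2 + i) * c) d * conj (cub (9 * (u' * lam ^ k)) d) =
        ind (Prim d) * cub (u * u' ^ 2 * lam ^ (2 + i + 2 + 2 * k)) d * cub d c := fun d => by
      by_cases hd : Prim d
      · have h9 : (9 : O) = lam ^ 4 := by decide
        have h1 := cub_cube (coprime_lam hd)
        rw [conj_cub, h9, ← cub_recip hc hd]
        simp only [cub_mul_left, cub_pow_left]
        linear_combination (ind (Prim d) * cub u d * cub lam d ^ (2 + i + 2 + 2 * k) * cub c d *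
          cub u' d ^ 2 * (cub lam d ^ 3 + 1)) * h1
      · simp only [ind_of_not hd, zero_mul]
    have hw : u * lam ^ (2 + i) ≠ 0 := mul_ne_zero hu.ne_zero (pow_ne_zero _ prime_lam.ne_zero)
    have h4 := vca_sum (hu.mul (hu'.pow 2)) hw (2 + i + 2 + 2 * k) hc
    rw [nm_mul, isUnit_iff_nm.1 hu, nm_pow, nm_lam, one_mul] at h4
    rw [ind_of (h3.mul_right c), ind_of hj, e1, e2, ← Finset.sum_mul,
      show 9 * (u * lam ^ (2 + i) * c) = u * lam ^ (2 + i) * (9 * c) by ring]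
    simp only [mul_one, e3]
    rw [h4]
    push_cast
    ring
  · have h3 : ¬(3 : O) ∣ u * lam ^ j * c := fun h => by
      have h1 := nm_dvd h
      have h2 := hc.nm_mod
      rw [nm_mul, nm_mul, isUnit_iff_nm.1 hu, nm_pow, nm_lam, show nm 3 = 9 by decide] at h1
      obtain rfl | rfl : j = 0 ∨ j = 1 := by omega
      all_goals omega
    simp only [ind_of_not h3, ind_of_not hj, mul_zero, zero_mul, Finset.sum_const_zero]

end Vale.Agent.P006
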