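import Vale.Agent.P006.KBasic
import Vale.Agent.P026.ThC
import Vale.Agent.P026.ThB
import Vale.Agent.P026.VorArithA

/-! Part V (theta side; sub-lead helper79): definitions.  Overview in `notes/P006_V.md`. -/

namespace Vale.Agent.P006

open Vale.Agent.P026 Filter
open scoped ComplexConjugate Real

/-- the Dirichlet series of cubic Gauss sums over all primary moduli -/
noncomputable def psiP (ν : O) (s : ℂ) : ℂ := ∑' c : O, ind (Prim c) * g3 ν c * (nm c : ℂ) ^ (-s)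
/-- its residue at `4/3` -/
noncomputable def RR (ν : O) : ℂ := open Classical in ∑ β ∈ (res 9).filter Prim, rb β ν
/-- row function whose `ν`-th series is `9 [ν ≡ e mod 3] psiP (ϱ ν)` -/
noncomputable def Ps (ϱ e : O) (r : O × O) : ℂ :=
  ind (Prim r.1) * ind ((3 : O) ∣ r.2) * cub r.2 r.1 * conj (cub (9 * ϱ) r.1) * eq (-(e * r.2)) 9
/-- the same function seen from the cusp `0` -/
noncomputable def PsS (ϱ : O) (r : O × O) : ℂ := Ps ϱ 1 (rmul r mS⁻¹)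
/-- Ramanujan sum -/
noncomputable def cr (r ν : O) : ℂ := ∑ e ∈ pdiv r, mu e * (ind (r / e ∣ ν) * nm (r / e))
/-- `(c0/9)²` -/
noncomputable def kk : ℝ := (c0 / 9) ^ 2
/-- theta series on the vertical line -/
noncomputable def thK (a : O → ℂ) (y : ℝ) : ℂ := ∑' ν : O, a ν * (Kr (y * nm ν) : ℝ)
/-- modular relation -/
def VId (a b : O → ℂ) (γ : ℂ) (A : ℝ) : Prop :=
  ∀ t : ℝ, 0 < t → thK a (A / t) = γ * (t ^ (2 / 3 : ℝ) : ℝ) * thK b (A * t)
/-- Mellin transform of `Kr` -/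
noncomputable def GG (s : ℂ) : ℂ := Complex.Gamma s * Complex.Gamma (s + 1 / 3)
/-- Dirichlet series -/
noncomputable def DS (a : O → ℂ) (s : ℂ) : ℂ := ∑' ν : O, a ν * (nm ν : ℂ) ^ (-s)
/-- gamma factor of the functional equation -/
noncomputable def gr (w : ℂ) : ℂ := GG (w - 1 / 6) / GG (5 / 6 - w)
/-- the dual kernel -/
noncomputable def vdk (ϕ : ℂ → ℂ) (ξ : ℝ) : ℂ := mellinInv 2 (fun w => gr w * ϕ (1 - w)) ξ
/-- `N(ν)^{1/6}` -/
noncomputable def n6 (ν : O) : ℂ := ((nm ν : ℝ) ^ (1 / 6 : ℝ) : ℝ)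
/-- `ζ°(2)` -/
noncomputable def z2 : ℝ := (zP 2).re
/-- the residue of `psiP 0` -/
noncomputable def z0 : ℝ := c0 / 27 / z2
/-- the constant term of `PsS (ω^i λ^k)`, divided by `9 z0` -/
noncomputable def EE (i k : ℕ) : ℝ :=
  if k = 0 then 3 ^ (-1 / 3 : ℝ) else if k = 1 ∧ i = 0 then 3 ^ (1 / 3 : ℝ) else 0
/-- the functional equation package -/
def FEq (a b : O → ℂ) (γ : ℂ) (A : ℝ) (L : ℂ → ℂ) : Prop :=
  Differentiable ℂ L ∧ (∀ α β : ℝ, ∃ M : ℝ, ∀ s : ℂ, α ≤ s.re → s.re ≤ β → ‖L s‖ ≤ M) ∧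
    (∀ s : ℂ, 4 / 3 < s.re → L s + γ * b 0 * (Real.Gamma (1 / 3) : ℝ) / (s - 2 / 3) =
      GG s * (A : ℂ) ^ (-s) * DS a s) ∧
    ∀ s : ℂ, 4 / 3 < s.re → L (2 / 3 - s) - γ * b 0 * (Real.Gamma (1 / 3) : ℝ) / s =
      γ * (GG s * (A : ℂ) ^ (-s) * DS b s)

theorem kk_pos : 0 < kk := by unfold kk; have := c0_pos; positivity
theorem vR : ResStmt := resStmt thB
theorem vH : HeckeStmt := heckeStmt vR (cuspStmt thB)
theorem vA : VAut rho := ⟨autStmt thB, fun _ hΨ ζ _ ν => rho_smul vR hΨ ζ ν⟩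
theorem n6_zero : n6 0 = 0 := by simp [n6]
theorem norm_n6 (ν : O) : ‖n6 ν‖ = (nm ν : ℝ) ^ (1 / 6 : ℝ) := by
  rw [n6, Complex.norm_real, Real.norm_of_nonneg (by positivity)]
theorem grow_conj {a : O → ℂ} (h : Grow a) : Grow fun ν => conj (a ν) := by
  obtain ⟨C, hC⟩ := h
  exact ⟨C, fun ν => by rw [Complex.norm_conj]; exact hC ν⟩
theorem thCoef_conj {C : ℝ} {a : O → ℂ} (h : ThCoef C a) : ThCoef C fun ν => conj (a ν) :=
  fun ν hν h0 => by
    simpa only [Complex.norm_conj] using h ν hν fun h1 => h0 (by simp [h1])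
theorem conj_thK (a : O → ℂ) (y : ℝ) : conj (thK a y) = thK (fun ν => conj (a ν)) y := by
  simp only [thK, Complex.conj_tsum, map_mul, Complex.conj_ofReal]
theorem VId.conj {a b : O → ℂ} {γ : ℂ} {A : ℝ} (h : VId a b γ A) :
    VId (fun ν => conj (a ν)) (fun ν => conj (b ν)) (conj γ) A := fun t ht => by
  rw [← conj_thK, ← conj_thK, h t ht, map_mul, map_mul, Complex.conj_ofReal]

end Vale.Agent.P006
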