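import Vale.Agent.P006.VDefs

/-! V6: Mellin transform of theta series on the vertical line.
Plans. `mellin_Kr`: Fubini on `(y, t) ↦ y^(s-1) t^(-2/3) e^(-t - y/t)`; `∫ y^(s-1) e^(-y/t) dy = Γ(s) t^s` (`Complex.integral_cpow_mul_exp_neg_mul_Ioi`), integrability by `integrable_prod_iff'` and the same
formula at `Re s` (cf. `WhEq_integrable`, `Wh_eq` in P026/WhEq).  `summable_thK`, `thK_cont`: `Kr_decay 2`, `Kr_anti`, `summable_rpow`, `continuousOn_tsum` on `Ici y₀` (`continuousOn_Kr`); `(1 + N)^(1/3) ≤ 2 N` for `N ≥ 1`...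
`thK_decay`: split off `ν = 0` (`Summable.tsum_eq_add_tsum_ite`, `Kr_zero`), `Kr (y N) ≤ C / (y N)^k` with `k ≥ 2`, `k ≥ -r`.
`mellin_thK`: `integral_tsum_of_summable_integral_norm` (or `hasSum_integral_of_summable_integral_norm`), `mellin_comp_mul_left`; `∑ ‖a ν‖ N^(-Re s)` converges since `1/3 - Re s < -1`; the term `ν = 0` of `DS` is `0`.
`Kr_ratio`: `t = √y u` gives `Kr y = y^(1/6) ∫ u^(-2/3) e^(-√y (u + 1/u)) du` (`integral_comp_mul_left_Ioi`), and `u + 1/u ≥ 2`. -/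

namespace Vale.Agent.P006

open Vale.Agent.P026 Filter MeasureTheory Asymptotics
open scoped ComplexConjugate Real

theorem VFE1_inner {σ t : ℝ} (hσ : 0 < σ) (ht : 0 < t) :
    ∫ y in Set.Ioi (0 : ℝ), t ^ (-2 / 3 : ℝ) * Real.exp (-(t + y / t)) * y ^ (σ - 1) =
      Real.Gamma σ * (Real.exp (-t) * t ^ (σ + 1 / 3 - 1)) := by
  have h1 : ∀ y : ℝ, t ^ (-2 / 3 : ℝ) * Real.exp (-(t + y / t)) * y ^ (σ - 1) =
      t ^ (-2 / 3 : ℝ) * Real.exp (-t) * (y ^ (σ - 1) * Real.exp (-(1 / t * y))) := fun y => by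
    rw [neg_add, Real.exp_add, one_div_mul_eq_div]
    ring
  simp only [h1]
  rw [integral_const_mul, Real.integral_rpow_mul_exp_neg_mul_Ioi hσ (by positivity),
    one_div_one_div, show σ + 1 / 3 - 1 = -2 / 3 + σ by ring, Real.rpow_add ht]
  ring

theorem VFE1_integrable {σ : ℝ} (hσ : 0 < σ) :
    Integrable (fun p : ℝ × ℝ => p.1 ^ (-2 / 3 : ℝ) * Real.exp (-(p.1 + p.2 / p.1)) * p.2 ^ (σ - 1))
      ((volume.restrict (Set.Ioi 0)).prod (volume.restrict (Set.Ioi 0))) := by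
  have hG := Real.Gamma_pos_of_pos hσ
  refine (integrable_prod_iff (Measurable.aestronglyMeasurable (by fun_prop))).2 ⟨?_, ?_⟩
  · filter_upwards [ae_restrict_mem measurableSet_Ioi] with t ht
    have ht' : 0 < t := ht
    refine Integrable.of_integral_ne_zero ?_
    rw [VFE1_inner hσ ht']
    positivity
  · refine ((Real.GammaIntegral_convergent (s := σ + 1 / 3) (by positivity)).const_mul
      (Real.Gamma σ)).congr ?_
    filter_upwards [ae_restrict_mem measurableSet_Ioi] with t ht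
    have ht' : 0 < t := ht
    rw [← VFE1_inner hσ ht']
    refine setIntegral_congr_fun measurableSet_Ioi fun y hy => ?_
    have hy' : 0 < y := hy
    exact (Real.norm_of_nonneg (by positivity)).symm

theorem mellin_Kr {s : ℂ} (hs : 0 < s.re) : HasMellin (fun y => (Kr y : ℂ)) s (GG s) := by
  have h2 : Integrable (fun p : ℝ × ℝ => (p.2 : ℂ) ^ (s - 1) *
      ((p.1 ^ (-2 / 3 : ℝ) * Real.exp (-(p.1 + p.2 / p.1)) : ℝ) : ℂ))
      ((volume.restrict (Set.Ioi 0)).prod (volume.restrict (Set.Ioi 0))) := by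
    refine (VFE1_integrable hs).mono' (Measurable.aestronglyMeasurable (by fun_prop)) ?_
    filter_upwards [Measure.quasiMeasurePreserving_fst.ae (ae_restrict_mem measurableSet_Ioi),
      Measure.quasiMeasurePreserving_snd.ae (ae_restrict_mem measurableSet_Ioi)] with p hp hq
    have hp' : 0 < p.1 := hp
    rw [norm_mul, Complex.norm_cpow_eq_rpow_re_of_pos hq, Complex.norm_real,
      Real.norm_of_nonneg (by positivity), mul_comm]
    simp
  have h3 : ∀ y : ℝ, ∫ t in Set.Ioi (0 : ℝ), (y : ℂ) ^ (s - 1) *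
      ((t ^ (-2 / 3 : ℝ) * Real.exp (-(t + y / t)) : ℝ) : ℂ) = (y : ℂ) ^ (s - 1) • (Kr y : ℂ) := by
    intro y
    rw [integral_const_mul, integral_complex_ofReal]
    rfl
  have h4 : ∀ t ∈ Set.Ioi (0 : ℝ), ∫ y in Set.Ioi (0 : ℝ), (y : ℂ) ^ (s - 1) *
      ((t ^ (-2 / 3 : ℝ) * Real.exp (-(t + y / t)) : ℝ) : ℂ) =
      Complex.Gamma s * ((Real.exp (-t) : ℂ) * (t : ℂ) ^ (s + 1 / 3 - 1)) := by
    intro t ht
    have ht' : 0 < t := ht
    have ht0 : (t : ℂ) ≠ 0 := Complex.ofReal_ne_zero.2 ht'.ne'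
    have h5 : ∀ y : ℝ, (y : ℂ) ^ (s - 1) * ((t ^ (-2 / 3 : ℝ) * Real.exp (-(t + y / t)) : ℝ) : ℂ) =
        (t : ℂ) ^ (-2 / 3 : ℂ) * (Real.exp (-t) : ℂ) *
          ((y : ℂ) ^ (s - 1) * Complex.exp (-((1 / t : ℝ) * y))) := fun y => by
      rw [neg_add, Real.exp_add, Complex.ofReal_mul, Complex.ofReal_mul,
        Complex.ofReal_cpow ht'.le, Complex.ofReal_exp (-(y / t))]
      push_cast
      rw [one_div_mul_eq_div]
      ring
    simp only [h5]
    rw [integral_const_mul, Complex.integral_cpow_mul_exp_neg_mul_Ioi hs (by positivity),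
      Complex.ofReal_div, Complex.ofReal_one, one_div_one_div,
      show s + 1 / 3 - 1 = -2 / 3 + s by ring, Complex.cpow_add _ _ ht0]
    ring
  refine ⟨?_, ?_⟩
  · have h6 := h2.integral_prod_right
    simp only [h3] at h6
    exact h6
  · have h6 := integral_integral_swap (f := fun t y : ℝ => (y : ℂ) ^ (s - 1) *
      ((t ^ (-2 / 3 : ℝ) * Real.exp (-(t + y / t)) : ℝ) : ℂ)) h2
    simp only [h3] at h6
    rw [mellin, ← h6, setIntegral_congr_fun measurableSet_Ioi h4, integral_const_mul, GG,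
      Complex.Gamma_eq_integral (s := s + 1 / 3) (by simp; positivity), Complex.GammaIntegral]

theorem VFE1_grow {a : O → ℂ} (ha : Grow a) :
    ∃ C : ℝ, 0 ≤ C ∧ ∀ ν, ν ≠ 0 → ‖a ν‖ ≤ C * (nm ν : ℝ) ^ (1 / 3 : ℝ) := by
  obtain ⟨C, h⟩ := ha
  have hC : 0 ≤ C := by simpa using (norm_nonneg _).trans (h 0)
  refine ⟨C * 2 ^ (1 / 3 : ℝ), by positivity, fun ν hν => (h ν).trans ?_⟩
  have h1 := one_le_nm hν
  rw [mul_assoc, ← Real.mul_rpow (by norm_num) (by positivity)]
  gcongr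
  linarith

theorem VFE1_term {a : O → ℂ} (ha : Grow a) {k : ℕ} (hk : 2 ≤ k) :
    ∃ C : ℝ, 0 ≤ C ∧ ∀ y : ℝ, 0 < y → ∀ ν, ν ≠ 0 →
      ‖a ν * (Kr (y * nm ν) : ℝ)‖ ≤ C / y ^ k * (nm ν : ℝ) ^ (-(5 / 3) : ℝ) := by
  obtain ⟨C, hC, h⟩ := VFE1_grow ha
  obtain ⟨D, hD, h'⟩ := Kr_decay k
  refine ⟨C * D, by positivity, fun y hy ν hν => ?_⟩
  have h1 := one_le_nm hν
  have h2 : 0 < y * nm ν := by positivity
  rw [norm_mul, Complex.norm_real, Real.norm_of_nonneg (Kr_pos h2.le).le]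
  calc _ ≤ C * (nm ν : ℝ) ^ (1 / 3 : ℝ) * (D / (y ^ k * (nm ν : ℝ) ^ 2)) := by
        refine mul_le_mul (h ν hν) ((h' _ h2).trans ?_) (Kr_pos h2.le).le (by positivity)
        rw [mul_pow]
        gcongr
    _ = _ := by
        rw [show (-(5 / 3) : ℝ) = 1 / 3 - (2 : ℕ) by norm_num, Real.rpow_sub_natCast (by positivity)]
        field_simp

theorem summable_thK {a : O → ℂ} (ha : Grow a) {y : ℝ} (hy : 0 < y) :
    Summable fun ν : O => ‖a ν * (Kr (y * nm ν) : ℝ)‖ := by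
  obtain ⟨C, -, h⟩ := VFE1_term ha le_rfl
  refine Summable.of_norm_bounded_eventually ((summable_rpow (σ := 5 / 3) (by norm_num)).mul_left
    (C / y ^ 2)) ?_
  filter_upwards [Set.Finite.compl_mem_cofinite (Set.finite_singleton (0 : O))] with ν hν
  rw [norm_norm]
  exact h y hy ν hν

theorem thK_cont {a : O → ℂ} (ha : Grow a) : ContinuousOn (thK a) (Set.Ioi 0) := by
  intro y hy
  have hy' : 0 < y / 2 := half_pos hy
  have h1 : ContinuousOn (thK a) (Set.Ici (y / 2)) := by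
    refine continuousOn_tsum (f := fun (ν : O) (x : ℝ) => a ν * (Kr (x * nm ν) : ℝ))
      (fun ν => ?_) (summable_thK ha hy') fun ν x hx => ?_
    · refine continuousOn_const.mul (Complex.continuous_ofReal.comp_continuousOn
        (continuousOn_Kr.comp (Continuous.continuousOn (by fun_prop)) fun x hx => ?_))
      exact mul_nonneg (hy'.le.trans hx) (Nat.cast_nonneg _)
    · have h2 : y / 2 * nm ν ≤ x * nm ν := mul_le_mul_of_nonneg_right hx (Nat.cast_nonneg _)
      have h3 : 0 ≤ y / 2 * nm ν := by positivity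
      rw [norm_mul, norm_mul, Complex.norm_real, Complex.norm_real,
        Real.norm_of_nonneg (Kr_pos h3).le, Real.norm_of_nonneg (Kr_pos (h3.trans h2)).le]
      exact mul_le_mul_of_nonneg_left (Kr_anti h3 h2) (norm_nonneg _)
  exact (h1.continuousAt (Ici_mem_nhds (half_lt_self hy))).continuousWithinAt

theorem VFE1_split {a : O → ℂ} (ha : Grow a) {y : ℝ} (hy : 0 < y) :
    thK a y - a 0 * (Real.Gamma (1 / 3) : ℝ) =
      ∑' ν : O, if ν = 0 then 0 else a ν * (Kr (y * nm ν) : ℝ) := by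
  rw [thK, (summable_thK ha hy).of_norm.tsum_eq_add_tsum_ite 0, nm_zero, Nat.cast_zero, mul_zero,
    Kr_zero, add_sub_cancel_left]

theorem thK_decay {a : O → ℂ} (ha : Grow a) {A : ℝ} (hA : 0 < A) (r : ℝ) :
    (fun t : ℝ => thK a (A * t) - a 0 * (Real.Gamma (1 / 3) : ℝ)) =O[atTop] fun t : ℝ => t ^ r := by
  obtain ⟨k, hk⟩ := exists_nat_ge (-r)
  obtain ⟨C, hC, h⟩ := VFE1_term ha (k := k + 2) (by omega)
  have hS := summable_rpow (σ := 5 / 3) (by norm_num)
  refine IsBigO.of_bound (C / A ^ (k + 2) * ∑' ν : O, (nm ν : ℝ) ^ (-(5 / 3) : ℝ)) ?_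
  filter_upwards [eventually_ge_atTop (1 : ℝ)] with t ht
  have ht0 : 0 < t := by linarith
  have hy : 0 < A * t := by positivity
  have h0 : 0 ≤ ∑' ν : O, (nm ν : ℝ) ^ (-(5 / 3) : ℝ) := tsum_nonneg fun _ => by positivity
  rw [VFE1_split ha hy]
  refine (tsum_of_norm_bounded (hS.hasSum.mul_left (C / (A * t) ^ (k + 2))) fun ν => ?_).trans ?_
  · split_ifs with hν
    · rw [norm_zero]; positivity
    · exact h _ hy ν hν
  · have h1 : (t ^ (k + 2))⁻¹ ≤ t ^ r := by
      rw [← Real.rpow_natCast, ← Real.rpow_neg ht0.le]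
      refine Real.rpow_le_rpow_of_exponent_le ht ?_
      push_cast
      linarith
    rw [Real.norm_of_nonneg (by positivity), mul_pow, ← div_div, div_eq_mul_inv (C / _),
      mul_right_comm]
    exact mul_le_mul_of_nonneg_left h1 (by positivity)

theorem summable_DS {a : O → ℂ} (ha : Grow a) {σ : ℝ} (hσ : 4 / 3 < σ) :
    Summable fun ν : O => ‖a ν‖ * (nm ν : ℝ) ^ (-σ) := by
  obtain ⟨C, -, h⟩ := VFE1_grow ha
  refine Summable.of_norm_bounded_eventually ((summable_rpow (σ := σ - 1 / 3)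
    (by linarith)).mul_left C) ?_
  filter_upwards [Set.Finite.compl_mem_cofinite (Set.finite_singleton (0 : O))] with ν hν
  have h1 := one_le_nm (show ν ≠ 0 from hν)
  rw [Real.norm_of_nonneg (by positivity), show -(σ - 1 / 3) = 1 / 3 + -σ by ring,
    Real.rpow_add (by linarith), ← mul_assoc]
  exact mul_le_mul_of_nonneg_right (h ν hν) (by positivity)

theorem VFE1_scale (σ : ℝ) {c : ℝ} (hc : 0 < c) :
    ∫ t in Set.Ioi (0 : ℝ), t ^ (σ - 1) * Kr (c * t) =
      c ^ (-σ) * ∫ t in Set.Ioi (0 : ℝ), t ^ (σ - 1) * Kr t := by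
  have h1 := integral_comp_mul_left_Ioi (fun t : ℝ => t ^ (σ - 1) * Kr t) 0 hc
  rw [mul_zero, smul_eq_mul] at h1
  have h2 : ∀ t ∈ Set.Ioi (0 : ℝ), t ^ (σ - 1) * Kr (c * t) =
      c ^ (1 - σ) * ((c * t) ^ (σ - 1) * Kr (c * t)) := fun t ht => by
    rw [Real.mul_rpow hc.le (le_of_lt ht), ← mul_assoc, ← mul_assoc, ← Real.rpow_add hc]
    simp
  rw [setIntegral_congr_fun measurableSet_Ioi h2, integral_const_mul, h1, ← mul_assoc,
    show -σ = 1 - σ - 1 by ring, Real.rpow_sub_one hc.ne' (1 - σ), div_eq_mul_inv]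

theorem mellin_thK {a : O → ℂ} (ha : Grow a) {A : ℝ} (hA : 0 < A) {s : ℂ} (hs : 4 / 3 < s.re) :
    mellin (fun t : ℝ => thK a (A * t) - a 0 * (Real.Gamma (1 / 3) : ℝ)) s =
      GG s * (A : ℂ) ^ (-s) * DS a s := by
  have hs0 : 0 < s.re := by linarith
  obtain ⟨F, hF⟩ : ∃ F : O → ℝ → ℂ, F = fun (ν : O) (t : ℝ) => (t : ℂ) ^ (s - 1) •
      (if ν = 0 then 0 else a ν * (Kr (A * t * nm ν) : ℝ)) := ⟨_, rfl⟩
  have hF0 : F 0 = fun _ => 0 := by
    funext t
    simp [hF]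
  have hFe : ∀ ν, ν ≠ 0 →
      F ν = fun t : ℝ => a ν * ((t : ℂ) ^ (s - 1) • (Kr (A * nm ν * t) : ℂ)) := by
    intro ν hν
    funext t
    simp only [hF, if_neg hν, smul_eq_mul, mul_right_comm A t]
    ring
  have hpos : ∀ ν : O, ν ≠ 0 → (0 : ℝ) < A * nm ν := fun ν hν =>
    mul_pos hA (zero_lt_one.trans_le (one_le_nm hν))
  have hint : ∀ ν, Integrable (F ν) (volume.restrict (Set.Ioi 0)) := by
    intro ν
    rcases eq_or_ne ν 0 with rfl | hν
    · rw [hF0]; exact integrable_zero _ _ _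
    · rw [hFe ν hν]
      exact Integrable.const_mul ((MellinConvergent.comp_mul_left (f := fun y => (Kr y : ℂ))
        (hpos ν hν)).2 (mellin_Kr hs0).1) _
  have hsum : Summable fun ν => ∫ t in Set.Ioi (0 : ℝ), ‖F ν t‖ := by
    refine ((summable_DS ha hs).mul_right (A ^ (-s.re) *
      ∫ t in Set.Ioi (0 : ℝ), t ^ (s.re - 1) * Kr t)).congr fun ν => ?_
    rcases eq_or_ne ν 0 with rfl | hν
    · rw [hF0, nm_zero, Nat.cast_zero, Real.zero_rpow (by linarith)]
      simp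
    · have h3 : ∀ t ∈ Set.Ioi (0 : ℝ), ‖F ν t‖ =
          ‖a ν‖ * (t ^ (s.re - 1) * Kr (A * nm ν * t)) := fun t ht => by
        have ht' : 0 < t := ht
        have := hpos ν hν
        simp only [hFe ν hν]
        rw [norm_mul, norm_smul, Complex.norm_cpow_eq_rpow_re_of_pos ht, Complex.norm_real,
          Real.norm_of_nonneg (Kr_pos (by positivity)).le, Complex.sub_re, Complex.one_re]
      rw [setIntegral_congr_fun measurableSet_Ioi h3, integral_const_mul,
        VFE1_scale _ (hpos ν hν), Real.mul_rpow hA.le (Nat.cast_nonneg _)]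
      ring
  have key := integral_tsum_of_summable_integral_norm hint hsum
  have e1 : mellin (fun t : ℝ => thK a (A * t) - a 0 * (Real.Gamma (1 / 3) : ℝ)) s =
      ∫ t in Set.Ioi (0 : ℝ), ∑' ν, F ν t := by
    refine setIntegral_congr_fun measurableSet_Ioi fun t ht => ?_
    simp only [hF, smul_eq_mul]
    rw [VFE1_split ha (mul_pos hA ht), tsum_mul_left]
  rw [e1, ← key, DS, ← tsum_mul_left]
  refine tsum_congr fun ν => ?_
  rcases eq_or_ne ν 0 with rfl | hν
  · have : -s ≠ 0 := by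
      intro h
      rw [neg_eq_zero.1 h, Complex.zero_re] at hs0
      exact lt_irrefl _ hs0
    rw [hF0, nm_zero, Nat.cast_zero, Complex.zero_cpow this]
    simp
  · have h4 := mellin_comp_mul_left (fun y => (Kr y : ℂ)) s (hpos ν hν)
    rw [(mellin_Kr hs0).2, mellin, Complex.ofReal_mul,
      Complex.mul_cpow_ofReal_nonneg hA.le (Nat.cast_nonneg _), Complex.ofReal_natCast] at h4
    rw [hFe ν hν, integral_const_mul, h4, smul_eq_mul]
    ring

theorem Kr_ratio {y y' : ℝ} (hy : 0 < y) (h : y ≤ y') :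
    Kr y' ≤ Kr y * (y' / y) ^ (1 / 6 : ℝ) * Real.exp (-(2 * (√y' - √y))) := by
  have hy' : 0 < y' := hy.trans_le h
  have hc1 : 1 ≤ √(y' / y) := Real.one_le_sqrt.2 ((one_le_div hy).2 h)
  have hc2 : √(y' / y) * √y = √y' := by
    rw [← Real.sqrt_mul (by positivity), div_mul_cancel₀ _ hy.ne']
  have hc3 : √(y' / y) * √(y' / y) * y = y' := by
    rw [Real.mul_self_sqrt (by positivity), div_mul_cancel₀ _ hy.ne']
  have hc4 : (y' / y) ^ (1 / 6 : ℝ) = √(y' / y) * √(y' / y) ^ (-2 / 3 : ℝ) := by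
    rw [Real.sqrt_eq_rpow, ← Real.rpow_mul (by positivity), ← Real.rpow_add (by positivity)]
    norm_num
  rw [hc4, ← hc2]
  generalize √(y' / y) = c at hc1 hc3
  have hc0 : 0 < c := by linarith
  have h1 := integral_comp_mul_left_Ioi'
    (fun t : ℝ => t ^ (-2 / 3 : ℝ) * Real.exp (-(t + y' / t))) 0 hc0
  rw [mul_zero, smul_eq_mul] at h1
  have h2 : ∫ u in Set.Ioi (0 : ℝ), (c * u) ^ (-2 / 3 : ℝ) * Real.exp (-(c * u + y' / (c * u))) ≤
      ∫ u in Set.Ioi (0 : ℝ), c ^ (-2 / 3 : ℝ) * Real.exp (-(2 * (c * √y - √y))) *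
        (u ^ (-2 / 3 : ℝ) * Real.exp (-(u + y / u))) := by
    refine integral_mono_of_nonneg ?_ ((integrableOn_Kr hy.le).const_mul _) ?_
    · filter_upwards [ae_restrict_mem measurableSet_Ioi] with u hu
      have hu' : 0 < u := hu
      positivity
    · filter_upwards [ae_restrict_mem measurableSet_Ioi] with u hu
      have hu' : 0 < u := hu
      have h3 : 2 * √y ≤ u + y / u := by
        have h4 := Real.mul_self_sqrt hy.le
        rw [← sub_le_iff_le_add', le_div_iff₀ hu']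
        nlinarith [sq_nonneg (u - √y)]
      have h5 : y' / (c * u) = c * (y / u) := by
        rw [← hc3]; field_simp
      rw [Real.mul_rpow hc0.le hu'.le, mul_mul_mul_comm (c ^ _) (Real.exp _), ← Real.exp_add, h5]
      refine mul_le_mul_of_nonneg_left (Real.exp_le_exp.2 ?_) (by positivity)
      nlinarith [mul_le_mul_of_nonneg_left h3 (sub_nonneg.2 hc1)]
  rw [integral_const_mul] at h2
  unfold Kr
  rw [← h1]
  refine (mul_le_mul_of_nonneg_left h2 hc0.le).trans (le_of_eq ?_)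
  ring

end Vale.Agent.P006
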