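import Vale.Agent.P006.VFE1
import Vale.Agent.P006.KGam

/-! V7: functional equation and Voronoi identity.
Plans. `exists_feq`: Mathlib `WeakFEPair` with `f t = thK a (A t)`, `g t = thK b (A t)`, `k = 2/3`, `ε = γ`, `f₀ = 0`, `g₀ = b 0 Γ(1/3)`; `L = P.Λ₀`; `differentiable_Λ₀`, `hasMellin` (for `P` and `P.symm`),
`functional_equation`, `mellin_thK`.  Bound on strips: `Λ₀ = mellin f_modif`, `isStrongFEPair_toStrongFEPair.hasMellin` at `α` and `β`, `t^(σ-1) ≤ t^(α-1) + t^(β-1)`.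
`norm_gr_*`: `norm_Gamma_ratio` with `n = 0` (`s = 1/3 + it`, `2/3 + it`) and `n = 3` (`s = -7/6 + it`, `-5/6 + it`).  `gr w = Γ(w - 1/6) Γ(w + 1/6) (Γ(5/6 - w))⁻¹ (Γ(7/6 - w))⁻¹`: `expG_Gamma`, `expG_invGamma`,
`Complex.differentiable_one_div_Gamma`.
`vor_id`: `tsum_mellinInv` on the line 2: the left side is `(1/2π) ∫ ϕ(w) x^w DS a (w - 1/6)`; with `H w = ϕ w x^w A^(w - 1/6) / GG (w - 1/6)` (`Dec`, `HolS` on `[-1, 2]`) the integrand is
`H w L (w - 1/6) + ρ H w / (w - 5/6)`, `ρ = γ b 0 Γ(1/3)`; `integral_shift`, `integral_shift_pole` from `2` to `-1`; `GG (2/3) = Γ(2/3)`; on `Re = -1` substitute `t ↦ -t` (`w ↦ 1 - w`), fourth part of `FEq` at `s = w - 1/6`,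
and `tsum_mellinInv` backwards. -/

namespace Vale.Agent.P006

open Vale.Agent.P026 Filter MeasureTheory
open scoped ComplexConjugate Real

theorem vvor_strip {f : ℝ → ℂ} (hf : ∀ s : ℂ, MellinConvergent f s) (α β : ℝ) :
    ∃ M : ℝ, ∀ s : ℂ, α ≤ s.re → s.re ≤ β → ‖mellin f s‖ ≤ M := by
  refine ⟨∫ t in Set.Ioi (0 : ℝ), (‖(t : ℂ) ^ ((α : ℂ) - 1) • f t‖ + ‖(t : ℂ) ^ ((β : ℂ) - 1) • f t‖),
    fun s h1 h2 => ?_⟩
  refine norm_integral_le_of_norm_le ((hf α).norm.add (hf β).norm) ?_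
  refine (ae_restrict_iff' measurableSet_Ioi).2 (Eventually.of_forall fun t (ht : 0 < t) => ?_)
  simp only [norm_smul, Complex.norm_cpow_eq_rpow_re_of_pos ht, Complex.sub_re, Complex.ofReal_re,
    Complex.one_re, ← add_mul]
  refine mul_le_mul_of_nonneg_right ?_ (norm_nonneg _)
  rcases le_total t 1 with h | h
  · exact le_add_of_le_of_nonneg (Real.rpow_le_rpow_of_exponent_ge ht h (by linarith))
      (by positivity)
  · exact le_add_of_nonneg_of_le (by positivity) (Real.rpow_le_rpow_of_exponent_le h (by linarith))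

theorem vvor_loc {a : O → ℂ} (ha : Grow a) {A : ℝ} (hA : 0 < A) :
    LocallyIntegrableOn (fun t : ℝ => thK a (A * t)) (Set.Ioi 0) :=
  ((thK_cont ha).comp (continuous_const.mul continuous_id).continuousOn
    fun _ ht => mul_pos hA ht).locallyIntegrableOn measurableSet_Ioi

theorem exists_feq {a b : O → ℂ} {γ : ℂ} {A : ℝ} (ha : Grow a) (hb : Grow b) (h0 : a 0 = 0)
    (hγ : γ ≠ 0) (hA : 0 < A) (h : VId a b γ A) : ∃ L, FEq a b γ A L := by
  let P : WeakFEPair ℂ :=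
    { f := fun t => thK a (A * t)
      g := fun t => thK b (A * t)
      k := 2 / 3
      ε := γ
      f₀ := a 0 * (Real.Gamma (1 / 3) : ℝ)
      g₀ := b 0 * (Real.Gamma (1 / 3) : ℝ)
      hf_int := vvor_loc ha hA
      hg_int := vvor_loc hb hA
      hk := by norm_num
      hε := hγ
      h_feq := fun x hx => by rw [mul_one_div, h x hx, smul_eq_mul]
      hf_top := thK_decay ha hA
      hg_top := thK_decay hb hA }
  have hk : ((P.k : ℝ) : ℂ) = 2 / 3 := by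
    change (((2 / 3 : ℝ)) : ℂ) = 2 / 3
    push_cast
    rfl
  have hk' : P.k = 2 / 3 := rfl
  have e0 : P.f₀ = 0 := by
    change a 0 * _ = 0
    rw [h0, zero_mul]
  refine ⟨P.Λ₀, P.differentiable_Λ₀,
    vvor_strip fun s => (P.isStrongFEPair_toStrongFEPair.hasMellin s).1, fun s hs => ?_,
    fun s hs => ?_⟩
  · have h1 := (P.hasMellin (s := s) (by rw [hk']; linarith)).2
    rw [← mellin_thK ha hA hs]
    refine Eq.trans ?_ h1.symm
    rw [WeakFEPair.Λ, e0, hk, smul_zero, sub_zero, smul_eq_mul, ← neg_sub s, div_neg]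
    change _ = _ - -(γ / _) * (b 0 * _)
    ring
  · have h1 := (P.symm.hasMellin (s := s) (by change (2 / 3 : ℝ) < _; linarith)).2
    have h2 := P.functional_equation s
    rw [← h1, WeakFEPair.Λ, e0, hk, smul_zero, sub_zero, smul_eq_mul, smul_eq_mul,
      sub_sub_cancel] at h2
    rw [← mellin_thK hb hA hs]
    refine Eq.trans ?_ h2
    change _ = _ - γ / s * (b 0 * _)
    ring

theorem vvor_gr (w : ℂ) : gr w = Complex.Gamma (w - 1 / 6) / Complex.Gamma (5 / 6 - w) *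
    (Complex.Gamma (w + 1 / 6) / Complex.Gamma (7 / 6 - w)) := by
  rw [gr, GG, GG, div_mul_div_comm]
  congr 3 <;> ring

theorem norm_gr_half (t : ℝ) : ‖gr ((1 / 2 : ℝ) + t * Complex.I)‖ ≤ 1 := by
  have h1 := norm_Gamma_ratio 0 ((1 / 3 : ℝ) + t * Complex.I)
  have h2 := norm_Gamma_ratio 0 ((2 / 3 : ℝ) + t * Complex.I)
  simp only [map_add, map_mul, Complex.conj_ofReal, Complex.conj_I, pow_zero, Nat.cast_zero,
    add_zero] at h1 h2
  rw [vvor_gr, norm_mul]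
  refine mul_le_one₀ ?_ (norm_nonneg _) ?_
  · refine le_of_eq_of_le ?_ h1
    congr 3 <;> push_cast <;> ring
  · refine le_of_eq_of_le ?_ h2
    congr 3 <;> push_cast <;> ring

theorem vvor_norm (c t : ℝ) : ‖(c : ℂ) + t * Complex.I‖ ≤ |c| + |t| :=
  (norm_add_le _ _).trans (by simp)

theorem norm_gr_two (t : ℝ) : ‖gr ((2 : ℝ) + t * Complex.I)‖ ≤ (5 + |t|) ^ 6 := by
  have h1 := norm_Gamma_ratio 3 ((-7 / 6 : ℝ) + t * Complex.I)
  have h2 := norm_Gamma_ratio 3 ((-5 / 6 : ℝ) + t * Complex.I)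
  have n1 := vvor_norm (-7 / 6) t
  have n2 := vvor_norm (-5 / 6) t
  rw [abs_of_neg (by norm_num)] at n1 n2
  simp only [map_add, map_mul, Complex.conj_ofReal, Complex.conj_I] at h1 h2
  rw [vvor_gr, norm_mul, show (5 + |t|) ^ 6 = (5 + |t|) ^ 3 * (5 + |t|) ^ 3 by ring]
  refine mul_le_mul ?_ ?_ (norm_nonneg _) (by positivity)
  · refine le_trans (le_of_eq ?_) (h1.trans (pow_le_pow_left₀ (by positivity) ?_ 3))
    · congr 3 <;> push_cast <;> ring
    · push_cast at n1 ⊢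
      linarith
  · refine le_trans (le_of_eq ?_) (h2.trans (pow_le_pow_left₀ (by positivity) ?_ 3))
    · congr 3 <;> push_cast <;> ring
    · push_cast at n2 ⊢
      linarith

theorem vvor_refl (a b c : ℝ) : ExpG a b fun w => (Complex.Gamma (c - w))⁻¹ := by
  obtain ⟨C, hC⟩ := expG_invGamma (-b) (-a) c
  refine ⟨C, fun w h1 h2 => ?_⟩
  have := hC (-w) (by simpa using h2) (by simpa using h1)
  simpa [neg_add_eq_sub] using this

theorem expG_gr : ExpG (1 / 2) 2 gr := by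
  have h := ((expG_Gamma (a := 1 / 2) 2 (c := -1 / 6) (by norm_num)).mul (vvor_refl _ _ (5 / 6))).mul
    ((expG_Gamma (a := 1 / 2) 2 (c := 1 / 6) (by norm_num)).mul (vvor_refl _ _ (7 / 6)))
  convert h using 2 with w
  rw [vvor_gr, div_eq_mul_inv, div_eq_mul_inv (Complex.Gamma (w + 1 / 6))]
  push_cast
  congr 3
  ring

theorem vvor_diff {s : ℂ} (hs : 0 < s.re) : DifferentiableAt ℂ Complex.Gamma s :=
  Complex.differentiableAt_Gamma s fun m hm => by
    rw [hm] at hs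
    simp at hs
    linarith [Nat.cast_nonneg (α := ℝ) m]

theorem vvor_inv {g : ℂ → ℂ} (hg : Differentiable ℂ g) :
    Differentiable ℂ fun w => (Complex.Gamma (g w))⁻¹ :=
  Complex.differentiable_one_div_Gamma.comp hg

theorem holS_gr : HolS (1 / 2) 2 gr := by
  intro w h1 _
  rw [funext vvor_gr]
  simp only [div_eq_mul_inv (Complex.Gamma _)]
  refine (((vvor_diff ?_).comp w (g := Complex.Gamma) (f := fun w => w - 1 / 6) (by fun_prop)).mul
    (vvor_inv (by fun_prop) w)).mul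
    (((vvor_diff ?_).comp w (g := Complex.Gamma) (f := fun w => w + 1 / 6) (by fun_prop)).mul
    (vvor_inv (by fun_prop) w))
  · simp only [Complex.sub_re, Complex.div_ofNat_re, Complex.one_re]
    linarith
  · simp only [Complex.add_re, Complex.div_ofNat_re, Complex.one_re]
    linarith

theorem vvor_cpow {y : ℝ} (hy : 0 < y) (z : ℂ) : (y : ℂ) ^ z = Complex.exp (z * Real.log y) := by
  rw [Complex.cpow_def_of_ne_zero (by exact_mod_cast hy.ne'), Complex.ofReal_log hy.le, mul_comm]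

theorem vvor_ts {a : O → ℂ} (ha : Grow a) {ξ : ℝ} (hξ : 0 < ξ) {ψ : ℂ → ℂ} (h : Dec 2 2 ψ)
    (hψ : HolS 2 2 ψ) : Summable (fun ν => a ν * n6 ν * mellinInv 2 ψ (ξ * nm ν)) ∧
    ∑' ν, a ν * n6 ν * mellinInv 2 ψ (ξ * nm ν) = (1 / (2 * π) : ℝ) * ∫ t : ℝ,
      ψ ((2 : ℝ) + t * Complex.I) * ((ξ : ℂ) ^ (-((2 : ℝ) + t * Complex.I)) *
        DS a ((2 : ℝ) + t * Complex.I - 1 / 6)) := by
  have hp : ∀ ν : O, ν ≠ 0 → (0 : ℝ) < nm ν := fun ν h => by exact_mod_cast nm_pos h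
  obtain ⟨h1, h2⟩ := tsum_mellinInv (fun ν => a ν * n6 ν) (fun ν => ξ * nm ν)
    (fun ν hν => mul_pos hξ (hp ν fun e => hν (by rw [e, n6_zero, mul_zero]))) h hψ (by
      refine ((summable_DS ha (σ := 11 / 6) (by norm_num)).mul_left (ξ ^ (-2 : ℝ))).congr
        fun ν => ?_
      by_cases hν : ν = 0
      · simp [hν, n6_zero, nm_eq_zero.2 rfl]
      · rw [norm_mul, norm_n6, Real.mul_rpow hξ.le (hp ν hν).le,
          show (-(11 / 6) : ℝ) = 1 / 6 + -2 by norm_num, Real.rpow_add (hp ν hν)]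
        ring)
  refine ⟨h1, h2.trans ?_⟩
  congr 2
  funext t
  congr 1
  rw [DS, ← tsum_mul_left]
  refine tsum_congr fun ν => ?_
  by_cases hν : ν = 0
  · rw [hν, n6_zero, nm_eq_zero.2 rfl, Nat.cast_zero (R := ℂ), Complex.zero_cpow]
    · simp
    · intro e
      have := congrArg Complex.re e
      norm_num at this
  · have e : ((nm ν : ℕ) : ℂ) = ((nm ν : ℝ) : ℂ) := by simp
    rw [n6, Complex.ofReal_cpow (hp ν hν).le, e, vvor_cpow (hp ν hν), vvor_cpow (hp ν hν),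
      vvor_cpow hξ, vvor_cpow (mul_pos hξ (hp ν hν)), Real.log_mul hξ.ne' (hp ν hν).ne', mul_assoc,
      mul_left_comm (Complex.exp _) (a ν), ← Complex.exp_add, ← Complex.exp_add]
    congr 2
    push_cast
    ring

theorem vor_id {a b : O → ℂ} {γ : ℂ} {A x : ℝ} {L ϕ : ℂ → ℂ} (ha : Grow a) (hb : Grow b)
    (hA : 0 < A) (hL : FEq a b γ A L) (hϕ : Dec (-1) 2 ϕ) (hϕ' : HolS (-1) 2 ϕ) (hx : 0 < x) :
    Summable (fun ν => b ν * n6 ν * vdk ϕ (A ^ 2 * x * nm ν)) ∧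
    ∑' ν, a ν * n6 ν * mellinInv 2 ϕ (nm ν / x) =
      γ * b 0 * (Real.Gamma (1 / 3) / Real.Gamma (2 / 3) * A ^ (2 / 3 : ℝ) * x ^ (5 / 6 : ℝ) : ℝ) *
        ϕ (5 / 6) + γ * (A * x : ℝ) * ∑' ν, b ν * n6 ν * vdk ϕ (A ^ 2 * x * nm ν) := by
  obtain ⟨hL1, hL2, hL3, hL4⟩ := hL
  have d1 : Dec 2 2 fun w => gr w * ϕ (1 - w) := by
    obtain ⟨C, hC⟩ := expG_gr
    exact Dec.mul ⟨C, fun w h1 h2 => hC w (by linarith) h2⟩
      ((hϕ.refl (κ := 1)).mono (by norm_num) (by norm_num))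
  have d2 : HolS 2 2 fun w => gr w * ϕ (1 - w) := fun w h1 h2 =>
    (holS_gr w (by linarith) h2).mul ((hϕ' (1 - w) (by simp; linarith) (by simp; linarith)).comp w
      (by fun_prop))
  obtain ⟨s1, s2⟩ := vvor_ts hb (ξ := A ^ 2 * x) (by positivity) d1 d2
  obtain ⟨-, s3⟩ := vvor_ts ha (ξ := x⁻¹) (by positivity) (hϕ.mono (by norm_num) le_rfl)
    fun w h1 h2 => hϕ' w (by linarith) h2
  refine ⟨s1, ?_⟩
  simp only [vdk, div_eq_inv_mul (nm _ : ℝ) x]
  rw [s2, s3]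
  set ρ := γ * b 0 * (Real.Gamma (1 / 3) : ℝ) with hρ
  set H : ℂ → ℂ := fun w => (x : ℂ) ^ (1 * w + 0) * (A : ℂ) ^ (1 * w + -1 / 6) *
    ((Complex.Gamma (w + (-1 / 6 : ℝ)))⁻¹ * (Complex.Gamma (w + (1 / 6 : ℝ)))⁻¹) * ϕ w with hH
  have hHe : ∀ w, H w = Complex.exp (w * Real.log x + (w - 1 / 6) * Real.log A) *
      (GG (w - 1 / 6))⁻¹ * ϕ w := fun w => by
    simp only [hH]
    rw [vvor_cpow hx, vvor_cpow hA, ← Complex.exp_add, GG, mul_inv]
    push_cast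
    congr 4 <;> ring_nf
  have hd : Dec (-1) 2 H := Dec.mul (((expG_cpow _ _ hx 1 0).mul (expG_cpow _ _ hA 1 (-1 / 6))).mul
    ((expG_invGamma _ _ _).mul (expG_invGamma _ _ _))) hϕ
  have hh : HolS (-1) 2 H := fun w h1 h2 => by
    have e1 : (x : ℂ) ≠ 0 := by exact_mod_cast hx.ne'
    have e2 : (A : ℂ) ≠ 0 := by exact_mod_cast hA.ne'
    exact ((((by fun_prop : DifferentiableAt ℂ (fun w : ℂ => 1 * w + 0) w).const_cpow
      (Or.inl e1)).mul ((by fun_prop : DifferentiableAt ℂ (fun w : ℂ => 1 * w + -1 / 6) w).const_cpow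
      (Or.inl e2))).mul ((vvor_inv (by fun_prop) w).mul (vvor_inv (by fun_prop) w))).mul
      (hϕ' w h1 h2)
  have hd2 : Dec (-1) 2 fun w => L (w - 1 / 6) * H w := by
    obtain ⟨M, hM⟩ := hL2 (-2) 2
    refine Dec.mul (ExpG.of_poly (C := M) (n := 0) fun w h1 h2 => ?_) hd
    rw [pow_zero, mul_one]
    refine hM _ ?_ ?_ <;> simp only [Complex.sub_re, Complex.div_ofNat_re, Complex.one_re] <;>
      linarith
  have hh2 : HolS (-1) 2 fun w => L (w - 1 / 6) * H w := fun w h1 h2 =>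
    ((hL1 _).comp w (by fun_prop)).mul (hh w h1 h2)
  have pole : ∀ σ : ℝ, -1 ≤ σ → σ ≤ 2 → 1 ≤ |σ - 5 / 6| → Integrable fun t : ℝ =>
      H (σ + t * Complex.I) / (σ + t * Complex.I - (5 / 6 : ℝ)) := by
    intro σ h1 h2 h3
    have hn : ∀ t : ℝ, 1 ≤ ‖(σ : ℂ) + t * Complex.I - (5 / 6 : ℝ)‖ := fun t =>
      h3.trans (le_trans (by simp) (Complex.abs_re_le_norm _))
    have hi := hd.integrable hh h1 h2
    refine hi.norm.mono' (hi.1.mul (Continuous.aestronglyMeasurable (Continuous.inv₀ (by fun_prop)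
      fun t => norm_pos_iff.1 (by linarith [hn t])))) (Eventually.of_forall fun t => ?_)
    rw [norm_div]
    exact div_le_self (norm_nonneg _) (hn t)
  have re2 : ∀ t : ℝ, 4 / 3 < (((2 : ℝ) : ℂ) + t * Complex.I - 1 / 6).re := fun t => by
    simp; norm_num
  have e1 : ∫ t : ℝ, ϕ ((2 : ℝ) + t * Complex.I) * (((x⁻¹ : ℝ) : ℂ) ^ (-((2 : ℝ) + t * Complex.I)) *
      DS a ((2 : ℝ) + t * Complex.I - 1 / 6)) =
      (∫ t : ℝ, L ((2 : ℝ) + t * Complex.I - 1 / 6) * H ((2 : ℝ) + t * Complex.I)) +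
        ρ * ∫ t : ℝ, H ((2 : ℝ) + t * Complex.I) / ((2 : ℝ) + t * Complex.I - (5 / 6 : ℝ)) := by
    rw [← integral_const_mul, ← integral_add (hd2.integrable hh2 (by norm_num) le_rfl)
      ((pole 2 (by norm_num) le_rfl (by norm_num)).const_mul ρ)]
    refine integral_congr_ae (Eventually.of_forall fun t => ?_)
    have h3 := hL3 _ (re2 t)
    have h4 : GG (((2 : ℝ) : ℂ) + t * Complex.I - 1 / 6) ≠ 0 :=
      mul_ne_zero (Complex.Gamma_ne_zero_of_re_pos (by linarith [re2 t]))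
        (Complex.Gamma_ne_zero_of_re_pos (by simp; norm_num))
    beta_reduce
    generalize ((2 : ℝ) : ℂ) + t * Complex.I = w at h3 h4 ⊢
    have h5 : w - (5 / 6 : ℝ) = w - 1 / 6 - 2 / 3 := by push_cast; ring
    have h6 : ((x⁻¹ : ℝ) : ℂ) ^ (-w) = Complex.exp (w * Real.log x + (w - 1 / 6) * Real.log A) *
        (A : ℂ) ^ (-(w - 1 / 6)) := by
      rw [vvor_cpow (inv_pos.2 hx), vvor_cpow hA, ← Complex.exp_add, Real.log_inv]
      push_cast
      congr 1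
      ring
    have h7 : L (w - 1 / 6) * H w + ρ * (H w / (w - 1 / 6 - 2 / 3)) =
        H w * (L (w - 1 / 6) + ρ / (w - 1 / 6 - 2 / 3)) := by ring
    rw [h5, h7, h3, hHe, h6]
    linear_combination (-(ϕ w * Complex.exp (w * Real.log x + (w - 1 / 6) * Real.log A) *
      (A : ℂ) ^ (-(w - 1 / 6)) * DS a (w - 1 / 6))) * mul_inv_cancel₀ h4
  have e2 : (∫ t : ℝ, L ((-1 : ℝ) + t * Complex.I - 1 / 6) * H ((-1 : ℝ) + t * Complex.I)) +
      ρ * ∫ t : ℝ, H ((-1 : ℝ) + t * Complex.I) / ((-1 : ℝ) + t * Complex.I - (5 / 6 : ℝ)) =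
      γ * (A * x : ℝ) * ∫ t : ℝ, gr ((2 : ℝ) + t * Complex.I) * ϕ (1 - ((2 : ℝ) + t * Complex.I)) *
        (((A ^ 2 * x : ℝ) : ℂ) ^ (-((2 : ℝ) + t * Complex.I)) *
          DS b ((2 : ℝ) + t * Complex.I - 1 / 6)) := by
    rw [← integral_const_mul, ← integral_add (hd2.integrable hh2 le_rfl (by norm_num))
      ((pole (-1) le_rfl (by norm_num) (by norm_num [abs_of_neg])).const_mul ρ),
      ← integral_const_mul, ← integral_neg_eq_self]
    refine integral_congr_ae (Eventually.of_forall fun t => ?_)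
    have h3 := hL4 _ (re2 t)
    have h4 : ((-1 : ℝ) : ℂ) + (-t : ℝ) * Complex.I = 1 - (((2 : ℝ) : ℂ) + t * Complex.I) := by
      push_cast; ring
    beta_reduce
    rw [h4]
    generalize ((2 : ℝ) : ℂ) + t * Complex.I = w at h3 ⊢
    have h5 : 1 - w - (5 / 6 : ℝ) = -(w - 1 / 6) := by push_cast; ring
    have h6 : ((A * x : ℝ) : ℂ) * ((A ^ 2 * x : ℝ) : ℂ) ^ (-w) =
        Complex.exp ((1 - w) * Real.log x + (1 - w - 1 / 6) * Real.log A) *
          (A : ℂ) ^ (-(w - 1 / 6)) := by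
      rw [← Complex.cpow_one ((A * x : ℝ) : ℂ), vvor_cpow (mul_pos hA hx),
        vvor_cpow (by positivity : 0 < A ^ 2 * x), vvor_cpow hA, ← Complex.exp_add,
        ← Complex.exp_add, Real.log_mul hA.ne' hx.ne', Real.log_mul (by positivity) hx.ne',
        Real.log_pow]
      push_cast
      congr 1
      ring
    have h7 : L (1 - w - 1 / 6) * H (1 - w) + ρ * (H (1 - w) / -(w - 1 / 6)) =
        H (1 - w) * (L (2 / 3 - (w - 1 / 6)) - ρ / (w - 1 / 6)) := by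
      rw [show 2 / 3 - (w - 1 / 6) = 1 - w - 1 / 6 by ring, div_neg]
      ring
    rw [h5, h7, h3, hHe, gr, show 5 / 6 - w = 1 - w - 1 / 6 by ring]
    linear_combination (-(γ * GG (w - 1 / 6) * (GG (1 - w - 1 / 6))⁻¹ * ϕ (1 - w) *
      DS b (w - 1 / 6))) * h6
  have e3 : H (5 / 6 : ℝ) = ((Real.Gamma (2 / 3))⁻¹ * A ^ (2 / 3 : ℝ) * x ^ (5 / 6 : ℝ) : ℝ) *
      ϕ (5 / 6) := by
    simp only [hH]
    rw [← Complex.ofReal_add, ← Complex.ofReal_add, Complex.Gamma_ofReal, Complex.Gamma_ofReal,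
      Complex.ofReal_mul, Complex.ofReal_mul, Complex.ofReal_cpow hA.le, Complex.ofReal_cpow hx.le,
      show (5 / 6 : ℝ) + -1 / 6 = 2 / 3 by norm_num, show (5 / 6 : ℝ) + 1 / 6 = 1 by norm_num,
      Real.Gamma_one, show 1 * ((5 / 6 : ℝ) : ℂ) + 0 = (5 / 6 : ℝ) by ring,
      show 1 * ((5 / 6 : ℝ) : ℂ) + -1 / 6 = (2 / 3 : ℝ) by push_cast; ring,
      show ((5 / 6 : ℝ) : ℂ) = 5 / 6 by push_cast; rfl]
    push_cast
    ring
  rw [e1, ← integral_shift (by norm_num) hd2 hh2,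
    integral_shift_pole (s₀ := 5 / 6) (by norm_num) (by norm_num) hd hh, e3]
  have hπ : ((1 / (2 * π) : ℝ) : ℂ) * (2 * π) = 1 := by
    have : (π : ℂ) ≠ 0 := by exact_mod_cast Real.pi_ne_zero
    push_cast
    field_simp
  rw [div_eq_mul_inv (Real.Gamma (1 / 3)), mul_assoc (Real.Gamma (1 / 3)),
    mul_assoc (Real.Gamma (1 / 3)), Complex.ofReal_mul (Real.Gamma (1 / 3))]
  linear_combination ((1 / (2 * π) : ℝ) : ℂ) * e2 + ρ * (((Real.Gamma (2 / 3))⁻¹ *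
    A ^ (2 / 3 : ℝ) * x ^ (5 / 6 : ℝ) : ℝ) * ϕ (5 / 6)) * hπ

end Vale.Agent.P006
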