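import Vale.Agent.P006.VTwist
import Vale.Agent.P006.VConst
import Vale.Agent.P006.VVor

/-! V11: the absolute values of the residues.
Plans. `DS_theta`: `g3 ϱ c = 0` for primary non-squarefree `c` (`g3_mul`, `g3_prime_pow_eq_zero` with `i = 0`); for `c` squarefree `g3 ϱ c = conj (cub ϱ c) gt3 c √(N c)` (`gs_cub`); product of two absolutely
convergent series (`summable_psi`, `summable_norm_cpow`, `Summable.tsum_mul_tsum`), reindexed by the injection `(c, d) ↦ c d³` (`cube_decomp_unique`, `th0_eq`, `th0_ne_zero`; `Function.Injective.tsum_eq` on the subtype).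
`gram`: `vid_twist` with `r = 1` (`cr 1 ν = 1`, `gt3 1 = 1`), `VId.conj`, `exists_feq`; `rho_Ps`, `RR_formula` give `DS (conj a) s = 9 conj (RR ϱ) psiP ϱ (s + 2/3) zP (3 s)`.  The function
`s ↦ L (s - 2/3) + ρ / (s - 4/3)` shows `HasRes _ ρ`, `ρ = conj (b 0) Γ(1/3)`; `RS.hol_mul` with `GG (s - 2/3) kk^(-(s - 2/3)) 9 conj (RR ϱ) zP (3 s - 2)` (`ThCZ_hol`), `RS.unique`; `rho_PsS_zero`, `zP_two`.
`norm_RR_lam`: square both sides: `kst_sq`, `z0 = c0 / 27 / z2`, `kk^(2/3) = (c0/9)^(4/3)`.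
`RR_lam_real`: `thK (conj a) y = 9 conj (RR λ) * (real)` by the involution `star` (`vth_star`; `g3 1 (star c) = conj (g3 1 c)` by `cub_star`, `sum_res_perm`-type reindexing, `star lam = -lam`); by `VId` this equals
`t^(2/3) thK (conj b) (kk t)` and `thK (conj b) (kk t) → conj (b 0) Γ(1/3) > 0` (`thK_decay`), so `(RR λ * positive real).im = 0`. -/

namespace Vale.Agent.P006

open Vale.Agent.P026 Filter
open scoped ComplexConjugate Real

theorem vg_g3_zero {ν c : O} (hc : Prim c) (hs : ¬Squarefree c) (h : IsCoprime ν c) :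
    g3 ν c = 0 := by
  rw [squarefree_iff_irreducible_sq_not_dvd_of_ne_zero hc.ne_zero] at hs
  simp only [not_forall, not_not] at hs
  obtain ⟨q, hq, hqc⟩ := hs
  obtain ⟨u, p, hu, hp', rfl⟩ := exists_prim (n := q) fun h1 =>
    hc.not_lam_dvd (h1.trans ((dvd_mul_right _ _).trans hqc))
  have hp : Prime p := ((irreducible_isUnit_mul hu).1 hq).prime
  have h2 : p ^ 2 ∣ c := (Dvd.intro (u * u) (by ring)).trans hqc
  obtain ⟨k, d, hd, hdp, rfl⟩ := ThCEuler_fac hp hp' hc
  have hk : 0 + 2 ≤ k := (pow_dvd_pow_iff hp.ne_zero hp.not_isUnit).1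
    (hdp.symm.pow_left.dvd_of_dvd_mul_right h2)
  have h3 : ¬p ∣ ν := G2.not_dvd_of_coprime hp
    (h.of_isCoprime_of_dvd_right ((dvd_pow_self p two_ne_zero).trans h2))
  have h4 := g3_prime_pow_eq_zero hp hp' h3 hk
  rw [pow_zero, mul_one] at h4
  rw [g3_crt (pow_ne_zero _ hp.ne_zero) hd.ne_zero hdp.symm.pow_left, h4, mul_zero, zero_mul]

theorem DS_theta {u : O} (hu : IsUnit u) (j : ℕ) {s : ℂ} (hs : 4 / 3 < s.re) :
    DS (fun n => ind (Prim n) * conj (cub (u * lam ^ j) n * th0 n) *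
      ((nm n : ℝ) ^ (-1 / 6 : ℝ) : ℝ)) s = psiP (u * lam ^ j) (s + 2 / 3) * zP (3 * s) := by
  have h1 := summable_psi (u * lam ^ j) Prim (s := s + 2 / 3) (by simp; linarith)
  have h2 := summable_norm_cpow (s := 3 * s) (fun n => norm_ind_le (Prim n)) (by simp; linarith)
  rw [psiP, zP, tsum_mul_tsum_of_summable_norm h1.norm h2, DS]
  have hi : Function.Injective fun p : {p : O × O | Sq p.1 ∧ Prim p.2} => p.1.1 * p.1.2 ^ 3 :=
    fun a b h => Subtype.ext (Prod.ext_iff.2
      (cube_decomp_unique a.2.1.1 a.2.1.2 a.2.2 b.2.1.1 b.2.1.2 b.2.2 h))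
  rw [← hi.tsum_eq]
  · rw [tsum_subtype {p : O × O | Sq p.1 ∧ Prim p.2} fun p => ind (Prim (p.1 * p.2 ^ 3)) *
      conj (cub (u * lam ^ j) (p.1 * p.2 ^ 3) * th0 (p.1 * p.2 ^ 3)) *
      ((nm (p.1 * p.2 ^ 3) : ℝ) ^ (-1 / 6 : ℝ) : ℝ) * (nm (p.1 * p.2 ^ 3) : ℂ) ^ (-s)]
    refine tsum_congr fun p => ?_
    obtain ⟨c, d⟩ := p
    by_cases h : Sq c ∧ Prim d
    · rw [Set.indicator_of_mem (show (c, d) ∈ {p : O × O | Sq p.1 ∧ Prim p.2} from h)]
      obtain ⟨hc, hd⟩ := h
      have c0 := hc.ne_zero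
      have d0 := hd.ne_zero
      have e1 : ∀ a : O, ((√(nm a) : ℝ) : ℂ) = np a (1 / 2 : ℝ) := fun a => by
        rw [np_real, Real.sqrt_eq_rpow]
      have e2 : ∀ w, np (c * d ^ 3) w = np c w * np d (3 * w) := fun w => by
        rw [np_mul c0 (pow_ne_zero _ d0), pow_three, np_mul d0 (mul_ne_zero d0 d0), np_mul d0 d0,
          ← np_add d0, ← np_add d0]
        congr 2
        ring
      have e3 : np d (1 / 2 : ℝ) * np d (3 * (-1 / 6 : ℝ)) = 1 := by
        rw [← np_add d0, np]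
        push_cast
        norm_num
      have e4 : np c (1 / 2 : ℝ) * np c (-(s + 2 / 3)) = np c (-1 / 6 : ℝ) * np c (-s) := by
        rw [← np_add c0, ← np_add c0]
        congr 1
        push_cast
        ring
      change _ * _ * _ * np _ _ = _ * _ * np _ _ * (_ * np _ _)
      rw [ind_of (hc.1.mul (hd.pow 3)), ind_of hc.1, ind_of hd, th0_eq hc.1 hc.2 hd,
        cub_mul_right c0 (pow_ne_zero _ d0), cub_pow_right d0, cub_cube (vps_cop hu j hd), g3,
        gs_cub hc, ← np_real, e2, e2, mul_neg]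
      simp only [map_mul, Complex.conj_conj, Complex.conj_ofReal, map_one]
      rw [e1, e1]
      linear_combination conj (cub (u * lam ^ j) c) * gt3 c * np d (-(3 * s)) *
        (np c (-1 / 6 : ℝ) * np c (-s) * e3 - e4)
    · rw [Set.indicator_of_notMem (show (c, d) ∉ {p : O × O | Sq p.1 ∧ Prim p.2} from h)]
      by_cases hd : Prim d
      · by_cases hc : Prim c
        · rw [vg_g3_zero hc (fun h3 => h ⟨⟨hc, h3⟩, hd⟩) (vps_cop hu j hc)]
          simp
        · simp [ind_of_not hc]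
      · simp [ind_of_not hd]
  · intro n hn
    have h3 : th0 n ≠ 0 := fun h => hn (by simp [h])
    obtain ⟨c, d, hc, hc', hd, rfl⟩ := th0_ne_zero h3
    exact ⟨⟨(c, d), ⟨hc, hc'⟩, hd⟩, rfl⟩

theorem vg_cr (ν : O) : cr 1 ν = 1 := by
  have h : pdiv 1 = {1} := by
    ext e
    rw [mem_pdiv one_ne_zero, Finset.mem_singleton]
    exact ⟨fun h => h.1.eq_one_of_isUnit (isUnit_of_dvd_one h.2), fun h => h.symm ▸ ⟨prim_one, dvd_rfl⟩⟩
  rw [cr, h, Finset.sum_singleton, EuclideanDomain.div_one, mu_one, ind_of (one_dvd _)]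
  simp

theorem vg_vid {u : O} (hu : IsUnit u) (j : ℕ) :
    VId (fun ν => conj (rho (Ps (u * lam ^ j) 1) ν)) (fun ν => conj (rho (PsS (u * lam ^ j)) ν))
      1 kk := by
  have h := (vid_twist hu j sq_one).conj
  simpa [vg_cr, gt3, g3_one] using h

theorem vg_a {u : O} (hu : IsUnit u) (j : ℕ) (ν : O) :
    conj (rho (Ps (u * lam ^ j) 1) ν) = 9 * conj (RR (u * lam ^ j)) * (ind (Prim ν) *
      conj (cub (u * lam ^ j) ν * th0 ν) * ((nm ν : ℝ) ^ (-1 / 6 : ℝ) : ℝ)) := by
  rw [rho_Ps hu]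
  by_cases h : Prim ν
  · rw [ind_of (show (3 : O) ∣ ν - 1 from h), RR_formula hu j h, ind_of h]
    simp only [map_mul, Complex.conj_ofReal, map_ofNat, map_one]
    ring
  · rw [ind_of_not (show ¬(3 : O) ∣ ν - 1 from h), ind_of_not h]
    simp

theorem vg_grow {Ψ : O × O → ℂ} (h : Cls 9 Ψ) : Grow fun ν => conj (rho Ψ ν) := by
  obtain ⟨C, -, hC⟩ := thCoef_rho
  exact grow_conj (hC _ h).grow

theorem vg_pole (x : ℂ) : RS (fun s => x / (s - 4 / 3)) x := by
  refine HasRes.rs ⟨_, ?_, fun _ _ _ => rfl, ?_⟩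
  · refine (differentiableOn_const x).div (by fun_prop) fun s hs h => ?_
    have h1 := hs.1
    rw [sub_eq_zero.1 h] at h1
    norm_num at h1
  · refine tendsto_const_nhds.congr' ?_
    filter_upwards [self_mem_nhdsWithin] with ε hε
    refine (mul_div_cancel₀ x fun h => ?_).symm
    have h1 := congrArg Complex.im h
    simp [sE] at h1
    exact (Set.mem_Ioi.1 hε).ne' h1

theorem vg_hol_Gamma {c : ℝ} (hc : c ≤ 1) : Hol fun s => Complex.Gamma (s - c) := by
  intro s hs
  refine ((Complex.differentiableAt_Gamma _ fun m h => ?_).comp s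
    (by fun_prop : DifferentiableAt ℂ (fun s : ℂ => s - c) s)).differentiableWithinAt
  have h1 := congrArg Complex.re h
  have h2 : 1 < s.re := hs
  simp at h1
  linarith [(Nat.cast_nonneg m : (0 : ℝ) ≤ m)]

theorem gram {i k : ℕ} (hi : i < 3) (hk : k < 3) : ‖RR (om ^ i * lam ^ k)‖ ^ 2 * z2 =
    z0 * EE i k * (Real.Gamma (1 / 3) / Real.Gamma (2 / 3) * kk ^ (2 / 3 : ℝ)) := by
  have hu : IsUnit (om ^ i) := (P026.isUnit_iff.2 (by simp)).pow i
  obtain ⟨L, hL, -, hL1, -⟩ := exists_feq (vg_grow (cls_Ps hu k 1)) (vg_grow (cls_PsS hu k))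
    (by rw [vg_a hu, ind_of_not fun h => Prim.ne_zero h rfl]; simp) one_ne_zero kk_pos (vg_vid hu k)
  have hkk : (kk : ℂ) ≠ 0 := Complex.ofReal_ne_zero.2 kk_pos.ne'
  have hz : Hol fun s => zP (3 * s - 2) :=
    (ThCZ_hol fun n => norm_ind_le (Prim n)).comp (by fun_prop) fun s hs => by
      have h1 : 1 < s.re := hs
      show 1 < (3 * s - 2).re
      simp
      linarith
  have hW := ((((vg_hol_Gamma (c := 2 / 3) (by norm_num)).mul
    (vg_hol_Gamma (c := 1 / 3) (by norm_num))).mul (hol_cpow hkk (2 / 3) (-1))).mul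
    (Hol.const (9 * conj (RR (om ^ i * lam ^ k))))).mul hz
  have h1 := (rs_psiP (om ^ i * lam ^ k)).hol_mul hW
  have h2 := (hol_of_differentiable (w := fun s => L (s - 2 / 3)) (by fun_prop)).rs.add
    (vg_pole ((9 * z0 * EE i k : ℝ) * (Real.Gamma (1 / 3) : ℝ)))
  have h3 := h1.unique (h2.congr fun s hs => by
    have h4 : 4 / 3 < (s - 2 / 3).re := by
      simp
      linarith
    have h5 := hL1 _ h4
    have h6 := DS_theta hu k h4
    simp only [vg_a hu, DS, mul_assoc (9 * conj (RR _)), tsum_mul_left] at h5 h6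
    rw [h6, rho_PsS_zero hi hk, Complex.conj_ofReal, one_mul, GG, sub_add_cancel,
      show s - 2 / 3 - 2 / 3 = s - 4 / 3 by ring, show s - 2 / 3 + 1 / 3 = s - 1 / 3 by ring,
      show -(s - 2 / 3) = 2 / 3 + -1 * s by ring, show 3 * (s - 2 / 3) = 3 * s - 2 by ring] at h5
    rw [h5]
    push_cast
    ring)
  have e1 : (4 / 3 : ℂ) - (2 / 3 : ℝ) = (2 / 3 : ℝ) := by
    push_cast
    ring
  have e2 : (4 / 3 : ℂ) - (1 / 3 : ℝ) = 1 := by
    push_cast
    ring
  have e3 : (2 / 3 : ℂ) + -1 * (4 / 3) = (-(2 / 3) : ℝ) := by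
    push_cast
    ring
  rw [e1, e2, e3, show (3 : ℂ) * (4 / 3) - 2 = 2 by ring, zP_two, Complex.Gamma_one,
    Complex.Gamma_ofReal, ← Complex.ofReal_cpow kk_pos.le, Real.rpow_neg kk_pos.le] at h3
  have h4 : Real.Gamma (2 / 3) * (kk ^ (2 / 3 : ℝ))⁻¹ * (‖RR (om ^ i * lam ^ k)‖ ^ 2 * z2) =
      z0 * EE i k * Real.Gamma (1 / 3) := by
    have h5 := Complex.conj_mul' (RR (om ^ i * lam ^ k))
    apply Complex.ofReal_injective
    push_cast at h3 ⊢
    rw [← h5]
    linear_combination h3 / 9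
  have h5 : 0 < Real.Gamma (2 / 3) := Real.Gamma_pos_of_pos (by norm_num)
  have h6 : 0 < kk ^ (2 / 3 : ℝ) := Real.rpow_pos_of_pos kk_pos _
  rw [← mul_assoc, ← mul_div_assoc, ← h4]
  field_simp

theorem norm_RR_lam : ‖RR lam‖ * z2 = kst * (c0 / 9) := by
  have hg := gram (i := 0) (k := 1) (by norm_num) (by norm_num)
  have hz : 0 < z2 := by linarith [one_le_z2]
  have hc := c0_pos
  have hk := kst_pos
  have hkk := kk_pos
  rw [pow_zero, one_mul, pow_one, show EE 0 1 = 3 ^ (1 / 3 : ℝ) by simp [EE], z0] at hg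
  have e : c0 / 27 * 3 ^ (1 / 3 : ℝ) * kk ^ (2 / 3 : ℝ) =
      c0 ^ (1 / 3 : ℝ) * 9 ^ (-2 / 3 : ℝ) * (c0 / 9) ^ 2 := by
    refine (pow_left_inj₀ (by positivity) (by positivity) three_ne_zero).1 ?_
    simp only [mul_pow, KBasic_cube _ hc.le, KBasic_cube _ hkk.le,
      KBasic_cube 3 (by norm_num), KBasic_cube 9 (by norm_num)]
    norm_num
    unfold kk
    ring
  refine (pow_left_inj₀ (by positivity) (by positivity) two_ne_zero).1 ?_
  rw [mul_pow, mul_pow, kst_sq, pow_two z2, ← mul_assoc, hg]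
  calc _ = c0 / 27 * 3 ^ (1 / 3 : ℝ) * kk ^ (2 / 3 : ℝ) *
        (Real.Gamma (1 / 3) / Real.Gamma (2 / 3)) := by field_simp
    _ = _ := by
      rw [e]
      ring

theorem vg_eq_star (x n : O) : eq (star x) (star n) = conj (eq x n) := by
  rw [eq, eq, conj_ec, toC_star, toC_star, ← map_div₀, ec, ec, Complex.conj_im, Complex.neg_im]

theorem vg_g3_star {c : O} (hc : c ≠ 0) (ν : O) : g3 (star ν) (star c) = conj (g3 ν c) := by
  rw [g3, g3, sum_res_eq (star_ne_zero.2 hc) ((per_cub _).mul_eq _) (res c) star fun x => ?_,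
    map_sum]
  · refine Finset.sum_congr rfl fun y _ => ?_
    rw [cub_star, ← star_mul', vg_eq_star, map_mul]
  · refine (existsUnique_congr fun y => and_congr_right fun _ => ?_).1 (res_spec hc (star x))
    rw [← SymAux.star_dvd_star, star_sub, star_star]

theorem vg_gl_star {c : O} (hc : c ≠ 0) : gl (star c) = conj (gl c) := by
  have h1 : star lam = lam * -1 := by decide
  have h2 := vg_g3_star hc lam
  rw [h1, g3_twist (star_ne_zero.2 hc) isCoprime_one_left.neg_left, cub_neg_left, cub_one_left,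
    map_one, one_mul] at h2
  rw [gl, gl, h2, nm_star, map_div₀, Complex.conj_ofReal]

theorem vth_star (n : O) : vth (star n) = conj (vth n) := by
  have key : ∀ n, vth n ≠ 0 → vth (star n) = conj (vth n) := by
    intro n hn
    obtain ⟨c, d, hc, hd, rfl⟩ := vth_ne_zero hn
    have h1 : Sq (star c) := ⟨hc.1.star, fun x hx => isUnit_star.1 (hc.2 (star x) (by
      rw [← star_mul', ← SymAux.star_dvd_star, star_star]
      exact hx))⟩
    rw [star_mul', star_pow, vth_eq h1 hd.star, vth_eq hc hd, vg_gl_star hc.ne_zero, nm_star,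
      map_mul, Complex.conj_ofReal]
  by_cases h : vth n = 0
  · by_contra h1
    rw [h, map_zero] at h1
    have h2 := key _ h1
    rw [star_star, h] at h2
    exact h1 (by simpa using h2.symm)
  · exact key n h

theorem RR_lam_real : (RR lam).im = 0 := by
  have hv := vg_vid isUnit_one 1
  have hd := thK_decay (vg_grow (cls_PsS isUnit_one 1)) kk_pos (-1)
  have hb := rho_PsS_zero (i := 0) (k := 1) (by norm_num) (by norm_num)
  rw [pow_zero] at hb
  obtain ⟨e, he⟩ : ∃ e : O → ℂ, e = fun ν => ind (Prim ν) * vth ν *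
    ((nm ν : ℝ) ^ (-1 / 6 : ℝ) : ℝ) := ⟨_, rfl⟩
  have h1 : ∀ ν, conj (e ν) = e (star ν) := fun ν => by
    have : Prim (star ν) ↔ Prim ν := ⟨fun h => star_star ν ▸ h.star, fun h => h.star⟩
    rw [he]
    simp only [this, vth_star, nm_star, map_mul, Complex.conj_ofReal]
    by_cases h : Prim ν
    · simp [ind_of h]
    · simp [ind_of_not h]
  have h2 : ∀ y, (thK e y).im = 0 := fun y => by
    rw [← Complex.conj_eq_iff_im, conj_thK, thK, thK, ← (star_involutive.toPerm _).tsum_eq]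
    simp only [Function.Involutive.coe_toPerm, h1, star_star, nm_star]
  have h3 : ∀ y, thK (fun ν => conj (rho (Ps (1 * lam ^ 1) 1) ν)) y =
      9 * conj (RR lam) * thK e y := fun y => by
    simp only [thK, vg_a isUnit_one]
    simp only [← tsum_mul_left, he, vth, one_mul, pow_one, mul_comm (cub lam _) (th0 _), mul_assoc]
  have h4 : ∀ t : ℝ, 0 < t →
      (RR lam * thK (fun ν => conj (rho (PsS (1 * lam ^ 1)) ν)) (kk * t)).im = 0 := by
    intro t ht
    have h5 := congrArg (fun z => (RR lam * z).im) (hv t ht)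
    have h6 : RR lam * (9 * conj (RR lam) * thK e (kk / t)) =
        (9 * ‖RR lam‖ ^ 2 : ℝ) * thK e (kk / t) := by
      push_cast
      rw [← Complex.mul_conj']
      ring
    simp only [h3, h6] at h5
    rw [one_mul ((_ : ℝ) : ℂ), mul_left_comm (RR lam), Complex.im_ofReal_mul,
      Complex.im_ofReal_mul, h2, mul_zero] at h5
    exact (mul_eq_zero.1 h5.symm).resolve_left (Real.rpow_pos_of_pos ht _).ne'
  have h5 := (hd.trans_tendsto (tendsto_rpow_neg_atTop one_pos)).add_const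
    (conj (rho (PsS (1 * lam ^ 1)) 0) * (Real.Gamma (1 / 3) : ℝ))
  simp only [sub_add_cancel, zero_add] at h5
  have h6 := tendsto_nhds_unique ((Complex.continuous_im.tendsto _).comp (h5.const_mul (RR lam)))
    (tendsto_const_nhds.congr' ((eventually_gt_atTop 0).mono fun t ht => (h4 t ht).symm))
  rw [hb, Complex.conj_ofReal, ← Complex.ofReal_mul, Complex.im_mul_ofReal] at h6
  refine (mul_eq_zero.1 h6).resolve_right ?_
  have h7 := z0_pos
  have h8 : 0 < Real.Gamma (1 / 3) := Real.Gamma_pos_of_pos (by norm_num)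
  rw [show EE 0 1 = 3 ^ (1 / 3 : ℝ) by simp [EE]]
  positivity

end Vale.Agent.P006
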