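import Vale.Agent.P026.ThC
import Vale.Agent.P026.ThB

/-! # P006, part K (owner helper12): the exact constant and sign of the cubic theta coefficients. -/

namespace Vale.Agent.P006.VK

open Vale.Agent.P026
open scoped ComplexConjugate Real Topology

/-- the constant of Patterson's conjecture -/
noncomputable def cstar : ℝ := (2 * π) ^ (2 / 3 : ℝ) / (3 * Real.Gamma (2 / 3))

/-- Dirichlet series of `g3 ν c` over all primary `c` -/
noncomputable def psiP (ν : O) (s : ℂ) : ℂ :=
  ∑' c : O, ind (Prim c) * g3 ν c * (nm c : ℂ) ^ (-s)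

/-- its residue at `4/3` -/
noncomputable def Rg (ν : O) : ℂ := ∑ β ∈ res 9, ind (Prim β) * rb β ν

/-- the residue of `psiP 0` -/
noncomputable def ResZ : ℂ := (c0 / 27 : ℝ) * mP 2

/-- row functions `1[c primary] 1[δ ∣ d] (λ^i d / c) e(-μ d / 9)` -/
noncomputable def PsK (i : ℕ) (δ μ : O) (r : O × O) : ℂ :=
  ind (Prim r.1) * ind (δ ∣ r.2) * cub (lam ^ i * r.2) r.1 * eq (-(μ * r.2)) 9

theorem hRes : ResStmt := resStmt thB
theorem hHecke : HeckeStmt := heckeStmt hRes (cuspStmt thB)
theorem hAut : AutStmt := autStmt thB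

end Vale.Agent.P006.VK
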