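import Vale.Agent.P006.VKRg

/-! # P006 K: residues from functional equations through the Mellin transform. -/

namespace Vale.Agent.P006.VK

open Vale.Agent.P026
open scoped ComplexConjugate Real Topology
open MeasureTheory Filter Set Asymptotics

/-- continuous, bounded, rapidly decreasing kernel -/
def Ker (g : ℝ → ℝ) : Prop :=
  ContinuousOn g (Ioi 0) ∧ ∀ A : ℕ, ∃ D : ℝ, 0 ≤ D ∧ ∀ y : ℝ, 0 < y → |g y| ≤ D / y ^ A

/-- `∑ a ν g(p N(ν) t)` -/
noncomputable def ser (a : O → ℂ) (g : ℝ → ℝ) (p t : ℝ) : ℂ := ∑' ν : O, a ν * g (p * nm ν * t)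

theorem rs_pole (σ : ℂ) : RS (fun s => σ / (s - 4 / 3)) σ := by
  have h0 : ∀ s ∈ Dom, s - 4 / 3 ≠ 0 := fun s hs h => by
    have := hs.1
    rw [sub_eq_zero.1 h] at this
    norm_num at this
  refine HasRes.rs ⟨_, (differentiableOn_const σ).div (by fun_prop) h0, fun _ _ _ => rfl,
    tendsto_const_nhds.congr' ?_⟩
  filter_upwards [sE_mem] with ε hε
  simp only [Pi.div_apply]
  rw [mul_div_cancel₀ _ (h0 _ hε)]

theorem rs_mellin {Φ : ℝ → ℂ} {σ : ℂ} {e α β : ℝ} (hα : 0 < α) (h43 : α * (4 / 3) + β = e)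
    (hβ : 0 ≤ α + β) (hc : ContinuousOn Φ (Ioi 0)) (htop : ∀ A : ℝ, Φ =O[atTop] (· ^ (-A)))
    (hbot : (fun t : ℝ => Φ t - σ * (t : ℂ) ^ (-e : ℂ)) =O[𝓝[>] 0] fun _ => (1 : ℝ)) :
    RS (fun s => mellin Φ (α * s + β)) (σ / α) := by
  set h : ℝ → ℂ := (Ioc (0 : ℝ) 1).indicator fun t => (t : ℂ) ^ (-e : ℂ) with hh
  set f : ℝ → ℂ := fun t => Φ t - σ • h t with hf
  have h1 : LocallyIntegrableOn h (Ioi 0) := by
    have : ContinuousOn (fun t : ℝ => (t : ℂ) ^ (-e : ℂ)) (Ioi 0) := fun t ht =>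
      (Complex.continuousAt_ofReal_cpow_const t _ (Or.inr (ne_of_gt ht))).continuousWithinAt
    intro x hx
    obtain ⟨U, hU, hi⟩ := this.locallyIntegrableOn (μ := volume) measurableSet_Ioi x hx
    exact ⟨U, hU, hi.indicator measurableSet_Ioc⟩
  have h2 : LocallyIntegrableOn f (Ioi 0) :=
    (hc.locallyIntegrableOn measurableSet_Ioi).sub (h1.smul σ)
  have h3 : ∀ A : ℝ, f =O[atTop] (· ^ (-A)) := fun A => (htop A).congr' (by
    filter_upwards [eventually_gt_atTop 1] with t ht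
    simp only [hf, hh]
    rw [indicator_of_notMem fun h => absurd h.2 (not_le.2 ht), smul_zero, sub_zero]) EventuallyEq.rfl
  have h4 : f =O[𝓝[>] 0] (· ^ (-(0 : ℝ))) := hbot.congr' (by
    filter_upwards [Ioc_mem_nhdsGT one_pos] with t ht
    simp only [hf, hh]
    rw [indicator_of_mem ht, smul_eq_mul]) (Eventually.of_forall fun t => by simp)
  have hre : ∀ s : ℂ, ((α : ℂ) * s + β).re = α * s.re + β := fun s => by simp
  have h5 : Hol fun s => mellin f (α * s + β) := fun s hs => by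
    have hs : 1 < s.re := hs
    refine (DifferentiableAt.comp (g := mellin f) s
      (mellin_differentiableAt_of_isBigO_rpow h2 (h3 _) (lt_add_one _) h4 ?_)
      (by fun_prop)).differentiableWithinAt
    rw [hre]
    nlinarith
  have := h5.rs.add (rs_pole (σ / α))
  rw [zero_add] at this
  refine this.congr fun s hs => ?_
  have k1 : MellinConvergent f (α * s + β) :=
    mellinConvergent_of_isBigO_rpow h2 (h3 _) (lt_add_one _) h4 (by rw [hre]; nlinarith)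
  have k2 := hasMellin_cpow_Ioc (-e : ℂ) (s := α * s + β) (by
    rw [hre]
    simp only [Complex.neg_re, Complex.ofReal_re]
    nlinarith)
  have k3 := (hasMellin_add k1 (k2.1.const_smul σ)).2
  simp only [hf, sub_add_cancel, ← hh] at k3
  rw [mellin_const_smul, hh, k2.2] at k3
  have e1 : (α : ℂ) * s + β + -e = α * (s - 4 / 3) := by
    rw [← h43]
    push_cast
    ring
  rw [show mellin Φ _ = _ from k3, e1, smul_eq_mul, mul_one_div, div_div]

theorem Ker.bound {g : ℝ → ℝ} (hg : Ker g) {a : O → ℂ} {C : ℝ} {k : ℕ} (h0 : a 0 = 0)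
    (ha : ∀ ν, ν ≠ 0 → ‖a ν‖ ≤ C * (nm ν : ℝ) ^ k) {p : ℝ} (hp : 0 < p) {A : ℕ} (hA : k + 2 ≤ A) :
    ∃ u : O → ℝ, Summable u ∧ (∀ ν, 0 ≤ u ν) ∧
      ∀ t : ℝ, 0 < t → ∀ ν, ‖a ν * g (p * nm ν * t)‖ ≤ u ν / t ^ A := by
  obtain ⟨D, hD, h⟩ := hg.2 A
  refine ⟨fun ν => |C| * D / p ^ A * (nm ν : ℝ) ^ (-2 : ℝ),
    (summable_rpow (by norm_num)).mul_left _, fun ν => by positivity, fun t ht ν => ?_⟩
  rcases eq_or_ne ν 0 with rfl | hν
  · rw [h0, zero_mul, norm_zero]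
    positivity
  have h1 := one_le_nm hν
  have h2 := h (p * nm ν * t) (by positivity)
  have h3 : ‖a ν‖ ≤ |C| * (nm ν : ℝ) ^ k := (ha ν hν).trans (by gcongr; exact le_abs_self C)
  rw [norm_mul, Complex.norm_real, Real.norm_eq_abs]
  refine (mul_le_mul h3 h2 (abs_nonneg _) (by positivity)).trans ?_
  have h4 : (nm ν : ℝ) ^ k * (nm ν : ℝ) ^ 2 ≤ (nm ν : ℝ) ^ A := by
    rw [← pow_add]
    exact pow_le_pow_right₀ h1 hA
  simp only
  rw [Real.rpow_neg (by positivity), Real.rpow_two, mul_pow, mul_pow]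
  calc _ = |C| * D / p ^ A / t ^ A * ((nm ν : ℝ) ^ k / (nm ν : ℝ) ^ A) := by field_simp
    _ ≤ |C| * D / p ^ A / t ^ A * ((nm ν : ℝ) ^ 2)⁻¹ := by
        gcongr
        rwa [inv_eq_one_div, div_le_div_iff₀ (by positivity) (by positivity), one_mul]
    _ = _ := by ring

theorem Ker.ser_le {g : ℝ → ℝ} (hg : Ker g) {a : O → ℂ} {C : ℝ} {k : ℕ} (h0 : a 0 = 0)
    (ha : ∀ ν, ν ≠ 0 → ‖a ν‖ ≤ C * (nm ν : ℝ) ^ k) {p : ℝ} (hp : 0 < p) {A : ℕ} (hA : k + 2 ≤ A) :
    ∃ D : ℝ, 0 ≤ D ∧ ∀ t : ℝ, 0 < t → ‖ser a g p t‖ ≤ D / t ^ A := by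
  obtain ⟨u, h1, h2, h3⟩ := hg.bound h0 ha hp hA
  exact ⟨∑' ν, u ν, tsum_nonneg h2, fun t ht =>
    tsum_of_norm_bounded (h1.hasSum.div_const _) (h3 t ht)⟩

theorem Ker.cont {g : ℝ → ℝ} (hg : Ker g) {a : O → ℂ} {C : ℝ} {k : ℕ} (h0 : a 0 = 0)
    (ha : ∀ ν, ν ≠ 0 → ‖a ν‖ ≤ C * (nm ν : ℝ) ^ k) {p : ℝ} (hp : 0 < p) :
    ContinuousOn (ser a g p) (Ioi 0) := by
  obtain ⟨u, h1, h2, h3⟩ := hg.bound h0 ha hp le_rfl
  intro t ht
  have ht : 0 < t := ht
  have hc : ContinuousOn (ser a g p) (Ioi (t / 2)) := by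
    refine continuousOn_tsum (fun ν => ?_) (h1.div_const ((t / 2) ^ (k + 2))) fun ν x hx => ?_
    · rcases eq_or_ne ν 0 with rfl | hν
      · simp only [h0, zero_mul]
        exact continuousOn_const
      · have := one_le_nm hν
        refine continuousOn_const.mul (Complex.continuous_ofReal.comp_continuousOn
          (hg.1.comp (by fun_prop) fun x hx => ?_))
        have : 0 < x := lt_trans (by positivity) hx
        exact mem_Ioi.2 (by positivity)
    · have hx : t / 2 < x := hx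
      refine (h3 x (by linarith) ν).trans ?_
      have := h2 ν
      gcongr
  exact (hc.continuousAt (Ioi_mem_nhds (by linarith))).continuousWithinAt

theorem isBigO_top {Φ : ℝ → ℂ} (h : ∀ A : ℕ, ∃ B : ℕ, A ≤ B ∧ ∃ D : ℝ, 0 ≤ D ∧
    ∀ t : ℝ, 0 < t → ‖Φ t‖ ≤ D / t ^ B) (A : ℝ) : Φ =O[atTop] (· ^ (-A)) := by
  obtain ⟨B, hB, D, hD, h⟩ := h ⌈A⌉₊
  refine IsBigO.of_bound D ?_
  filter_upwards [eventually_ge_atTop 1] with t ht
  refine (h t (by linarith)).trans ?_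
  rw [Real.norm_of_nonneg (by positivity), div_eq_mul_inv, ← Real.rpow_natCast,
    ← Real.rpow_neg (by linarith)]
  gcongr
  exact (Nat.le_ceil A).trans (by exact_mod_cast hB)

theorem Ker.conv {g : ℝ → ℝ} (hg : Ker g) :
    LocallyIntegrableOn (fun t => (g t : ℂ)) (Ioi 0) ∧
    (∀ A : ℝ, (fun t => (g t : ℂ)) =O[atTop] (· ^ (-A))) ∧
    (fun t => (g t : ℂ)) =O[𝓝[>] 0] (· ^ (-(0 : ℝ))) := by
  refine ⟨(Complex.continuous_ofReal.comp_continuousOn hg.1).locallyIntegrableOn measurableSet_Ioi,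
    isBigO_top fun A => ⟨A, le_rfl, by simpa using hg.2 A⟩, ?_⟩
  obtain ⟨D, -, h⟩ := hg.2 0
  refine IsBigO.of_bound D ?_
  filter_upwards [self_mem_nhdsWithin] with t ht
  simpa using h t ht

theorem Ker.mellin_ser {g : ℝ → ℝ} (hg : Ker g) {a : O → ℂ} {C : ℝ} (h0 : a 0 = 0)
    (ha : ∀ ν, ‖a ν‖ ≤ C) {p : ℝ} (hp : 0 < p) {w : ℂ} (hw : 1 < w.re) :
    mellin (ser a g p) w =
      mellin (fun t => (g t : ℂ)) w * ∑' ν : O, a ν * ((p * nm ν : ℝ) : ℂ) ^ (-w) := by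
  obtain ⟨c1, c2, c3⟩ := hg.conv
  have k1 : MellinConvergent (fun t => (g t : ℂ)) w :=
    mellinConvergent_of_isBigO_rpow c1 (c2 _) (lt_add_one _) c3 (by linarith)
  set F : O → ℝ → ℂ := fun ν t => (t : ℂ) ^ (w - 1) • (a ν • (g (p * nm ν * t) : ℂ)) with hF
  have hpos : ∀ ν : O, ν ≠ 0 → 0 < p * nm ν := fun ν hν => by
    have := one_le_nm hν
    positivity
  have i1 : ∀ ν, Integrable (F ν) (volume.restrict (Ioi 0)) := fun ν => by
    rcases eq_or_ne ν 0 with rfl | hν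
    · simp [hF, h0]
    · exact ((MellinConvergent.comp_mul_left (hpos ν hν)).2 k1).const_smul (a ν)
  have i2 : ∀ ν, ∫ t in Ioi (0 : ℝ), F ν t =
      mellin (fun t => (g t : ℂ)) w * (a ν * ((p * nm ν : ℝ) : ℂ) ^ (-w)) := fun ν => by
    rcases eq_or_ne ν 0 with rfl | hν
    · simp [hF, h0]
    · have := mellin_comp_mul_left (fun t => (g t : ℂ)) w (hpos ν hν)
      change mellin (fun t => a ν • (g (p * nm ν * t) : ℂ)) w = _
      rw [mellin_const_smul, this, smul_eq_mul, smul_eq_mul]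
      ring
  have i3 : ∀ ν, ∫ t in Ioi (0 : ℝ), ‖F ν t‖ ≤
      C * p ^ (-w.re) * (∫ t in Ioi (0 : ℝ), t ^ (w.re - 1) * |g t|) * (nm ν : ℝ) ^ (-w.re) := fun ν => by
    have hC := (norm_nonneg _).trans (ha 0)
    have hI : 0 ≤ ∫ t in Ioi (0 : ℝ), t ^ (w.re - 1) * |g t| :=
      setIntegral_nonneg measurableSet_Ioi fun t ht => by have : 0 < t := ht; positivity
    rcases eq_or_ne ν 0 with rfl | hν
    · simp only [hF, h0, zero_smul, smul_zero, norm_zero, integral_zero]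
      positivity
    · have hc := hpos ν hν
      have e1 := integral_comp_mul_left_Ioi (fun t : ℝ => t ^ (w.re - 1) * |g t|) 0 hc
      rw [mul_zero, smul_eq_mul] at e1
      have e2 : ∫ t in Ioi (0 : ℝ), ‖F ν t‖ = ∫ t in Ioi (0 : ℝ), ‖a ν‖ * (p * nm ν) ^ (1 - w.re) *
          ((p * nm ν * t) ^ (w.re - 1) * |g (p * nm ν * t)|) :=
        setIntegral_congr_fun measurableSet_Ioi fun t ht => by
          have ht : 0 < t := ht
          simp only [hF, norm_smul, Complex.norm_real, Real.norm_eq_abs,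
            Complex.norm_cpow_eq_rpow_re_of_pos ht, Complex.sub_re, Complex.one_re]
          rw [Real.mul_rpow hc.le ht.le, ← neg_sub w.re 1, Real.rpow_neg hc.le]
          have := (Real.rpow_pos_of_pos hc (w.re - 1)).ne'
          field_simp
      rw [e2, integral_const_mul, e1, sub_eq_add_neg, Real.rpow_add hc, Real.rpow_one,
        Real.mul_rpow hp.le (Nat.cast_nonneg _)]
      have := ha ν
      calc _ = ‖a ν‖ * p ^ (-w.re) * (∫ t in Ioi (0 : ℝ), t ^ (w.re - 1) * |g t|) *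
            (nm ν : ℝ) ^ (-w.re) := by
              have := one_le_nm hν
              field_simp
        _ ≤ _ := by gcongr
  have := hasSum_integral_of_summable_integral_norm i1
    (((summable_rpow hw).mul_left _).of_nonneg_of_le
      (fun ν => integral_nonneg fun _ => norm_nonneg _) i3)
  simp only [i2] at this
  rw [← tsum_mul_left, this.tsum_eq, mellin]
  refine setIntegral_congr_fun measurableSet_Ioi fun t _ => ?_
  simp only [hF, ser, smul_eq_mul, tsum_mul_left]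

theorem rs_fe {g : ℝ → ℝ} (hg : Ker g) {a b : O → ℂ} {C C' : ℝ} {k : ℕ} (ha0 : a 0 = 0)
    (ha : ∀ ν, ‖a ν‖ ≤ C) (hb0 : b 0 = 0) (hb : ∀ ν, ν ≠ 0 → ‖b ν‖ ≤ C' * (nm ν : ℝ) ^ k)
    {p q : ℝ} (hp : 0 < p) (hq : 0 < q) {σ : ℂ} {e α β : ℝ} (hα : 0 < α)
    (h43 : α * (4 / 3) + β = e) (hβ : 0 ≤ α + β) (h2 : 1 ≤ α * 2 + β) (he : e ≤ 2)
    (hfe : ∀ t : ℝ, 0 < t → ser a g p t = (t : ℂ) ^ (-e : ℂ) * (σ + ser b g q (1 / t))) :
    RS (fun s => mellin (fun t => (g t : ℂ)) (α * s + β) *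
      ∑' ν : O, a ν * ((p * nm ν : ℝ) : ℂ) ^ (-(α * s + β))) (σ / α) := by
  have ha' : ∀ ν, ν ≠ 0 → ‖a ν‖ ≤ C * (nm ν : ℝ) ^ 0 := fun ν _ => by simpa using ha ν
  refine (rs_mellin hα h43 hβ (hg.cont ha0 ha' hp)
    (isBigO_top fun A => ⟨A + 2, by omega, hg.ser_le ha0 ha' hp (by omega)⟩) ?_).congr
    fun s hs => hg.mellin_ser ha0 ha hp (by simp; nlinarith)
  obtain ⟨D, hD, h⟩ := hg.ser_le hb0 hb hq le_rfl
  refine IsBigO.of_bound D ?_
  filter_upwards [Ioc_mem_nhdsGT one_pos] with t ht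
  have ht0 := ht.1
  rw [hfe t ht0, mul_add, mul_comm σ, add_sub_cancel_left, norm_mul,
    Complex.norm_cpow_eq_rpow_re_of_pos ht0, norm_one, mul_one]
  have h3 := h (1 / t) (by positivity)
  rw [one_div, inv_pow, div_inv_eq_mul] at h3
  rw [one_div]
  refine (mul_le_mul_of_nonneg_left h3 (by positivity)).trans ?_
  rw [mul_left_comm, ← Real.rpow_natCast, ← Real.rpow_add ht0]
  refine mul_le_of_le_one_right hD (Real.rpow_le_one ht0.le ht.2 ?_)
  have : (0 : ℝ) ≤ k := Nat.cast_nonneg k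
  simp only [Complex.neg_re, Complex.ofReal_re]
  push_cast
  linarith

end Vale.Agent.P006.VK
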