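import Vale.Agent.P026.WhBasic

/-! # P006 VK: numerical estimates for the sign of the constant. -/

namespace Vale.Agent.P006.VK

open Vale.Agent.P026
open scoped Real
open MeasureTheory Set

theorem Kr_ratio {x y : ℝ} (hx : 1 ≤ x) (hy : 0 < y) :
    Kr (x ^ 2 * y) ≤ x ^ (1 / 3 : ℝ) * Real.exp (-(2 * (x - 1) * √y)) * Kr y := by
  have hx0 : 0 < x := by linarith
  have h1 := integral_comp_mul_left_Ioi
    (fun t : ℝ => t ^ (-2 / 3 : ℝ) * Real.exp (-(t + x ^ 2 * y / t))) 0 hx0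
  rw [mul_zero, smul_eq_mul, eq_inv_mul_iff_mul_eq₀ hx0.ne'] at h1
  rw [Kr, ← h1, Kr, ← integral_const_mul, ← integral_const_mul]
  refine integral_mono_of_nonneg
    ((ae_restrict_iff' measurableSet_Ioi).2 (ae_of_all _ fun t ht => ?_))
    ((integrableOn_Kr hy.le).const_mul _)
    ((ae_restrict_iff' measurableSet_Ioi).2 (ae_of_all _ fun t ht => ?_))
  · have : 0 < t := ht
    positivity
  · have ht : 0 < t := ht
    have e1 : x * (x * t) ^ (-2 / 3 : ℝ) = x ^ (1 / 3 : ℝ) * t ^ (-2 / 3 : ℝ) := by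
      rw [Real.mul_rpow hx0.le ht.le, ← mul_assoc, ← Real.rpow_one_add' hx0.le (by norm_num)]
      norm_num
    have e2 : 2 * √y ≤ t + y / t := by
      have h := Real.sq_sqrt hy.le
      rw [← sub_nonneg, show t + y / t - 2 * √y = (t - √y) ^ 2 / t by field_simp; linear_combination -h]
      positivity
    have e3 : x * t + x ^ 2 * y / (x * t) = x * (t + y / t) := by field_simp
    simp only
    rw [← mul_assoc, e1, e3, mul_assoc, mul_assoc, mul_left_comm (Real.exp _), ← Real.exp_add]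
    gcongr
    nlinarith

theorem exp_neg_le {x c : ℝ} (n : ℕ) {a : ℝ} (ha : 0 ≤ a) (hx : a ≤ x)
    (h : 1 ≤ c * ∑ i ∈ Finset.range n, a ^ i / i.factorial) (hc : 0 ≤ c) : Real.exp (-x) ≤ c := by
  have h1 := (Real.sum_le_exp_of_nonneg ha n).trans (Real.exp_le_exp.2 hx)
  rw [Real.exp_neg, inv_le_iff_one_le_mul₀ (Real.exp_pos _)]
  exact h.trans (mul_le_mul_of_nonneg_left h1 hc)

theorem c0_ge : 3.62 ≤ c0 := by
  have h1 := Real.pi_gt_d4
  have h2 : √3 ≤ 1.733 := Real.sqrt_le_iff.2 ⟨by norm_num, by norm_num⟩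
  rw [c0, le_div_iff₀ (by positivity)]
  nlinarith

theorem q_le {x : ℝ} (hx : 3 ≤ x) : x ^ (1 / 3 : ℝ) * Real.exp (-(2 * (x - 1) * (c0 / 4))) ≤
    0.04 * Real.exp (-(1.69 * (x - 3))) := by
  have h1 : x ^ (1 / 3 : ℝ) ≤ 1.45 * Real.exp ((x - 3) / 9) := by
    rw [one_div, Real.rpow_inv_le_iff_of_pos (by linarith) (by positivity) (by norm_num),
      Real.rpow_ofNat, mul_pow, ← Real.exp_nat_mul]
    have := Real.add_one_le_exp ((3 : ℕ) * ((x - 3) / 9))
    push_cast at this ⊢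
    nlinarith
  have h2 : Real.exp (-3.62) ≤ 0.0275 := exp_neg_le 10 (a := 3.62) (by norm_num) le_rfl
    (by norm_num [Finset.sum_range_succ, Nat.factorial]) (by norm_num)
  have h3 := c0_ge
  calc _ ≤ 1.45 * Real.exp ((x - 3) / 9) * Real.exp (-(2 * (x - 1) * (c0 / 4))) := by gcongr
    _ ≤ 1.45 * (Real.exp (-3.62) * Real.exp (-(1.69 * (x - 3)))) := by
        rw [mul_assoc, ← Real.exp_add, ← Real.exp_add]
        exact mul_le_mul_of_nonneg_left (Real.exp_le_exp.2 (by nlinarith)) (by norm_num)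
    _ ≤ _ := by
        have := Real.exp_pos (-(1.69 * (x - 3)))
        nlinarith

theorem level_le {x : ℝ} (j : ℕ) (hx : 3 + j ≤ x) :
    Real.exp (-(1.69 * (x - 3))) ≤ 0.185 ^ j := by
  have h2 : Real.exp (-1.69) ≤ 0.185 := exp_neg_le 8 (a := 1.69) (by norm_num) le_rfl
    (by norm_num [Finset.sum_range_succ, Nat.factorial]) (by norm_num)
  refine le_trans ?_ (pow_le_pow_left₀ (Real.exp_pos _).le h2 j)
  rw [← Real.exp_nat_mul]
  exact Real.exp_le_exp.2 (by linarith)

/-- table of bounds, in units of `10⁻⁵` -/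
def tb (N : ℤ) : ℕ :=
  if N < 7 then 16400 else if N < 8 then 5200 else if N < 16 then 4000 else if N < 25 then 740
  else if N < 36 then 137 else if N < 49 then 26 else 5

/-- the head of the majorant -/
def hd (p : ℤ × ℤ) : ℕ :=
  if p.2 % 3 = 0 ∧ 4 ≤ p.1 ^ 2 - p.1 * p.2 + p.2 ^ 2 then tb (p.1 ^ 2 - p.1 * p.2 + p.2 ^ 2) else 0

/-- the box -/
noncomputable def box : Finset (ℤ × ℤ) := Finset.Icc (-8) 8 ×ˢ Finset.Icc (-8) 8

theorem sum_hd : ∑ p ∈ box, hd p ≤ 103000 := by decide +kernel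

/-- the majorant -/
noncomputable def maj (p : ℤ × ℤ) : ℝ :=
  (if p ∈ box then (hd p : ℝ) / 100000 else 0) +
    0.0007 * ((4 / 5) ^ p.1.natAbs * (4 / 5) ^ p.2.natAbs)

theorem maj_nonneg (p : ℤ × ℤ) : 0 ≤ maj p := by
  unfold maj
  split_ifs <;> positivity

theorem hasSum_maj : ∃ S, S ≤ 1.09 ∧ HasSum maj S := by
  have h0 := hasSum_geometric_of_lt_one (r := 4 / 5) (by norm_num) (by norm_num)
  have h1 : HasSum (fun a : ℤ => (4 / 5 : ℝ) ^ a.natAbs) 9 := by
    have := HasSum.of_nat_of_neg_add_one (f := fun a : ℤ => (4 / 5 : ℝ) ^ a.natAbs)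
      (by simpa using h0) ((h0.mul_left (4 / 5)).congr_fun fun n => by
        rw [show (-((n : ℤ) + 1)).natAbs = n + 1 by omega, pow_succ'])
    norm_num at this
    exact this
  have h2 := h1.mul h1 (h1.summable.mul_of_nonneg h1.summable (fun _ => by positivity)
    fun _ => by positivity)
  have h3 : HasSum (fun p => if p ∈ box then (hd p : ℝ) / 100000 else 0)
      (∑ p ∈ box, if p ∈ box then (hd p : ℝ) / 100000 else 0) :=
    hasSum_sum_of_ne_finset_zero fun p hp => if_neg hp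
  refine ⟨_, ?_, h3.add (h2.mul_left 0.0007)⟩
  rw [Finset.sum_congr rfl fun p hp => if_pos hp, ← Finset.sum_div, ← Nat.cast_sum]
  have : ((∑ p ∈ box, hd p : ℕ) : ℝ) ≤ 103000 := by exact_mod_cast sum_hd
  generalize ((∑ p ∈ box, hd p : ℕ) : ℝ) = Z at this
  linarith

theorem w_le {ν : O} (h3 : ν.im % 3 = 0) (h4 : 4 ≤ nm ν) {w : ℝ} (hw : w ≤ 1)
    (hw' : nm ν < 8 → w ≤ (nm ν : ℝ) ^ (-1 / 6 : ℝ)) :
    w * (√(nm ν) ^ (1 / 3 : ℝ) * Real.exp (-(2 * (√(nm ν) - 1) * (c0 / 4)))) ≤ maj (ν.re, ν.im) := by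
  have hN := nm_int ν
  have hc := c0_ge
  have hx : ∀ {a : ℝ}, 0 ≤ a → a ^ 2 ≤ nm ν → a ≤ √(nm ν) := fun h1 h2 => Real.le_sqrt_of_sq_le h2
  have hq : 0 ≤ √(nm ν) ^ (1 / 3 : ℝ) * Real.exp (-(2 * (√(nm ν) - 1) * (c0 / 4))) := by positivity
  have big : 8 ≤ nm ν → _ ≤ 0.04 * Real.exp (-(1.69 * (√(nm ν) - 3))) := fun h8 => by
    have := nm_mod_three_ne_two ν
    have h9 : (9 : ℝ) ≤ nm ν := by exact_mod_cast (by omega : 9 ≤ nm ν)
    exact (mul_le_of_le_one_left hq hw).trans (q_le (hx (by norm_num) (by linarith)))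
  by_cases hb : (ν.re, ν.im) ∈ box
  · refine le_trans ?_ (le_add_of_nonneg_right (by positivity))
    rw [if_pos hb, hd, if_pos ⟨h3, by simp only [← hN]; exact_mod_cast h4⟩]
    simp only [← hN]
    by_cases h8 : nm ν < 8
    · have h0 : (0 : ℝ) < nm ν := by exact_mod_cast (by omega : 0 < nm ν)
      have e : (nm ν : ℝ) ^ (-1 / 6 : ℝ) * √(nm ν) ^ (1 / 3 : ℝ) = 1 := by
        rw [Real.sqrt_eq_rpow, ← Real.rpow_mul h0.le, ← Real.rpow_add h0]
        norm_num
      refine (mul_le_mul_of_nonneg_right (hw' h8) hq).trans ?_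
      rw [← mul_assoc, e, one_mul, tb]
      split_ifs with a1 a2
      · have := hx (a := 2) (by norm_num) (by norm_num; exact_mod_cast h4)
        exact exp_neg_le 8 (a := 1.81) (by norm_num) (by nlinarith)
          (by norm_num [Finset.sum_range_succ, Nat.factorial]) (by norm_num)
      · have h7 : (7 : ℝ) ≤ nm ν := by exact_mod_cast (by omega : 7 ≤ nm ν)
        have := hx (a := 2.645) (by norm_num) (by linarith)
        exact exp_neg_le 10 (a := 2.977) (by norm_num) (by nlinarith)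
          (by norm_num [Finset.sum_range_succ, Nat.factorial]) (by norm_num)
      all_goals omega
    · have lev : ∀ j : ℕ, (3 + j) ^ 2 ≤ nm ν → _ ≤ (0.04 : ℝ) * 0.185 ^ j := fun j hj =>
        (big (by omega)).trans (mul_le_mul_of_nonneg_left (level_le j
          (hx (by positivity) (by exact_mod_cast hj))) (by norm_num))
      have := nm_mod_three_ne_two ν
      rw [tb]
      split_ifs with a1 a2 a3 a4 a5 a6
      · omega
      · omega
      · exact (lev 0 (by norm_num; omega)).trans (by norm_num)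
      · exact (lev 1 (by norm_num; omega)).trans (by norm_num)
      · exact (lev 2 (by norm_num; omega)).trans (by norm_num)
      · exact (lev 3 (by norm_num; omega)).trans (by norm_num)
      · exact (lev 4 (by norm_num; omega)).trans (by norm_num)
  · rw [maj, if_neg hb, zero_add]
    obtain ⟨k, k1, k2, k3, k4⟩ : ∃ k : ℕ, 9 ≤ k ∧ ν.re.natAbs ≤ k ∧ ν.im.natAbs ≤ k ∧
        3 * (k : ℤ) ^ 2 ≤ 4 * nm ν := by
      simp only [box, Finset.mem_product, Finset.mem_Icc] at hb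
      rcases le_total ν.re.natAbs ν.im.natAbs with h | h
      · refine ⟨_, by omega, h, le_rfl, ?_⟩
        rw [Int.natAbs_sq, hN]
        nlinarith [sq_nonneg (2 * ν.re - ν.im)]
      · refine ⟨_, by omega, le_rfl, h, ?_⟩
        rw [Int.natAbs_sq, hN]
        nlinarith [sq_nonneg (2 * ν.im - ν.re)]
    have k5 : (9 : ℝ) ≤ k := by exact_mod_cast k1
    have k6 : 3 * (k : ℝ) ^ 2 ≤ 4 * nm ν := by exact_mod_cast k4
    have k7 := hx (a := 0.866 * k) (by positivity) (by nlinarith)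
    have k8 : 8 ≤ nm ν := by
      have : (8 : ℝ) ≤ nm ν := by nlinarith
      exact_mod_cast this
    have b1 : Real.exp (-4.07) ≤ 0.0175 := exp_neg_le 12 (a := 4.07) (by norm_num) le_rfl
      (by norm_num [Finset.sum_range_succ, Nat.factorial]) (by norm_num)
    have b2 : Real.exp (-0.447) ≤ 4 / 5 * (4 / 5) := exp_neg_le 5 (a := 0.447) (by norm_num) le_rfl
      (by norm_num [Finset.sum_range_succ, Nat.factorial]) (by norm_num)
    have b3 : Real.exp (-(1.69 * (√(nm ν) - 3))) ≤ Real.exp (-4.07) * Real.exp (-0.447) ^ k := by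
      rw [← Real.exp_nat_mul, ← Real.exp_add]
      exact Real.exp_le_exp.2 (by linarith)
    have b4 : Real.exp (-0.447) ^ k ≤ (4 / 5) ^ ν.re.natAbs * (4 / 5) ^ ν.im.natAbs := by
      refine (pow_le_pow_left₀ (Real.exp_pos _).le b2 k).trans ?_
      rw [mul_pow]
      gcongr ?_ * ?_ <;> exact pow_le_pow_of_le_one (by norm_num) (by norm_num) (by assumption)
    refine (big k8).trans ?_
    have b5 := mul_le_mul b1 b4 (by positivity) (by norm_num)
    simp only
    linarith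

theorem m_le {y : ℝ} (hy : (c0 / 4) ^ 2 ≤ y) :
    16 / 9 * Real.exp (-(2 * (16 / 9 - 1) * √y)) ≤ 0.44 := by
  have hc := c0_ge
  have h1 : c0 / 4 ≤ √y := Real.le_sqrt_of_sq_le hy
  have := exp_neg_le (x := 2 * (16 / 9 - 1) * √y) (c := 0.2475) 8 (a := 1.407) (by norm_num)
    (by linarith) (by norm_num [Finset.sum_range_succ, Nat.factorial]) (by norm_num)
  linarith

end Vale.Agent.P006.VK
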