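import Vale.Agent.P006.VKRg

/-! # P006 K: the constant term of `PsK 2 δ μ` at the cusp `0`. -/

namespace Vale.Agent.P006.VK

open Vale.Agent.P026
open scoped ComplexConjugate Real Topology

theorem per_E {u : O} (hu : IsUnit u) (m : ℕ) : Per 9 fun x => ind (Prim x) * cub (u * lam ^ m) x :=
  fun x y hxy => by
    by_cases hx : Prim x
    · simp only [prim_congr (k_three_nine.trans hxy), cub_ulam_congr hu m hx hxy]
    · simp only [ind_of_not hx, ind_of_not fun h => hx ((prim_congr (k_three_nine.trans hxy)).2 h),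
        zero_mul]

theorem E_zero {u a : O} (hu : IsUnit u) (m : ℕ) (ha : Prim a) (h : cub (u * lam ^ m) a ≠ 1) :
    ∑ x ∈ res 9, ind (Prim x) * cub (u * lam ^ m) x = 0 := by
  have h1 := sum_res_affine k_nine (per_E hu m) ha.coprime_nine 0
  have h2 : ∑ x ∈ res 9, ind (Prim (a * x + 0)) * cub (u * lam ^ m) (a * x + 0) =
      cub (u * lam ^ m) a * ∑ x ∈ res 9, ind (Prim x) * cub (u * lam ^ m) x := by
    rw [Finset.mul_sum]
    refine Finset.sum_congr rfl fun x _ => ?_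
    by_cases hx : Prim x
    · rw [add_zero, ind_of hx, ind_of (ha.mul hx), cub_mul_right ha.ne_zero hx.ne_zero]
      ring
    · rw [add_zero, ind_of_not hx, ind_of_not fun h => hx (ha.of_mul h)]
      ring
  rw [h2] at h1
  by_contra hne
  exact h (mul_right_cancel₀ hne (h1.trans (one_mul _).symm))

theorem toC_om_ne_one : toC om ≠ 1 := fun h =>
  absurd (toC_injective (h.trans (map_one toC).symm)) (by decide)

theorem toC_om_sq_ne_one : toC om ^ 2 ≠ 1 := fun h =>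
  absurd (toC_injective ((map_pow toC om 2).trans (h.trans (map_one toC).symm))) (by decide)

theorem toC_om_cube : toC om ^ 3 = 1 := by rw [← map_pow, om_cube, map_one]

theorem cub_lam_two : cub lam (-2) = 1 := by
  rw [cub_congr (b := 1) ⟨-om, by decide⟩, cub_one_left]

theorem cub_om_two : cub om (-2) = toC om := by
  rw [cub_om prim_neg_two, show nm (-2) = 4 by decide]
  simp

theorem prim_seven : Prim ⟨1, 3⟩ := ⟨om, by decide⟩

theorem cub_lam_seven : cub lam ⟨1, 3⟩ = toC om ^ 2 := by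
  have hp : Prime (⟨1, 3⟩ : O) :=
    (irreducible_of_nm_prime (by rw [show nm ⟨1, 3⟩ = 7 by decide]; norm_num)).prime
  rw [cub_prime hp, cubP_eq_of_dvd hp prim_seven.not_lam_dvd (x := om ^ 2) (by simp)
    (by rw [show nm ⟨1, 3⟩ = 7 by decide]; exact ⟨1 + om, by decide⟩), map_pow]

theorem E_eq_zero {u : O} (hu : IsUnit u) (m : ℕ) (h : ¬((u = 1 ∨ u = -1) ∧ 3 ∣ m)) :
    ∑ x ∈ res 9, ind (Prim x) * cub (u * lam ^ m) x = 0 := by
  have k2 : ∀ v : O, cub (v * lam ^ m) (-2) = cub v (-2) := fun v => by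
    rw [cub_mul_left, cub_pow_left, cub_lam_two, one_pow, mul_one]
  have k7 : ¬3 ∣ m → cub (lam ^ m) ⟨1, 3⟩ ≠ 1 := fun hm => by
    rw [cub_pow_left, cub_lam_seven, ← pow_mul, ← Nat.div_add_mod (2 * m) 3, pow_add, pow_mul,
      toC_om_cube, one_pow, one_mul]
    have : 2 * m % 3 = 1 ∨ 2 * m % 3 = 2 := by omega
    rcases this with e | e <;> rw [e]
    · simpa using toC_om_ne_one
    · exact toC_om_sq_ne_one
  rcases isUnit_iff.1 hu with rfl | rfl | rfl | rfl | rfl | rfl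
  · exact E_zero hu m prim_seven (by rw [one_mul]; exact k7 fun hm => h ⟨Or.inl rfl, hm⟩)
  · exact E_zero hu m prim_seven
      (by rw [neg_one_mul, cub_neg_left]; exact k7 fun hm => h ⟨Or.inr rfl, hm⟩)
  · exact E_zero hu m prim_neg_two (by rw [k2, cub_om_two]; exact toC_om_ne_one)
  · exact E_zero hu m prim_neg_two (by rw [k2, cub_neg_left, cub_om_two]; exact toC_om_ne_one)
  · exact E_zero hu m prim_neg_two (by rw [k2, cub_pow_left, cub_om_two]; exact toC_om_sq_ne_one)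
  · exact E_zero hu m prim_neg_two
      (by rw [k2, cub_neg_left, cub_pow_left, cub_om_two]; exact toC_om_sq_ne_one)

theorem E_eq_nine {u : O} (hu : u = 1 ∨ u = -1) (k : ℕ) :
    ∑ x ∈ res 9, ind (Prim x) * cub (u * lam ^ (3 * k)) x = 9 := by
  have h3 : (3 : O) ≠ 0 := by decide
  have h1 : ∀ x, ind (Prim x) * cub (u * lam ^ (3 * k)) x = ind ((3 : O) ∣ 1 - x) := fun x => by
    by_cases hx : Prim x
    · have e : cub (lam ^ (3 * k)) x = 1 := by
        rw [cub_pow_left, pow_mul, cub_cube (coprime_lam hx), one_pow]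
      rw [ind_of hx, ind_of (dvd_sub_comm.1 hx), one_mul]
      rcases hu with rfl | rfl
      · rw [one_mul, e]
      · rw [neg_one_mul, cub_neg_left, e]
    · rw [ind_of_not hx, ind_of_not fun h => hx (dvd_sub_comm.1 h), zero_mul]
  simp only [h1]
  rw [show (9 : O) = 3 * 3 by norm_num, sum_res_mul_per h3 h3 fun x y hxy => by
    simp only [dvd_iff_dvd_of_dvd_sub (show (3 : O) ∣ 1 - x - (1 - y) by
      simpa using dvd_sub_comm.1 hxy)], sum_res_ind h3, show nm 3 = 9 by decide]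
  norm_num

theorem T_eq {u n : O} (hu : IsUnit u) (j : ℕ) (hn : Prim n) :
    ∑ d ∈ res (9 * (u * lam ^ j * n)), ind (Prim d) * cub (lam ^ 2 * (u * lam ^ j * n)) d =
      3 ^ j * (∑ x ∈ res 9, ind (Prim x) * cub (u * lam ^ (j + 2)) x) * g3 0 n := by
  have hq0 : u * lam ^ j ≠ 0 := mul_ne_zero hu.ne_zero (pow_ne_zero _ prime_lam.ne_zero)
  have hq : u * lam ^ j * 9 ≠ 0 := mul_ne_zero hq0 k_nine
  have e9 : u * lam ^ j * 9 = u * lam ^ (j + 4) := by rw [pow_add, rw_lam_four, mul_assoc]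
  have hc : ∀ m, IsCoprime (u * lam ^ m) n := fun m =>
    (rw_coprime_unit hu n).mul_left (coprime_lam hn).pow_left
  have key : ∀ d, ind (Prim d) * cub (lam ^ 2 * (u * lam ^ j * n)) d =
      ind (Prim d) * cub (u * lam ^ (j + 2)) d * cub d n := fun d => by
    by_cases hd : Prim d
    · rw [show lam ^ 2 * (u * lam ^ j * n) = u * lam ^ (j + 2) * n by ring, cub_mul_left,
        cub_recip hn hd, mul_assoc]
    · simp [ind_of_not hd]
  have h3 : ((nm (u * lam ^ j) : ℕ) : ℂ) = 3 ^ j := by rw [nm_ulam hu]; simp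
  simp only [key]
  rw [show 9 * (u * lam ^ j * n) = u * lam ^ j * 9 * n by ring,
    sum_res_crt hq hn.ne_zero (e9 ▸ hc _) fun x y hxy => by
      have a1 := per_E hu (j + 2) x y (((dvd_mul_left 9 _).mul_right n).trans hxy)
      simp only at a1 ⊢
      rw [a1, cub_congr ((dvd_mul_left n _).trans hxy)],
    ← h3, ← sum_res_mul_per hq0 k_nine (per_E hu (j + 2))]
  by_cases h0 : g3 0 n = 0
  · rw [h0, mul_zero]
    refine Finset.sum_eq_zero fun x _ => ?_
    have : ∀ y, ind (Prim (n * x + u * lam ^ j * 9 * y)) *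
        cub (u * lam ^ (j + 2)) (n * x + u * lam ^ j * 9 * y) * cub (n * x + u * lam ^ j * 9 * y) n =
        ind (Prim (n * x)) * cub (u * lam ^ (j + 2)) (n * x) * cub (u * lam ^ j * 9) n *
          (cub y n * eq (0 * y) n) := fun y => by
      have a1 := per_E hu (j + 2) (n * x + u * lam ^ j * 9 * y) (n * x) ⟨u * lam ^ j * y, by ring⟩
      simp only at a1
      rw [a1, cub_congr (a := n * x + _) (n := n) (b := u * lam ^ j * 9 * y) ⟨x, by ring⟩,
        cub_mul_left _ y, zero_mul, eq_of_dvd (dvd_zero n)]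
      ring
    rw [Finset.sum_congr rfl fun y _ => this y, ← Finset.mul_sum, ← g3, h0, mul_zero]
  · obtain ⟨e, he, rfl⟩ := g3_zero_ne hn h0
    have hce : ∀ m, cub (u * lam ^ m) (e ^ 3) = 1 := fun m => by
      rw [cub_pow_right he.ne_zero, cub_cube ((hc m).of_isCoprime_of_dvd_right
        (dvd_pow_self e three_ne_zero))]
    rw [g3, Finset.sum_mul_sum]
    refine Finset.sum_congr rfl fun x _ => Finset.sum_congr rfl fun y _ => ?_
    have a1 := per_E hu (j + 2) (e ^ 3 * x + u * lam ^ j * 9 * y) x (by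
      obtain ⟨l, hl⟩ := he.cube
      exact ⟨l * x + u * lam ^ j * y, by linear_combination x * hl⟩)
    simp only at a1
    rw [a1, cub_congr (a := e ^ 3 * x + _) (n := e ^ 3) (b := u * lam ^ j * 9 * y) ⟨x, by ring⟩,
      cub_mul_left _ y, e9, hce, zero_mul, eq_of_dvd (dvd_zero _)]
    ring

theorem Acf_S (δ μ c : O) : Acf 9 (fun r => PsK 2 δ μ (rmul r mS)) 0 c =
    ind (δ ∣ c) * eq (μ * c) 9 * ∑ d ∈ res (9 * c), ind (Prim d) * cub (lam ^ 2 * c) d := by
  rw [Acf, Finset.mul_sum]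
  refine Finset.sum_congr rfl fun d _ => ?_
  simp only [rmul_mS, PsK, dvd_neg, mul_neg, neg_neg, cub_neg_left, zero_mul,
    eq_of_dvd (dvd_zero _)]
  ring

/-- a sign -/
def sg (b : Bool) : O := if b then 1 else -1

theorem sg_cases (b : Bool) : sg b = 1 ∨ sg b = -1 := by cases b <;> simp [sg]

theorem sg_unit (b : Bool) : IsUnit (sg b) := by cases b <;> simp [sg]

theorem tsum_sg {F : O → ℂ} (h0 : F 0 = 0)
    (hF : ∀ (u : O) (j : ℕ) (n : O), IsUnit u → Prim n → F (u * lam ^ j * n) ≠ 0 →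
      (u = 1 ∨ u = -1) ∧ 3 ∣ j + 2) :
    ∑' c, F c = ∑' x : (Bool × ℕ) × O, ind (Prim x.2) * F (sg x.1.1 * lam ^ (3 * x.1.2 + 1) * x.2) := by
  have hinj : Function.Injective fun x : {x : (Bool × ℕ) × O | Prim x.2} =>
      sg x.1.1.1 * lam ^ (3 * x.1.1.2 + 1) * x.1.2 := by
    rintro ⟨⟨⟨b, j⟩, c⟩, hc⟩ ⟨⟨⟨b', j'⟩, c'⟩, hc'⟩ h
    obtain ⟨h1, h2, rfl⟩ := decomp_unique (sg_unit b) (sg_unit b') hc hc' h
    obtain rfl : j = j' := by simpa using h2
    obtain rfl : b = b' := by revert h1; cases b <;> cases b' <;> decide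
    rfl
  rw [← hinj.tsum_eq (f := F) fun c hc => ?_]
  · rw [tsum_subtype {x : (Bool × ℕ) × O | Prim x.2}
      fun x => F (sg x.1.1 * lam ^ (3 * x.1.2 + 1) * x.2)]
    refine tsum_congr fun x => ?_
    by_cases h : Prim x.2
    · rw [Set.indicator_of_mem (by exact h), ind_of h, one_mul]
    · rw [Set.indicator_of_notMem (by exact h), ind_of_not h, zero_mul]
  · obtain ⟨u, j, c', hu, hc', rfl⟩ := exists_decomp (n := c) fun h => hc (h ▸ h0)
    obtain ⟨h1, k, hk⟩ := hF u j c' hu hc' hc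
    obtain rfl : j = 3 * (k - 1) + 1 := by omega
    rcases h1 with rfl | rfl
    · exact ⟨⟨⟨⟨true, k - 1⟩, c'⟩, hc'⟩, rfl⟩
    · exact ⟨⟨⟨⟨false, k - 1⟩, c'⟩, hc'⟩, rfl⟩

theorem norm_x_lt {s : ℂ} (hs : 1 < s.re) : ‖((3 : ℂ) ^ (1 + -1 * s)) ^ 3‖ < 1 := by
  rw [norm_pow]
  refine pow_lt_one₀ (norm_nonneg _) ?_ three_ne_zero
  rw [show (3 : ℂ) = ((3 : ℝ) : ℂ) by simp, Complex.norm_cpow_eq_rpow_re_of_pos (by norm_num)]
  exact Real.rpow_lt_one_of_one_lt_of_neg (by norm_num) (by simp; linarith)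

theorem aD_S {δ : O} (hδ : δ ∣ 9) (μ : O) {s : ℂ} (hs : 2 < s.re) :
    aD 9 (fun r => PsK 2 δ μ (rmul r mS)) 0 1 s =
      9 * (3 : ℂ) ^ (1 + -1 * s) * (ind (δ ∣ lam) * (eq (μ * lam) 9 + eq (-(μ * lam)) 9) +
        2 * (((3 : ℂ) ^ (1 + -1 * s)) ^ 3 / (1 - ((3 : ℂ) ^ (1 + -1 * s)) ^ 3))) * psiP 0 s := by
  set x := (3 : ℂ) ^ (1 + -1 * s) with hx
  have hx1 : ‖x ^ 3‖ < 1 := norm_x_lt (by linarith)
  have hs0 : -s ≠ 0 := fun h => by
    rw [neg_eq_zero.1 h] at hs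
    norm_num at hs
  set B : Bool × ℕ → ℂ := fun i => 9 * x * (ind (δ ∣ lam ^ (3 * i.2 + 1)) *
    eq (μ * (sg i.1 * lam ^ (3 * i.2 + 1))) 9 * (x ^ 3) ^ i.2) with hB
  have hB1 : ∀ b, HasSum (fun k => B (b, k))
      (9 * x * (ind (δ ∣ lam) * eq (μ * (sg b * lam)) 9 + x ^ 3 / (1 - x ^ 3))) := fun b => by
    refine HasSum.mul_left _ ?_
    rw [← hasSum_nat_add_iff' 1]
    simp only [Finset.sum_range_one, mul_zero, zero_add, pow_one, pow_zero, mul_one,
      add_sub_cancel_left]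
    refine ((hasSum_geometric_of_norm_lt_one hx1).mul_left (x ^ 3)).congr_fun fun k => ?_
    have h9 : (9 : O) ∣ lam ^ (3 * (k + 1) + 1) := rw_lam_four ▸ pow_dvd_pow lam (by omega)
    rw [ind_of (hδ.trans h9), eq_of_dvd ((h9.mul_left _).mul_left _)]
    ring
  have hB2 : Summable fun i => ‖B i‖ := by
    refine (Summable.mul_of_nonneg (f := fun _ : Bool => 9 * ‖x‖) Summable.of_finite
      (summable_geometric_of_lt_one (norm_nonneg _) hx1) (fun _ => by positivity)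
      fun _ => by positivity).of_nonneg_of_le (fun _ => norm_nonneg _) fun i => ?_
    simp only [hB, norm_mul, norm_eq, mul_one, norm_pow (x ^ 3), Complex.norm_ofNat]
    exact mul_le_mul_of_nonneg_left (mul_le_of_le_one_left (by positivity) (norm_ind_le _))
      (by positivity)
  have hB3 : ∑' i, B i = 9 * x * (ind (δ ∣ lam) * (eq (μ * lam) 9 + eq (-(μ * lam)) 9) +
      2 * (x ^ 3 / (1 - x ^ 3))) := by
    rw [hB2.of_norm.tsum_prod, tsum_bool, (hB1 _).tsum_eq, (hB1 _).tsum_eq]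
    simp only [sg, if_true, one_mul, Bool.false_eq_true, if_false, neg_mul, mul_neg]
    ring
  rw [← hB3, psiP, tsum_mul_tsum_of_summable_norm hB2 (summable_psi 0 Prim hs).norm, aD,
    tsum_sg (by simp [hs0]) fun u j n hu hn h => ?_]
  · refine tsum_congr fun y => ?_
    obtain ⟨⟨b, k⟩, n⟩ := y
    by_cases hn : Prim n
    swap
    · simp [ind_of_not hn]
    simp only [hB]
    rw [Acf_S, T_eq (sg_unit b) _ hn, show 3 * k + 1 + 2 = 3 * (k + 1) by ring,
      E_eq_nine (sg_cases b), ind_of hn, ind_of isCoprime_one_right, nm_mul, nm_ulam (sg_unit b),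
      Nat.cast_mul, Complex.natCast_mul_natCast_cpow]
    by_cases h0 : g3 0 n = 0
    · simp [h0]
    obtain ⟨e, he, rfl⟩ := g3_zero_ne hn h0
    have a1 : δ ∣ sg b * lam ^ (3 * k + 1) * e ^ 3 ↔ δ ∣ lam ^ (3 * k + 1) := by
      rw [mul_assoc, (sg_unit b).dvd_mul_left]
      exact ⟨fun h => (hn.coprime_nine.symm.of_isCoprime_of_dvd_left hδ).dvd_of_dvd_mul_right h,
        fun h => h.mul_right _⟩
    have a2 : eq (μ * (sg b * lam ^ (3 * k + 1) * e ^ 3)) 9 = eq (μ * (sg b * lam ^ (3 * k + 1))) 9 :=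
      eq_congr (by
        obtain ⟨l, hl⟩ := he.cube
        exact ⟨μ * (sg b * lam ^ (3 * k + 1)) * l, by
          linear_combination μ * (sg b * lam ^ (3 * k + 1)) * hl⟩)
    have a3 : (3 : ℂ) ^ (3 * k + 1) * ((3 ^ (3 * k + 1) : ℕ) : ℂ) ^ (-s) = x * (x ^ 3) ^ k := by
      rw [← pow_mul, ← pow_succ', hx, Complex.cpow_add _ _ three_ne_zero, Complex.cpow_one, mul_pow,
        neg_one_mul, Nat.cast_pow, ← Complex.natCast_cpow_natCast_mul, Complex.cpow_nat_mul]
      simp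
    rw [a1, a2]
    linear_combination (9 * ind (δ ∣ lam ^ (3 * k + 1)) * eq (μ * (sg b * lam ^ (3 * k + 1))) 9 *
      g3 0 (e ^ 3) * (nm (e ^ 3) : ℂ) ^ (-s)) * a3
  · by_contra hc
    apply h
    rw [Acf_S, T_eq hu j hn, E_eq_zero hu _ hc]
    simp

theorem rho_S {δ : O} (hδ : δ ∣ 9) (μ : O) : rho (fun r => PsK 2 δ μ (rmul r mS)) 0 =
    9 * (((3 : ℝ) ^ (-1 / 3 : ℝ) : ℝ) : ℂ) *
      (ind (δ ∣ lam) * (eq (μ * lam) 9 + eq (-(μ * lam)) 9) + 1) * Rg 0 := by
  have h1 : Hol fun s => (3 : ℂ) ^ (1 + -1 * s) := hol_cpow three_ne_zero 1 (-1)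
  have h3 : Hol fun s => ((3 : ℂ) ^ (1 + -1 * s)) ^ 3 := DifferentiableOn.fun_pow h1 3
  have h2 : Hol fun s => ((3 : ℂ) ^ (1 + -1 * s)) ^ 3 / (1 - ((3 : ℂ) ^ (1 + -1 * s)) ^ 3) :=
    DifferentiableOn.div h3 ((Hol.const 1).sub h3) fun s hs h => by
      have := norm_x_lt hs
      rw [← sub_eq_zero.1 h] at this
      simp at this
  rw [RS.rho_eq (((rs_psiP 0).hol_mul (((Hol.const 9).mul h1).mul ((Hol.const _).add
    ((Hol.const 2).mul h2)))).congr fun s hs => (aD_S hδ μ hs).symm)]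
  have e1 : (3 : ℂ) ^ (1 + -1 * (4 / 3 : ℂ)) = (((3 : ℝ) ^ (-1 / 3 : ℝ) : ℝ) : ℂ) := by
    rw [Complex.ofReal_cpow (by norm_num)]
    norm_num
  have e2 : ((3 : ℂ) ^ (1 + -1 * (4 / 3 : ℂ))) ^ 3 = 1 / 3 := by
    rw [← Complex.cpow_nat_mul]
    norm_num [Complex.cpow_neg_one]
  rw [e2, e1]
  norm_num

end Vale.Agent.P006.VK
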