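import Vale.Agent.P006.VKMel
import Vale.Agent.P006.VKZero
import Vale.Agent.P026.Poisson

/-! # P006 K: the value of `Rg 0` and the pole identity for `|Rg (u λ^j)|²`. -/

namespace Vale.Agent.P006.VK

open Vale.Agent.P026
open scoped ComplexConjugate Real Topology
open MeasureTheory Filter Set

theorem ker_exp : Ker fun y => Real.exp (-y) := by
  refine ⟨by fun_prop, fun A => ⟨A.factorial, by positivity, fun y hy => ?_⟩⟩
  have h := Real.pow_div_factorial_le_exp y hy.le A
  rw [abs_of_pos (Real.exp_pos _), Real.exp_neg, inv_eq_one_div,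
    div_le_div_iff₀ (Real.exp_pos _) (by positivity), one_mul]
  rw [div_le_iff₀ (by positivity)] at h
  linarith

theorem ker_Kr : Ker Kr := by
  refine ⟨continuousOn_Kr.mono Ioi_subset_Ici_self, fun A => ?_⟩
  obtain ⟨C, hC, h⟩ := Kr_decay A
  exact ⟨C, hC.le, fun y hy => by rw [abs_of_pos (Kr_pos hy.le)]; exact h y hy⟩

theorem hol_comp {w : ℂ → ℂ} (hw : Hol w) : Hol fun s => w (3 * s - 2) :=
  hw.comp (f := fun s => 3 * s - 2) (by fun_prop) fun s hs => by
    have : 1 < s.re := hs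
    simp only [mem_ofPred_eq, Complex.sub_re, Complex.mul_re, Complex.re_ofNat, Complex.im_ofNat]
    linarith

theorem not_prim_zero : ¬Prim 0 := fun h => h.ne_zero rfl

theorem rs_zP : RS (fun s => zP (3 * s - 3)) (c0 / 27 : ℝ) := by
  have h3 : (3 : O) ≠ 0 := by decide
  set S : O → ℂ := fun k => ∑ x ∈ res 3, ind (Prim x) * eq (k * x) 3 with hS
  have hS0 : S 0 = 1 := by
    simp only [hS, zero_mul, eq_of_dvd (dvd_zero _), mul_one]
    rw [← sum_res_ind h3 1]
    exact Finset.sum_congr rfl fun x _ => by rw [Prim, dvd_sub_comm]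
  have hS1 : ∀ k, ‖S k‖ ≤ 9 := fun k => by
    refine (norm_sum_le _ _).trans ((Finset.sum_le_card_nsmul _ _ 1 fun x _ => ?_).trans ?_)
    · rw [norm_mul, norm_eq, mul_one]
      exact norm_ind_le _
    · rw [card_res h3, show nm 3 = 9 by decide]
      norm_num
  have hc : 0 < c0 := by unfold c0; positivity
  have h := rs_fe ker_exp (a := fun n => ind (Prim n))
    (b := fun k => (c0 / 9 : ℝ) * (ind (k ≠ 0) * S k)) (C := 1) (C' := c0) (k := 0)
    (ind_of_not not_prim_zero) (fun _ => norm_ind_le _) (by simp [ind_of_not]) (fun k hk => by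
      rw [ind_of hk, one_mul, norm_mul, Complex.norm_real, Real.norm_of_nonneg (by positivity)]
      have := hS1 k
      simp only [pow_zero, mul_one]
      nlinarith) one_pos (q := c0 ^ 2 / 9) (by positivity) (σ := (c0 / 9 : ℝ)) (e := 1) (α := 3)
    (β := -3) (by norm_num) (by norm_num) (by norm_num) (by norm_num) (by norm_num) fun t ht => by
      have h1 := poisson_gauss h3 (f := fun n => ind (Prim n))
        (fun x y hxy => by simp only [prim_congr hxy]) (Y := 1 / t) (by positivity)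
      have hs : Summable fun k : O => S k * (Real.exp (-(c0 ^ 2 / 9 * nm k * (1 / t))) : ℝ) := by
        refine ((summable_exp (y := c0 ^ 2 / 9 * (1 / t)) (by positivity)).mul_left 9).of_norm_bounded
          fun k => ?_
        rw [norm_mul, Complex.norm_real, Real.norm_of_nonneg (Real.exp_pos _).le, mul_right_comm]
        exact mul_le_mul_of_nonneg_right (hS1 k) (Real.exp_pos _).le
      have e1 : ∀ k : O, c0 ^ 2 * (1 / t) * nm k / nm 3 = c0 ^ 2 / 9 * nm k * (1 / t) := fun k => by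
        rw [show nm 3 = 9 by decide]
        push_cast
        ring
      have e2 : ∀ n : O, (nm n : ℝ) / (1 / t) = 1 * nm n * t := fun n => by field_simp
      simp only [e1, e2] at h1
      classical
      rw [ser, h1, hs.tsum_eq_add_tsum_ite 0, hS0, ser, show nm 3 = 9 by decide]
      simp only [mul_assoc ((c0 / 9 : ℝ) : ℂ), tsum_mul_left]
      rw [tsum_congr (g := fun k : O => ind (k ≠ 0) * S k *
        (Real.exp (-(c0 ^ 2 / 9 * nm k * (1 / t))) : ℝ)) fun k => by
          split_ifs with hk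
          · simp [hk, ind_of_not]
          · rw [ind_of hk, one_mul]]
      simp only [nm_zero, Complex.ofReal_one, Complex.cpow_neg_one]
      push_cast
      simp only [mul_zero, zero_mul, neg_zero, Complex.exp_zero]
      ring
  have hG : Hol fun s => Complex.Gamma (3 * s - 3) := fun s hs => by
    have hs : 1 < s.re := hs
    refine (DifferentiableAt.comp (g := Complex.Gamma) s (Complex.differentiableAt_Gamma _
      fun m hm => ?_) (by fun_prop)).differentiableWithinAt
    have := congrArg Complex.re hm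
    simp at this
    have : (0 : ℝ) ≤ m := Nat.cast_nonneg m
    linarith
  have e1 : (3 : ℂ) * (4 / 3) - 3 = 1 := by norm_num
  have := RS.of_mul (f := fun s => zP (3 * s - 3)) (h.congr fun s hs => ?_) hG
    (by rw [e1, Complex.Gamma_one]; exact one_ne_zero)
  · rw [e1, Complex.Gamma_one] at this
    convert this using 1
    push_cast
    ring
  · have e : ((3 : ℝ) : ℂ) * s + (-3 : ℝ) = 3 * s - 3 := by push_cast; ring
    rw [e, Complex.Gamma_eq_integral (by simp; linarith), Complex.GammaIntegral_eq_mellin, zP]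
    simp

theorem Rg_zero : Rg 0 = ResZ := by
  have h := rs_zP.hol_mul (hol_comp (ThCZ_hol ThCZ_norm_mu))
  rw [(rs_psiP 0).unique (h.congr fun s hs => by rw [psiP_zero, psi_one_zero hs]; rfl), ResZ,
    mul_comm]
  norm_num [mP]

theorem exists_m2 : ∃ m : ℝ, 0 < m ∧ mP 2 = m ∧ zP 2 * m = 1 := by
  have h3 := zetaP_mul_mu 1 (fun _ _ _ _ => by simp) rfl (fun _ => by simp) (s := 2) (by norm_num)
  simp only [Pi.one_apply, mul_one] at h3
  change zP 2 * mP 2 = 1 at h3
  classical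
  set f : O → ℝ := fun n => if Prim n then (nm n : ℝ) ^ (-2 : ℝ) else 0 with hf
  have e : zP 2 = ((∑' n, f n : ℝ) : ℂ) := by
    rw [zP, Complex.ofReal_tsum]
    refine tsum_congr fun n => ?_
    simp only [hf]
    split_ifs with h
    · rw [ind_of h, one_mul, Complex.ofReal_cpow (Nat.cast_nonneg _)]
      simp
    · simp [ind_of_not h]
  have h0 : 0 ≤ ∑' n, f n := tsum_nonneg fun n => by simp only [hf]; split_ifs <;> positivity
  have h1 : ∑' n, f n ≠ 0 := fun h => by simp [e, h] at h3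
  have h2 : ((∑' n, f n : ℝ) : ℂ) ≠ 0 := Complex.ofReal_ne_zero.2 h1
  have h4 : mP 2 = (((∑' n, f n)⁻¹ : ℝ) : ℂ) := by
    rw [Complex.ofReal_inv, ← e]
    exact eq_inv_of_mul_eq_one_right h3
  exact ⟨_, inv_pos.2 (lt_of_le_of_ne h0 h1.symm), h4, h4 ▸ h3⟩

theorem mellin_Kr : mellin (fun t => (Kr t : ℂ)) (((1 : ℝ) : ℂ) * (4 / 3) + (-2 / 3 : ℝ)) =
    Real.Gamma (2 / 3) := by
  set f : ℝ → ℝ → ℝ := fun t y => y ^ (2 / 3 - 1 : ℝ) * (t ^ (-2 / 3 : ℝ) * Real.exp (-(t + y / t)))
    with hf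
  have h1 : ∀ t ∈ Ioi (0 : ℝ), ∀ y, f t y = t ^ (-2 / 3 : ℝ) * Real.exp (-t) *
      (y ^ (2 / 3 - 1 : ℝ) * Real.exp (-(1 / t * y))) := fun t _ y => by
    simp only [hf]
    rw [neg_add, Real.exp_add, one_div_mul_eq_div]
    ring
  have h2 : ∀ t ∈ Ioi (0 : ℝ), ∫ y in Ioi (0 : ℝ), f t y = Real.Gamma (2 / 3) * Real.exp (-t) :=
    fun t ht => by
      have ht' : 0 < t := ht
      simp only [h1 t ht]
      rw [integral_const_mul, Real.integral_rpow_mul_exp_neg_mul_Ioi (by norm_num) (by positivity),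
        one_div_one_div, neg_div, Real.rpow_neg ht'.le]
      have := (Real.rpow_pos_of_pos ht' (2 / 3)).ne'
      field_simp
  have hm : Measurable (Function.uncurry f) := by
    simp only [hf]
    unfold Function.uncurry
    fun_prop
  have hi : Integrable (Function.uncurry f)
      ((volume.restrict (Ioi 0)).prod (volume.restrict (Ioi 0))) := by
    rw [integrable_prod_iff hm.aestronglyMeasurable]
    constructor
    · refine (ae_restrict_iff' measurableSet_Ioi).2 (ae_of_all _ fun t ht => ?_)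
      have ht' : 0 < t := ht
      simp only [Function.uncurry_apply_pair, h1 t ht]
      refine Integrable.const_mul ?_ _
      have := integrableOn_rpow_mul_exp_neg_mul_rpow (s := 2 / 3 - 1) (p := 1) (b := 1 / t)
        (by norm_num) one_pos (by positivity)
      simp only [Real.rpow_one, neg_mul] at this
      exact this
    · refine ((integrableOn_exp_neg_Ioi 0).const_mul (Real.Gamma (2 / 3))).congr
        ((ae_restrict_iff' measurableSet_Ioi).2 (ae_of_all _ fun t ht => ?_))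
      have ht' : 0 < t := ht
      simp only [Function.uncurry_apply_pair]
      rw [← h2 t ht]
      refine setIntegral_congr_fun measurableSet_Ioi fun y hy => ?_
      have hy' : 0 < y := hy
      simp only [hf]
      rw [Real.norm_of_nonneg (by positivity)]
  have h3 := integral_integral_swap hi
  rw [setIntegral_congr_fun measurableSet_Ioi h2, integral_const_mul, integral_exp_neg_Ioi_zero,
    mul_one] at h3
  rw [h3, mellin, ← integral_complex_ofReal]
  refine setIntegral_congr_fun measurableSet_Ioi fun y hy => ?_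
  simp only [hf, smul_eq_mul]
  rw [integral_const_mul, Complex.ofReal_mul, Complex.ofReal_cpow (le_of_lt hy), Kr]
  congr 2
  push_cast
  ring

theorem th_zero_eq (τ : O → ℂ) {v : ℝ} (hv : 0 < v) : th τ (0, v) =
    (π * v ^ (2 / 3 : ℝ) / Real.Gamma (4 / 3) : ℝ) * ser τ Kr ((c0 / 9) ^ 2) (v ^ 2) := by
  rw [th, ser, ← tsum_mul_left]
  refine tsum_congr fun ν => ?_
  simp only [mul_zero, zero_div, ec_zero, mul_one]
  rw [Wh_four_thirds ν hv, Wr]
  push_cast
  ring

open Classical in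
theorem ser_split {τ : O → ℂ} (h : Poly τ) {p t : ℝ} (hp : 0 < p) (ht : 0 < t) :
    ser τ Kr p t = τ 0 * Real.Gamma (1 / 3) + ser (fun ν => if ν = 0 then 0 else τ ν) Kr p t := by
  obtain ⟨C, k, h⟩ := h
  obtain ⟨u, h1, -, h3⟩ := ker_Kr.bound (a := fun ν => if ν = 0 then 0 else τ ν) (if_pos rfl)
    (fun ν hν => by rw [if_neg hν]; exact h ν hν) hp le_rfl
  have hs := (h1.div_const _).of_norm_bounded (h3 t ht)
  rw [ser, ser, ← tsum_ite_eq 0 (fun _ : O => τ 0 * Real.Gamma (1 / 3)),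
    ← Summable.tsum_add (hasSum_ite_eq 0 _).summable hs]
  refine tsum_congr fun ν => ?_
  split_ifs with hν
  · simp [hν, nm_zero, Kr_zero]
  · simp

theorem act_mS_zero {v : ℝ} (hv : 0 < v) : act mS (0, v) = (0, 1 / v) := by
  rw [act_mS]
  refine Prod.ext (by simp) ?_
  simp only [norm_zero]
  field_simp
  ring

theorem fe_S {Ψ : O × O → ℂ} (hΨ : Cls 9 Ψ) {t : ℝ} (ht : 0 < t) :
    ser (rho Ψ) Kr ((c0 / 9) ^ 2) t = (t : ℂ) ^ (-((2 / 3 : ℝ) : ℂ)) *
      ser (rho fun r => Ψ (rmul r mS)) Kr ((c0 / 9) ^ 2) (1 / t) := by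
  have hv := Real.sqrt_pos.2 ht
  have h := hAut _ (hΨ.comp_rmul dvd_rfl mS) mS (0, √t) hv
  simp only [← rmul_mul, inv_mul_cancel, rmul_one] at h
  rw [act_mS_zero hv, th_zero_eq _ hv, th_zero_eq _ (by positivity), div_pow 1, one_pow,
    Real.sq_sqrt ht.le] at h
  have hG := WhBasic_G
  have e : (π * (1 / √t) ^ (2 / 3 : ℝ) / Real.Gamma (4 / 3) : ℝ) =
      π * √t ^ (2 / 3 : ℝ) / Real.Gamma (4 / 3) * t ^ (-(2 / 3) : ℝ) := by
    rw [one_div, Real.inv_rpow hv.le, Real.sqrt_eq_rpow, ← Real.rpow_mul ht.le,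
      ← Real.rpow_neg ht.le, div_mul_eq_mul_div (π * _), mul_assoc, ← Real.rpow_add ht]
    norm_num
  rw [e, Complex.ofReal_mul, mul_assoc] at h
  refine (mul_left_cancel₀ (Complex.ofReal_ne_zero.2 (by positivity)) h).symm.trans ?_
  rw [Complex.ofReal_cpow ht.le]
  simp

theorem g3_not_sqf {ν c : O} (hc : Prim c) (hν : IsCoprime ν c) (hs : ¬Squarefree c) :
    g3 ν c = 0 := by
  rw [squarefree_iff_irreducible_sq_not_dvd_of_ne_zero hc.ne_zero] at hs
  push Not at hs
  obtain ⟨q, hq, hqc⟩ := hs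
  obtain ⟨u, p, hu, hp', rfl⟩ := exists_prim (n := q)
    fun h => hc.not_lam_dvd (h.trans ((dvd_mul_right q q).trans hqc))
  have hp : Prime p := ((irreducible_isUnit_mul hu).1 hq).prime
  have h2 : p ^ 2 ∣ c := Dvd.dvd.trans ⟨u * u, by ring⟩ hqc
  obtain ⟨k, d, hd, hdp, rfl⟩ := ThCEuler_fac hp hp' hc
  have hk : 2 ≤ k := by
    by_contra hk
    have h3 := (hdp.symm.pow_left (m := 2)).dvd_of_dvd_mul_right h2
    have := (pow_dvd_pow_iff hp.ne_zero hp.not_isUnit).1 h3
    omega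
  have hpν : ¬p ∣ ν := fun h => hp.not_isUnit
    (hν.isUnit_of_dvd' h ((dvd_pow_self p (by omega)).mul_right d))
  have := g3_prime_pow_eq_zero hp hp' hpν (i := 0) (l := k) (by omega)
  rw [pow_zero, mul_one] at this
  rw [g3_mul (hp'.pow k) hd hdp.symm.pow_left, this, zero_mul]

theorem dir_eq {μ : O} (hμ : μ ≠ 0) {a h : O → ℂ} {κ : ℂ} {p : ℝ} (hp : 0 < p)
    (ha : ∀ c d, Prim c → Squarefree c → Prim d →
      a (μ * (c * d ^ 3)) = κ * h c * (nm c : ℂ) ^ (-(2 / 3) : ℂ))
    (hs : ∀ ν, a ν ≠ 0 → ∃ c d, Prim c ∧ Squarefree c ∧ Prim d ∧ ν = μ * (c * d ^ 3))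
    (h0 : ∀ c, Prim c → ¬Squarefree c → h c = 0) (h1 : ∀ c, c ≠ 0 → ‖h c‖ ≤ nm c) {s : ℂ}
    (hre : 2 < s.re) :
    ∑' ν : O, a ν * ((p * nm ν : ℝ) : ℂ) ^ (-(((1 : ℝ) : ℂ) * s + (-2 / 3 : ℝ))) =
      κ * ((p * nm μ : ℝ) : ℂ) ^ (2 / 3 + -1 * s) * zP (3 * s - 2) *
        ∑' c : O, ind (Prim c) * h c * (nm c : ℂ) ^ (-s) := by
  have e0 : -(((1 : ℝ) : ℂ) * s + (-2 / 3 : ℝ)) = 2 / 3 + -1 * s := by push_cast; ring
  have s1 := summable_norm_cpow (s := 3 * s - 2) (fun n => norm_ind_le (Prim n)) (by simp; linarith)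
  have s2 := (summable_dir (a := fun c => ind (Prim c) * h c) (K := 1) (fun c hc => by
    rw [norm_mul, one_mul]
    exact (mul_le_of_le_one_left (norm_nonneg _) (norm_ind_le _)).trans (h1 c hc)) hre).norm
  rw [e0, mul_assoc, zP, tsum_mul_tsum_of_summable_norm s1 s2, ← tsum_mul_left]
  have hinj : Function.Injective fun x : {x : O × O | Prim x.2 ∧ Squarefree x.2 ∧ Prim x.1} =>
      μ * (x.1.2 * x.1.1 ^ 3) := by
    rintro ⟨⟨d, c⟩, a1, a2, a3⟩ ⟨⟨d', c'⟩, b1, b2, b3⟩ h
    obtain ⟨rfl, rfl⟩ := cube_decomp_unique a1 a2 a3 b1 b2 b3 (mul_left_cancel₀ hμ h)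
    rfl
  rw [← hinj.tsum_eq fun ν hν => ?_]
  · rw [tsum_subtype {x : O × O | Prim x.2 ∧ Squarefree x.2 ∧ Prim x.1} fun x =>
      a (μ * (x.2 * x.1 ^ 3)) * ((p * nm (μ * (x.2 * x.1 ^ 3)) : ℝ) : ℂ) ^ (2 / 3 + -1 * s)]
    refine tsum_congr fun x => ?_
    obtain ⟨d, c⟩ := x
    by_cases hx : Prim c ∧ Squarefree c ∧ Prim d
    · rw [indicator_of_mem (by exact hx)]
      have c0 : (nm c : ℂ) ≠ 0 := Nat.cast_ne_zero.2 (nm_pos hx.1.ne_zero).ne'
      simp only
      rw [ha c d hx.1 hx.2.1 hx.2.2, ind_of hx.1, ind_of hx.2.2, nm_mul, Nat.cast_mul, ← mul_assoc p,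
        Complex.ofReal_mul, Complex.mul_cpow_ofReal_nonneg (by positivity) (by positivity),
        Complex.ofReal_natCast, nm_mul, nm_pow, Nat.cast_mul, Complex.natCast_mul_natCast_cpow,
        Nat.cast_pow, ← Complex.natCast_cpow_natCast_mul,
        show -s = -(2 / 3) + (2 / 3 + -1 * s) by ring, Complex.cpow_add (-(2 / 3)) _ c0,
        show -(3 * s - 2) = (3 : ℕ) * (2 / 3 + -1 * s) by push_cast; ring]
      ring
    · rw [indicator_of_notMem (by exact hx)]
      by_cases a1 : Prim c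
      · by_cases a2 : Squarefree c
        · simp [ind_of_not fun a3 => hx ⟨a1, a2, a3⟩]
        · simp [h0 c a1 a2]
      · simp [ind_of_not a1]
  · obtain ⟨c, d, a1, a2, a3, rfl⟩ := hs ν (left_ne_zero_of_mul hν)
    exact ⟨⟨⟨d, c⟩, a1, a2, a3⟩, rfl⟩

end Vale.Agent.P006.VK
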