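import Vale.Agent.P006.VKDefs

/-! # P006 K: the residues `Rg ν` and the coefficients of `PsK`. -/

namespace Vale.Agent.P006.VK

open Vale.Agent.P026
open scoped ComplexConjugate Real Topology

theorem k_nine : (9 : O) ≠ 0 := by decide
theorem k_three_nine : (3 : O) ∣ 9 := ⟨3, by norm_num⟩

theorem prim_congr {a b : O} (h : (3 : O) ∣ a - b) : Prim a ↔ Prim b :=
  ⟨fun ha => ha.of_dvd_sub dvd_rfl (dvd_sub_comm.1 h), fun hb => hb.of_dvd_sub dvd_rfl h⟩

theorem psiP_eq (ν : O) {s : ℂ} (hs : 2 < s.re) :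
    psiP ν s = ∑ β ∈ res 9, ind (Prim β) * psi β ν 1 s := by
  simp only [psi, ← tsum_mul_left]
  rw [← Summable.tsum_finsetSum fun β _ => (summable_psi ν _ hs).mul_left _, psiP]
  refine tsum_congr fun c => ?_
  have h := sum_res_ind k_nine c
  calc _ = (∑ β ∈ res 9, ind ((9 : O) ∣ c - β)) * (ind (Prim c) * g3 ν c * (nm c : ℂ) ^ (-s)) := by
        rw [h, one_mul]
    _ = _ := by
        rw [Finset.sum_mul]
        refine Finset.sum_congr rfl fun β _ => ?_
        by_cases hβ : (9 : O) ∣ c - β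
        · rw [ind_of hβ, ind_and, ind_of hβ, ind_of isCoprime_one_right,
            prim_congr (k_three_nine.trans hβ)]
          ring
        · rw [ind_and, ind_of_not hβ]
          ring

theorem rs_psiP (ν : O) : RS (psiP ν) (Rg ν) := by
  refine (RS.sum (res 9) (f := fun β s => ind (Prim β) * psi β ν 1 s) fun β _ => ?_).congr
    fun s hs => (psiP_eq ν hs).symm
  by_cases hβ : Prim β
  · exact (rs_psi hRes hβ ν).const_mul _
  · simpa [ind_of_not hβ] using (Hol.const 0).rs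

theorem Rg_congr {ν ν' : O} (h : ∀ c, Prim c → g3 ν c = g3 ν' c) : Rg ν = Rg ν' := by
  refine (rs_psiP ν).unique ((rs_psiP ν').congr fun s _ => tsum_congr fun c => ?_)
  by_cases hc : Prim c
  · rw [h c hc]
  · simp [ind_of_not hc]

theorem Rg_lam3 (ν : O) : Rg (ν * lam ^ 3) = Rg ν := Rg_congr fun c hc => by
  rw [g3_twist hc.ne_zero (coprime_lam hc).pow_left, cub_pow_left, cub_cube (coprime_lam hc)]
  simp

theorem Rg_lam3k (ν : O) (k : ℕ) : Rg (ν * lam ^ (3 * k)) = Rg ν := by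
  induction k with
  | zero => simp
  | succ k ih => rw [Nat.mul_succ, pow_add, ← mul_assoc, Rg_lam3, ih]

theorem Rg_neg (ν : O) : Rg (-ν) = Rg ν := Rg_congr fun c hc => by
  have h := g3_twist hc.ne_zero (t := -1) (isCoprime_one_left.neg_left) ν
  rw [cub_neg_left, cub_one_left] at h
  simpa using h

theorem Rg_formula {u c d : O} (hu : IsUnit u) (j : ℕ) (hc : Prim c) (hs : Squarefree c)
    (hd : Prim d) : Rg (u * lam ^ j * (c * d ^ 3)) = cub (u * lam ^ j) c * conj (gt3 c) *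
      (((nm c : ℝ) ^ (-1 / 6 : ℝ) : ℝ) : ℂ) * Rg (u * lam ^ j) := by
  have h := sum_res_affine k_nine (f := fun β => ind (Prim β) * rb β (u * lam ^ j))
    (fun x y hxy => by simp only [prim_congr (k_three_nine.trans hxy), rb_congr hxy]) hc.coprime_nine 0
  rw [Rg, Rg, ← h, Finset.mul_sum]
  refine Finset.sum_congr rfl fun β _ => ?_
  by_cases hβ : Prim β
  · rw [rb_formula hHecke hu j hc hs hd hβ, add_zero, ind_of hβ, ind_of (hc.mul hβ), mul_comm c β]
    ring
  · rw [add_zero, ind_of_not hβ, ind_of_not fun h => hβ (hc.of_mul h)]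
    ring

theorem Rg_support {u n : O} (hu : IsUnit u) (j : ℕ) (hn : Prim n) (h : Rg (u * lam ^ j * n) ≠ 0) :
    ∃ c d, Prim c ∧ Squarefree c ∧ Prim d ∧ n = c * d ^ 3 := by
  obtain ⟨β, -, hβ⟩ := Finset.exists_ne_zero_of_sum_ne_zero h
  have hP : Prim β := by
    by_contra hP
    exact left_ne_zero_of_mul hβ (ind_of_not hP)
  exact rb_support hHecke hu j hn hP (right_ne_zero_of_mul hβ)

theorem psiP_zero (s : ℂ) : psiP 0 s = psi 1 0 1 s := by
  refine tsum_congr fun c => ?_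
  by_cases h : (9 : O) ∣ c - 1
  · rw [ind_of (prim_one.of_dvd_sub k_three_nine h), ind_of ⟨h, isCoprime_one_right⟩]
  · rw [ind_of_not fun h' : _ ∧ _ => h h'.1]
    by_cases hc : Prim c
    · by_cases h0 : g3 0 c = 0
      · simp [h0]
      · obtain ⟨e, he, rfl⟩ := g3_zero_ne hc h0
        exact absurd he.cube h
    · rw [ind_of_not hc]

theorem cls_PsK (i : ℕ) {δ : O} (hδ : δ ∣ 9) (μ : O) : Cls 9 (PsK i δ μ) := by
  refine ⟨fun r hr => ?_, fun r => ?_, fun r r' _ _ h1 h2 => ?_⟩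
  · by_cases h : Prim r.1
    · simp [PsK, cub_mul_left, cub_eq_zero h.not_lam_dvd fun h => hr h.symm]
    · simp [PsK, ind_of_not h]
  · simp only [PsK, norm_mul, norm_eq, mul_one]
    exact mul_le_one₀ (mul_le_one₀ (norm_ind_le _) (norm_nonneg _) (norm_ind_le _))
      (norm_nonneg _) (norm_cub_le _ _)
  · have hp := prim_congr (k_three_nine.trans h1)
    by_cases h : Prim r.1
    · have h' := hp.1 h
      have e1 : cub (lam ^ i) r.1 = cub (lam ^ i) r'.1 := by
        simpa using cub_ulam_congr isUnit_one i h h1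
      have e2 : eq (-(μ * r.2)) 9 = eq (-(μ * r'.2)) 9 :=
        eq_congr (by
          obtain ⟨k, hk⟩ := h2
          exact ⟨-(μ * k), by linear_combination (-μ) * hk⟩)
      rw [PsK, PsK, Sy_of_not_dvd h.not_lam_dvd, Sy_of_not_dvd h'.not_lam_dvd, ind_of h, ind_of h',
        cub_mul_left, cub_mul_left, e1, e2, dvd_iff_dvd_of_dvd_sub (hδ.trans h2)]
      ring
    · simp [PsK, ind_of_not h, ind_of_not fun h' => h (hp.2 h')]

theorem sum_res_dvd {δ δ' : O} (hδ : δ ≠ 0) (hδ' : δ' ≠ 0) {F : O → ℂ} (hF : Per (δ' * δ) F) :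
    ∑ y ∈ res (δ' * δ), ind (δ ∣ y) * F y = ∑ y ∈ res δ', F (δ * y) := by
  have hp : Per (δ' * δ) fun y => ind (δ ∣ y) * F y := fun x y hxy => by
    simp only [dvd_iff_dvd_of_dvd_sub ((dvd_mul_left δ δ').trans hxy), hF x y hxy]
  have hG : Per δ' fun y => F (δ * y) := fun x y hxy => hF _ _ (by
    rw [← mul_sub, mul_comm δ' δ]
    exact mul_dvd_mul_left δ hxy)
  have h1 : ∑ x ∈ res δ, ind (δ ∣ x) = 1 := by
    simpa only [zero_sub, dvd_neg] using sum_res_ind hδ 0
  rw [sum_res_mul hδ' hδ hp, Finset.sum_comm, ← one_mul (∑ y ∈ res δ', F (δ * y)), ← h1,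
    Finset.sum_mul]
  refine Finset.sum_congr rfl fun x _ => ?_
  by_cases hx : δ ∣ x
  · obtain ⟨z, rfl⟩ := hx
    rw [ind_of (dvd_mul_right δ z), one_mul, ← sum_res_affine hδ' hG isCoprime_one_left z]
    refine Finset.sum_congr rfl fun y _ => ?_
    rw [ind_of (dvd_add (dvd_mul_right _ _) (dvd_mul_right _ _)), one_mul]
    congr 1
    ring
  · rw [ind_of_not hx, zero_mul]
    exact Finset.sum_eq_zero fun y _ => by
      rw [ind_of_not fun h => hx ((dvd_add_left (dvd_mul_right δ y)).1 h), zero_mul]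

theorem sum_ind_eq {δ δ' : O} (h : δ' * δ = 9) (k : O) :
    ∑ y ∈ res 9, ind (δ ∣ y) * eq (k * y) 9 = ind (δ' ∣ k) * nm δ' := by
  have hδ : δ ≠ 0 := right_ne_zero_of_mul (h ▸ k_nine)
  have hδ' : δ' ≠ 0 := left_ne_zero_of_mul (h ▸ k_nine)
  rw [← h, sum_res_dvd hδ hδ' fun x y hxy => eq_congr (by rw [← mul_sub]; exact hxy.mul_left _),
    ← sum_eq hδ']
  refine Finset.sum_congr rfl fun y _ => ?_
  rw [mul_left_comm, mul_comm δ' δ, eq_mul_cancel hδ]

theorem Acf_PsK (i : ℕ) {δ δ' μ : O} (h : δ' * δ = 9) (hμ : (3 : O) ∣ μ * δ) (ν c : O) :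
    Acf 9 (PsK i δ μ) ν c =
      ind (δ' ∣ ν - μ) * nm δ' * (ind (Prim c) * g3 (ν * lam ^ (2 * (i + 4))) c) := by
  by_cases hc : Prim c
  swap
  · simp [Acf, PsK, ind_of_not hc]
  have hδ : δ ∣ 9 := h ▸ dvd_mul_left δ δ'
  have hcop : IsCoprime (lam ^ (i + 4)) c := (coprime_lam hc).pow_left
  rw [Acf, sum_res_crt k_nine hc.ne_zero hc.coprime_nine.symm, ← sum_ind_eq h, ind_of hc, one_mul,
    two_mul, pow_add lam (i + 4), ← mul_assoc, g3_twist hc.ne_zero hcop, g3_twist hc.ne_zero hcop,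
    ← mul_assoc (conj _), ← map_mul, ← sq, ← conj_cub, Complex.conj_conj, g3, Finset.mul_sum,
    Finset.sum_mul_sum]
  · refine Finset.sum_congr rfl fun x _ => Finset.sum_congr rfl fun y _ => ?_
    have e0 : δ ∣ c * x + 9 * y ↔ δ ∣ x := by
      rw [dvd_add_left (hδ.mul_right y)]
      exact ⟨fun h => (hc.coprime_nine.symm.of_isCoprime_of_dvd_left hδ).dvd_of_dvd_mul_left h,
        fun h => h.mul_left c⟩
    rw [PsK, ind_of hc, e0, show ν * (c * x + 9 * y) = c * (ν * x) + 9 * (ν * y) by ring,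
      eq_crt k_nine hc.ne_zero,
      cub_congr (a := lam ^ i * (c * x + 9 * y)) (b := lam ^ (i + 4) * y)
        ⟨lam ^ i * x, by rw [pow_add, rw_lam_four]; ring⟩, cub_mul_left]
    by_cases hx : δ ∣ x
    · have e1 : eq (-(μ * (c * x + 9 * y))) 9 * eq (ν * x) 9 = eq ((ν - μ) * x) 9 := by
        rw [← eq_add]
        obtain ⟨k, hk⟩ := hc
        obtain ⟨l, hl⟩ := hμ
        obtain ⟨z, rfl⟩ := hx
        exact eq_congr ⟨-(l * k * z) - μ * y, by
          linear_combination (-(μ * δ * z)) * hk - 3 * k * z * hl⟩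
      rw [← e1]
      ring
    · simp [ind_of_not hx]
  · refine Per.mul_eq (fun x y hxy => ?_) ν
    obtain ⟨k, hk⟩ := hxy
    simp only [PsK]
    rw [cub_congr (a := lam ^ i * x) (b := lam ^ i * y)
        ⟨lam ^ i * 9 * k, by linear_combination lam ^ i * hk⟩,
      eq_congr (x := -(μ * x)) (y := -(μ * y)) ⟨-(μ * c * k), by linear_combination (-μ) * hk⟩,
      dvd_iff_dvd_of_dvd_sub (show δ ∣ x - y from hδ.trans ⟨c * k, by linear_combination hk⟩)]

theorem rho_PsK (i : ℕ) {δ δ' μ : O} (h : δ' * δ = 9) (hμ : (3 : O) ∣ μ * δ) (ν : O) :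
    rho (PsK i δ μ) ν = ind (δ' ∣ ν - μ) * nm δ' * Rg (ν * lam ^ (2 * (i + 4))) := by
  refine RS.rho_eq (((rs_psiP _).const_mul _).congr fun s _ => ?_)
  rw [psiP, aD, ← tsum_mul_left]
  refine tsum_congr fun c => ?_
  rw [Acf_PsK i h hμ, ind_of isCoprime_one_right]
  ring

end Vale.Agent.P006.VK
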