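import Vale.Agent.P006.VKVal
import Vale.Agent.P006.VKNum

/-! # P006 VK: the sign of the constant; `Rg λ = c_* (c0/9) / ζ°(2)`. -/

namespace Vale.Agent.P006.VK

open Vale.Agent.P026
open scoped ComplexConjugate Real Topology
open MeasureTheory Filter Set

theorem cub_add_three {c d : O} (hc : Prim c) (hd : (3 : O) ∣ d) : cub d (c + d) = cub d c := by
  rcases eq_or_ne d 0 with rfl | h0
  · rw [add_zero]
  obtain ⟨u, j, n, hu, hn, rfl⟩ := exists_decomp h0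
  have h1 : (3 : O) ∣ u * lam ^ j := by
    have := hn.coprime_nine.symm.of_isCoprime_of_dvd_left k_three_nine
    exact this.dvd_of_dvd_mul_right hd
  have hc' : Prim (c + u * lam ^ j * n) := hc.of_dvd_sub dvd_rfl (by simpa using hd)
  have hx : Prim (1 + u * lam ^ j) := prim_one.of_dvd_sub dvd_rfl (by simpa using h1)
  have h2 : (9 : O) ∣ c + u * lam ^ j * n - c * (1 + u * lam ^ j) := by
    obtain ⟨a, ha⟩ := hc
    obtain ⟨b, hb⟩ := hn
    obtain ⟨e, he⟩ := h1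
    exact ⟨e * (b - a), by rw [he]; linear_combination 3 * e * hb - 3 * e * ha⟩
  rw [cub_mul_left (u * lam ^ j) n, cub_mul_left (u * lam ^ j) n, cub_recip hn hc', cub_recip hn hc,
    cub_ulam_congr hu j hc' h2,
    cub_mul_right hc.ne_zero hx.ne_zero, cub_congr (a := c + _) (b := c) (n := n) (by simp),
    cub_congr (a := u * lam ^ j) (b := -1) (n := 1 + _) ⟨1, by ring⟩, cub_neg_left, cub_one_left,
    mul_one]

theorem PsK_inv (r : O × O) : PsK 0 3 0 (rmul r (mN 1 * mS * mN 1)) = PsK 0 3 0 r := by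
  obtain ⟨c, d⟩ := r
  rw [rmul_mul, rmul_mul, rmul_mN, rmul_mS, rmul_mN]
  simp only [PsK, pow_zero, one_mul, mul_one, zero_mul, add_neg_cancel_comm]
  by_cases hd : (3 : O) ∣ d
  · rw [prim_congr (a := c + d) (b := c) (by simpa using hd)]
    by_cases hc : Prim c
    · rw [cub_add_three hc hd]
    · simp [ind_of_not hc]
  · simp [ind_of_not hd]

theorem Rg_lam2 {u : O} (hu : IsUnit u) : Rg (u * lam ^ 2) = 0 := by
  have k : Rg (1 * lam ^ 2) = 0 := by
    obtain ⟨m, -, hm, hm'⟩ := exists_m2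
    have e : ∀ x y : O, x.im = y.im + 9 → eq x 9 = eq y 9 := fun x y h => by
      rw [eq_val, eq_val, h, ← mul_one (Complex.exp (_ * ((y.im : ℂ) / 9))),
        ← Complex.exp_two_pi_mul_I, ← Complex.exp_add]
      congr 1
      push_cast
      ring
    have h := pole_conj isUnit_one (j := 2) le_rfl hm hm' (b := -1) (by
      rw [ind_of (by simp), ← e ⟨0, 3⟩ (1 * lam ^ 2 * lam) (by decide),
        e (-(1 * lam ^ 2 * lam)) (-⟨0, 3⟩) (by decide), eq_cos (Or.inl rfl)]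
      simp)
    have hc := c0_pos'
    have hG := Real.Gamma_pos_of_pos (show (0 : ℝ) < 2 / 3 by norm_num)
    rw [neg_add_cancel, mul_zero, zero_mul, zero_mul, zero_mul] at h
    simpa using (mul_eq_zero.1 h).resolve_left (by positivity)
  rcases isUnit_iff.1 hu with rfl | rfl | rfl | rfl | rfl | rfl
  · exact k
  · rw [neg_mul, Rg_neg, k]
  all_goals exact Rg_eq_zero hu le_rfl (by simp) (by decide)

theorem Rg_base {K : ℝ} (h1 : ‖Rg lam‖ = K) (h2 : ∀ u, IsUnit u → ‖Rg u‖ ≤ K) {u : O} (hu : IsUnit u)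
    (j : ℕ) : ‖Rg (u * lam ^ j)‖ ≤ K ∧
      (Rg (u * lam ^ j) ≠ 0 → j % 3 = 0 ∨ (j % 3 = 1 ∧ (u = 1 ∨ u = -1))) := by
  have hK : 0 ≤ K := h1 ▸ norm_nonneg _
  have e : Rg (u * lam ^ j) = Rg (u * lam ^ (j % 3)) := by
    conv_lhs => rw [← Nat.mod_add_div j 3, pow_add, ← mul_assoc, Rg_lam3k]
  rw [e]
  have z : ∀ {i : ℕ} {P : Prop}, Rg (u * lam ^ i) = 0 → ‖Rg (u * lam ^ i)‖ ≤ K ∧
      (Rg (u * lam ^ i) ≠ 0 → P) := fun h => ⟨by rw [h, norm_zero]; exact hK, fun h' => absurd h h'⟩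
  have : j % 3 = 0 ∨ j % 3 = 1 ∨ j % 3 = 2 := by omega
  rcases this with h | h | h <;> rw [h]
  · exact ⟨by simpa using h2 u hu, fun _ => Or.inl rfl⟩
  · rcases isUnit_iff.1 hu with rfl | rfl | rfl | rfl | rfl | rfl
    · exact ⟨by simpa using h1.le, fun _ => Or.inr ⟨rfl, Or.inl rfl⟩⟩
    · exact ⟨by simpa [Rg_neg] using h1.le, fun _ => Or.inr ⟨rfl, Or.inr rfl⟩⟩
    all_goals exact z (Rg_eq_zero hu (by norm_num) (by simp) (by decide))
  · exact z (Rg_lam2 hu)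

theorem Rg_cls {K : ℝ} (h1 : ‖Rg lam‖ = K) (h2 : ∀ u, IsUnit u → ‖Rg u‖ ≤ K) {ν : O} (hν : ν ≠ 0) :
    ‖Rg (lam * ν)‖ ≤ K ∧ (Rg (lam * ν) ≠ 0 → ν.im % 3 = 0) ∧
      (nm ν < 8 → ‖Rg (lam * ν)‖ ≤ K * (nm ν : ℝ) ^ (-1 / 6 : ℝ)) := by
  have hK : 0 ≤ K := h1 ▸ norm_nonneg _
  obtain ⟨u, j, n, hu, hn, rfl⟩ := exists_decomp hν
  rw [show lam * (u * lam ^ j * n) = u * lam ^ (j + 1) * n by ring]
  obtain ⟨a1, a2⟩ := Rg_base h1 h2 hu (j + 1)
  obtain ⟨b1, b2⟩ := norm_Rg_le hu (j + 1) hn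
  have key : Rg (u * lam ^ (j + 1) * n) ≠ 0 → 2 ≤ j ∨ (j = 0 ∧ (u = 1 ∨ u = -1)) := fun h => by
    rcases a2 fun h0 => h (norm_le_zero_iff.1 (by simpa [h0] using b1)) with h | ⟨h, hu'⟩
    · left
      omega
    · rcases eq_or_ne j 0 with rfl | hj
      · exact Or.inr ⟨rfl, hu'⟩
      · left
        omega
  refine ⟨b1.trans a1, fun h => ?_, fun h8 => ?_⟩
  · rcases key h with hj | ⟨rfl, hu'⟩
    · have : ((3 : ℤ) : O) ∣ u * lam ^ j * n :=
        ((rw_three_lam2.trans (pow_dvd_pow lam hj)).mul_left u).mul_right n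
      exact Int.emod_eq_zero_of_dvd ((dvd_iff_int 3 _).1 this).2
    · have h3 : (3 : ℤ) ∣ n.im := by
        simpa [QuadraticAlgebra.im_one] using ((dvd_iff_int 3 (n - 1)).1 hn).2
      rcases hu' with rfl | rfl <;> simp <;> omega
  · by_cases h : Rg (u * lam ^ (j + 1) * n) = 0
    · rw [h, norm_zero]
      positivity
    rw [nm_mul, nm_ulam hu] at h8 ⊢
    rcases key h with hj | ⟨rfl, -⟩
    · have := Nat.pow_le_pow_right (by norm_num : 0 < 3) hj
      have := nm_pos hn.ne_zero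
      nlinarith
    · rw [pow_zero, one_mul] at h8 ⊢
      exact (b2 h8).trans (mul_le_mul_of_nonneg_right a1 (by positivity))

theorem rho_PsS (ν : O) : rho (PsK 0 3 0) ν = ind ((3 : O) ∣ ν) * 9 * Rg (ν * lam ^ 8) := by
  rw [rho_PsK 0 (δ' := 3) (by norm_num) (by simp), sub_zero, show nm 3 = 9 by decide]
  norm_num

theorem rho_PsS' (ν : O) : rho (PsK 0 3 0) (3 * ν) = 9 * Rg (lam * ν) := by
  rw [rho_PsS, ind_of (dvd_mul_right _ _), one_mul, ← Rg_neg, ← Rg_lam3k (lam * ν) 3]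
  congr 2
  linear_combination (-(ν * lam ^ 8)) * lam_sq

theorem fe_theta (hcl : ∀ ν, ν ≠ 0 → Rg (lam * ν) ≠ 0 → ν.im % 3 = 0) {v : ℝ} (hv : 0 < v) :
    ((1 / v) ^ (2 / 3 : ℝ) : ℝ) * ser (fun ν => Rg (lam * ν)) Kr ((c0 / 3) ^ 2) ((1 / v) ^ 2) =
      (v ^ (2 / 3 : ℝ) : ℝ) * ser (fun ν => Rg (lam * ν)) Kr ((c0 / 3) ^ 2) (v ^ 2) := by
  have h := hAut _ (cls_PsK 0 k_three_nine 0) (mN 1 * mS * mN 1) (toC (-1), v) hv
  have e1 : (fun r => PsK 0 3 0 (rmul r (mN 1 * mS * mN 1)⁻¹)) = PsK 0 3 0 := funext fun r => by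
    rw [← PsK_inv, ← rmul_mul, inv_mul_cancel, rmul_one]
  have e2 : act (mN 1 * mS * mN 1) (toC (-1), v) = (toC 1, 1 / v) := by
    rw [act_mul _ _ hv, act_mN, act_mul _ _ hv]
    simp only [map_neg, neg_add_cancel]
    rw [act_mS_zero hv, act_mN, zero_add]
  have e3 : ∀ (x : O) (w : ℝ), x = 1 ∨ x = -1 →
      th (rho (PsK 0 3 0)) (toC x, w) = th (rho (PsK 0 3 0)) (0, w) := fun x w hx => by
    refine tsum_congr fun ν => ?_
    by_cases h0 : rho (PsK 0 3 0) ν = 0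
    · simp [h0]
    obtain ⟨ν', rfl⟩ : (3 : O) ∣ ν := by
      by_contra h3
      exact h0 (by rw [rho_PsS, ind_of_not h3, zero_mul, zero_mul])
    have h3 : ν'.im % 3 = 0 := by
      rcases eq_or_ne ν' 0 with rfl | hν
      · rfl
      · exact hcl ν' hν fun h => h0 (by rw [rho_PsS', h, mul_zero])
    obtain ⟨k, hk⟩ : ∃ k : ℤ, (3 * ν' * x).im = 9 * k := by
      obtain ⟨k, hk⟩ := Int.dvd_of_emod_eq_zero h3
      have t1 : (3 : O).re = 3 := rfl
      have t2 : (3 : O).im = 0 := rfl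
      rcases hx with rfl | rfl
      · exact ⟨k, by simp [QuadraticAlgebra.im_mul, hk, t1, t2]; ring⟩
      · exact ⟨-k, by simp [QuadraticAlgebra.im_mul, hk, t1, t2]; ring⟩
    have e : ec (toC (3 * ν') * toC x / 9) = 1 := by
      have := eq_val (3 * ν' * x)
      rw [eq, map_mul, map_ofNat toC 9, hk] at this
      rw [this, ← Complex.exp_int_mul_two_pi_mul_I k]
      congr 1
      push_cast
      ring
    simp only [e, mul_zero, zero_div, ec_zero]
  have e4 : ∀ t : ℝ, ser (rho (PsK 0 3 0)) Kr ((c0 / 9) ^ 2) t =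
      9 * ser (fun ν => Rg (lam * ν)) Kr ((c0 / 3) ^ 2) t := fun t => by
    have hi : Function.Injective fun ν : O => 3 * ν := mul_right_injective₀ (by decide)
    rw [ser, ser, ← hi.tsum_eq fun ν hν => ?_, ← tsum_mul_left]
    · refine tsum_congr fun ν => ?_
      rw [rho_PsS', nm_mul, show nm 3 = 9 by decide, mul_assoc]
      congr 4
      push_cast
      ring
    · by_contra h3
      refine left_ne_zero_of_mul hν ?_
      rw [rho_PsS, ind_of_not fun ⟨k, hk⟩ => h3 ⟨k, hk.symm⟩, zero_mul, zero_mul]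
  rw [e1, e2, e3 _ _ (Or.inl rfl), e3 _ _ (Or.inr rfl), th_zero_eq _ hv,
    th_zero_eq _ (by positivity), e4, e4] at h
  have hG := WhBasic_G
  have h9 : ((9 * π / Real.Gamma (4 / 3) : ℝ) : ℂ) ≠ 0 := Complex.ofReal_ne_zero.2 (by positivity)
  apply mul_left_cancel₀ h9
  push_cast at h ⊢
  linear_combination h

theorem four_le_nm {ν : O} (h3 : ν.im % 3 = 0) (h0 : ν ≠ 0) (h1 : ν ≠ 1) (h2 : ν ≠ -1) : 4 ≤ nm ν := by
  have hN := nm_int ν
  by_cases hb : ν.im = 0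
  · have a0 : ν.re ≠ 0 := fun h => h0 (by ext <;> simp [h, hb])
    have a1 : ν.re ≠ 1 := fun h => h1 (QuadraticAlgebra.ext h hb)
    have a2 : ν.re ≠ -1 := fun h => h2 (QuadraticAlgebra.ext h hb)
    rw [hb] at hN
    have : 2 ≤ ν.re ∨ ν.re ≤ -2 := by omega
    zify
    rcases this with h | h <;> nlinarith
  · have : 3 ≤ ν.im ∨ ν.im ≤ -3 := by omega
    zify
    rcases this with h | h <;> nlinarith [sq_nonneg (2 * ν.re - ν.im)]

theorem Rg_lam : Rg lam = (cstar * (c0 / 9) : ℝ) * mP 2 := by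
  classical
  obtain ⟨m, hm0, hm, h1, h2⟩ := norm_Rg_vals
  set K := cstar * (c0 / 9) * m with hK
  have hc := c0_pos'
  have hK0 : 0 < K := by
    have := Real.Gamma_pos_of_pos (show (0 : ℝ) < 2 / 3 by norm_num)
    have := Real.two_pi_pos
    unfold cstar at hK
    rw [hK]
    positivity
  obtain ⟨R, hR⟩ : ∃ R : ℝ, Rg lam = R := ⟨_, (Complex.conj_eq_iff_re.1 Rg_lam_real).symm⟩
  have habs := h1
  rw [hR, Complex.norm_real, Real.norm_eq_abs] at habs
  rw [hm, ← Complex.ofReal_mul, ← hK, hR]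
  rcases (abs_eq hK0.le).1 habs with h | h
  · rw [h]
  exfalso
  have cl := fun ν (hν : ν ≠ 0) => Rg_cls h1 h2 hν
  have fe := fe_theta (fun ν hν => (cl ν hν).2.1) (v := 3 / 4) (by norm_num)
  set p := (3 / 4 : ℝ) ^ (2 / 3 : ℝ) with hp
  have p0 : 0 < p := by positivity
  have p1 : p < 1 := Real.rpow_lt_one (by norm_num) (by norm_num) (by norm_num)
  have p3 : p ^ 3 = 9 / 16 := by
    rw [hp, ← Real.rpow_mul_natCast (by norm_num)]
    norm_num
  have p4 : (16 / 9 : ℝ) ^ (1 / 3 : ℝ) = p⁻¹ := by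
    rw [show (16 / 9 : ℝ) = p⁻¹ ^ 3 by rw [inv_pow, p3]; norm_num,
      show (1 / 3 : ℝ) = ((3 : ℕ) : ℝ)⁻¹ by norm_num, Real.pow_rpow_inv_natCast (by positivity) three_ne_zero]
  rw [one_div, Real.inv_rpow (by norm_num), ← hp] at fe
  set y := (c0 / 4) ^ 2 with hy
  have y0 : 0 < y := by positivity
  have hs : ∀ t : ℝ, 0 < t → Summable fun ν : O => Rg (lam * ν) * (Kr ((c0 / 3) ^ 2 * nm ν * t) : ℂ) :=
    fun t ht => by
      obtain ⟨u, a1, -, a3⟩ := ker_Kr.bound (a := fun ν => if ν = 0 then 0 else Rg (lam * ν))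
        (C := K) (k := 0) (if_pos rfl) (fun ν hν => by simpa [hν] using (cl ν hν).1)
        (p := (c0 / 3) ^ 2) (by positivity) le_rfl
      refine (((a1.div_const _).of_norm_bounded (a3 t ht)).add
        (hasSum_ite_eq 0 (Rg 0 * Kr 0)).summable).congr fun ν => ?_
      split_ifs with hν <;> simp [hν]
  set E : O → ℝ := fun ν => p * Kr (nm ν * y) - p⁻¹ * Kr ((16 / 9) ^ 2 * (nm ν * y)) with hE
  have hsum : HasSum (fun ν => (Rg (lam * ν)).re * E ν) 0 := by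
    have a1 := ((hs ((3 / 4) ^ 2) (by norm_num)).hasSum.mul_left (p : ℂ)).sub
      ((hs ((3 / 4)⁻¹ ^ 2) (by norm_num)).hasSum.mul_left ((p⁻¹ : ℝ) : ℂ))
    rw [ser, ser] at fe
    rw [fe, sub_self] at a1
    refine (Complex.hasSum_re a1).congr_fun fun ν => ?_
    rw [show (c0 / 3) ^ 2 * nm ν * (3 / 4) ^ 2 = nm ν * y by rw [hy]; ring,
      show (c0 / 3) ^ 2 * nm ν * (3 / 4)⁻¹ ^ 2 = (16 / 9) ^ 2 * (nm ν * y) by rw [hy]; ring]
    simp only [hE, Complex.sub_re, Complex.re_ofReal_mul, Complex.re_mul_ofReal]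
    ring
  have hEb : ∀ ν : O, ν ≠ 0 → 0.56 * (p * Kr (nm ν * y)) ≤ E ν ∧ E ν ≤ p * Kr (nm ν * y) := by
    intro ν hν
    have a0 := one_le_nm hν
    have a1 := Kr_ratio (x := 16 / 9) (y := nm ν * y) (by norm_num) (by positivity)
    have a2 := m_le (y := nm ν * y) (le_mul_of_one_le_left y0.le a0)
    have a3 := Kr_pos (y := nm ν * y) (by positivity)
    have a4 := Kr_pos (y := (16 / 9) ^ 2 * (nm ν * y)) (by positivity)
    rw [p4] at a1
    have a5 : p⁻¹ * p⁻¹ = p * (16 / 9) := by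
      field_simp
      linarith
    have a6 : p⁻¹ * Kr ((16 / 9) ^ 2 * (nm ν * y)) ≤ 0.44 * (p * Kr (nm ν * y)) := by
      refine (mul_le_mul_of_nonneg_left a1 (by positivity)).trans ?_
      rw [← mul_assoc, ← mul_assoc, a5, mul_assoc p, mul_comm p, mul_assoc]
      gcongr
    have a7 : 0 ≤ p⁻¹ * Kr ((16 / 9) ^ 2 * (nm ν * y)) := by positivity
    simp only [hE]
    constructor <;> linarith
  obtain ⟨S, hS, hmaj⟩ := hasSum_maj
  have hk := Kr_pos y0.le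
  set A := K * (p * Kr y) with hA
  have A0 : 0 < A := by positivity
  have g1 : HasSum (fun ν : O => A * maj (ν.re, ν.im) + ((if ν = 1 then -(0.56 * A) else 0) +
      if ν = -1 then -(0.56 * A) else 0)) (A * S + (-(0.56 * A) + -(0.56 * A))) :=
    ((PoissonAux.E1.symm.hasSum_iff.2 hmaj).mul_left A).add
      ((hasSum_ite_eq 1 _).add (hasSum_ite_eq (-1) _))
  have g2 := hasSum_le (fun ν => ?_) hsum g1
  · nlinarith
  have m0 : 0 ≤ A * maj (ν.re, ν.im) := mul_nonneg A0.le (maj_nonneg _)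
  have one : ∀ x : O, nm x = 1 → x ≠ 0 → -K * E x ≤ -(0.56 * A) := fun x hx hx0 => by
    have := (hEb x hx0).1
    rw [hx, Nat.cast_one, one_mul] at this
    rw [hA]
    nlinarith
  by_cases n1 : ν = 1
  · rw [if_pos n1, if_neg (by rw [n1]; decide), n1, mul_one, hR, h, Complex.ofReal_re]
    linarith [one 1 nm_one one_ne_zero, n1 ▸ m0]
  by_cases n2 : ν = -1
  · rw [if_neg n1, if_pos n2, n2, mul_neg_one, Rg_neg, hR, h, Complex.ofReal_re]
    linarith [one (-1) (by simp) (by decide), n2 ▸ m0]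
  rw [if_neg n1, if_neg n2, add_zero, add_zero]
  by_cases n0 : ν = 0
  · refine le_trans ?_ m0
    rw [n0, mul_zero, Rg_zero, ResZ, hm, ← Complex.ofReal_mul, Complex.ofReal_re]
    refine mul_nonpos_of_nonneg_of_nonpos (by positivity) ?_
    have a1 := Kr_pos le_rfl
    have a2 : p ≤ p⁻¹ := p1.le.trans (one_le_inv_iff₀.2 ⟨p0, p1.le⟩)
    simp only [hE, nm_zero, Nat.cast_zero, zero_mul, mul_zero]
    nlinarith
  by_cases r0 : Rg (lam * ν) = 0
  · rw [r0, Complex.zero_re, zero_mul]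
    exact m0
  obtain ⟨c1, c2, c3⟩ := cl ν n0
  obtain ⟨d1, d2⟩ := hEb ν n0
  have n4 := four_le_nm (c2 r0) n0 n1 n2
  have a0 := one_le_nm n0
  have a3 := Kr_pos (y := nm ν * y) (by positivity)
  have a4 := Kr_ratio (x := √(nm ν)) (y := y) (Real.one_le_sqrt.2 a0) y0
  rw [Real.sq_sqrt (by positivity), hy, Real.sqrt_sq (by positivity), ← hy] at a4
  have a5 := w_le (c2 r0) n4 (w := ‖Rg (lam * ν)‖ / K) ((div_le_one hK0).2 c1) fun h8 => by
    rw [div_le_iff₀' hK0]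
    exact c3 h8
  have E0 : 0 ≤ E ν := le_trans (by positivity) d1
  calc _ ≤ ‖Rg (lam * ν)‖ * E ν := mul_le_mul_of_nonneg_right (Complex.re_le_norm _) E0
    _ ≤ ‖Rg (lam * ν)‖ * (p * (√(nm ν) ^ (1 / 3 : ℝ) *
        Real.exp (-(2 * (√(nm ν) - 1) * (c0 / 4))) * Kr y)) := by
        gcongr
        exact d2.trans (mul_le_mul_of_nonneg_left a4 p0.le)
    _ = A * (‖Rg (lam * ν)‖ / K * (√(nm ν) ^ (1 / 3 : ℝ) *
        Real.exp (-(2 * (√(nm ν) - 1) * (c0 / 4))))) := by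
        rw [hA]
        field_simp
    _ ≤ _ := mul_le_mul_of_nonneg_left a5 A0.le

end Vale.Agent.P006.VK
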