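import Vale.Agent.P006.VKPole

/-! # P006 K: the absolute values of `Rg (u λ^j)`. -/

namespace Vale.Agent.P006.VK

open Vale.Agent.P026
open scoped ComplexConjugate Real Topology
open MeasureTheory Filter Set

theorem c0_pos' : 0 < c0 := by unfold c0; positivity

theorem pole_core {Ψ : O × O → ℂ} (hΨ : Cls 9 Ψ) (φ : ℂ →+* ℂ) (hφr : ∀ x : ℝ, φ x = x)
    (hφn : ∀ z, ‖φ z‖ = ‖z‖) (hφt : ∀ f : O → ℂ, φ (∑' ν, f ν) = ∑' ν, φ (f ν)) {μ : O} (hμ : μ ≠ 0)
    {h : O → ℂ} {κ R : ℂ} {C : ℝ} (hb : ∀ ν, ‖rho Ψ ν‖ ≤ C)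
    (ha : ∀ c d, Prim c → Squarefree c → Prim d →
      φ (rho Ψ (μ * (c * d ^ 3))) = κ * h c * (nm c : ℂ) ^ (-(2 / 3) : ℂ))
    (hs : ∀ ν, rho Ψ ν ≠ 0 → ∃ c d, Prim c ∧ Squarefree c ∧ Prim d ∧ ν = μ * (c * d ^ 3))
    (h0 : ∀ c, Prim c → ¬Squarefree c → h c = 0) (h1 : ∀ c, c ≠ 0 → ‖h c‖ ≤ nm c)
    (hR : RS (fun s => ∑' c : O, ind (Prim c) * h c * (nm c : ℂ) ^ (-s)) R) :
    Real.Gamma (2 / 3) * (κ * ((((c0 / 9) ^ 2 * nm μ) ^ (-2 / 3 : ℝ) : ℝ) : ℂ) * zP 2) * R =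
      φ (rho (fun r => Ψ (rmul r mS)) 0) * Real.Gamma (1 / 3) := by
  classical
  have hc := c0_pos'
  have hp : 0 < (c0 / 9) ^ 2 := by positivity
  have hN := one_le_nm hμ
  have hP := ThCAut_poly thB (hΨ.comp_rmul dvd_rfl mS)
  obtain ⟨C', k, hC'⟩ := id hP
  have hser : ∀ (a : O → ℂ) (p t : ℝ), ser (fun ν => φ (a ν)) Kr p t = φ (ser a Kr p t) :=
    fun a p t => by simp only [ser, hφt, map_mul, hφr]
  have h00 : rho Ψ 0 = 0 := by
    by_contra h
    obtain ⟨c, d, a1, -, a3, e⟩ := hs 0 h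
    exact mul_ne_zero hμ (a1.mul (a3.pow 3)).ne_zero e.symm
  have k1 := rs_fe ker_Kr (a := fun ν => φ (rho Ψ ν))
    (b := fun ν => φ (if ν = 0 then 0 else rho (fun r => Ψ (rmul r mS)) ν)) (C := C) (C' := C')
    (k := k) (by simp [h00]) (fun ν => by rw [hφn]; exact hb ν) (by simp)
    (fun ν hν => by rw [hφn, if_neg hν]; exact hC' ν hν) hp hp
    (σ := φ (rho (fun r => Ψ (rmul r mS)) 0) * Real.Gamma (1 / 3)) (e := 2 / 3) (α := 1)
    (β := -2 / 3) one_pos (by norm_num) (by norm_num) (by norm_num) (by norm_num) fun t ht => by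
      have e : (t : ℂ) ^ (-((2 / 3 : ℝ) : ℂ)) = ((t ^ (-(2 / 3) : ℝ) : ℝ) : ℂ) := by
        rw [Complex.ofReal_cpow ht.le]
        simp
      rw [hser, hser, fe_S hΨ ht, ser_split hP hp (by positivity), e, map_mul, map_add, map_mul,
        hφr, hφr]
  obtain ⟨c1, c2, c3⟩ := ker_Kr.conv
  have hM : Hol fun s => mellin (fun t => (Kr t : ℂ)) (((1 : ℝ) : ℂ) * s + (-2 / 3 : ℝ)) :=
    fun s hs => by
      have hs : 1 < s.re := hs
      exact (DifferentiableAt.comp (g := mellin fun t => (Kr t : ℂ)) s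
        (mellin_differentiableAt_of_isBigO_rpow c1 (c2 _) (lt_add_one _) c3 (by simp; linarith))
        (by fun_prop)).differentiableWithinAt
  have hq : ((((c0 / 9) ^ 2 * nm μ : ℝ)) : ℂ) ≠ 0 := Complex.ofReal_ne_zero.2 (by positivity)
  have k2 := hR.hol_mul (hM.mul (((Hol.const κ).mul (hol_cpow hq (2 / 3) (-1))).mul
    (hol_comp (ThCZ_hol fun n => norm_ind_le (Prim n)))))
  have k3 := k2.unique (k1.congr fun s hre => by
    rw [dir_eq hμ hp ha (fun ν hν => hs ν fun h => hν (by rw [h, map_zero])) h0 h1 hre, zP]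
    ring)
  rw [mellin_Kr, Complex.ofReal_one, div_one] at k3
  rw [← k3, Complex.ofReal_cpow (by positivity), zP]
  norm_num

theorem dvd_iff_prim {u ν : O} (hu : IsUnit u) (j : ℕ) :
    lam ^ (j + 2) ∣ ν - u * lam ^ j ↔ ∃ n, Prim n ∧ ν = u * lam ^ j * n := by
  obtain ⟨v, hv⟩ := hu.exists_right_inv
  constructor
  · rintro ⟨z, hz⟩
    refine ⟨1 - 3 * (v * z), ⟨-(v * z), by ring⟩, ?_⟩
    rw [pow_add, lam_sq] at hz
    linear_combination hz + 3 * lam ^ j * z * hv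
  · rintro ⟨n, ⟨z, hz⟩, rfl⟩
    refine ⟨-(u * z), ?_⟩
    rw [pow_add, lam_sq]
    linear_combination u * lam ^ j * hz

theorem norm_Rg_le {u n : O} (hu : IsUnit u) (j : ℕ) (hn : Prim n) :
    ‖Rg (u * lam ^ j * n)‖ ≤ ‖Rg (u * lam ^ j)‖ ∧
      (nm n < 8 → ‖Rg (u * lam ^ j * n)‖ ≤ ‖Rg (u * lam ^ j)‖ * (nm n : ℝ) ^ (-1 / 6 : ℝ)) := by
  by_cases h : Rg (u * lam ^ j * n) = 0
  · rw [h, norm_zero]
    exact ⟨norm_nonneg _, fun _ => by positivity⟩
  obtain ⟨c, d, hc, hs, hd, rfl⟩ := Rg_support hu j hn h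
  have h1 : ‖Rg (u * lam ^ j * (c * d ^ 3))‖ ≤ ‖Rg (u * lam ^ j)‖ * (nm c : ℝ) ^ (-1 / 6 : ℝ) := by
    rw [Rg_formula hu j hc hs hd, norm_mul, norm_mul, norm_mul, Complex.norm_conj, norm_gt3 hc hs,
      Complex.norm_real, Real.norm_of_nonneg (by positivity), mul_one, mul_comm]
    exact mul_le_mul_of_nonneg_left (mul_le_of_le_one_left (by positivity) (norm_cub_le _ _))
      (norm_nonneg _)
  refine ⟨h1.trans (mul_le_of_le_one_right (norm_nonneg _)
    (Real.rpow_le_one_of_one_le_of_nonpos (one_le_nm hc.ne_zero) (by norm_num))), fun h8 => ?_⟩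
  have h2 : nm d = 1 := by
    rw [nm_mul, nm_pow] at h8
    have a1 := nm_pos hc.ne_zero
    have a2 := nm_pos hd.ne_zero
    by_contra hne
    have a3 : 2 ^ 3 ≤ nm d ^ 3 := Nat.pow_le_pow_left (by omega) 3
    nlinarith
  rwa [nm_mul, nm_pow, h2, one_pow, mul_one]

theorem conj_coef {μ c : O} (hc : Prim c) (hμ : IsCoprime μ c) :
    conj (cub μ c * conj (gt3 c) * (((nm c : ℝ) ^ (-1 / 6 : ℝ) : ℝ) : ℂ)) =
      g3 μ c * (nm c : ℂ) ^ (-(2 / 3) : ℂ) := by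
  have hN : (0 : ℝ) < nm c := by exact_mod_cast nm_pos hc.ne_zero
  have e : (nm c : ℂ) ^ (-(2 / 3) : ℂ) = (((nm c : ℝ) ^ (-1 / 6 : ℝ) / √(nm c) : ℝ) : ℂ) := by
    rw [Real.sqrt_eq_rpow, ← Real.rpow_sub hN, Complex.ofReal_cpow hN.le]
    norm_num
  have h := g3_twist hc.ne_zero hμ 1
  rw [one_mul] at h
  rw [e, h, map_mul, map_mul, Complex.conj_conj, Complex.conj_ofReal, gt3]
  push_cast
  ring

theorem rho_mu {u : O} {j : ℕ} (hj : j ≤ 2) (ν : O) :
    rho (PsK 2 (lam ^ (2 - j)) (u * lam ^ j)) ν = ind (lam ^ (j + 2) ∣ ν - u * lam ^ j) *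
      3 ^ (j + 2) * Rg ν := by
  rw [rho_PsK 2 (δ' := lam ^ (j + 2)) (by rw [← pow_add, ← rw_lam_four]; congr 1; omega)
    (by rw [mul_assoc, ← pow_add, show j + (2 - j) = 2 by omega]; exact rw_three_lam2.mul_left u),
    show 2 * (2 + 4) = 3 * 4 from rfl, Rg_lam3k, nm_pow, nm_lam]
  simp

theorem lam_pow_dvd_nine (j : ℕ) : lam ^ (2 - j) ∣ 9 :=
  rw_lam_four ▸ pow_dvd_pow lam (by omega)

theorem pole_gen {u : O} (hu : IsUnit u) {j : ℕ} (hj : j ≤ 2) (φ : ℂ →+* ℂ) (hφr : ∀ x : ℝ, φ x = x)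
    (hφn : ∀ z, ‖φ z‖ = ‖z‖) (hφt : ∀ f : O → ℂ, φ (∑' ν, f ν) = ∑' ν, φ (f ν))
    (hR : RS (fun s => ∑' c : O, ind (Prim c) * φ (conj (g3 (u * lam ^ j) c)) * (nm c : ℂ) ^ (-s))
      (Rg (u * lam ^ j))) :
    Real.Gamma (2 / 3) * (3 ^ (j + 2) * φ (Rg (u * lam ^ j)) *
      ((((c0 / 9) ^ 2 * 3 ^ j) ^ (-2 / 3 : ℝ) : ℝ) : ℂ) * zP 2) * Rg (u * lam ^ j) =
      φ (9 * (((3 : ℝ) ^ (-1 / 3 : ℝ) : ℝ) : ℂ) * (ind (lam ^ (2 - j) ∣ lam) *
        (eq (u * lam ^ j * lam) 9 + eq (-(u * lam ^ j * lam)) 9) + 1) * ResZ) *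
        Real.Gamma (1 / 3) := by
  have hμ : u * lam ^ j ≠ 0 := mul_ne_zero hu.ne_zero (pow_ne_zero _ prime_lam.ne_zero)
  have hcop : ∀ c, Prim c → IsCoprime (u * lam ^ j) c := fun c hc =>
    (rw_coprime_unit hu c).mul_left (coprime_lam hc).pow_left
  have h3 : φ (3 ^ (j + 2)) = 3 ^ (j + 2) := by rw [map_pow, map_ofNat]
  have key := pole_core (cls_PsK 2 (lam_pow_dvd_nine j) (u * lam ^ j)) φ hφr hφn hφt hμ
    (h := fun c => φ (conj (g3 (u * lam ^ j) c))) (κ := 3 ^ (j + 2) * φ (Rg (u * lam ^ j)))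
    (C := 3 ^ (j + 2) * ‖Rg (u * lam ^ j)‖) (fun ν => ?_) (fun c d hc hs hd => ?_) (fun ν hν => ?_)
    (fun c hc hs => by simp only [g3_not_sqf hc (hcop c hc) hs, map_zero])
    (fun c hc => by rw [hφn, Complex.norm_conj]; exact norm_g3_le hc _) hR
  · rw [rho_S (lam_pow_dvd_nine j), Rg_zero, nm_ulam hu] at key
    simpa using key
  · rw [rho_mu hj]
    by_cases h : lam ^ (j + 2) ∣ ν - u * lam ^ j
    · obtain ⟨n, hn, rfl⟩ := (dvd_iff_prim hu j).1 h
      rw [ind_of h, one_mul, norm_mul, norm_pow, Complex.norm_ofNat]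
      exact mul_le_mul_of_nonneg_left (norm_Rg_le hu j hn).1 (by positivity)
    · rw [ind_of_not h, zero_mul, zero_mul, norm_zero]
      positivity
  · have e : (nm c : ℂ) ^ (-(2 / 3) : ℂ) = (((nm c : ℝ) ^ (-(2 / 3) : ℝ) : ℝ) : ℂ) := by
      rw [Complex.ofReal_cpow (Nat.cast_nonneg _)]
      simp
    have h1 := congrArg (fun z => φ (conj z)) (conj_coef hc (hcop c hc))
    simp only [Complex.conj_conj] at h1
    rw [rho_mu hj, ind_of ((dvd_iff_prim hu j).2 ⟨_, hc.mul (hd.pow 3), rfl⟩), one_mul,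
      Rg_formula hu j hc hs hd, map_mul, map_mul _ _ (Rg _), h1, h3, e, map_mul, map_mul,
      Complex.conj_ofReal, hφr]
    ring
  · rw [rho_mu hj] at hν
    have h : lam ^ (j + 2) ∣ ν - u * lam ^ j := by
      by_contra h
      simp [ind_of_not h] at hν
    obtain ⟨n, hn, rfl⟩ := (dvd_iff_prim hu j).1 h
    obtain ⟨c, d, a1, a2, a3, rfl⟩ := Rg_support hu j hn (right_ne_zero_of_mul hν)
    exact ⟨c, d, a1, a2, a3, rfl⟩

theorem eq_star (y c : O) : eq (lam * star y) (star c) = eq (lam * y) c := by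
  have e : toC (lam * star y) / toC (star c) = -conj (toC (lam * y) / toC c) := by
    rw [map_mul, map_mul, toC_star, toC_star, map_div₀, map_mul, toC_lam, map_mul, Complex.conj_I,
      Complex.conj_ofReal]
    ring
  rw [eq, eq, e, ec, ec, Complex.neg_im, Complex.conj_im, neg_neg]

theorem g3_star {c : O} (hc : c ≠ 0) : g3 lam (star c) = conj (g3 lam c) := by
  have hc' : star c ≠ 0 := star_ne_zero.2 hc
  have h := g3_twist hc (t := -1) isCoprime_one_left.neg_left lam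
  rw [cub_neg_left, cub_one_left, map_one, one_mul] at h
  rw [← h, g3, g3, map_sum, sum_res_eq hc' ((per_cub _).mul_eq lam) (res c) star fun x => ?_]
  · refine Finset.sum_congr rfl fun y _ => ?_
    rw [cub_star, eq_star, map_mul, conj_eq]
    congr 2
    ring
  · have e : ∀ y, star c ∣ x - star y ↔ c ∣ star x - y := fun y => by
      rw [← SymAux.star_dvd_star (x := c), star_sub, star_star]
    simpa only [e] using res_spec hc (star x)

theorem psiP_conj (s : ℂ) :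
    ∑' c : O, ind (Prim c) * conj (g3 lam c) * (nm c : ℂ) ^ (-s) = psiP lam s := by
  rw [psiP, ← (Function.Involutive.toPerm star star_star).tsum_eq
    fun c : O => ind (Prim c) * g3 lam c * (nm c : ℂ) ^ (-s)]
  refine tsum_congr fun c => ?_
  change _ = ind (Prim (star c)) * g3 lam (star c) * (nm (star c) : ℂ) ^ (-s)
  by_cases hc : Prim c
  · rw [ind_of hc, ind_of hc.star, g3_star hc.ne_zero, nm_star]
  · rw [ind_of_not hc, ind_of_not fun h => hc (by simpa using h.star)]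
    simp

theorem eq_val (x : O) : eq x 9 = Complex.exp (2 * π * Complex.I * (x.im / 9)) := by
  rw [eq, ec]
  congr 2
  have h3 : (√3 : ℝ) ≠ 0 := by positivity
  have e : toC 9 = ((9 : ℝ) : ℂ) := by rw [map_ofNat]; simp
  rw [e, Complex.div_ofReal_im, tl_im]
  push_cast
  have h4 : ((√3 : ℝ) : ℂ) ≠ 0 := Complex.ofReal_ne_zero.2 h3
  field_simp

theorem eq_cos {x : O} (h : x.im = 3 ∨ x.im = -3) : eq x 9 + eq (-x) 9 = -1 := by
  have key : Complex.exp (2 * π * Complex.I * (3 / 9)) +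
      Complex.exp (2 * π * Complex.I * (-3 / 9)) = -1 := by
    have h1 := Complex.two_cos (2 * π / 3)
    have h2 : Complex.cos (2 * π / 3) = -1 / 2 := by
      have : Real.cos (2 * π / 3) = -1 / 2 := by
        rw [show 2 * π / 3 = π - π / 3 by ring, Real.cos_pi_sub, Real.cos_pi_div_three]
        norm_num
      have h := congrArg (fun x : ℝ => (x : ℂ)) this
      simpa using h
    rw [h2] at h1
    rw [show 2 * π * Complex.I * (3 / 9) = 2 * π / 3 * Complex.I by ring,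
      show 2 * π * Complex.I * (-3 / 9) = -(2 * π / 3) * Complex.I by ring, ← h1]
    norm_num
  rw [eq_val, eq_val, QuadraticAlgebra.im_neg]
  rcases h with h | h <;> rw [h] <;> push_cast
  · exact key
  · rw [add_comm]
    exact key

theorem pole_conj {u : O} (hu : IsUnit u) {j : ℕ} (hj : j ≤ 2) {b m : ℝ} (hm : mP 2 = m)
    (hm' : zP 2 * m = 1) (hb : ind (lam ^ (2 - j) ∣ lam) *
      (eq (u * lam ^ j * lam) 9 + eq (-(u * lam ^ j * lam)) 9) = b) :
    Real.Gamma (2 / 3) * 3 ^ (j + 2) * ((c0 / 9) ^ 2 * 3 ^ j) ^ (-2 / 3 : ℝ) * ‖Rg (u * lam ^ j)‖ ^ 2 =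
      9 * (3 : ℝ) ^ (-1 / 3 : ℝ) * (b + 1) * (c0 / 27) * m ^ 2 * Real.Gamma (1 / 3) := by
  have h := pole_gen hu hj conj Complex.conj_ofReal Complex.norm_conj Complex.conj_tsum
    (by simp only [Complex.conj_conj]; exact rs_psiP _)
  rw [hb, ResZ, hm] at h
  simp only [map_mul, map_add, map_one, Complex.conj_ofReal, map_ofNat] at h
  have h2 := Complex.conj_mul' (Rg (u * lam ^ j))
  apply Complex.ofReal_injective
  push_cast at h ⊢
  linear_combination m * h - (Real.Gamma (2 / 3) * 3 ^ (j + 2) *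
    ((((c0 / 9) ^ 2 * 3 ^ j) ^ (-2 / 3 : ℝ) : ℝ) : ℂ)) *
      (conj (Rg (u * lam ^ j)) * Rg (u * lam ^ j) * hm' + h2)

theorem Rg_eq_zero {u : O} (hu : IsUnit u) {j : ℕ} (hj : j ≤ 2) (h1 : lam ^ (2 - j) ∣ lam)
    (h2 : (u * lam ^ j * lam).im = 3 ∨ (u * lam ^ j * lam).im = -3) : Rg (u * lam ^ j) = 0 := by
  obtain ⟨m, -, hm, hm'⟩ := exists_m2
  have h := pole_conj hu hj hm hm' (b := -1) (by rw [ind_of h1, eq_cos h2]; simp)
  have hc := c0_pos'
  have hG := Real.Gamma_pos_of_pos (show (0 : ℝ) < 2 / 3 by norm_num)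
  rw [neg_add_cancel, mul_zero, zero_mul, zero_mul, zero_mul] at h
  have := (mul_eq_zero.1 h).resolve_left (by positivity)
  simpa using this

theorem gamma_third : Real.Gamma (1 / 3) * Real.Gamma (2 / 3) = c0 := by
  have h := Real.Gamma_mul_Gamma_one_sub (1 / 3)
  rw [show (1 : ℝ) - 1 / 3 = 2 / 3 by norm_num, show π * (1 / 3) = π / 3 by ring,
    Real.sin_pi_div_three] at h
  rw [h, c0]
  field_simp

theorem Y_rpow : ((c0 / 9) ^ 2) ^ (-2 / 3 : ℝ) =
    ((3 : ℝ) ^ (1 / 3 : ℝ)) ^ 10 / ((2 * π) ^ (2 / 3 : ℝ)) ^ 2 := by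
  have h : (c0 / 9) ^ 2 = (2 * π) ^ (2 : ℝ) / 3 ^ (5 : ℝ) := by
    rw [c0, div_pow, div_pow, Real.sq_sqrt (by norm_num)]
    norm_num
    ring
  have hp := Real.two_pi_pos
  rw [h, Real.div_rpow (by positivity) (by positivity), ← Real.rpow_mul hp.le,
    ← Real.rpow_mul (by norm_num), ← Real.rpow_mul_natCast (by norm_num),
    ← Real.rpow_mul_natCast hp.le, div_eq_div_iff (by positivity) (by positivity),
    ← Real.rpow_add hp, ← Real.rpow_add (by norm_num)]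
  norm_num

theorem norm_Rg_vals : ∃ m : ℝ, 0 < m ∧ mP 2 = m ∧ ‖Rg lam‖ = cstar * (c0 / 9) * m ∧
    ∀ u, IsUnit u → ‖Rg u‖ ≤ cstar * (c0 / 9) * m := by
  obtain ⟨m, hm0, hm, hm'⟩ := exists_m2
  have hc := c0_pos'
  have hG := Real.Gamma_pos_of_pos (show (0 : ℝ) < 2 / 3 by norm_num)
  have hg := gamma_third
  set x := (3 : ℝ) ^ (1 / 3 : ℝ) with hx
  set y := (2 * π) ^ (2 / 3 : ℝ) with hy
  have hx0 : 0 < x := by positivity
  have hy0 : 0 < y := by have := Real.two_pi_pos; positivity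
  have hx3 : x ^ 3 = 3 := by
    rw [hx, ← Real.rpow_mul_natCast (by norm_num)]
    norm_num
  have hx1 : 1 ≤ x := Real.one_le_rpow (by norm_num) (by norm_num)
  have e1 : (3 : ℝ) ^ (-1 / 3 : ℝ) = x⁻¹ := by rw [hx, ← Real.rpow_neg (by norm_num)]; norm_num
  have e2 : (3 : ℝ) ^ (-2 / 3 : ℝ) = (x ^ 2)⁻¹ := by
    rw [hx, ← Real.rpow_mul_natCast (by norm_num), ← Real.rpow_neg (by norm_num)]
    norm_num
  have hK : 0 ≤ cstar * (c0 / 9) * m := by unfold cstar; positivity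
  have hK2 : (cstar * (c0 / 9) * m) ^ 2 = (y * c0 * m / (27 * Real.Gamma (2 / 3))) ^ 2 := by
    rw [cstar, ← hy]
    field_simp
    ring
  have h9 : x ^ 9 = 27 := by rw [show x ^ 9 = (x ^ 3) ^ 3 by ring, hx3]; norm_num
  have hg' : Real.Gamma (1 / 3) = c0 / Real.Gamma (2 / 3) := by rw [← hg]; field_simp
  refine ⟨m, hm0, hm, ?_, fun u hu => ?_⟩
  · have h := pole_conj isUnit_one (j := 1) (by norm_num) hm hm' (b := 2) (by
      rw [ind_of (by simp), eq_val, eq_val]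
      norm_num [lam])
    rw [Real.mul_rpow (by positivity) (by positivity), Y_rpow, e1, pow_one, e2, one_mul, pow_one,
      ← hx, ← hy, hg'] at h
    refine (pow_left_inj₀ (norm_nonneg _) hK two_ne_zero).1 ?_
    rw [hK2]
    field_simp at h ⊢
    linear_combination 1 / 27 * h - (Real.Gamma (2 / 3) ^ 2 * ‖Rg lam‖ ^ 2 * 27) * h9
  · have h := pole_conj hu (j := 0) (by norm_num) hm hm' (b := 0) (by
      rw [ind_of_not fun h => absurd (nm_dvd h) (by decide)]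
      simp)
    rw [pow_zero, mul_one, Y_rpow, e1, pow_zero, mul_one, ← hx, ← hy, hg'] at h
    refine (pow_le_pow_iff_left₀ (norm_nonneg _) hK two_ne_zero).1 ?_
    rw [hK2, div_pow, le_div_iff₀ (by positivity)]
    field_simp at h
    have h2 : 1 ≤ x ^ 2 := one_le_pow₀ hx1
    have h3 : 0 ≤ (Real.Gamma (2 / 3) * ‖Rg u‖) ^ 2 := by positivity
    have h11 : x ^ 11 = 27 * x ^ 2 := by rw [← h9]; ring
    nlinarith

theorem Rg_lam_real : conj (Rg lam) = Rg lam := by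
  have hb : ind (lam ^ (2 - 1) ∣ lam) * (eq (1 * lam ^ 1 * lam) 9 + eq (-(1 * lam ^ 1 * lam)) 9) = 2 := by
    rw [ind_of (by simp), eq_val, eq_val]
    norm_num [lam]
  obtain ⟨m, hm0, hm, hm'⟩ := exists_m2
  have h1 := pole_gen isUnit_one (j := 1) (by norm_num) conj Complex.conj_ofReal Complex.norm_conj
    Complex.conj_tsum (by simp only [Complex.conj_conj]; exact rs_psiP _)
  have h2 := pole_gen isUnit_one (j := 1) (by norm_num) (RingHom.id ℂ) (fun _ => rfl) (fun _ => rfl)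
    (fun _ => rfl) (by
      simp only [one_mul, pow_one, RingHom.id_apply, psiP_conj]
      exact rs_psiP lam)
  rw [hb, ResZ, hm] at h1 h2
  simp only [map_mul, map_add, map_one, Complex.conj_ofReal, map_ofNat, RingHom.id_apply, one_mul,
    pow_one] at h1 h2
  by_cases h0 : Rg lam = 0
  · simp [h0]
  have hc := c0_pos'
  have hG := Real.Gamma_pos_of_pos (show (0 : ℝ) < 2 / 3 by norm_num)
  have h3 := mul_left_cancel₀ (Complex.ofReal_ne_zero.2 hG.ne') (mul_right_cancel₀ h0 (h1.trans h2.symm))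
  have h4 := mul_right_cancel₀ (Complex.ofReal_ne_zero.2 (by positivity))
    (mul_right_cancel₀ (left_ne_zero_of_mul_eq_one hm') h3)
  exact mul_left_cancel₀ (by norm_num) h4

end Vale.Agent.P006.VK
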