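import Vale.Agent.P006.VDefs

/-! V12: numerics for the sign.
Plan for `sign_sum`.  `ν = a + 3 b ω`, `N = a² - 3ab + 9b²`, `4 N = (2a - 3b)² + 27 b²`; `E = exp (-1.67)`, `E ≤ 0.1883`.  Split `s` by `b = 0`, `|b| = 1`, `|b| ≥ 2` and bound each part by geometric series
(inject into `ℕ`-indexed families; `Finset.sum_le_sum_of_subset_of_nonneg`, `Summable.sum_le_tsum`, `tsum_geometric_of_lt_one`).
`b = 0`: `2 ∑_{m ≥ 1} E^m ≤ 0.464`.  `|b| = 1`: `|2a - 3b| = 2k + 1` (four points for each `k`), `√N ≥ 2.645` for `k = 0`, `√N ≥ 3 + 0.6 (k - 1)` for `k ≥ 1`: `≤ 0.257 + 0.225`.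
`|b| ≥ 2`: `√N ≥ 0.3 |2a - 3b| + 2.07 |b|`, `∑_a exp (-0.501 |2a - 3b|) ≤ 3.17`: `≤ 0.035`.  Total `≤ 0.99`.  Any other route (e.g. a finite box by `decide` plus a crude tail) is fine; check with python first.
`sign_exp`: `Real.exp_bound`/`Real.add_one_le_exp`-type Taylor bound (`Real.sum_le_exp_of_nonneg`).  `sign_x`: `Real.pi_gt_d6`, `Real.pi_lt_d6`, bounds for `√3`; `2 c0 / 3 = 2.41840`.
`sign_pow`: with `s = √N ≥ 5.19`, `N^(1/6) = s^(1/3)`, `log s ≤ 0.42 (s - 1)` (`log s ≤ log 5 + s/5 - 1`, `log 5 ≤ 1.61`). -/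

namespace Vale.Agent.P006

open Vale.Agent.P026 Filter
open scoped ComplexConjugate Real

theorem vnum_exp {x c : ℝ} (hx : 0 ≤ x) (hc : 0 < c)
    (h : 1 / c ≤ ∑ i ∈ Finset.range 13, x ^ i / i.factorial) : Real.exp (-x) ≤ c := by
  rw [Real.exp_neg, inv_le_comm₀ (Real.exp_pos _) hc, ← one_div]
  exact h.trans (Real.sum_le_exp_of_nonneg hx 13)

theorem vnum_pow {x c : ℝ} (h : Real.exp (-x) ≤ c) (k : ℕ) : Real.exp (-(x * k)) ≤ c ^ k := by
  rw [← neg_mul, mul_comm, Real.exp_nat_mul]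
  exact pow_le_pow_left₀ (Real.exp_pos _).le h k

theorem vnum_inj {ι κ : Type} [Fintype κ] (t : Finset O) (φ : O → ι) (σ : O → κ) {M : ι → ℝ}
    {S : ℝ} (hM : HasSum M S) (h0 : ∀ i, 0 ≤ M i)
    (hinj : ∀ x ∈ t, ∀ y ∈ t, φ x = φ y → σ x = σ y → x = y) {w : O → ℝ}
    (hw : ∀ ν ∈ t, w ν ≤ M (φ ν)) : ∑ ν ∈ t, w ν ≤ Fintype.card κ * S := by
  classical
  rw [← Finset.sum_fiberwise t σ w, ← nsmul_eq_mul, ← Finset.card_univ]
  refine Finset.sum_le_card_nsmul _ _ _ fun j _ => ?_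
  refine (Finset.sum_le_sum fun ν hν => hw ν (Finset.mem_filter.1 hν).1).trans ?_
  rw [← Finset.sum_image (f := M) (g := φ) fun x hx y hy e => hinj x (Finset.mem_filter.1 hx).1 y
    (Finset.mem_filter.1 hy).1 e ((Finset.mem_filter.1 hx).2.trans (Finset.mem_filter.1 hy).2.symm)]
  exact sum_le_hasSum _ (fun i _ => h0 i) hM

theorem vnum_nm (ν : O) : (nm ν : ℝ) = (ν.re : ℝ) ^ 2 - ν.re * ν.im + (ν.im : ℝ) ^ 2 := by
  exact_mod_cast nm_int ν

theorem vnum_abs (a : ℤ) : ((a.natAbs : ℕ) : ℝ) ^ 2 = (a : ℝ) ^ 2 := by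
  rw [Nat.cast_natAbs, Int.cast_abs, sq_abs]

theorem vnum_two {ν : O} (h : ν ≠ 0 ∧ ν ≠ 1 ∧ ν ≠ -1) (h0 : ν.im = 0) : 2 ≤ ν.re.natAbs := by
  have h1 : ν.re ≠ 0 := fun e => h.1 (QuadraticAlgebra.ext e h0)
  have h2 : ν.re ≠ 1 := fun e => h.2.1 (QuadraticAlgebra.ext e h0)
  have h3 : ν.re ≠ -1 := fun e => h.2.2 (QuadraticAlgebra.ext e h0)
  omega

theorem vnum_row (t : Finset O) (ht : ∀ ν ∈ t, ν.im = 0 ∧ 2 ≤ ν.re.natAbs) :
    ∑ ν ∈ t, Real.exp (-(1.67 * (√(nm ν) - 1))) ≤ 0.464 := by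
  have hE : Real.exp (-1.67) ≤ 0.1883 :=
    vnum_exp (by norm_num) (by norm_num) (by norm_num [Finset.sum_range_succ, Nat.factorial])
  refine (vnum_inj t (fun ν => ν.re.natAbs - 2) (fun ν => decide (0 ≤ ν.re))
    ((hasSum_geometric_of_lt_one (r := 0.1883) (by norm_num) (by norm_num)).mul_left 0.1883)
    (fun k => by positivity) (fun x hx y hy e1 e2 => ?_) fun ν hν => ?_).trans (by norm_num)
  · have h1 := ht x hx
    have h2 := ht y hy
    have h3 := decide_eq_decide.1 e2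
    exact QuadraticAlgebra.ext (by omega) (h1.1.trans h2.1.symm)
  · obtain ⟨h1, h2⟩ := ht ν hν
    obtain ⟨k, hk⟩ := Nat.exists_eq_add_of_le h2
    have h3 : ((k + 1 : ℕ) : ℝ) + 1 ≤ √(nm ν) := by
      refine Real.le_sqrt_of_sq_le ?_
      rw [vnum_nm, h1, ← vnum_abs, hk]
      push_cast
      linarith
    rw [hk, Nat.add_sub_cancel_left, ← pow_succ']
    exact (Real.exp_le_exp.2 (by linarith)).trans (vnum_pow hE (k + 1))

theorem vnum_rest (t : Finset O) (ht : ∀ ν ∈ t, (3 : ℤ) ∣ ν.im ∧ ν.im ≠ 0) :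
    ∑ ν ∈ t, Real.exp (-(1.67 * (√(nm ν) - 1))) ≤ 0.53 := by
  have hA : Real.exp (-2.2879) ≤ 0.1016 :=
    vnum_exp (by norm_num) (by norm_num) (by norm_num [Finset.sum_range_succ, Nat.factorial])
  have hr : Real.exp (-1.002) ≤ 0.3675 :=
    vnum_exp (by norm_num) (by norm_num) (by norm_num [Finset.sum_range_succ, Nat.factorial])
  have hq : Real.exp (-2.9559) ≤ 0.0522 :=
    vnum_exp (by norm_num) (by norm_num) (by norm_num [Finset.sum_range_succ, Nat.factorial])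
  have h7 : Real.exp (-2.74715) ≤ 0.0642 :=
    vnum_exp (by norm_num) (by norm_num) (by norm_num [Finset.sum_range_succ, Nat.factorial])
  have g1 := hasSum_geometric_of_lt_one (r := (0.3675 : ℝ)) (by norm_num) (by norm_num)
  have g2 := hasSum_geometric_of_lt_one (r := (0.0522 : ℝ)) (by norm_num) (by norm_num)
  have g3 := ((g1.mul g2 (g1.summable.mul_of_nonneg g2.summable (fun _ => by positivity)
    fun _ => by positivity)).mul_left 0.1016).sub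
    (hasSum_ite_eq ((0, 0) : ℕ × ℕ) (0.0374 : ℝ))
  refine (vnum_inj t (fun ν => ((2 * ν.re - ν.im).natAbs / 2, (ν.im / 3).natAbs - 1))
    (fun ν => (decide (0 ≤ 2 * ν.re - ν.im), decide (0 ≤ ν.im))) g3
    (fun i => ?_) (fun x hx y hy e1 e2 => ?_) fun ν hν => ?_).trans (by norm_num)
  · split_ifs with h
    · rw [h]
      norm_num
    · rw [sub_zero]
      positivity
  · have h1 := ht x hx
    have h2 := ht y hy
    have h3 := decide_eq_decide.1 (Prod.mk.inj e2).1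
    have h4 := decide_eq_decide.1 (Prod.mk.inj e2).2
    obtain ⟨h5, h6⟩ := Prod.mk.inj e1
    have h8 : x.im = y.im := by omega
    exact QuadraticAlgebra.ext (by omega) h8
  · obtain ⟨⟨b, hb⟩, h2⟩ := ht ν hν
    have e1 := vnum_abs (2 * ν.re - ν.im)
    have e2 := vnum_abs b
    have e3 := vnum_nm ν
    have e4 : ν.im / 3 = b := by omega
    have e5 : 1 + 2 * ((2 * ν.re - ν.im).natAbs / 2) + 1 ≤ (2 * ν.re - ν.im).natAbs + b.natAbs ∧
        1 ≤ b.natAbs ∧ ((2 * ν.re - ν.im).natAbs / 2 = 0 → b.natAbs - 1 = 0 →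
          (2 * ν.re - ν.im).natAbs = 1) := by omega
    simp only [e4]
    generalize (2 * ν.re - ν.im).natAbs = U at e1 e5 ⊢
    generalize b.natAbs = B at e2 e5 ⊢
    rw [hb] at e1 e3
    push_cast at e1 e3
    have e6 : 4 * (nm ν : ℝ) = (U : ℝ) ^ 2 + 27 * (B : ℝ) ^ 2 := by
      rw [e1, e2, e3]
      ring
    obtain ⟨j, rfl⟩ := Nat.exists_eq_add_of_le e5.2.1
    rw [Nat.add_sub_cancel_left] at e5 ⊢
    split_ifs with h
    · obtain ⟨h3, h4⟩ := Prod.mk.inj h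
      have h5 : 2.645 ≤ √(nm ν) := by
        refine Real.le_sqrt_of_sq_le ?_
        rw [e5.2.2 h3 h4, h4] at e6
        norm_num at e6 ⊢
        linarith
      rw [h3, h4]
      refine (Real.exp_le_exp.2 (by linarith)).trans (h7.trans (by norm_num))
    · have h5 : 0.3 * (U : ℝ) + 2.07 * ((1 + j : ℕ) : ℝ) ≤ √(nm ν) := by
        refine Real.le_sqrt_of_sq_le ?_
        nlinarith [sq_nonneg (0.4 * (U : ℝ) - 1.5525 * ((1 + j : ℕ) : ℝ)),
          sq_nonneg ((1 + j : ℕ) : ℝ)]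
      have h6 : (1 : ℝ) + 2 * ((U / 2 : ℕ) : ℝ) + 1 ≤ U + ((1 + j : ℕ) : ℝ) := by
        exact_mod_cast e5.1
      rw [Nat.cast_add, Nat.cast_one] at h5 h6
      rw [sub_zero]
      refine le_trans ?_ (mul_le_mul hA (mul_le_mul (vnum_pow hr (U / 2)) (vnum_pow hq j)
        (Real.exp_pos _).le (by positivity)) (by positivity) (by norm_num))
      rw [← Real.exp_add, ← Real.exp_add]
      exact Real.exp_le_exp.2 (by linarith)

theorem sign_sum (s : Finset O) (hs : ∀ ν ∈ s, (3 : ℤ) ∣ ν.im ∧ ν ≠ 0 ∧ ν ≠ 1 ∧ ν ≠ -1) :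
    ∑ ν ∈ s, Real.exp (-(1.67 * (√(nm ν) - 1))) ≤ 1 := by
  rw [← Finset.sum_filter_add_sum_filter_not s fun ν => ν.im = 0]
  have h1 := vnum_row (s.filter fun ν => ν.im = 0) fun ν hν => ⟨(Finset.mem_filter.1 hν).2,
    vnum_two (hs ν (Finset.mem_filter.1 hν).1).2 (Finset.mem_filter.1 hν).2⟩
  have h2 := vnum_rest (s.filter fun ν => ¬ν.im = 0) fun ν hν =>
    ⟨(hs ν (Finset.mem_filter.1 hν).1).1, (Finset.mem_filter.1 hν).2⟩
  linarith

theorem sign_four {ν : O} (h : (3 : ℤ) ∣ ν.im ∧ ν ≠ 0 ∧ ν ≠ 1 ∧ ν ≠ -1) : (4 : ℝ) ≤ nm ν := by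
  by_cases h0 : ν.im = 0
  · have h1 : (2 : ℝ) ≤ (ν.re.natAbs : ℕ) := by exact_mod_cast vnum_two h.2 h0
    rw [vnum_nm, h0, ← vnum_abs]
    push_cast
    nlinarith
  · obtain ⟨b, hb⟩ := h.1
    have h1 : (1 : ℝ) ≤ (b.natAbs : ℕ) := by exact_mod_cast (by omega : 1 ≤ b.natAbs)
    have h2 := vnum_abs b
    rw [vnum_nm, hb]
    push_cast
    nlinarith [sq_nonneg (2 * (ν.re : ℝ) - 3 * b)]

theorem sign_exp : 4.09 ≤ Real.exp 1.41 :=
  le_trans (by norm_num [Finset.sum_range_succ, Nat.factorial])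
    (Real.sum_le_exp_of_nonneg (by norm_num) 13)

theorem sign_x : 2.418 ≤ 2 * c0 / 3 := by
  have h1 : √3 ≤ 1.732051 := Real.sqrt_le_iff.2 ⟨by norm_num, by norm_num⟩
  have h2 := Real.pi_gt_d6
  have h3 : 3.627 ≤ c0 := by
    rw [c0, le_div_iff₀ (by positivity)]
    linarith
  linarith

theorem sign_pow {N : ℝ} (h : 27 ≤ N) : N ^ (1 / 6 : ℝ) ≤ Real.exp (0.14 * (√N - 1)) := by
  have h0 : 0 < N := by linarith
  have h1 : 5 ≤ √N := Real.le_sqrt_of_sq_le (by linarith)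
  have h2 : Real.log 5 ≤ 1.61 := by
    rw [Real.log_le_iff_le_exp (by norm_num)]
    exact le_trans (by norm_num [Finset.sum_range_succ, Nat.factorial])
      (Real.sum_le_exp_of_nonneg (by norm_num) 13)
  have h3 := Real.log_le_sub_one_of_pos (x := √N / 5) (by linarith)
  rw [Real.log_div (by linarith) (by norm_num), Real.log_sqrt h0.le] at h3
  rw [Real.rpow_def_of_pos h0]
  exact Real.exp_le_exp.2 (by linarith)

end Vale.Agent.P006
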