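import Vale.Agent.P006.VRes

/-! V2: the row functions `Ps`, `PsS` and their coefficients; the Kubota relation.
Plans. `cls_Ps`: as `cls_Psb` (P026/ThCDecA); `9 * (u λ^j) = u λ^(j+4)`, `cub_ulam_congr`.  `cls_PsS`: `Cls.comp_rmul`.
`Acf_Ps`: as `aD_Psb`: `sum_res_crt`, `d = c x + 9 y`; `3 ∣ d ↔ 3 ∣ x`; the `x`-sum is `∑_{x mod 9} [3 ∣ x] eq ((ν - e c) x) 9 = 9 [3 ∣ ν - e]` (`sum_res_dvd` of P026/ThCHeckeB, `eq_mul_cancel`, `sum_eq`),
the `y`-sum is `cub 9 c * g3 ν c`; `g3_twist`.  `rho_Ps`: `RS.rho_eq`, `RS.const_mul`, `rs_psiP`, `RS.congr`.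
`kubota`: put `c' = c r + 9 x d`, `d' = -9 c - b d`; `r d' = d - 9 c'`.  Case `IsCoprime d r`, `d ≠ 0`: `cub r c' * cub d' c' = cub d c' = cub d (c r)` (`cub_den_congr` with `R = 9 d`),
`cub r c' = cub c' r = cub (9 x) r * cub d r` (`cub_recip`), `cub (9 x) r * cub 9 r = 1`.  General case: `Sy_rmul` with the matrix `[[r, -9], [9 x, -b]]` and the row `(c, d + 9 c t) ≡ (c, d)`, `t` chosen
so that `d + 9 c t ≠ 0` is coprime to `r` (for instance `t` = product of the primes of `r * 2` not dividing `d`; any lemma of this kind is fine), `Sy_of_not_dvd`.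
`Ps_ref`: for a row `ρ` put `(c, d) = rmul ρ mS⁻¹`; then `rmul ρ g⁻¹ = (c r + 9 x d, -9 c - b d)` with `b = g 0 1`; `kap g = cub (9 x) r = conj (cub 9 r)`; `b ≡ -1 mod 3`; non-coprime rows give `0 = 0`.
`Ps_inv`: `rmul (c, d) g⁻¹ = (c - d, d)`, `cub d (c - d) = cub c (c - d) = cub (c - d) c = cub d c`; `9 λ² = λ⁶` is a cube. -/

namespace Vale.Agent.P006

open Vale.Agent.P026 Filter
open scoped ComplexConjugate Real

private theorem h39 : (3 : O) ∣ 9 := ⟨3, by norm_num⟩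
private theorem h9 : (9 : O) ≠ 0 := by decide
private theorem nine_ul (u : O) (j : ℕ) : 9 * (u * lam ^ j) = u * lam ^ (j + 4) := by
  rw [pow_add, rw_lam_four]; ring
theorem vps_cop {u c : O} (hu : IsUnit u) (j : ℕ) (hc : Prim c) : IsCoprime (u * lam ^ j) c :=
  (rw_coprime_unit hu c).mul_left (coprime_lam hc).pow_left
theorem vps_congr {u c c' : O} (hu : IsUnit u) (j : ℕ) (hc : Prim c) (h : (9 : O) ∣ c - c') :
    cub (9 * (u * lam ^ j)) c = cub (9 * (u * lam ^ j)) c' := by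
  rw [nine_ul]; exact cub_ulam_congr hu _ hc h

theorem cls_Ps {u : O} (hu : IsUnit u) (j : ℕ) (e : O) : Cls 9 (Ps (u * lam ^ j) e) := by
  refine ⟨fun r hr => ?_, fun r => ?_, fun r r' _ _ h1 h2 => ?_⟩
  · by_cases h : Prim r.1
    · simp [Ps, cub_eq_zero h.not_lam_dvd fun h => hr h.symm]
    · simp [Ps, ind_of_not h]
  · simp only [Ps, norm_mul, norm_eq, mul_one, Complex.norm_conj]
    exact mul_le_one₀ (mul_le_one₀ (mul_le_one₀ (norm_ind_le _) (norm_nonneg _) (norm_ind_le _))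
      (norm_nonneg _) (norm_cub_le _ _)) (norm_nonneg _) (norm_cub_le _ _)
  · by_cases h : Prim r.1
    · have h' : Prim r'.1 := h.of_dvd_sub h39 (dvd_sub_comm.1 h1)
      have e2 : eq (-(e * r.2)) 9 = eq (-(e * r'.2)) 9 :=
        eq_congr (by
          obtain ⟨k, hk⟩ := h2
          exact ⟨-(e * k), by linear_combination (-e) * hk⟩)
      have e3 : ((3 : O) ∣ r.2) = ((3 : O) ∣ r'.2) := propext (dvd_iff_dvd_of_dvd_sub (h39.trans h2))
      rw [Ps, Ps, Sy_of_not_dvd h.not_lam_dvd, Sy_of_not_dvd h'.not_lam_dvd, ind_of h, ind_of h',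
        vps_congr hu j h h1, e2, e3]
      ring
    · have h' : ¬Prim r'.1 := fun h' => h (h'.of_dvd_sub h39 h1)
      simp [Ps, ind_of_not h, ind_of_not h']
theorem cls_PsS {u : O} (hu : IsUnit u) (j : ℕ) : Cls 9 (PsS (u * lam ^ j)) :=
  (cls_Ps hu j 1).comp_rmul dvd_rfl _

private theorem sum9 (a : O) :
    ∑ x ∈ res 9, ind ((3 : O) ∣ x) * eq (a * x) 9 = 9 * ind ((3 : O) ∣ a) := by
  have h3 : (3 : O) ≠ 0 := by decide
  have e : (9 : O) = 3 * 3 := by norm_num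
  have hp : Per (3 * 3) fun x => eq (a * x) (3 * 3) := fun x y h =>
    eq_congr (by rw [← mul_sub]; exact h.mul_left a)
  rw [e, sum_res_dvd h3 h3 hp]
  have : ∀ d, eq (a * (3 * d)) (3 * 3) = eq (a * d) 3 := fun d => by
    rw [mul_left_comm, eq_mul_cancel h3]
  simp only [this]
  rw [sum_eq h3, show nm 3 = 9 by decide, mul_comm]
  norm_num

theorem Acf_Ps {u : O} (hu : IsUnit u) (j : ℕ) (e ν c : O) : Acf 9 (Ps (u * lam ^ j) e) ν c =
    9 * ind ((3 : O) ∣ ν - e) * (ind (Prim c) * g3 (u * lam ^ j * ν) c) := by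
  by_cases hp : Prim c
  swap
  · simp [Acf, Ps, ind_of_not hp]
  have e0 : ((3 : O) ∣ ν - e * c) = ((3 : O) ∣ ν - e) := propext (dvd_iff_dvd_of_dvd_sub (by
    obtain ⟨k, hk⟩ := hp
    exact ⟨-(e * k), by linear_combination (-e) * hk⟩))
  rw [Acf, sum_res_crt h9 hp.ne_zero hp.coprime_nine.symm, ind_of hp, one_mul, ← e0, ← sum9,
    Finset.sum_mul]
  · refine Finset.sum_congr rfl fun x _ => ?_
    rw [mul_comm _ ν, g3_twist hp.ne_zero (vps_cop hu j hp), g3, Finset.mul_sum, Finset.mul_sum]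
    refine Finset.sum_congr rfl fun y _ => ?_
    have e1 : eq (-(e * (c * x + 9 * y))) 9 * eq (ν * x) 9 = eq ((ν - e * c) * x) 9 := by
      rw [← eq_add]
      exact eq_congr ⟨-(e * y), by ring⟩
    have e2 := conj_mul_of_norm (norm_cub hp.coprime_nine.symm)
    have e3 : ((3 : O) ∣ c * x + 9 * y) = ((3 : O) ∣ x) := propext (dvd_iff_dvd_of_dvd_sub (by
      obtain ⟨k, hk⟩ := hp
      exact ⟨k * x + 3 * y, by linear_combination x * hk⟩))
    rw [Ps, ind_of hp, show ν * (c * x + 9 * y) = c * (ν * x) + 9 * (ν * y) by ring,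
      eq_crt h9 hp.ne_zero, cub_congr (a := c * x + 9 * y) (b := 9 * y) ⟨x, by ring⟩, cub_mul_left,
      cub_mul_left 9, map_mul, e3, ← e1]
    linear_combination (ind ((3 : O) ∣ x) * cub y c * conj (cub (u * lam ^ j) c) *
      eq (-(e * (c * x + 9 * y))) 9 * eq (ν * x) 9 * eq (ν * y) c) * e2
  · exact ((cls_Ps hu j e).per_snd dvd_rfl c).mul_eq ν

theorem rho_Ps {u : O} (hu : IsUnit u) (j : ℕ) (e ν : O) :
    rho (Ps (u * lam ^ j) e) ν = 9 * ind ((3 : O) ∣ ν - e) * RR (u * lam ^ j * ν) := by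
  refine RS.rho_eq (((rs_psiP _).const_mul _).congr fun s _ => ?_)
  rw [aD, psiP, ← tsum_mul_left]
  refine tsum_congr fun c => ?_
  rw [Acf_Ps hu, ind_of isCoprime_one_right]
  ring

private theorem prim_c' {r x c d : O} (hr : Prim r) (hc : Prim c) : Prim (c * r + 9 * x * d) :=
  (hc.mul hr).of_dvd_sub h39 ⟨x * d, by ring⟩

private theorem cub9x {r b x : O} (h : 81 * x - b * r = 1) : cub (9 * x) r * cub 9 r = 1 := by
  rw [← cub_mul_left, cub_congr (b := 1) ⟨b, by linear_combination h⟩, cub_one_left]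

private theorem kub0 {r b x c d : O} (hr : Prim r) (h : 81 * x - b * r = 1) (hc : Prim c)
    (hd0 : d ≠ 0) (hd : c * r ∣ d - 1) :
    cub (-9 * c - b * d) (c * r + 9 * x * d) = cub 9 r := by
  have hc' : Prim (c * r + 9 * x * d) := prim_c' hr hc
  have e1 : cub r (c * r + 9 * x * d) * cub (-9 * c - b * d) (c * r + 9 * x * d) = 1 := by
    rw [← cub_mul_left, cub_congr (b := d) ⟨-9, by linear_combination d * h⟩,
      cub_den_congr (n' := c * r) (R := 9 * d) hd0 hc' (dvd_mul_right _ _)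
        (fun p _ hp => hp.mul_left _) ⟨x, by ring⟩, cub_congr hd, cub_one_left]
  have e2 : cub r (c * r + 9 * x * d) = cub (9 * x) r := by
    rw [cub_recip hr hc']
    obtain ⟨k, hk⟩ := hd
    exact cub_congr ⟨c + 9 * x * c * k, by linear_combination 9 * x * hk⟩
  have e3 := cub9x h
  rw [e2] at e1
  linear_combination cub 9 r * e1 - cub (-9 * c - b * d) (c * r + 9 * x * d) * e3

theorem kubota {r b x c d : O} (hr : Prim r) (h : 81 * x - b * r = 1) (hc : Prim c)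
    (hd : (3 : O) ∣ d) (hcd : IsCoprime c d) :
    cub (-9 * c - b * d) (c * r + 9 * x * d) = cub 9 r * cub d c := by
  obtain ⟨a, a', ha⟩ := (prim_neg_two.mul (hc.mul hr)).coprime_nine
  have h1 : -2 * (c * r) ∣ d * a * (-2 * (c * r)) + 9 * a' - 1 :=
    ⟨d * a - a, by linear_combination ha⟩
  generalize hD : d * a * (-2 * (c * r)) + 9 * a' = D at h1
  have h2 : (9 : O) ∣ d - D := ⟨a' * d - a', by rw [← hD]; linear_combination (-d) * ha⟩
  have h3 : c * r ∣ D - 1 := (dvd_mul_left _ _).trans h1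
  have h4 : D ≠ 0 := by
    rintro rfl
    have : (2 : O) ∣ 1 := by
      obtain ⟨k, hk⟩ := h1
      exact ⟨c * r * k, by linear_combination -hk⟩
    exact prime_two.not_unit (isUnit_of_dvd_one this)
  have h5 : IsCoprime c D := by
    obtain ⟨k, hk⟩ := h3
    exact ⟨-(r * k), 1, by linear_combination hk⟩
  let g : SL2 := ⟨!![r, -9; 9 * x, -b], by rw [Matrix.det_fin_two_of]; linear_combination h⟩
  have hg : ∀ y, rmul (c, y) g = (c * r + 9 * x * y, -9 * c - b * y) := fun y => by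
    simp only [rmul, g, Matrix.of_apply, Matrix.cons_val', Matrix.cons_val_zero, Matrix.cons_val_one,
      Matrix.cons_val_fin_one]
    refine Prod.ext ?_ ?_ <;> simp only <;> ring
  have k := Sy_rmul g (r := (c, d)) (r' := (c, D)) hcd h5 (by simp) h2
  rw [hg, hg, Sy_of_not_dvd (prim_c' hr hc).not_lam_dvd, Sy_of_not_dvd (prim_c' hr hc).not_lam_dvd,
    Sy_of_not_dvd hc.not_lam_dvd, Sy_of_not_dvd hc.not_lam_dvd, kub0 hr h hc h4 h3,
    cub_congr (a := D) (b := 1) ((dvd_mul_right _ _).trans h3), cub_one_left, mul_one] at k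
  exact k

theorem vps_inv (g : SL2) (c d : O) :
    rmul (c, d) g⁻¹ = (c * g.1 1 1 - d * g.1 1 0, -(c * g.1 0 1) + d * g.1 0 0) := by
  rw [Matrix.SpecialLinearGroup.SL2_inv_expl]
  simp only [rmul, Matrix.of_apply, Matrix.cons_val', Matrix.cons_val_zero, Matrix.cons_val_one,
    Matrix.cons_val_fin_one]
  refine Prod.ext ?_ ?_ <;> simp only <;> ring

theorem PsS_eq (ϱ c d : O) : PsS ϱ (c, d) = Ps ϱ 1 (-d, c) := by
  rw [PsS, vps_inv, mS_00, mS_01, mS_10, mS_11]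
  simp

theorem Ps_ref {u r x : O} (hu : IsUnit u) (j : ℕ) (hr : Prim r) {g : SL2} (h0 : g.1 0 0 = 9)
    (h1 : g.1 1 0 = r) (h2 : g.1 1 1 = 9 * x) (ρ : O × O) :
    kap g * Ps (u * lam ^ j) 1 (rmul ρ g⁻¹) =
      conj (cub (9 * (u * lam ^ j)) r) * PsS (u * lam ^ j) ρ := by
  obtain ⟨d, c'⟩ := ρ
  obtain ⟨c, rfl⟩ : ∃ c, c' = -c := ⟨-c', (neg_neg _).symm⟩
  have hdet := sl2_det g
  rw [h0, h1, h2] at hdet
  generalize hb : g.1 0 1 = b at hdet
  have h : 81 * x - b * r = 1 := by linear_combination hdet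
  have hk : kap g = cub (9 * x) r := by
    rw [kap, row, h1, h2, Sy_of_not_dvd hr.not_lam_dvd]
  rw [PsS_eq, neg_neg, vps_inv, h0, h1, h2, hb, hk,
    show d * (9 * x) - -c * r = c * r + 9 * x * d by ring,
    show -(d * b) + -c * 9 = -9 * c - b * d by ring]
  obtain ⟨k, hk⟩ := id hr
  have hb3 : b = -1 + 3 * (27 * x - b * k) := by linear_combination -h - b * hk
  have e1 : Prim (c * r + 9 * x * d) = Prim c := propext (dvd_iff_dvd_of_dvd_sub
    ⟨c * k + 3 * x * d, by linear_combination c * hk⟩)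
  have e2 : ((3 : O) ∣ -9 * c - b * d) = ((3 : O) ∣ d) := propext (dvd_iff_dvd_of_dvd_sub
    ⟨-3 * c - (27 * x - b * k) * d, by linear_combination (-d) * hb3⟩)
  simp only [Ps, e1, e2]
  by_cases hc : Prim c
  swap
  · simp [ind_of_not hc]
  by_cases hd : (3 : O) ∣ d
  swap
  · simp [ind_of_not hd]
  by_cases hcd : IsCoprime c d
  swap
  · have h5 : ¬IsCoprime (-9 * c - b * d) (c * r + 9 * x * d) := fun ⟨s, t, hst⟩ =>
      hcd ⟨-9 * s + t * r, -(s * b) + 9 * t * x, by linear_combination hst⟩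
    rw [cub_eq_zero (prim_c' hr hc).not_lam_dvd h5,
      cub_eq_zero hc.not_lam_dvd fun h => hcd h.symm]
    simp
  have e3 : eq (-(1 * (-9 * c - b * d))) 9 = eq (-(1 * d)) 9 := by
    obtain ⟨l, hl⟩ := hd
    exact eq_congr ⟨c + (27 * x - b * k) * l, by
      linear_combination d * hb3 + 3 * (27 * x - b * k) * hl⟩
  rw [kubota hr h hc hd hcd, e3,
    vps_congr hu j (prim_c' hr hc) (c' := c * r) ⟨x * d, by ring⟩,
    cub_mul_right hc.ne_zero hr.ne_zero, map_mul]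
  linear_combination (ind (Prim c) * ind ((3 : O) ∣ d) * cub d c *
    conj (cub (9 * (u * lam ^ j)) c) * conj (cub (9 * (u * lam ^ j)) r) * eq (-(1 * d)) 9) * cub9x h

theorem Ps_inv {g : SL2} (h0 : g.1 0 0 = 1) (h1 : g.1 0 1 = 0) (h2 : g.1 1 0 = 1) (h3 : g.1 1 1 = 1)
    (ρ : O × O) : Ps (1 * lam ^ 2) 0 (rmul ρ g⁻¹) = Ps (1 * lam ^ 2) 0 ρ := by
  obtain ⟨c, d⟩ := ρ
  rw [vps_inv, h0, h1, h2, h3]
  simp only [Ps, mul_one, mul_zero, neg_zero, zero_add, zero_mul]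
  by_cases hd : (3 : O) ∣ d
  swap
  · simp [ind_of_not hd]
  have e1 : Prim (c - d) = Prim c := propext (dvd_iff_dvd_of_dvd_sub (by
    rw [show c - d - 1 - (c - 1) = -d by ring]; exact hd.neg_right))
  rw [e1]
  by_cases hc : Prim c
  swap
  · simp [ind_of_not hc]
  have hc' : Prim (c - d) := e1 ▸ hc
  have e2 : ∀ n, Prim n → cub (9 * (1 * lam ^ 2)) n = 1 := fun n hn => by
    rw [nine_ul, one_mul, show 2 + 4 = 2 * 3 by norm_num, pow_mul, cub_pow_left,
      cub_cube (coprime_lam hn).pow_left]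
  rw [e2 c hc, e2 _ hc', cub_congr (a := d) (b := c) (n := c - d) ⟨-1, by ring⟩, cub_recip hc hc',
    cub_congr (a := c - d) (b := -d) ⟨1, by ring⟩, cub_neg_left]

end Vale.Agent.P006
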