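import Vale.Agent.P006.VDefs
import Vale.Agent.P006.KZeta

/-! V1: the residues `RR`.
Plans. `rs_psiP`: for `Re s > 2`, `psiP ν s = ∑_{β ∈ res 9, Prim β} psi β ν 1 s` (`Summable.tsum_finsetSum`, `summable_psi`, `res_spec`; cf. the end of `dec` in P026/ThCDec),
`RS.sum`, `rs_psi vR`.  `RR_congr`: `RS.unique`, `RS.congr`.  `RR_neg`, `RR_lam_cube`: `g3_twist`, `cub_neg_left`, `cub_pow_left`, `cub_cube`.
`RR_formula`: if `n = c d³` use `rb_formula vH`, the bijection `β ↦ β c` of primary classes mod 9 (write the filtered sum as `∑ β ∈ res 9, ind (Prim β) * rb β ν`, `rb_congr`, `sum_res_affine`),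
`th0_eq`, `cub_cube`; otherwise `rb_support vH`, `th0_ne_zero` (cf. the end of `theta` in P026/ThC).
`zP_two`, `one_le_z2`: every term of `zP 2` is a real `≥ 0`, the term `n = 1` is `1` (`Complex.ofReal_tsum`, `summable_norm_cpow`/`summable_rpow`).
`RR_zero`: `psiP 0 = psi 1 0 1` (`g3_zero_ne`, `Prim.cube`), `psi_one_zero`; copy `exists_rs_Z` (P026/ThCZ) with the residue `c0 / 9` from `zP_cont`; `mP 2 * zP 2 = 1` (`zetaP_mul_mu`).
`thCoef_rho`: copy the third part of `theta` (P026/ThC). -/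

namespace Vale.Agent.P006

open Vale.Agent.P026 Filter
open scoped ComplexConjugate Real

open Classical in
theorem vres_sum (ν : O) {s : ℂ} (hs : 2 < s.re) :
    ∑ β ∈ (res 9).filter Prim, psi β ν 1 s = psiP ν s := by
  simp only [psi]
  rw [← Summable.tsum_finsetSum fun β _ => summable_psi ν _ hs, psiP]
  refine tsum_congr fun c => ?_
  by_cases hc : Prim c
  · obtain ⟨β, ⟨hβ, hβ'⟩, hu⟩ := res_spec (n := 9) (by decide) c
    have hP : Prim β := hc.of_dvd_sub ⟨3, by norm_num⟩ (dvd_sub_comm.1 hβ')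
    rw [Finset.sum_eq_single_of_mem β (Finset.mem_filter.2 ⟨hβ, hP⟩) fun β' h1 h2 => ?_]
    · rw [ind_of hc, ind_of ⟨hβ', isCoprime_one_right⟩]
    · rw [ind_of_not fun h => h2 (hu β' ⟨(Finset.mem_filter.1 h1).1, h.1⟩)]
      simp
  · rw [ind_of_not hc, zero_mul, zero_mul]
    refine Finset.sum_eq_zero fun β hβ => ?_
    rw [ind_of_not fun h => hc ((Finset.mem_filter.1 hβ).2.of_dvd_sub ⟨3, by norm_num⟩ h.1)]
    simp

theorem rs_psiP (ν : O) : RS (psiP ν) (RR ν) := by
  classical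
  exact (RS.sum _ fun β hβ => rs_psi vR (Finset.mem_filter.1 hβ).2 ν).congr fun s hs =>
    vres_sum ν hs
theorem RR_congr {ν ν' : O} (h : ∀ c, Prim c → g3 ν c = g3 ν' c) : RR ν = RR ν' := by
  refine ((rs_psiP ν).congr fun s _ => ?_).unique (rs_psiP ν')
  refine tsum_congr fun c => ?_
  by_cases hc : Prim c
  · rw [h c hc]
  · simp only [ind_of_not hc, zero_mul]
theorem RR_neg (ν : O) : RR (-ν) = RR ν := RR_congr fun c hc => by
  rw [← mul_neg_one, g3_twist hc.ne_zero isCoprime_one_left.neg_left, cub_neg_left, cub_one_left,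
    map_one, one_mul]
theorem RR_lam_cube (ν : O) : RR (lam ^ 3 * ν) = RR ν := RR_congr fun c hc => by
  rw [mul_comm, g3_twist hc.ne_zero (coprime_lam hc).pow_left, cub_pow_left,
    cub_cube (coprime_lam hc), map_one, one_mul]

open Classical in
theorem vres_shift {c : O} (hc : Prim c) (ν : O) :
    ∑ β ∈ (res 9).filter Prim, rb (β * c) ν = RR ν := by
  have h9 : IsCoprime c 9 := by
    rw [show (9 : O) = lam ^ 4 by decide]
    exact (coprime_lam hc).symm.pow_right
  have hP : Per 9 fun β => ind (Prim β) * rb β ν := fun x y hxy => by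
    have : Prim x ↔ Prim y := ⟨fun h => h.of_dvd_sub ⟨3, by norm_num⟩ (dvd_sub_comm.1 hxy),
      fun h => h.of_dvd_sub ⟨3, by norm_num⟩ hxy⟩
    simp only [this, rb_congr hxy]
  have h1 := sum_res_affine (n := 9) (by decide) hP h9 0
  have h2 : ∀ f : O → ℂ, ∑ β ∈ (res 9).filter Prim, f β = ∑ β ∈ res 9, ind (Prim β) * f β :=
    fun f => by
      rw [Finset.sum_filter]
      refine Finset.sum_congr rfl fun β _ => ?_
      by_cases h : Prim β <;> simp [ind, h]
  rw [RR, h2, h2, ← h1]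
  refine Finset.sum_congr rfl fun β _ => ?_
  rw [add_zero, mul_comm c β, show Prim (β * c) = Prim β from
    propext ⟨fun h => hc.of_mul (mul_comm β c ▸ h), fun h => h.mul hc⟩]

theorem RR_formula {u n : O} (hu : IsUnit u) (j : ℕ) (hn : Prim n) :
    RR (u * lam ^ j * n) = RR (u * lam ^ j) * (cub (u * lam ^ j) n * th0 n) *
      ((nm n : ℝ) ^ (-1 / 6 : ℝ) : ℝ) := by
  classical
  by_cases hex : ∃ c d, Prim c ∧ Squarefree c ∧ Prim d ∧ n = c * d ^ 3
  · obtain ⟨c, d, hc, hs, hd, rfl⟩ := hex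
    have hcop : IsCoprime (u * lam ^ j) d := by
      rw [isCoprime_mul_unit_left_left hu]
      exact (coprime_lam hd).pow_left
    have hd0 : (0 : ℝ) < nm d := by exact_mod_cast nm_pos hd.ne_zero
    have h2 : ((nm (c * d ^ 3) : ℕ) : ℝ) ^ (-1 / 6 : ℝ) * √(nm d) = (nm c : ℝ) ^ (-1 / 6 : ℝ) := by
      rw [nm_mul, nm_pow, Nat.cast_mul, Nat.cast_pow, Real.mul_rpow (by positivity) (by positivity),
        ← Real.rpow_natCast, ← Real.rpow_mul hd0.le, Real.sqrt_eq_rpow, mul_assoc,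
        ← Real.rpow_add hd0]
      norm_num
    rw [← vres_shift hc (u * lam ^ j), RR, Finset.sum_congr rfl fun β hβ =>
      rb_formula vH hu j hc hs hd (Finset.mem_filter.1 hβ).2, ← Finset.mul_sum, th0_eq hc hs hd,
      cub_mul_right hc.ne_zero (pow_ne_zero 3 hd.ne_zero), cub_pow_right hd.ne_zero, cub_cube hcop,
      ← h2]
    push_cast
    ring
  · have h1 : RR (u * lam ^ j * n) = 0 := Finset.sum_eq_zero fun β hβ => by
      by_contra h
      exact hex (rb_support vH hu j hn (Finset.mem_filter.1 hβ).2 h)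
    have h2 : th0 n = 0 := by
      by_contra h
      exact hex (th0_ne_zero h)
    rw [h1, h2]
    simp

open Classical in
theorem vres_zP :
    zP 2 = (∑' n : O, (if Prim n then (nm n : ℝ) ^ (-2 : ℝ) else 0) : ℝ) := by
  rw [zP, Complex.ofReal_tsum]
  refine tsum_congr fun n => ?_
  by_cases h : Prim n
  · rw [ind_of h, if_pos h, one_mul, Complex.ofReal_cpow (Nat.cast_nonneg _)]
    simp
  · rw [ind_of_not h, if_neg h, zero_mul, Complex.ofReal_zero]

theorem zP_two : zP 2 = z2 := by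
  rw [z2, vres_zP, Complex.ofReal_re]
theorem one_le_z2 : 1 ≤ z2 := by
  classical
  have h0 : ∀ n : O, 0 ≤ (if Prim n then (nm n : ℝ) ^ (-2 : ℝ) else 0) := fun n => by
    split_ifs <;> positivity
  have hs : Summable fun n : O => (if Prim n then (nm n : ℝ) ^ (-2 : ℝ) else 0) :=
    Summable.of_nonneg_of_le h0 (fun n => by
      split_ifs
      · exact le_rfl
      · positivity) (summable_rpow (σ := 2) (by norm_num))
  have h1 := hs.le_tsum 1 fun n _ => h0 n
  rw [z2, vres_zP, Complex.ofReal_re]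
  rwa [if_pos prim_one, psd_nm_one, Nat.cast_one, Real.one_rpow] at h1
theorem z0_pos : 0 < z0 := by
  have := one_le_z2
  have := c0_pos
  unfold z0
  positivity

theorem vres_psi (s : ℂ) : psi 1 0 1 s = psiP 0 s := by
  refine tsum_congr fun c => ?_
  by_cases hc : Prim c
  · by_cases h : g3 0 c = 0
    · simp [h]
    · obtain ⟨e, he, rfl⟩ := g3_zero_ne hc h
      rw [ind_of hc, ind_of ⟨he.cube, isCoprime_one_right⟩]
  · rw [ind_of_not hc, ind_of_not fun h => hc (prim_one.of_dvd_sub ⟨3, by norm_num⟩ h.1)]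

theorem vres_tendsto : Tendsto (fun w : ℂ => (w - 1) * zP w) (nhdsWithin 1 {w | 1 < w.re})
    (nhds (c0 / 9 : ℝ)) := by
  obtain ⟨H, C, -, hH, -, he⟩ := zP_cont
  have hU : IsOpen {s : ℂ | 1 / 2 < s.re} := isOpen_lt continuous_const Complex.continuous_re
  have h1 : ContinuousAt H 1 :=
    (hH.differentiableAt (hU.mem_nhds (show 1 / 2 < (1 : ℂ).re by norm_num))).continuousAt
  have h2 : ContinuousAt (fun w : ℂ => ((c0 / 9 : ℝ) : ℂ) * w + (w - 1) * (w * H w)) 1 := by
    fun_prop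
  have h3 := h2.tendsto.mono_left (nhdsWithin_le_nhds (s := {w : ℂ | 1 < w.re}))
  simp only [mul_one, sub_self, zero_mul, add_zero] at h3
  refine h3.congr' ?_
  filter_upwards [self_mem_nhdsWithin] with w hw
  have h4 : w - 1 ≠ 0 := fun h => by
    rw [sub_eq_zero.1 h] at hw
    simp at hw
  rw [he w hw]
  field_simp

theorem RR_zero : RR 0 = z0 := by
  have hz : Hol zP := ThCZ_hol fun n => norm_ind_le (Prim n)
  have hm : Hol mP := ThCZ_hol ThCZ_norm_mu
  have h1 : HasRes (fun s => zP (3 * s - 3)) (((c0 / 9 : ℝ) : ℂ) / 3) := by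
    refine ⟨_, hz.comp (f := fun s => 3 * s - 3) (by fun_prop) fun s hs => ?_, fun _ _ _ => rfl, ?_⟩
    · have := hs.1
      simp only [Set.mem_ofPred_eq, Complex.sub_re, Complex.mul_re, Complex.re_ofNat,
        Complex.im_ofNat]
      linarith
    · have t1 : Tendsto (fun ε => 3 * sE ε - 3) (nhdsWithin 0 (Set.Ioi 0))
          (nhdsWithin 1 {w | 1 < w.re}) := by
        refine tendsto_nhdsWithin_iff.2 ⟨?_, ?_⟩
        · have := (tendsto_sE.const_mul 3).sub_const 3
          rwa [show (3 : ℂ) * (4 / 3) - 3 = 1 by norm_num] at this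
        · filter_upwards [sE_mem] with ε hε
          have := hε.1
          simp only [Complex.sub_re, Complex.mul_re, Complex.re_ofNat,
            Complex.im_ofNat]
          linarith
      refine ((vres_tendsto.comp t1).div_const 3).congr fun ε => ?_
      simp only [Function.comp]
      ring
  have h2 : Hol fun s => mP (3 * s - 2) :=
    hm.comp (f := fun s => 3 * s - 2) (by fun_prop) fun s hs => by
      have : 1 < s.re := hs
      simp only [Set.mem_ofPred_eq, Complex.sub_re, Complex.mul_re, Complex.re_ofNat,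
        Complex.im_ofNat]
      linarith
  have h3 := zetaP_mul_mu 1 (fun _ _ _ _ => by simp) rfl (fun _ => by simp)
    (s := 2) (by norm_num)
  simp only [Pi.one_apply, mul_one] at h3
  have h4 : (z2 : ℂ) * mP 2 = 1 := by
    rw [← zP_two]
    exact h3
  have h5 := (rs_psiP 0).unique ((h1.mul_hol' h2).rs.congr fun s hs =>
    (psi_one_zero hs).symm.trans (vres_psi s))
  have h6 : (z2 : ℂ) ≠ 0 := left_ne_zero_of_mul (h4.trans_ne one_ne_zero)
  rw [h5, z0, show (3 : ℂ) * (4 / 3) - 2 = 2 by norm_num]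
  push_cast
  field_simp
  linear_combination (27 * (c0 : ℂ)) * h4

theorem thCoef_rho : ∃ C : ℝ, 0 < C ∧ ∀ Ψ, Cls 9 Ψ → ThCoef C (rho Ψ) := by
  classical
  obtain ⟨C, hC, hdec⟩ := rho_dec vR
  obtain ⟨C', hC', hrb⟩ := norm_rb_le vR (bndStmt thB)
  refine ⟨81 * C * C' + 1, by positivity, fun Ψ hΨ ν hν h => ?_⟩
  obtain ⟨b, hb, he⟩ := hdec Ψ hΨ ν
  obtain ⟨u, j, n, hu, hn, rfl⟩ := exists_decomp hν
  rw [he] at h
  obtain ⟨β₀, hβ₀, h0⟩ := Finset.exists_ne_zero_of_sum_ne_zero h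
  obtain ⟨c, d, hc, hs, hd, rfl⟩ :=
    rb_support vH hu j hn (Finset.mem_filter.1 hβ₀).2 (right_ne_zero_of_mul h0)
  refine ⟨u, j, c, d, hu, hc, hs, hd, by ring, ?_⟩
  have hν₀ : u * lam ^ j ≠ 0 := mul_ne_zero hu.ne_zero (pow_ne_zero _ prime_lam.ne_zero)
  have e3 : ((nm (u * lam ^ j) : ℕ) : ℝ) ^ (1 / 3 : ℝ) = 3 ^ (j / 3 : ℝ) := by
    rw [nm_ulam hu, Nat.cast_pow, Nat.cast_ofNat, ← Real.rpow_natCast,
      ← Real.rpow_mul (by norm_num)]
    congr 1
    ring
  have hN : (0 : ℝ) ≤ (nm c : ℝ) ^ (-1 / 6 : ℝ) := by positivity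
  have h3 : (0 : ℝ) ≤ 3 ^ (j / 3 : ℝ) := by positivity
  have hterm : ∀ β ∈ (res 9).filter Prim, ‖b β * rb β (u * lam ^ j * (c * d ^ 3))‖ ≤
      C * C' * 3 ^ (j / 3 : ℝ) * (nm c : ℝ) ^ (-1 / 6 : ℝ) := by
    intro β hβ
    have hβ := (Finset.mem_filter.1 hβ).2
    have h1 := hrb _ _ (hβ.mul hc) hν₀
    rw [e3] at h1
    rw [rb_formula vH hu j hc hs hd hβ]
    simp only [norm_mul, Complex.norm_conj, norm_gt3 hc hs, Complex.norm_real,
      Real.norm_of_nonneg hN, mul_one]
    calc _ ≤ C * (1 * (nm c : ℝ) ^ (-1 / 6 : ℝ) * (C' * 3 ^ (j / 3 : ℝ))) := by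
          gcongr
          · exact hb β
          · exact norm_cub_le _ _
      _ = _ := by ring
  rw [he]
  have hcard : (((res 9).filter Prim).card : ℝ) ≤ 81 := by
    have h1 := Finset.card_filter_le (res 9) Prim
    rw [card_res (by decide), show nm 9 = 81 by decide] at h1
    exact_mod_cast h1
  calc _ ≤ _ := norm_sum_le _ _
    _ ≤ _ := Finset.sum_le_card_nsmul _ _ _ hterm
    _ ≤ 81 * (C * C' * 3 ^ (j / 3 : ℝ) * (nm c : ℝ) ^ (-1 / 6 : ℝ)) := by
        rw [nsmul_eq_mul]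
        gcongr
    _ = 81 * C * C' * 3 ^ (j / 3 : ℝ) * (nm c : ℝ) ^ (-1 / 6 : ℝ) := by ring
    _ ≤ _ := by
        gcongr
        linarith

end Vale.Agent.P006
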