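import Vale.Agent.P006.VGram
import Vale.Agent.P006.VNum

/-! V13: the sign of `RR lam`.
Plans. `RR_unit`: every `u λ^j` is `±λ^(3m) ω^i λ^k`, `i, k < 3` (`isUnit_iff`, `RR_neg`, `RR_lam_cube`); `gram` gives `‖RR (ω^i)‖ = 3^(-1/3) ‖RR λ‖`, and `RR (ω^i λ^k) = 0` for `k = 2` or `k = 1, i ≠ 0`.
`RR_supp`, `RR_bound`: `ν = u λ^j n` (`exists_decomp`), `RR_formula` for `λ ν = u λ^(j+1) n`; `‖th0 n‖ N n^(-1/6) ≤ 1`, and `‖th0 n‖ ≤ 1` if `N n < 27` (`th0_ne_zero`, `th0_eq`: `N d³ < 27` and `N d ≡ 1 mod 3` force `N d = 1`);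
`j = 0`: `u = ±1`; `j = 1`: zero; `j ≥ 2`: `3 ∣ ν`; for `N ν < 27`, `j ≤ 2` and `3^(-1/3) 9^(1/6) = 1`; for `N ν ≥ 27` use `sign_pow`.
`sign_id`: `vA.aut` for `Ψ = Ps (1 * λ²) 0`, `g = [[1,0],[1,1]]`, `w = (-1, v)`: `act g w = (1, 1/v)`, `Ps_inv`; `th_shift`; `rho_Ps`: `rho Ψ (3 ν) = 9 RR (λ ν)` (`3 λ² = -λ³ λ`), `0` off `3 O`;
`ec (± ν / 3) = eq (± ν) 3 = 1` when `3 ∣ ν.im` (`eq_def`); `th_zero`; reindex `ν ↦ 3 ν` (`Function.Injective.tsum_eq`).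
`RR_lam_pos`: suppose `R = (RR λ).re ≤ 0`, so `R = -‖RR λ‖ < 0`.  `v = 3/4`, `y₁ = 9 kk v²`, `y₂ = 9 kk / v²`, `2 √(9 kk) = 2 c0 / 3 =: x`.  Split off `ν = 0, 1, -1`; `Kr_ratio`, `RR_bound`, `sign_sum` give
`Re F y₁ ≤ z0 Γ(1/3) - |R| Kr y₁ (2 - 1)` (`x v - 0.14 ≥ 1.67`), `Re F y₂ ≥ z0 Γ(1/3) - |R| Kr y₂ (2 + e^(-1.41))` (`x / v - 0.14 ≥ 1.67 + 1.41`, `√N - 1 ≥ 1`), and
`v^(-4/3) Kr y₂ ≤ v^(-2) e^(-x (1/v - v)) Kr y₁ ≤ (16/9) e^(-1.41) Kr y₁`; `(16/9) E⁻¹ (2 + E⁻¹) < 1` for `E ≥ 4.09`; `v^(-4/3) ≥ 1`, `z0 > 0`. -/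

namespace Vale.Agent.P006

open Vale.Agent.P026 Filter
open scoped ComplexConjugate Real

theorem vs_cube (m : ℕ) (ν : O) : RR (lam ^ (3 * m) * ν) = RR ν := by
  induction m with
  | zero => simp
  | succ m ih => rw [Nat.mul_succ, add_comm, pow_add, mul_assoc, RR_lam_cube, ih]

theorem vs_red {u : O} (hu : IsUnit u) (j : ℕ) : ∃ i, i < 3 ∧ (i = 0 → u = 1 ∨ u = -1) ∧
    RR (u * lam ^ j) = RR (om ^ i * lam ^ (j % 3)) := by
  have h1 : ∀ w : O, RR (w * lam ^ j) = RR (w * lam ^ (j % 3)) := fun w => by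
    rw [← vs_cube (j / 3) (w * lam ^ (j % 3)), mul_left_comm, ← pow_add, Nat.div_add_mod]
  have h2 : ∀ w : O, RR (-w * lam ^ j) = RR (w * lam ^ (j % 3)) := fun w => by
    rw [neg_mul, RR_neg, h1]
  rcases isUnit_iff.1 hu with rfl | rfl | rfl | rfl | rfl | rfl
  · exact ⟨0, by norm_num, fun _ => Or.inl rfl, by rw [h1, pow_zero]⟩
  · exact ⟨0, by norm_num, fun _ => Or.inr rfl, by rw [h2, pow_zero]⟩
  · exact ⟨1, by norm_num, fun h => absurd h (by norm_num), by rw [h1, pow_one]⟩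
  · exact ⟨1, by norm_num, fun h => absurd h (by norm_num), by rw [h2, pow_one]⟩
  · exact ⟨2, by norm_num, fun h => absurd h (by norm_num), h1 _⟩
  · exact ⟨2, by norm_num, fun h => absurd h (by norm_num), h2 _⟩

theorem vs_cases {u : O} (hu : IsUnit u) (j : ℕ) : RR (u * lam ^ j) = 0 ∨
    (j % 3 = 1 ∧ (u = 1 ∨ u = -1) ∧ ‖RR (u * lam ^ j)‖ = ‖RR lam‖) ∨
    (j % 3 = 0 ∧ ‖RR (u * lam ^ j)‖ = 3 ^ (-1 / 3 : ℝ) * ‖RR lam‖) := by
  obtain ⟨i, hi, h0, h⟩ := vs_red hu j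
  have hz : (0 : ℝ) < z2 := by linarith [one_le_z2]
  have hk : j % 3 < 3 := Nat.mod_lt _ (by norm_num)
  have hg := gram hi hk
  rw [h]
  by_cases h1 : j % 3 = 0
  · refine Or.inr (Or.inr ⟨h1, ?_⟩)
    have hl := gram (i := 0) (k := 1) (by norm_num) (by norm_num)
    rw [pow_zero, one_mul, pow_one] at hl
    have e1 : EE i (j % 3) = 3 ^ (-1 / 3 : ℝ) := by simp [EE, h1]
    have e2 : EE 0 1 = 3 ^ (1 / 3 : ℝ) := by simp [EE]
    have e3 : ((3 : ℝ) ^ (-1 / 3 : ℝ)) ^ 2 * 3 ^ (1 / 3 : ℝ) = 3 ^ (-1 / 3 : ℝ) := by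
      rw [← Real.rpow_natCast, ← Real.rpow_mul (by norm_num), ← Real.rpow_add (by norm_num)]
      norm_num
    rw [e1] at hg
    rw [e2] at hl
    refine (pow_left_inj₀ (norm_nonneg _) (by positivity) two_ne_zero).1
      (mul_right_cancel₀ hz.ne' ?_)
    rw [hg, mul_pow, mul_assoc _ _ z2, hl]
    linear_combination (-(z0 * (Real.Gamma (1 / 3) / Real.Gamma (2 / 3) * kk ^ (2 / 3 : ℝ)))) * e3
  by_cases h2 : j % 3 = 1 ∧ i = 0
  · exact Or.inr (Or.inl ⟨h2.1, h0 h2.2, by rw [h2.1, h2.2, pow_zero, one_mul, pow_one]⟩)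
  · left
    rw [EE, if_neg h1, if_neg h2, mul_zero, zero_mul] at hg
    exact norm_eq_zero.1 (pow_eq_zero_iff two_ne_zero |>.1 ((mul_eq_zero.1 hg).resolve_right hz.ne'))

theorem vs_le {u : O} (hu : IsUnit u) (j : ℕ) : ‖RR (u * lam ^ j)‖ ≤ ‖RR lam‖ := by
  rcases vs_cases hu j with h | h | h
  · rw [h, norm_zero]; exact norm_nonneg _
  · exact h.2.2.le
  · rw [h.2]
    exact mul_le_of_le_one_left (norm_nonneg _)
      (Real.rpow_le_one_of_one_le_of_nonpos (by norm_num) (by norm_num))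

theorem vs_form {u n : O} (hu : IsUnit u) (j : ℕ) (hn : Prim n) :
    RR (lam * (u * lam ^ j * n)) = RR (u * lam ^ (j + 1)) * (cub (u * lam ^ (j + 1)) n * th0 n) *
      ((nm n : ℝ) ^ (-1 / 6 : ℝ) : ℝ) := by
  rw [← RR_formula hu (j + 1) hn]
  congr 1
  ring

theorem RR_supp {ν : O} (h : RR (lam * ν) ≠ 0) : (3 : ℤ) ∣ ν.im := by
  rcases eq_or_ne ν 0 with rfl | hν
  · simp
  obtain ⟨u, j, n, hu, hn, rfl⟩ := exists_decomp hν
  rw [vs_form hu j hn] at h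
  have h1 := left_ne_zero_of_mul (left_ne_zero_of_mul h)
  have hn3 : (3 : ℤ) ∣ n.im := by
    simpa [QuadraticAlgebra.im_one] using ((dvd_iff_int 3 (n - 1)).1 (by exact_mod_cast hn)).2
  by_cases hj : 2 ≤ j
  · have : ((3 : ℤ) : O) ∣ u * lam ^ j * n := by
      exact_mod_cast ((rw_three_lam2.trans (pow_dvd_pow _ hj)).mul_left u).mul_right n
    exact ((dvd_iff_int 3 _).1 this).2
  rcases vs_cases hu (j + 1) with h2 | h2 | h2
  · exact absurd h2 h1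
  · obtain rfl : j = 0 := by omega
    rcases h2.2.1 with rfl | rfl <;> simpa using hn3
  · omega

theorem vs_th0 {n : O} (hn : Prim n) : ‖th0 n‖ * (nm n : ℝ) ^ (-1 / 6 : ℝ) ≤ 1 ∧
    (nm n < 27 → ‖th0 n‖ ≤ 1) := by
  by_cases h : th0 n = 0
  · simp [h]
  obtain ⟨c, d, hc, hs, hd, rfl⟩ := th0_ne_zero h
  have hd0 : (0 : ℝ) < nm d := by exact_mod_cast nm_pos hd.ne_zero
  rw [th0_eq hc hs hd, norm_mul, Complex.norm_conj, norm_gt3 hc hs, one_mul, Complex.norm_real,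
    Real.norm_of_nonneg (Real.sqrt_nonneg _), nm_mul, nm_pow]
  refine ⟨?_, fun h27 => ?_⟩
  · rw [Nat.cast_mul, Nat.cast_pow, Real.mul_rpow (by positivity) (by positivity),
      ← Real.rpow_natCast, ← Real.rpow_mul hd0.le, Real.sqrt_eq_rpow, mul_left_comm,
      ← Real.rpow_add hd0]
    norm_num
    exact Real.rpow_le_one_of_one_le_of_nonpos (one_le_nm hc.ne_zero) (by norm_num)
  · have h1 := nm_pos hc.ne_zero
    have h2 := hd.nm_mod
    have h3 : nm d ^ 3 < 27 := lt_of_le_of_lt (Nat.le_mul_of_pos_left _ h1) h27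
    have h4 : nm d < 3 := lt_of_pow_lt_pow_left₀ 3 (by norm_num) h3
    rw [show nm d = 1 by omega]
    simp

theorem vs_bdd {ν : O} (h : ν ≠ 0) : ‖RR (lam * ν)‖ ≤ ‖RR lam‖ := by
  obtain ⟨u, j, n, hu, hn, rfl⟩ := exists_decomp h
  rw [vs_form hu j hn, norm_mul, norm_mul, norm_mul, Complex.norm_real,
    Real.norm_of_nonneg (by positivity), mul_assoc, mul_assoc]
  exact (mul_le_of_le_one_right (norm_nonneg _)
    (mul_le_one₀ (norm_cub_le _ _) (by positivity) (vs_th0 hn).1)).trans (vs_le hu _)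

theorem RR_bound {ν : O} (h : ν ≠ 0) : ‖RR (lam * ν)‖ * (nm ν : ℝ) ^ (1 / 6 : ℝ) ≤
    ‖RR lam‖ * Real.exp (0.14 * (√(nm ν) - 1)) := by
  by_cases h27 : 27 ≤ nm ν
  · exact mul_le_mul (vs_bdd h) (sign_pow (by exact_mod_cast h27)) (by positivity) (norm_nonneg _)
  refine le_trans ?_ (le_mul_of_one_le_right (norm_nonneg _) (Real.one_le_exp ?_))
  swap
  · have := Real.one_le_sqrt.2 (one_le_nm h)
    linarith
  obtain ⟨u, j, n, hu, hn, rfl⟩ := exists_decomp h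
  have hn0 := nm_pos hn.ne_zero
  have hn1 : (0 : ℝ) < nm n := by exact_mod_cast hn0
  rw [nm_mul, nm_ulam hu] at h27
  have h1 : nm n < 27 := lt_of_le_of_lt (Nat.le_mul_of_pos_left _ (by positivity)) (not_le.1 h27)
  have h2 : j < 3 := (Nat.pow_lt_pow_iff_right (by norm_num : 1 < 3)).1
    (lt_of_le_of_lt (Nat.le_mul_of_pos_right _ hn0) (not_le.1 h27))
  have h3 : ‖RR (u * lam ^ (j + 1))‖ * ((3 : ℝ) ^ j) ^ (1 / 6 : ℝ) ≤ ‖RR lam‖ := by
    rcases vs_cases hu (j + 1) with h4 | h4 | h4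
    · rw [h4, norm_zero, zero_mul]; exact norm_nonneg _
    · obtain rfl : j = 0 := by omega
      rw [h4.2.2]; simp
    · obtain rfl : j = 2 := by omega
      rw [h4.2, ← Real.rpow_natCast, ← Real.rpow_mul (by norm_num), mul_right_comm,
        ← Real.rpow_add (by norm_num)]
      norm_num
  have h4 : (nm n : ℝ) ^ (-1 / 6 : ℝ) * (nm n : ℝ) ^ (1 / 6 : ℝ) = 1 := by
    rw [← Real.rpow_add hn1]; norm_num
  rw [vs_form hu j hn, norm_mul, norm_mul, norm_mul, Complex.norm_real,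
    Real.norm_of_nonneg (by positivity), nm_mul, nm_ulam hu, Nat.cast_mul, Nat.cast_pow,
    Nat.cast_ofNat, Real.mul_rpow (by positivity) hn1.le]
  calc _ = ‖RR (u * lam ^ (j + 1))‖ * ((3 : ℝ) ^ j) ^ (1 / 6 : ℝ) *
        (‖cub (u * lam ^ (j + 1)) n‖ * ‖th0 n‖) *
        ((nm n : ℝ) ^ (-1 / 6 : ℝ) * (nm n : ℝ) ^ (1 / 6 : ℝ)) := by ring
    _ ≤ _ := by
      rw [h4, mul_one]
      refine le_trans (mul_le_of_le_one_right ?_ ?_) h3
      · exact mul_nonneg (norm_nonneg _) (Real.rpow_nonneg (by positivity) _)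
      · exact mul_le_one₀ (norm_cub_le _ _) (norm_nonneg _) ((vs_th0 hn).2 h1)

theorem grow_RR : Grow fun ν => RR (lam * ν) := by
  refine ⟨‖RR 0‖ + ‖RR lam‖, fun ν => le_trans ?_ (le_mul_of_one_le_right
    (add_nonneg (norm_nonneg _) (norm_nonneg _)) (Real.one_le_rpow (by simp) (by norm_num)))⟩
  rcases eq_or_ne ν 0 with rfl | h
  · simp
  · linarith [vs_bdd h, norm_nonneg (RR 0)]

theorem vs_rho (ν : O) : rho (Ps (1 * lam ^ 2) 0) (3 * ν) = 9 * RR (lam * ν) := by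
  rw [rho_Ps isUnit_one, sub_zero, ind_of (dvd_mul_right _ _), mul_one, ← RR_neg (lam * ν),
    ← RR_lam_cube (-(lam * ν))]
  congr 2
  linear_combination (ν * lam ^ 2) * lam_sq

theorem vs_eq {ν e : O} (he : e = ν ∨ e = -ν) :
    rho (Ps (1 * lam ^ 2) 0) ν * eq e (9 * 1) = rho (Ps (1 * lam ^ 2) 0) ν := by
  by_cases h : (3 : O) ∣ ν
  swap
  · rw [rho_Ps isUnit_one, sub_zero, ind_of_not h]; simp
  obtain ⟨n, rfl⟩ := h
  by_cases h0 : RR (lam * n) = 0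
  · rw [vs_rho, h0]; simp
  obtain ⟨k, hk⟩ := RR_supp h0
  have h1 : eq (3 * n) (9 * 1) = 1 := by
    rw [show (9 * 1 : O) = 3 * 3 by norm_num, eq_mul_cancel (by decide), eq_def (by decide),
      show nm 3 = 9 by decide, show (n * star 3).im = 9 * k by
        rw [show star (3 : O) = 3 by decide, QuadraticAlgebra.im_mul, show (3 : O).im = 0 by decide,
          show (3 : O).re = 3 by decide, hk]; ring]
    rw [← Complex.exp_int_mul_two_pi_mul_I k]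
    congr 1
    push_cast
    ring
  rcases he with rfl | rfl
  · rw [h1, mul_one]
  · rw [← conj_eq, h1, map_one, mul_one]

theorem vs_thK (y : ℝ) :
    thK (rho (Ps (1 * lam ^ 2) 0)) y = 9 * thK (fun ν => RR (lam * ν)) (9 * y) := by
  have hinj : Function.Injective fun ν : O => 3 * ν := mul_right_injective₀ (by decide)
  rw [thK, thK, ← tsum_mul_left, ← hinj.tsum_eq]
  · refine tsum_congr fun ν => ?_
    rw [vs_rho, nm_mul, show nm 3 = 9 by decide, mul_assoc]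
    congr 4
    push_cast
    ring
  · intro ν hν
    by_contra h
    refine hν ?_
    have h3 : ¬(3 : O) ∣ ν := fun ⟨n, hn⟩ => h ⟨n, hn.symm⟩
    simp only
    rw [rho_Ps isUnit_one, sub_zero, ind_of_not h3]
    simp

theorem sign_id {v : ℝ} (hv : 0 < v) : thK (fun ν => RR (lam * ν)) (9 * kk * v ^ 2) =
    (v ^ (-4 / 3 : ℝ) : ℝ) * thK (fun ν => RR (lam * ν)) (9 * kk / v ^ 2) := by
  let g : SL2 := ⟨!![1, 0; 1, 1], by simp [Matrix.det_fin_two_of]⟩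
  have h00 : g.1 0 0 = 1 := rfl
  have h10 : g.1 1 0 = 1 := rfl
  have h11 : g.1 1 1 = 1 := rfl
  have hk : kap g = 1 := by
    rw [kap, row, h10, h11, Sy_of_not_dvd prim_one.not_lam_dvd, cub_one_left]
  have hid : VId (rho (Ps (1 * lam ^ 2) 0)) (rho (Ps (1 * lam ^ 2) 0)) 1 (kk / 1) := by
    refine vid_of_th one_pos fun w hw => ?_
    have h := th_twist vA (cls_Ps isUnit_one 2 0) (g := g) (g₀ := g) (by simp)
      (by rw [h10]; exact one_ne_zero) 0 hw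
    simp only [Ps_inv h00 rfl h10 h11] at h
    simp only [h00, h10, h11, hk, one_mul, mul_one _, map_one] at h
    have e1 := fun ν => vs_eq (ν := ν) (Or.inl rfl)
    have e2 := fun ν => vs_eq (ν := ν) (Or.inr rfl)
    have e3 : dual 1 0 w = (0, 1 / (1 * w)) := by
      refine Prod.ext (by simp [dual]) ?_
      simp only [dual, nm_one, norm_zero]
      field_simp
      simp
    simp only [one_mul, mul_one] at e1 e2 h ⊢
    simp only [e1, e2, e3, one_mul] at h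
    exact h
  have h := hid (1 / v ^ 2) (by positivity)
  rw [vs_thK, vs_thK, show (1 / v ^ 2) ^ (2 / 3 : ℝ) = v ^ (-4 / 3 : ℝ) by
    rw [one_div, ← Real.rpow_natCast, ← Real.rpow_neg hv.le, ← Real.rpow_mul hv.le]; norm_num,
    show 9 * (kk / 1 / (1 / v ^ 2)) = 9 * kk * v ^ 2 by field_simp,
    show 9 * (kk / 1 * (1 / v ^ 2)) = 9 * kk / v ^ 2 by field_simp] at h
  linear_combination h / 9

theorem vs_split {y δ : ℝ} (hy : 0 < y) (hδ : 0 ≤ δ) (h : 1.81 + δ ≤ 2 * √y) :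
    ‖thK (fun ν => RR (lam * ν)) y - ((z0 * Real.Gamma (1 / 3) : ℝ) + 2 * RR lam * (Kr y : ℝ))‖ ≤
      ‖RR lam‖ * Kr y * Real.exp (-δ) := by
  classical
  have hs := summable_thK grow_RR hy
  have hK := Kr_pos hy.le
  have h1 := hs.of_norm.sum_add_tsum_compl (s := {0, 1, -1})
  rw [Finset.sum_insert (by decide), Finset.sum_pair (by decide)] at h1
  simp only [mul_zero, mul_one, mul_neg, RR_neg, nm_neg, nm_zero, nm_one, Nat.cast_zero,
    Nat.cast_one, RR_zero, Kr_zero] at h1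
  rw [thK, ← h1, show ∀ a b c d : ℂ, a * b + (c * d + c * d) = a * b + 2 * c * d from
    fun _ _ _ _ => by ring, Complex.ofReal_mul, add_sub_cancel_left]
  refine (norm_tsum_le_tsum_norm (hs.subtype _)).trans
    ((hs.subtype _).tsum_le_of_sum_le fun u => ?_)
  simp only [Function.comp]
  rw [← Finset.sum_image (s := u) (g := Subtype.val)
    (f := fun ν => ‖RR (lam * ν) * (Kr (y * nm ν) : ℝ)‖) Subtype.val_injective.injOn,
    ← Finset.sum_filter_of_ne (p := fun ν => (3 : ℤ) ∣ ν.im) fun ν _ h0 =>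
      RR_supp (left_ne_zero_of_mul (norm_ne_zero_iff.1 h0))]
  have hm : ∀ ν ∈ (u.image Subtype.val).filter fun ν => (3 : ℤ) ∣ ν.im,
      (3 : ℤ) ∣ ν.im ∧ ν ≠ 0 ∧ ν ≠ 1 ∧ ν ≠ -1 := fun ν hν => by
    obtain ⟨h2, h3⟩ := Finset.mem_filter.1 hν
    obtain ⟨x, -, rfl⟩ := Finset.mem_image.1 h2
    exact ⟨h3, by simpa [not_or] using x.2⟩
  refine le_trans (Finset.sum_le_sum fun ν hν => ?_) ((Finset.mul_sum _ _ _).ge.trans
    (mul_le_of_le_one_right (by positivity) (sign_sum _ hm)))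
  have h4 := sign_four (hm ν hν)
  have h5 : 2 ≤ √(nm ν : ℝ) := Real.le_sqrt_of_sq_le (by linarith)
  have h6 := Kr_ratio hy (le_mul_of_one_le_right hy.le (by linarith : (1 : ℝ) ≤ nm ν))
  rw [mul_div_cancel_left₀ _ hy.ne', Real.sqrt_mul hy.le] at h6
  rw [norm_mul, Complex.norm_real, Real.norm_of_nonneg (Kr_pos (by positivity)).le]
  calc _ ≤ ‖RR (lam * ν)‖ * (Kr y * (nm ν : ℝ) ^ (1 / 6 : ℝ) *
        Real.exp (-(2 * (√y * √(nm ν) - √y)))) := by gcongr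
    _ = ‖RR (lam * ν)‖ * (nm ν : ℝ) ^ (1 / 6 : ℝ) * Kr y *
        Real.exp (-(2 * (√y * √(nm ν) - √y))) := by ring
    _ ≤ ‖RR lam‖ * Real.exp (0.14 * (√(nm ν) - 1)) * Kr y *
        Real.exp (-(2 * (√y * √(nm ν) - √y))) := by
        gcongr ?_ * _ * _; exact RR_bound (hm ν hν).2.1
    _ = ‖RR lam‖ * Kr y * Real.exp (0.14 * (√(nm ν) - 1) + -(2 * (√y * √(nm ν) - √y))) := by
        rw [Real.exp_add]; ring
    _ ≤ _ := by
        rw [mul_assoc _ (Real.exp (-δ)), ← Real.exp_add]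
        gcongr _ * Real.exp ?_
        nlinarith

theorem RR_lam_pos : 0 < (RR lam).re := by
  by_contra hneg
  have hc := c0_pos
  obtain ⟨R, hR⟩ : ∃ R : ℝ, RR lam = -R :=
    ⟨-(RR lam).re, Complex.ext (by simp) (by simp [RR_lam_real])⟩
  have hR0 : 0 ≤ R := by rw [hR] at hneg; simpa using hneg
  have hn : ‖RR lam‖ = R := by rw [hR, norm_neg, Complex.norm_real, Real.norm_of_nonneg hR0]
  have hx := sign_x
  have s1 : √(9 * kk * (3 / 4) ^ 2) = c0 / 4 :=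
    Real.sqrt_eq_iff_mul_self_eq_of_pos (by positivity) |>.2 (by unfold kk; ring)
  have s2 : √(9 * kk / (3 / 4) ^ 2) = 4 * c0 / 9 :=
    Real.sqrt_eq_iff_mul_self_eq_of_pos (by positivity) |>.2 (by unfold kk; ring)
  have hk := kk_pos
  have h1 := vs_split (y := 9 * kk * (3 / 4) ^ 2) (by positivity) le_rfl (by rw [s1]; linarith)
  have h2 := vs_split (y := 9 * kk / (3 / 4) ^ 2) (δ := 1.41) (by positivity) (by norm_num)
    (by rw [s2]; linarith)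
  have h3 := Kr_ratio (y := 9 * kk * (3 / 4) ^ 2) (y' := 9 * kk / (3 / 4) ^ 2) (by positivity)
    (by norm_num; linarith)
  have hid := congrArg Complex.re (sign_id (v := 3 / 4) (by norm_num))
  rw [s1, s2, show 9 * kk / (3 / 4) ^ 2 / (9 * kk * (3 / 4) ^ 2) = (3 / 4 : ℝ) ^ (-4 : ℝ) by
    rw [Real.rpow_neg (by norm_num), Real.rpow_ofNat]; field_simp,
    ← Real.rpow_mul (by norm_num)] at h3
  have hK1 := Kr_pos (y := 9 * kk * (3 / 4) ^ 2) (by positivity)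
  have hK2 := Kr_pos (y := 9 * kk / (3 / 4) ^ 2) (by positivity)
  generalize Kr (9 * kk * (3 / 4) ^ 2) = K₁ at *
  generalize Kr (9 * kk / (3 / 4) ^ 2) = K₂ at *
  have h4 := (abs_le.1 ((Complex.abs_re_le_norm _).trans h1)).2
  have h5 := (abs_le.1 ((Complex.abs_re_le_norm _).trans h2)).1
  rw [Complex.re_ofReal_mul] at hid
  rw [hn, hR] at h4 h5
  simp only [Complex.sub_re, Complex.add_re, Complex.ofReal_re, Complex.mul_re, Complex.neg_re,
    Complex.re_ofNat, Complex.im_ofNat, Complex.ofReal_im, Complex.neg_im, neg_zero, mul_zero,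
    sub_zero, Real.exp_zero, mul_one] at h4 h5
  have hA : 0 < z0 * Real.Gamma (1 / 3) := mul_pos z0_pos (Real.Gamma_pos_of_pos (by norm_num))
  have hw : 1 < (3 / 4 : ℝ) ^ (-4 / 3 : ℝ) :=
    Real.one_lt_rpow_of_pos_of_lt_one_of_neg (by norm_num) (by norm_num) (by norm_num)
  have hE : Real.exp (-1.41) ≤ 1 / 4.09 := by
    rw [Real.exp_neg, one_div]; exact inv_anti₀ (by norm_num) sign_exp
  have h6 : (3 / 4 : ℝ) ^ (-4 / 3 : ℝ) * K₂ ≤ 16 / 9 * (1 / 4.09) * K₁ := by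
    have e : (3 / 4 : ℝ) ^ (-4 / 3 : ℝ) * (3 / 4 : ℝ) ^ (-4 * (1 / 6) : ℝ) = 16 / 9 := by
      rw [← Real.rpow_add (by norm_num), show (-4 / 3 + -4 * (1 / 6) : ℝ) = -(2 : ℕ) by norm_num,
        Real.rpow_neg (by norm_num), Real.rpow_natCast]
      norm_num
    have h7 : Real.exp (-(2 * (4 * c0 / 9 - c0 / 4))) ≤ 1 / 4.09 :=
      (Real.exp_le_exp.2 (by linarith)).trans hE
    calc _ ≤ (3 / 4 : ℝ) ^ (-4 / 3 : ℝ) * (K₁ * (3 / 4 : ℝ) ^ (-4 * (1 / 6) : ℝ) * (1 / 4.09)) := by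
          gcongr
          exact h3.trans (by gcongr)
      _ = _ := by rw [← e]; ring
  generalize (3 / 4 : ℝ) ^ (-4 / 3 : ℝ) = w at *
  have h8 : R * K₂ * Real.exp (-1.41) ≤ R * K₂ * (1 / 4.09) := by gcongr
  have h9 : R * (w * K₂) ≤ R * (16 / 9 * (1 / 4.09) * K₁) := by gcongr
  have h10 := mul_le_mul_of_nonneg_left (h5.trans' (neg_le_neg h8)) (by linarith : 0 ≤ w)
  nlinarith [mul_nonneg hR0 hK1.le, mul_pos (sub_pos.2 hw) hA]

theorem RR_lam : RR lam = (kst * (c0 / 9) / z2 : ℝ) := by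
  have h1 := norm_RR_lam
  have h2 : (0 : ℝ) < z2 := by linarith [one_le_z2]
  have h3 : RR lam = ((RR lam).re : ℝ) := Complex.ext (by simp) (by simp [RR_lam_real])
  rw [h3, Complex.norm_real, Real.norm_of_nonneg RR_lam_pos.le] at h1
  rw [h3, ← h1, mul_div_cancel_right₀ _ h2.ne']

end Vale.Agent.P006
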