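import Vale.Agent.P006.VPs
import Vale.Agent.P026.VorArithB

/-! V3: the twisted modular relation.
Plans. `cr_eq`: `ind_coprime`, `sum_res_dvd` (P026/ThCHeckeB) with `r = e * (r / e)`, `eq_mul_cancel`, `sum_eq`.  `cr_zero`: `nm r = nm e * nm (r / e)`.
`cub_expand`: conjugate `gs_cub` at `-ν`..., or `gs_cub`, `conj_eq`, `cub_neg_left`, `sum_res_perm` with `a ↦ -a`; `norm_gt3`.
`twist`: imitate `va_inner` (P026/VorArithB).  For `a` coprime to `r` choose `x a` with `81 a (x a) - b r = 1` (`va_inv`), `g = [[9 a, b], [r, 9 x a]]`, `g₀` the matrix for `a = 1`; `g ≡ g₀ mod 9`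
(`b r ≡ -1 mod 9`); `th_twist vA`, `conj (kap g) = cub (9 a) r`, `Ps_ref`, `vA.smul`, `th_sum`, `th_const_mul`, `sum_res_inv`, `cr_eq`; `dual r 0 v = (0, 1 / (N r v))`.
`vid_of_th`: `th a (0, v) = (π v^(2/3) / Γ(4/3)) thK a (kk v²)` (`Wh_four_thirds`, `ec_zero`); take `v = (t Q)^(-1/2)`. -/

namespace Vale.Agent.P006

open Vale.Agent.P026 Filter
open scoped ComplexConjugate Real

theorem cr_eq {r : O} (hr : Prim r) (ν : O) :
    ∑ x ∈ res r, ind (IsCoprime x r) * eq (-(ν * x)) r = cr r ν := by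
  simp only [ind_coprime hr, Finset.sum_mul]
  rw [Finset.sum_comm, cr]
  refine Finset.sum_congr rfl fun e he => ?_
  obtain ⟨h1, h2⟩ := (mem_pdiv hr.ne_zero).1 he
  have h3 : e * (r / e) = r := EuclideanDomain.mul_div_cancel' h1.ne_zero h2
  have h4 : r / e ≠ 0 := fun h => hr.ne_zero (by rw [← h3, h, mul_zero])
  generalize r / e = n at h3 h4
  subst h3
  simp only [mul_assoc (mu e)]
  rw [← Finset.mul_sum, sum_res_dvd h1.ne_zero h4 (f := fun x => eq (-(ν * x)) (e * n))
    fun x y h => eq_congr (by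
      rw [show -(ν * x) - -(ν * y) = (x - y) * -ν by ring]
      exact h.mul_right _)]
  have h5 := sum_eq h4 (-ν)
  rw [dvd_neg] at h5
  rw [← h5]
  refine congrArg _ (Finset.sum_congr rfl fun d _ => ?_)
  rw [← eq_mul_cancel h1.ne_zero (-ν * d) n]
  congr 1
  ring
theorem cr_zero {r : O} (hr : Prim r) : cr r 0 = nm r * phiS r := by
  rw [cr, phiS, Finset.mul_sum]
  refine Finset.sum_congr rfl fun e he => ?_
  obtain ⟨h1, h2⟩ := (mem_pdiv hr.ne_zero).1 he
  have h3 : e * (r / e) = r := EuclideanDomain.mul_div_cancel' h1.ne_zero h2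
  have h4 := congrArg (fun x => (nm x : ℂ)) h3
  simp only [nm_mul, Nat.cast_mul] at h4
  have h5 := KBasic_nm_ne h1.ne_zero
  rw [ind_of (dvd_zero _), ← h4]
  field_simp
theorem norm_cr_le {r : O} (hr : Prim r) (ν : O) : ‖cr r ν‖ ≤ nm r := by
  rw [← cr_eq hr, ← card_res hr.ne_zero]
  refine (norm_sum_le _ _).trans ((Finset.sum_le_card_nsmul _ _ 1 fun x _ => ?_).trans (by simp))
  rw [norm_mul, norm_eq, mul_one]
  exact norm_ind_le _
theorem cub_expand {r : O} (hr : Sq r) (ν : O) :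
    cub ν r = ∑ a ∈ res r, gt3 r / (√(nm r) : ℝ) * conj (cub a r) * eq (a * ν) r := by
  have h1 := congrArg conj (gs_cub hr (-ν))
  simp only [map_sum, map_mul, conj_eq, cub_neg_left, Complex.conj_conj, Complex.conj_ofReal,
    neg_mul, neg_neg] at h1
  have h3 := G2.sqrt_nm_ne hr.ne_zero
  have h4 := conj_mul_of_norm (norm_gt3 hr.1 hr.2)
  calc _ = gt3 r / (√(nm r) : ℝ) * ∑ x ∈ res r, conj (cub x r) * eq (ν * x) r := by
        rw [h1]
        field_simp
        linear_combination (-cub ν r) * h4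
    _ = _ := by
        rw [Finset.mul_sum]
        refine Finset.sum_congr rfl fun a _ => ?_
        rw [mul_comm ν a]
        ring
theorem vtwist_mat {r a x : O} (h : r ∣ 81 * a * x - 1) : ∃ g : SL2, g.1 0 0 = 9 * a ∧
    g.1 1 0 = r ∧ g.1 1 1 = 9 * x ∧ (9 : O) ∣ r * g.1 0 1 + 1 := by
  obtain ⟨b, hb⟩ := h
  refine ⟨⟨!![9 * a, b; r, 9 * x], ?_⟩, rfl, rfl, rfl, 9 * a * x, ?_⟩
  · rw [Matrix.det_fin_two_of]
    linear_combination hb
  · change r * b + 1 = _
    linear_combination -hb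
theorem twist {u r : O} (hu : IsUnit u) (j : ℕ) (hr : Sq r) {v : ℝ} (hv : 0 < v) :
    th (fun ν => rho (Ps (u * lam ^ j) 1) ν * cub ν r) (0, v) =
      gt3 r * conj (cub (u * lam ^ j) r) / (√(nm r) : ℝ) *
        th (fun ν => rho (PsS (u * lam ^ j)) ν * cr r ν) (0, 1 / (nm r * v)) := by
  have hr0 := hr.ne_zero
  have hr9 : IsCoprime r 9 := hr.1.coprime_nine
  have hl := hr.1.not_lam_dvd
  have hm : IsCoprime 81 r := by
    have := hr9.symm.pow_left (m := 2)
    rwa [show (9 : O) ^ 2 = 81 by norm_num] at this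
  have hx : ∀ a, ∃ x, IsCoprime a r → r ∣ 81 * a * x - 1 := fun a => by
    by_cases ha : IsCoprime a r
    · obtain ⟨x, hx⟩ := va_inv (hm.mul_left ha)
      exact ⟨x, fun _ => hx⟩
    · exact ⟨0, fun h => absurd h ha⟩
  choose x hx using hx
  obtain ⟨g₀, e00, e10, e11, e01⟩ := vtwist_mat (hx 1 isCoprime_one_left)
  obtain ⟨C, -, hC⟩ := thCoef_rho
  have hΨ := cls_Ps hu j 1
  have hΦ := cls_PsS hu j
  set ϱ := u * lam ^ j with hϱ
  have hN : (0 : ℝ) < nm r := by linarith [hr.one_le]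
  have hd : dual r 0 v = (0, 1 / (nm r * v)) := by
    simp only [dual, map_zero, zero_div, neg_zero, norm_zero]
    congr 1
    field_simp
    ring
  have hv' : 0 < 1 / (nm r * v) := by positivity
  have href : rho (fun ρ => kap g₀ * Ps ϱ 1 (rmul ρ g₀⁻¹)) =
      fun ν => conj (cub (9 * ϱ) r) * rho (PsS ϱ) ν := by
    rw [funext (Ps_ref hu j hr.1 (by rw [e00, mul_one]) e10 e11)]
    exact funext (vA.smul _ hΦ _ (by rw [RCLike.norm_conj]; exact norm_cub_le _ _))
  let F : O → ℂ := fun b => ind (IsCoprime b r) *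
    th (fun ν => rho (PsS ϱ) ν * eq (-(ν * b)) r) (0, 1 / (nm r * v))
  have hF : Per r F := fun b b' h => by
    have hc : IsCoprime b r ↔ IsCoprime b' r := by
      obtain ⟨e, he⟩ := h
      rw [show b = b' + r * e by linear_combination he, IsCoprime.add_mul_left_left_iff]
    simp only [F, hc]
    congr 2
    funext ν
    rw [eq_congr (x := -(ν * b)) (y := -(ν * b'))]
    rw [show -(ν * b) - -(ν * b') = (b - b') * -ν by ring]
    exact h.mul_right _
  have hterm : ∀ a, conj (cub a r) * th (fun ν => rho (Ps ϱ 1) ν * eq (a * ν) r) (0, v) =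
      conj (cub ϱ r) * (ind (IsCoprime a r) * F (x a)) := fun a => by
    by_cases ha : IsCoprime a r
    swap
    · simp [cub_eq_zero hl ha, ind_of_not ha]
    have hxa := hx a ha
    obtain ⟨g, f00, f10, f11, f01⟩ := vtwist_mat hxa
    have hcong : ∀ i j, (9 : O) ∣ g.1 i j - g₀.1 i j := by
      intro i j
      fin_cases i <;> fin_cases j
      · change (9 : O) ∣ g.1 0 0 - g₀.1 0 0
        rw [f00, e00, ← mul_sub]
        exact dvd_mul_right _ _
      · change (9 : O) ∣ g.1 0 1 - g₀.1 0 1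
        refine hr9.symm.dvd_of_dvd_mul_left ?_
        have := dvd_sub f01 e01
        rwa [show r * g.1 0 1 + 1 - (r * g₀.1 0 1 + 1) = r * (g.1 0 1 - g₀.1 0 1) by ring] at this
      · change (9 : O) ∣ g.1 1 0 - g₀.1 1 0
        rw [f10, e10, sub_self]
        exact dvd_zero _
      · change (9 : O) ∣ g.1 1 1 - g₀.1 1 1
        rw [f11, e11, ← mul_sub]
        exact dvd_mul_right _ _
    have ht := th_twist vA hΨ hcong (by rw [f10]; exact hr0) 0 hv
    rw [f00, f10, f11, hd, href] at ht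
    have e1 : ∀ ν, eq (ν * (9 * a)) (9 * r) = eq (a * ν) r := fun ν => by
      rw [← eq_mul_cancel (a := 9) (by decide) (a * ν) r]
      congr 1
      ring
    have e2 : ∀ ν, eq (-(ν * (9 * x a))) (9 * r) = eq (-(ν * x a)) r := fun ν => by
      rw [← eq_mul_cancel (a := 9) (by decide) (-(ν * x a)) r]
      congr 1
      ring
    simp only [e1, e2, mul_assoc (conj (cub (9 * ϱ) r)), th_const_mul] at ht
    have hxk : IsCoprime (x a) r := by
      obtain ⟨e, he⟩ := hxa
      exact ⟨81 * a, -e, by linear_combination he⟩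
    have hkap : kap g = cub (9 * x a) r := by
      simp only [kap, row, f10, f11]
      exact Sy_of_not_dvd hl
    have h1 : cub (a * (9 * x a) * 9) r = cub 1 r := cub_congr (by convert hxa using 1; ring)
    have h2 := congrArg conj h1
    simp only [cub_mul_left _ 9, cub_mul_left a, cub_one_left, map_mul, map_one] at h2
    simp only [F]
    rw [ht, ind_of ha, ind_of hxk, hkap, cub_mul_left 9 ϱ, map_mul]
    linear_combination conj (cub ϱ r) *
      th (fun ν => rho (PsS ϱ) ν * eq (-(ν * x a)) r) (0, 1 / (nm r * v)) * h2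
  have hL : th (fun ν => rho (Ps ϱ 1) ν * cub ν r) (0, v) =
      ∑ a ∈ res r, gt3 r / (√(nm r) : ℝ) *
        (conj (cub a r) * th (fun ν => rho (Ps ϱ 1) ν * eq (a * ν) r) (0, v)) := by
    simp only [← mul_assoc _ (conj (cub _ r)), ← th_const_mul]
    rw [← th_sum _ _ (fun a _ => va_grow (hC _ hΨ).grow _ fun ν => (norm_eq _ _).le) 0 hv]
    congr 1
    funext ν
    rw [cub_expand hr, Finset.mul_sum]
    exact Finset.sum_congr rfl fun a _ => by ring
  have hR : ∑ a ∈ res r, F a = th (fun ν => rho (PsS ϱ) ν * cr r ν) (0, 1 / (nm r * v)) := by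
    simp only [F, ← th_const_mul]
    rw [← th_sum _ _ (fun a _ => va_grow (hC _ hΦ).grow _ fun ν => (norm_eq _ _).le) 0 hv']
    congr 1
    funext ν
    rw [← cr_eq hr.1, Finset.mul_sum]
    exact Finset.sum_congr rfl fun a _ => by ring
  rw [hL]
  simp only [hterm]
  rw [← Finset.mul_sum, ← Finset.mul_sum,
    sum_res_inv hr0 hF (fun a ha => by simp [F, ind_of_not ha]) x hx, hR]
  ring
theorem th_zero (a : O → ℂ) {v : ℝ} (hv : 0 < v) :
    th a (0, v) = (π * v ^ (2 / 3 : ℝ) / Real.Gamma (4 / 3) : ℝ) * thK a (kk * v ^ 2) := by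
  simp only [th, thK, ← tsum_mul_left, Wh_four_thirds _ hv, Wr, mul_zero, zero_div, ec_zero,
    mul_one, kk]
  refine tsum_congr fun ν => ?_
  rw [mul_right_comm ((c0 / 9) ^ 2), Complex.ofReal_mul]
  ring
theorem vid_of_th {a b : O → ℂ} {γ : ℂ} {Q : ℝ} (hQ : 0 < Q)
    (h : ∀ v : ℝ, 0 < v → th a (0, v) = γ * th b (0, 1 / (Q * v))) : VId a b γ (kk / Q) := by
  intro t ht
  have hv : 0 < (√(t * Q))⁻¹ := by positivity
  have h2 : (√(t * Q))⁻¹ ^ 2 = (t * Q)⁻¹ := by rw [inv_pow, Real.sq_sqrt (by positivity)]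
  generalize (√(t * Q))⁻¹ = v at hv h2
  have h3 : 1 / (Q * v) = t * v := by
    rw [div_eq_iff (by positivity)]
    calc (1 : ℝ) = t * Q * v ^ 2 := by rw [h2]; field_simp
      _ = _ := by ring
  have h1 := h v hv
  rw [h3, th_zero a hv, th_zero b (mul_pos ht hv), Real.mul_rpow ht.le hv.le, mul_pow, h2,
    show kk * (t * Q)⁻¹ = kk / Q / t by field_simp,
    show kk * (t ^ 2 * (t * Q)⁻¹) = kk / Q * t by field_simp] at h1
  have h4 : ((π * v ^ (2 / 3 : ℝ) / Real.Gamma (4 / 3) : ℝ) : ℂ) ≠ 0 := by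
    have := Real.Gamma_pos_of_pos (s := 4 / 3) (by norm_num)
    exact Complex.ofReal_ne_zero.2 (by positivity)
  refine mul_left_cancel₀ h4 (h1.trans ?_)
  push_cast
  ring
theorem vid_twist {u r : O} (hu : IsUnit u) (j : ℕ) (hr : Sq r) :
    VId (fun ν => rho (Ps (u * lam ^ j) 1) ν * cub ν r) (fun ν => rho (PsS (u * lam ^ j)) ν * cr r ν)
      (gt3 r * conj (cub (u * lam ^ j) r) / (√(nm r) : ℝ)) (kk / nm r) :=
  vid_of_th (by linarith [hr.one_le]) fun _ hv => twist hu j hr hv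

end Vale.Agent.P006
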